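import Mathlib

/-!
# P100: polynomial inequalities of the unequal-exponent family, box A (Bernstein coefficients).
-/

namespace Vale.Agent.Lib.P100.AB.V1X

lemma pos_r1_A_b0 (t : ℝ) (h3 : 0 ≤ t) (h4 : t ≤ 1) :
    0 ≤ 1*(1 + 1*t^(2:ℕ)) + (1/7)*(2 + (-3)*t^(2:ℕ)) + (1/49)*((-1)*t^(2:ℕ)) - (1157/1000) := by
  have e : 1*(1 + 1*t^(2:ℕ)) + (1/7)*(2 + (-3)*t^(2:ℕ)) + (1/49)*((-1)*t^(2:ℕ)) - (1157/1000) = (901/7000)*(1 - t)^(2:ℕ) + (901/3500)*(t - 0)*(1 - t) + (33307/49000)*(t - 0)^(2:ℕ) := by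
    ring
  rw [e]
  have a3 : 0 ≤ t - 0 := by linarith
  have a4 : 0 ≤ 1 - t := by linarith
  generalize t - 0 = t1 at a3 ⊢
  generalize 1 - t = t2 at a4 ⊢
  positivity

lemma pos_r1_A_b1 (t : ℝ) (h3 : 0 ≤ t) (h4 : t ≤ 1) :
    0 ≤ 1*(1 + 1*t^(2:ℕ)) + (6/35)*(2 + (-3)*t^(2:ℕ)) + (1/35)*((-1)*t^(2:ℕ)) - (1157/1000) := by
  have e : 1*(1 + 1*t^(2:ℕ)) + (6/35)*(2 + (-3)*t^(2:ℕ)) + (1/35)*((-1)*t^(2:ℕ)) - (1157/1000) = (1301/7000)*(1 - t)^(2:ℕ) + (1301/3500)*(t - 0)*(1 - t) + (643/1000)*(t - 0)^(2:ℕ) := by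
    ring
  rw [e]
  have a3 : 0 ≤ t - 0 := by linarith
  have a4 : 0 ≤ 1 - t := by linarith
  generalize t - 0 = t1 at a3 ⊢
  generalize 1 - t = t2 at a4 ⊢
  positivity

lemma pos_r1_A_b2 (t : ℝ) (h3 : 0 ≤ t) (h4 : t ≤ 1) :
    0 ≤ 1*(1 + 1*t^(2:ℕ)) + (1/5)*(2 + (-3)*t^(2:ℕ)) + (1/25)*((-1)*t^(2:ℕ)) - (1157/1000) := by
  have e : 1*(1 + 1*t^(2:ℕ)) + (1/5)*(2 + (-3)*t^(2:ℕ)) + (1/25)*((-1)*t^(2:ℕ)) - (1157/1000) = (243/1000)*(1 - t)^(2:ℕ) + (243/500)*(t - 0)*(1 - t) + (603/1000)*(t - 0)^(2:ℕ) := by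
    ring
  rw [e]
  have a3 : 0 ≤ t - 0 := by linarith
  have a4 : 0 ≤ 1 - t := by linarith
  generalize t - 0 = t1 at a3 ⊢
  generalize 1 - t = t2 at a4 ⊢
  positivity

lemma pos_r1_A_id (d : ℝ) (C0 C1 C2 : ℝ) :
    C0 + d*C1 + d^(2:ℕ)*C2 = (1157/1000) + ((1225/4)*((1/5) - d)^(2:ℕ)*(1*C0 + (1/7)*C1 + (1/49)*C2 - (1157/1000)) + (1225/2)*(d - (1/7))*((1/5) - d)*(1*C0 + (6/35)*C1 + (1/35)*C2 - (1157/1000)) + (1225/4)*(d - (1/7))^(2:ℕ)*(1*C0 + (1/5)*C1 + (1/25)*C2 - (1157/1000))) := by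
  ring

lemma pos_r1_A_gen (d1 d2 B0 B1 B2 : ℝ) (a1 : 0 ≤ d1) (a2 : 0 ≤ d2) (b0 : 0 ≤ B0) (b1 : 0 ≤ B1) (b2 : 0 ≤ B2) :
    0 < (1157/1000) + ((1225/4)*d2^(2:ℕ)*(B0) + (1225/2)*d1*d2*(B1) + (1225/4)*d1^(2:ℕ)*(B2)) := by
  positivity

lemma pos_r1_A_core (d C0 C1 C2 : ℝ) (h1 : (1/7) ≤ d) (h2 : d ≤ (1/5))
    (b0 : 0 ≤ 1*C0 + (1/7)*C1 + (1/49)*C2 - (1157/1000))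
    (b1 : 0 ≤ 1*C0 + (6/35)*C1 + (1/35)*C2 - (1157/1000))
    (b2 : 0 ≤ 1*C0 + (1/5)*C1 + (1/25)*C2 - (1157/1000)) :
    0 < C0 + d*C1 + d^(2:ℕ)*C2 := by
  rw [pos_r1_A_id]
  exact pos_r1_A_gen _ _ _ _ _ (sub_nonneg.2 h1) (sub_nonneg.2 h2) b0 b1 b2

lemma pos_r1_A (d t : ℝ) (h1 : (1/7) ≤ d) (h2 : d ≤ (1/5)) (h3 : 0 ≤ t) (h4 : t ≤ 1) :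
    0 < 1 + 1*t^(2:ℕ) + 2*d + (-3)*d*t^(2:ℕ) + (-1)*d^(2:ℕ)*t^(2:ℕ) := by
  have e0 : 1 + 1*t^(2:ℕ) + 2*d + (-3)*d*t^(2:ℕ) + (-1)*d^(2:ℕ)*t^(2:ℕ) = (1 + 1*t^(2:ℕ)) + d*(2 + (-3)*t^(2:ℕ)) + d^(2:ℕ)*((-1)*t^(2:ℕ)) := by
    ring
  rw [e0]
  exact pos_r1_A_core d _ _ _ h1 h2 (pos_r1_A_b0 t h3 h4) (pos_r1_A_b1 t h3 h4) (pos_r1_A_b2 t h3 h4)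

lemma pos_r6_A_b0 (t : ℝ) (h3 : 0 ≤ t) (h4 : t ≤ 1) :
    0 ≤ 1*(1 + 1*t^(2:ℕ)) + (1/7)*((-3) + 2*t^(2:ℕ)) + (1/49)*((-1)) - (81/250) := by
  have e : 1*(1 + 1*t^(2:ℕ)) + (1/7)*((-3) + 2*t^(2:ℕ)) + (1/49)*((-1)) - (81/250) = (2781/12250)*(1 - t)^(2:ℕ) + (2781/6125)*(t - 0)*(1 - t) + (18531/12250)*(t - 0)^(2:ℕ) := by
    ring
  rw [e]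
  have a3 : 0 ≤ t - 0 := by linarith
  have a4 : 0 ≤ 1 - t := by linarith
  generalize t - 0 = t1 at a3 ⊢
  generalize 1 - t = t2 at a4 ⊢
  positivity

lemma pos_r6_A_b1 (t : ℝ) (h3 : 0 ≤ t) (h4 : t ≤ 1) :
    0 ≤ 1*(1 + 1*t^(2:ℕ)) + (6/35)*((-3) + 2*t^(2:ℕ)) + (1/35)*((-1)) - (81/250) := by
  have e : 1*(1 + 1*t^(2:ℕ)) + (6/35)*((-3) + 2*t^(2:ℕ)) + (1/35)*((-1)) - (81/250) = (233/1750)*(1 - t)^(2:ℕ) + (233/875)*(t - 0)*(1 - t) + (369/250)*(t - 0)^(2:ℕ) := by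
    ring
  rw [e]
  have a3 : 0 ≤ t - 0 := by linarith
  have a4 : 0 ≤ 1 - t := by linarith
  generalize t - 0 = t1 at a3 ⊢
  generalize 1 - t = t2 at a4 ⊢
  positivity

lemma pos_r6_A_b2 (t : ℝ) (h3 : 0 ≤ t) (h4 : t ≤ 1) :
    0 ≤ 1*(1 + 1*t^(2:ℕ)) + (1/5)*((-3) + 2*t^(2:ℕ)) + (1/25)*((-1)) - (81/250) := by
  have e : 1*(1 + 1*t^(2:ℕ)) + (1/5)*((-3) + 2*t^(2:ℕ)) + (1/25)*((-1)) - (81/250) = (9/250)*(1 - t)^(2:ℕ) + (9/125)*(t - 0)*(1 - t) + (359/250)*(t - 0)^(2:ℕ) := by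
    ring
  rw [e]
  have a3 : 0 ≤ t - 0 := by linarith
  have a4 : 0 ≤ 1 - t := by linarith
  generalize t - 0 = t1 at a3 ⊢
  generalize 1 - t = t2 at a4 ⊢
  positivity

lemma pos_r6_A_id (d : ℝ) (C0 C1 C2 : ℝ) :
    C0 + d*C1 + d^(2:ℕ)*C2 = (81/250) + ((1225/4)*((1/5) - d)^(2:ℕ)*(1*C0 + (1/7)*C1 + (1/49)*C2 - (81/250)) + (1225/2)*(d - (1/7))*((1/5) - d)*(1*C0 + (6/35)*C1 + (1/35)*C2 - (81/250)) + (1225/4)*(d - (1/7))^(2:ℕ)*(1*C0 + (1/5)*C1 + (1/25)*C2 - (81/250))) := by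
  ring

lemma pos_r6_A_gen (d1 d2 B0 B1 B2 : ℝ) (a1 : 0 ≤ d1) (a2 : 0 ≤ d2) (b0 : 0 ≤ B0) (b1 : 0 ≤ B1) (b2 : 0 ≤ B2) :
    0 < (81/250) + ((1225/4)*d2^(2:ℕ)*(B0) + (1225/2)*d1*d2*(B1) + (1225/4)*d1^(2:ℕ)*(B2)) := by
  positivity

lemma pos_r6_A_core (d C0 C1 C2 : ℝ) (h1 : (1/7) ≤ d) (h2 : d ≤ (1/5))
    (b0 : 0 ≤ 1*C0 + (1/7)*C1 + (1/49)*C2 - (81/250))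
    (b1 : 0 ≤ 1*C0 + (6/35)*C1 + (1/35)*C2 - (81/250))
    (b2 : 0 ≤ 1*C0 + (1/5)*C1 + (1/25)*C2 - (81/250)) :
    0 < C0 + d*C1 + d^(2:ℕ)*C2 := by
  rw [pos_r6_A_id]
  exact pos_r6_A_gen _ _ _ _ _ (sub_nonneg.2 h1) (sub_nonneg.2 h2) b0 b1 b2

lemma pos_r6_A (d t : ℝ) (h1 : (1/7) ≤ d) (h2 : d ≤ (1/5)) (h3 : 0 ≤ t) (h4 : t ≤ 1) :
    0 < 1 + 1*t^(2:ℕ) + (-3)*d + 2*d*t^(2:ℕ) + (-1)*d^(2:ℕ) := by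
  have e0 : 1 + 1*t^(2:ℕ) + (-3)*d + 2*d*t^(2:ℕ) + (-1)*d^(2:ℕ) = (1 + 1*t^(2:ℕ)) + d*((-3) + 2*t^(2:ℕ)) + d^(2:ℕ)*((-1)) := by
    ring
  rw [e0]
  exact pos_r6_A_core d _ _ _ h1 h2 (pos_r6_A_b0 t h3 h4) (pos_r6_A_b1 t h3 h4) (pos_r6_A_b2 t h3 h4)

lemma pos_DP_A_b0 (t : ℝ) (h3 : 0 ≤ t) (h4 : t ≤ 1) :
    0 ≤ 1*(1 + 6*t^(2:ℕ) + 15*t^(4:ℕ) + 20*t^(6:ℕ) + 15*t^(8:ℕ) + 6*t^(10:ℕ) + 1*t^(12:ℕ)) + (1/7)*((-9/16) + (149/8)*t^(2:ℕ) + (-32)*t^(3:ℕ) + (1273/16)*t^(4:ℕ) + (-96)*t^(5:ℕ) + (483/4)*t^(6:ℕ) + (-96)*t^(7:ℕ) + (1273/16)*t^(8:ℕ) + (-32)*t^(9:ℕ) + (149/8)*t^(10:ℕ) + (-9/16)*t^(12:ℕ)) + (1/49)*((-233/16) + 8*t + (-73/2)*t^(2:ℕ) + 12*t^(3:ℕ) + (-623/16)*t^(4:ℕ)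 + (-4)*t^(5:ℕ) + (-34)*t^(6:ℕ) + (-4)*t^(7:ℕ) + (-623/16)*t^(8:ℕ) + 12*t^(9:ℕ) + (-73/2)*t^(10:ℕ) + 8*t^(11:ℕ) + (-233/16)*t^(12:ℕ)) + (1/343)*((-287/16) + 27*t + (-625/4)*t^(2:ℕ) + 213*t^(3:ℕ) + (-3321/16)*t^(4:ℕ) + 184*t^(5:ℕ) + (-277/2)*t^(6:ℕ) + 184*t^(7:ℕ) + (-3321/16)*t^(8:ℕ) + 213*t^(9:ℕ) + (-625/4)*t^(10:ℕ) + 27*t^(11:ℕ) + (-287/16)*t^(12:ℕ)) + (1/2401)*(5 + 12*t + (-347/4)*t^(2:ℕ) + 62*t^(3:ℕ) + (419/2)*t^(4:ℕ) + (-378)*t^(5:ℕ) + (885/2)*t^(6:ℕ) + (-378)*t^(7:ℕ) + (419/2)*t^(8:ℕ) + 62*t^(9:ℕ) + (-347/4)*t^(10:ℕ) + 12*t^(11:ℕ) + 5*t^(12:ℕ)) + (1/16807)*((25/4) + (-20)*t + (107/2)*t^(2:ℕ) + (-120)*t^(3:ℕ) + (529/4)*t^(4:ℕ) + 52*t^(5:ℕ) + (-182)*t^(6:ℕ)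 + 52*t^(7:ℕ) + (529/4)*t^(8:ℕ) + (-120)*t^(9:ℕ) + (107/2)*t^(10:ℕ) + (-20)*t^(11:ℕ) + (25/4)*t^(12:ℕ)) + (1/117649)*((-25)*t^(4:ℕ) + 80*t^(5:ℕ) + (-114)*t^(6:ℕ) + 80*t^(7:ℕ) + (-25)*t^(8:ℕ)) - (77/500) := by
  have e : 1*(1 + 6*t^(2:ℕ) + 15*t^(4:ℕ) + 20*t^(6:ℕ) + 15*t^(8:ℕ) + 6*t^(10:ℕ) + 1*t^(12:ℕ)) + (1/7)*((-9/16) + (149/8)*t^(2:ℕ) + (-32)*t^(3:ℕ) + (1273/16)*t^(4:ℕ) + (-96)*t^(5:ℕ) + (483/4)*t^(6:ℕ) + (-96)*t^(7:ℕ) + (1273/16)*t^(8:ℕ) + (-32)*t^(9:ℕ) + (149/8)*t^(10:ℕ) + (-9/16)*t^(12:ℕ)) + (1/49)*((-233/16) + 8*t + (-73/2)*t^(2:ℕ) + 12*t^(3:ℕ) + (-623/16)*t^(4:ℕ) + (-4)*t^(5:ℕ) + (-34)*t^(6:ℕ) + (-4)*t^(7:ℕ) + (-623/16)*t^(8:ℕ) + 12*t^(9:ℕ) + (-73/2)*t^(10:ℕ)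 + 8*t^(11:ℕ) + (-233/16)*t^(12:ℕ)) + (1/343)*((-287/16) + 27*t + (-625/4)*t^(2:ℕ) + 213*t^(3:ℕ) + (-3321/16)*t^(4:ℕ) + 184*t^(5:ℕ) + (-277/2)*t^(6:ℕ) + 184*t^(7:ℕ) + (-3321/16)*t^(8:ℕ) + 213*t^(9:ℕ) + (-625/4)*t^(10:ℕ) + 27*t^(11:ℕ) + (-287/16)*t^(12:ℕ)) + (1/2401)*(5 + 12*t + (-347/4)*t^(2:ℕ) + 62*t^(3:ℕ) + (419/2)*t^(4:ℕ) + (-378)*t^(5:ℕ) + (885/2)*t^(6:ℕ) + (-378)*t^(7:ℕ) + (419/2)*t^(8:ℕ) + 62*t^(9:ℕ) + (-347/4)*t^(10:ℕ) + 12*t^(11:ℕ) + 5*t^(12:ℕ)) + (1/16807)*((25/4) + (-20)*t + (107/2)*t^(2:ℕ) + (-120)*t^(3:ℕ) + (529/4)*t^(4:ℕ) + 52*t^(5:ℕ) + (-182)*t^(6:ℕ) + 52*t^(7:ℕ) + (529/4)*t^(8:ℕ) + (-120)*t^(9:ℕ) + (107/2)*t^(10:ℕ) + (-20)*t^(11:ℕ) + (25/4)*t^(12:ℕ))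 + (1/117649)*((-25)*t^(4:ℕ) + 80*t^(5:ℕ) + (-114)*t^(6:ℕ) + 80*t^(7:ℕ) + (-25)*t^(8:ℕ)) - (77/500) = (14071069/33614000)*(1 - t)^(12:ℕ) + (44278707/8403500)*(t - 0)*(1 - t)^(11:ℕ) + (317308701/8403500)*(t - 0)^(2:ℕ)*(1 - t)^(10:ℕ) + (74034221/420175)*(t - 0)^(3:ℕ)*(1 - t)^(9:ℕ) + (6751586673/11764900)*(t - 0)^(4:ℕ)*(1 - t)^(8:ℕ) + (19974992346/14706125)*(t - 0)^(5:ℕ)*(1 - t)^(7:ℕ) + (35214377487/14706125)*(t - 0)^(6:ℕ)*(1 - t)^(6:ℕ) + (46743750846/14706125)*(t - 0)^(7:ℕ)*(1 - t)^(5:ℕ) + (37308958173/11764900)*(t - 0)^(8:ℕ)*(1 - t)^(4:ℕ) + (6874005797/2941225)*(t - 0)^(9:ℕ)*(1 - t)^(3:ℕ) + (35887722891/29412250)*(t - 0)^(10:ℕ)*(1 - t)^(2:ℕ) + (6038103081/14706125)*(t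 - 0)^(11:ℕ)*(1 - t) + (4034461027/58824500)*(t - 0)^(12:ℕ) := by
    ring
  rw [e]
  have a3 : 0 ≤ t - 0 := by linarith
  have a4 : 0 ≤ 1 - t := by linarith
  generalize t - 0 = t1 at a3 ⊢
  generalize 1 - t = t2 at a4 ⊢
  positivity

lemma pos_DP_A_b1 (t : ℝ) (h3 : 0 ≤ t) (h4 : t ≤ 1) :
    0 ≤ 1*(1 + 6*t^(2:ℕ) + 15*t^(4:ℕ) + 20*t^(6:ℕ) + 15*t^(8:ℕ) + 6*t^(10:ℕ) + 1*t^(12:ℕ)) + (16/105)*((-9/16) + (149/8)*t^(2:ℕ) + (-32)*t^(3:ℕ) + (1273/16)*t^(4:ℕ) + (-96)*t^(5:ℕ) + (483/4)*t^(6:ℕ) + (-96)*t^(7:ℕ) + (1273/16)*t^(8:ℕ) + (-32)*t^(9:ℕ) + (149/8)*t^(10:ℕ) + (-9/16)*t^(12:ℕ)) + (17/735)*((-233/16) + 8*t + (-73/2)*t^(2:ℕ) + 12*t^(3:ℕ) + (-623/16)*t^(4:ℕ) + (-4)*t^(5:ℕ)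 + (-34)*t^(6:ℕ) + (-4)*t^(7:ℕ) + (-623/16)*t^(8:ℕ) + 12*t^(9:ℕ) + (-73/2)*t^(10:ℕ) + 8*t^(11:ℕ) + (-233/16)*t^(12:ℕ)) + (6/1715)*((-287/16) + 27*t + (-625/4)*t^(2:ℕ) + 213*t^(3:ℕ) + (-3321/16)*t^(4:ℕ) + 184*t^(5:ℕ) + (-277/2)*t^(6:ℕ) + 184*t^(7:ℕ) + (-3321/16)*t^(8:ℕ) + 213*t^(9:ℕ) + (-625/4)*t^(10:ℕ) + 27*t^(11:ℕ) + (-287/16)*t^(12:ℕ)) + (19/36015)*(5 + 12*t + (-347/4)*t^(2:ℕ) + 62*t^(3:ℕ) + (419/2)*t^(4:ℕ) + (-378)*t^(5:ℕ) + (885/2)*t^(6:ℕ) + (-378)*t^(7:ℕ) + (419/2)*t^(8:ℕ) + 62*t^(9:ℕ) + (-347/4)*t^(10:ℕ) + 12*t^(11:ℕ) + 5*t^(12:ℕ)) + (4/50421)*((25/4) + (-20)*t + (107/2)*t^(2:ℕ) + (-120)*t^(3:ℕ) + (529/4)*t^(4:ℕ) + 52*t^(5:ℕ) + (-182)*t^(6:ℕ) + 52*t^(7:ℕ)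 + (529/4)*t^(8:ℕ) + (-120)*t^(9:ℕ) + (107/2)*t^(10:ℕ) + (-20)*t^(11:ℕ) + (25/4)*t^(12:ℕ)) + (1/84035)*((-25)*t^(4:ℕ) + 80*t^(5:ℕ) + (-114)*t^(6:ℕ) + 80*t^(7:ℕ) + (-25)*t^(8:ℕ)) - (77/500) := by
  have e : 1*(1 + 6*t^(2:ℕ) + 15*t^(4:ℕ) + 20*t^(6:ℕ) + 15*t^(8:ℕ) + 6*t^(10:ℕ) + 1*t^(12:ℕ)) + (16/105)*((-9/16) + (149/8)*t^(2:ℕ) + (-32)*t^(3:ℕ) + (1273/16)*t^(4:ℕ) + (-96)*t^(5:ℕ) + (483/4)*t^(6:ℕ) + (-96)*t^(7:ℕ) + (1273/16)*t^(8:ℕ) + (-32)*t^(9:ℕ) + (149/8)*t^(10:ℕ) + (-9/16)*t^(12:ℕ)) + (17/735)*((-233/16) + 8*t + (-73/2)*t^(2:ℕ) + 12*t^(3:ℕ) + (-623/16)*t^(4:ℕ) + (-4)*t^(5:ℕ) + (-34)*t^(6:ℕ) + (-4)*t^(7:ℕ) + (-623/16)*t^(8:ℕ) + 12*t^(9:ℕ) + (-73/2)*t^(10:ℕ)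 + 8*t^(11:ℕ) + (-233/16)*t^(12:ℕ)) + (6/1715)*((-287/16) + 27*t + (-625/4)*t^(2:ℕ) + 213*t^(3:ℕ) + (-3321/16)*t^(4:ℕ) + 184*t^(5:ℕ) + (-277/2)*t^(6:ℕ) + 184*t^(7:ℕ) + (-3321/16)*t^(8:ℕ) + 213*t^(9:ℕ) + (-625/4)*t^(10:ℕ) + 27*t^(11:ℕ) + (-287/16)*t^(12:ℕ)) + (19/36015)*(5 + 12*t + (-347/4)*t^(2:ℕ) + 62*t^(3:ℕ) + (419/2)*t^(4:ℕ) + (-378)*t^(5:ℕ) + (885/2)*t^(6:ℕ) + (-378)*t^(7:ℕ) + (419/2)*t^(8:ℕ) + 62*t^(9:ℕ) + (-347/4)*t^(10:ℕ) + 12*t^(11:ℕ) + 5*t^(12:ℕ)) + (4/50421)*((25/4) + (-20)*t + (107/2)*t^(2:ℕ) + (-120)*t^(3:ℕ) + (529/4)*t^(4:ℕ) + 52*t^(5:ℕ) + (-182)*t^(6:ℕ) + 52*t^(7:ℕ) + (529/4)*t^(8:ℕ) + (-120)*t^(9:ℕ) + (107/2)*t^(10:ℕ) + (-20)*t^(11:ℕ) + (25/4)*t^(12:ℕ))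 + (1/84035)*((-25)*t^(4:ℕ) + 80*t^(5:ℕ) + (-114)*t^(6:ℕ) + 80*t^(7:ℕ) + (-25)*t^(8:ℕ)) - (77/500) = (12230269/33614000)*(1 - t)^(12:ℕ) + (39079407/8403500)*(t - 0)*(1 - t)^(11:ℕ) + (580615827/16807000)*(t - 0)^(2:ℕ)*(1 - t)^(10:ℕ) + (278837789/1680700)*(t - 0)^(3:ℕ)*(1 - t)^(9:ℕ) + (1853491863/3361400)*(t - 0)^(4:ℕ)*(1 - t)^(8:ℕ) + (2780360403/2100875)*(t - 0)^(5:ℕ)*(1 - t)^(7:ℕ) + (4949051841/2100875)*(t - 0)^(6:ℕ)*(1 - t)^(6:ℕ) + (6613148328/2100875)*(t - 0)^(7:ℕ)*(1 - t)^(5:ℕ) + (5302073829/1680700)*(t - 0)^(8:ℕ)*(1 - t)^(4:ℕ) + (139968203/60025)*(t - 0)^(9:ℕ)*(1 - t)^(3:ℕ) + (5124922113/4201750)*(t - 0)^(10:ℕ)*(1 - t)^(2:ℕ) + (863281983/2100875)*(t - 0)^(11:ℕ)*(1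 - t) + (576815461/8403500)*(t - 0)^(12:ℕ) := by
    ring
  rw [e]
  have a3 : 0 ≤ t - 0 := by linarith
  have a4 : 0 ≤ 1 - t := by linarith
  generalize t - 0 = t1 at a3 ⊢
  generalize 1 - t = t2 at a4 ⊢
  positivity

lemma pos_DP_A_b2 (t : ℝ) (h3 : 0 ≤ t) (h4 : t ≤ 1) :
    0 ≤ 1*(1 + 6*t^(2:ℕ) + 15*t^(4:ℕ) + 20*t^(6:ℕ) + 15*t^(8:ℕ) + 6*t^(10:ℕ) + 1*t^(12:ℕ)) + (17/105)*((-9/16) + (149/8)*t^(2:ℕ) + (-32)*t^(3:ℕ) + (1273/16)*t^(4:ℕ) + (-96)*t^(5:ℕ) + (483/4)*t^(6:ℕ) + (-96)*t^(7:ℕ) + (1273/16)*t^(8:ℕ) + (-32)*t^(9:ℕ) + (149/8)*t^(10:ℕ) + (-9/16)*t^(12:ℕ)) + (479/18375)*((-233/16) + 8*t + (-73/2)*t^(2:ℕ) + 12*t^(3:ℕ) + (-623/16)*t^(4:ℕ) + (-4)*t^(5:ℕ) + (-34)*t^(6:ℕ)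 + (-4)*t^(7:ℕ) + (-623/16)*t^(8:ℕ) + 12*t^(9:ℕ) + (-73/2)*t^(10:ℕ) + 8*t^(11:ℕ) + (-233/16)*t^(12:ℕ)) + (179/42875)*((-287/16) + 27*t + (-625/4)*t^(2:ℕ) + 213*t^(3:ℕ) + (-3321/16)*t^(4:ℕ) + 184*t^(5:ℕ) + (-277/2)*t^(6:ℕ) + 184*t^(7:ℕ) + (-3321/16)*t^(8:ℕ) + 213*t^(9:ℕ) + (-625/4)*t^(10:ℕ) + 27*t^(11:ℕ) + (-287/16)*t^(12:ℕ)) + (599/900375)*(5 + 12*t + (-347/4)*t^(2:ℕ) + 62*t^(3:ℕ) + (419/2)*t^(4:ℕ) + (-378)*t^(5:ℕ) + (885/2)*t^(6:ℕ) + (-378)*t^(7:ℕ) + (419/2)*t^(8:ℕ) + 62*t^(9:ℕ) + (-347/4)*t^(10:ℕ) + 12*t^(11:ℕ) + 5*t^(12:ℕ)) + (19/180075)*((25/4) + (-20)*t + (107/2)*t^(2:ℕ) + (-120)*t^(3:ℕ) + (529/4)*t^(4:ℕ) + 52*t^(5:ℕ) + (-182)*t^(6:ℕ) + 52*t^(7:ℕ) + (529/4)*t^(8:ℕ)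 + (-120)*t^(9:ℕ) + (107/2)*t^(10:ℕ) + (-20)*t^(11:ℕ) + (25/4)*t^(12:ℕ)) + (1/60025)*((-25)*t^(4:ℕ) + 80*t^(5:ℕ) + (-114)*t^(6:ℕ) + 80*t^(7:ℕ) + (-25)*t^(8:ℕ)) - (77/500) := by
  have e : 1*(1 + 6*t^(2:ℕ) + 15*t^(4:ℕ) + 20*t^(6:ℕ) + 15*t^(8:ℕ) + 6*t^(10:ℕ) + 1*t^(12:ℕ)) + (17/105)*((-9/16) + (149/8)*t^(2:ℕ) + (-32)*t^(3:ℕ) + (1273/16)*t^(4:ℕ) + (-96)*t^(5:ℕ) + (483/4)*t^(6:ℕ) + (-96)*t^(7:ℕ) + (1273/16)*t^(8:ℕ) + (-32)*t^(9:ℕ) + (149/8)*t^(10:ℕ) + (-9/16)*t^(12:ℕ)) + (479/18375)*((-233/16) + 8*t + (-73/2)*t^(2:ℕ) + 12*t^(3:ℕ) + (-623/16)*t^(4:ℕ) + (-4)*t^(5:ℕ) + (-34)*t^(6:ℕ) + (-4)*t^(7:ℕ) + (-623/16)*t^(8:ℕ) + 12*t^(9:ℕ) + (-73/2)*t^(10:ℕ) + 8*t^(11:ℕ) +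 (-233/16)*t^(12:ℕ)) + (179/42875)*((-287/16) + 27*t + (-625/4)*t^(2:ℕ) + 213*t^(3:ℕ) + (-3321/16)*t^(4:ℕ) + 184*t^(5:ℕ) + (-277/2)*t^(6:ℕ) + 184*t^(7:ℕ) + (-3321/16)*t^(8:ℕ) + 213*t^(9:ℕ) + (-625/4)*t^(10:ℕ) + 27*t^(11:ℕ) + (-287/16)*t^(12:ℕ)) + (599/900375)*(5 + 12*t + (-347/4)*t^(2:ℕ) + 62*t^(3:ℕ) + (419/2)*t^(4:ℕ) + (-378)*t^(5:ℕ) + (885/2)*t^(6:ℕ) + (-378)*t^(7:ℕ) + (419/2)*t^(8:ℕ) + 62*t^(9:ℕ) + (-347/4)*t^(10:ℕ) + 12*t^(11:ℕ) + 5*t^(12:ℕ)) + (19/180075)*((25/4) + (-20)*t + (107/2)*t^(2:ℕ) + (-120)*t^(3:ℕ) + (529/4)*t^(4:ℕ) + 52*t^(5:ℕ) + (-182)*t^(6:ℕ) + 52*t^(7:ℕ) + (529/4)*t^(8:ℕ) + (-120)*t^(9:ℕ) + (107/2)*t^(10:ℕ) + (-20)*t^(11:ℕ) + (25/4)*t^(12:ℕ))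 + (1/60025)*((-25)*t^(4:ℕ) + 80*t^(5:ℕ) + (-114)*t^(6:ℕ) + 80*t^(7:ℕ) + (-25)*t^(8:ℕ)) - (77/500) = (877069/2881200)*(1 - t)^(12:ℕ) + (4778077/1200500)*(t - 0)*(1 - t)^(11:ℕ) + (7987423/257250)*(t - 0)^(2:ℕ)*(1 - t)^(10:ℕ) + (278411759/1800750)*(t - 0)^(3:ℕ)*(1 - t)^(9:ℕ) + (473996609/900375)*(t - 0)^(4:ℕ)*(1 - t)^(8:ℕ) + (231232496/180075)*(t - 0)^(5:ℕ)*(1 - t)^(7:ℕ) + (2080657541/900375)*(t - 0)^(6:ℕ)*(1 - t)^(6:ℕ) + (400166218/128625)*(t - 0)^(7:ℕ)*(1 - t)^(5:ℕ) + (11286053767/3601500)*(t - 0)^(8:ℕ)*(1 - t)^(4:ℕ) + (418514227/180075)*(t - 0)^(9:ℕ)*(1 - t)^(3:ℕ) + (2193873977/1800750)*(t - 0)^(10:ℕ)*(1 - t)^(2:ℕ) + (123349593/300125)*(t - 0)^(11:ℕ)*(1 -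 t) + (82417939/1200500)*(t - 0)^(12:ℕ) := by
    ring
  rw [e]
  have a3 : 0 ≤ t - 0 := by linarith
  have a4 : 0 ≤ 1 - t := by linarith
  generalize t - 0 = t1 at a3 ⊢
  generalize 1 - t = t2 at a4 ⊢
  positivity

lemma pos_DP_A_b3 (t : ℝ) (h3 : 0 ≤ t) (h4 : t ≤ 1) :
    0 ≤ 1*(1 + 6*t^(2:ℕ) + 15*t^(4:ℕ) + 20*t^(6:ℕ) + 15*t^(8:ℕ) + 6*t^(10:ℕ) + 1*t^(12:ℕ)) + (6/35)*((-9/16) + (149/8)*t^(2:ℕ) + (-32)*t^(3:ℕ) + (1273/16)*t^(4:ℕ) + (-96)*t^(5:ℕ) + (483/4)*t^(6:ℕ) + (-96)*t^(7:ℕ) + (1273/16)*t^(8:ℕ) + (-32)*t^(9:ℕ) + (149/8)*t^(10:ℕ) + (-9/16)*t^(12:ℕ)) + (179/6125)*((-233/16) + 8*t + (-73/2)*t^(2:ℕ) + 12*t^(3:ℕ) + (-623/16)*t^(4:ℕ) + (-4)*t^(5:ℕ) + (-34)*t^(6:ℕ)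 + (-4)*t^(7:ℕ) + (-623/16)*t^(8:ℕ) + 12*t^(9:ℕ) + (-73/2)*t^(10:ℕ) + 8*t^(11:ℕ) + (-233/16)*t^(12:ℕ)) + (1062/214375)*((-287/16) + 27*t + (-625/4)*t^(2:ℕ) + 213*t^(3:ℕ) + (-3321/16)*t^(4:ℕ) + 184*t^(5:ℕ) + (-277/2)*t^(6:ℕ) + 184*t^(7:ℕ) + (-3321/16)*t^(8:ℕ) + 213*t^(9:ℕ) + (-625/4)*t^(10:ℕ) + 27*t^(11:ℕ) + (-287/16)*t^(12:ℕ)) + (179/214375)*(5 + 12*t + (-347/4)*t^(2:ℕ) + 62*t^(3:ℕ) + (419/2)*t^(4:ℕ) + (-378)*t^(5:ℕ) + (885/2)*t^(6:ℕ) + (-378)*t^(7:ℕ) + (419/2)*t^(8:ℕ) + 62*t^(9:ℕ) + (-347/4)*t^(10:ℕ) + 12*t^(11:ℕ) + 5*t^(12:ℕ)) + (6/42875)*((25/4) + (-20)*t + (107/2)*t^(2:ℕ) + (-120)*t^(3:ℕ) + (529/4)*t^(4:ℕ) + 52*t^(5:ℕ) + (-182)*t^(6:ℕ) + 52*t^(7:ℕ) + (529/4)*t^(8:ℕ)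 + (-120)*t^(9:ℕ) + (107/2)*t^(10:ℕ) + (-20)*t^(11:ℕ) + (25/4)*t^(12:ℕ)) + (1/42875)*((-25)*t^(4:ℕ) + 80*t^(5:ℕ) + (-114)*t^(6:ℕ) + 80*t^(7:ℕ) + (-25)*t^(8:ℕ)) - (77/500) := by
  have e : 1*(1 + 6*t^(2:ℕ) + 15*t^(4:ℕ) + 20*t^(6:ℕ) + 15*t^(8:ℕ) + 6*t^(10:ℕ) + 1*t^(12:ℕ)) + (6/35)*((-9/16) + (149/8)*t^(2:ℕ) + (-32)*t^(3:ℕ) + (1273/16)*t^(4:ℕ) + (-96)*t^(5:ℕ) + (483/4)*t^(6:ℕ) + (-96)*t^(7:ℕ) + (1273/16)*t^(8:ℕ) + (-32)*t^(9:ℕ) + (149/8)*t^(10:ℕ) + (-9/16)*t^(12:ℕ)) + (179/6125)*((-233/16) + 8*t + (-73/2)*t^(2:ℕ) + 12*t^(3:ℕ) + (-623/16)*t^(4:ℕ) + (-4)*t^(5:ℕ) + (-34)*t^(6:ℕ) + (-4)*t^(7:ℕ) + (-623/16)*t^(8:ℕ) + 12*t^(9:ℕ) + (-73/2)*t^(10:ℕ) + 8*t^(11:ℕ) + (-233/16)*t^(12:ℕ))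 + (1062/214375)*((-287/16) + 27*t + (-625/4)*t^(2:ℕ) + 213*t^(3:ℕ) + (-3321/16)*t^(4:ℕ) + 184*t^(5:ℕ) + (-277/2)*t^(6:ℕ) + 184*t^(7:ℕ) + (-3321/16)*t^(8:ℕ) + 213*t^(9:ℕ) + (-625/4)*t^(10:ℕ) + 27*t^(11:ℕ) + (-287/16)*t^(12:ℕ)) + (179/214375)*(5 + 12*t + (-347/4)*t^(2:ℕ) + 62*t^(3:ℕ) + (419/2)*t^(4:ℕ) + (-378)*t^(5:ℕ) + (885/2)*t^(6:ℕ) + (-378)*t^(7:ℕ) + (419/2)*t^(8:ℕ) + 62*t^(9:ℕ) + (-347/4)*t^(10:ℕ) + 12*t^(11:ℕ) + 5*t^(12:ℕ)) + (6/42875)*((25/4) + (-20)*t + (107/2)*t^(2:ℕ) + (-120)*t^(3:ℕ) + (529/4)*t^(4:ℕ) + 52*t^(5:ℕ) + (-182)*t^(6:ℕ) + 52*t^(7:ℕ) + (529/4)*t^(8:ℕ) + (-120)*t^(9:ℕ) + (107/2)*t^(10:ℕ) + (-20)*t^(11:ℕ) + (25/4)*t^(12:ℕ)) + (1/42875)*((-25)*t^(4:ℕ)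 + 80*t^(5:ℕ) + (-114)*t^(6:ℕ) + 80*t^(7:ℕ) + (-25)*t^(8:ℕ)) - (77/500) = (823811/3430000)*(1 - t)^(12:ℕ) + (2792801/857500)*(t - 0)*(1 - t)^(11:ℕ) + (6679049/245000)*(t - 0)^(2:ℕ)*(1 - t)^(10:ℕ) + (122003801/857500)*(t - 0)^(3:ℕ)*(1 - t)^(9:ℕ) + (855631211/1715000)*(t - 0)^(4:ℕ)*(1 - t)^(8:ℕ) + (53169271/42875)*(t - 0)^(5:ℕ)*(1 - t)^(7:ℕ) + (9886763/4375)*(t - 0)^(6:ℕ)*(1 - t)^(6:ℕ) + (657750692/214375)*(t - 0)^(7:ℕ)*(1 - t)^(5:ℕ) + (21321997/6860)*(t - 0)^(8:ℕ)*(1 - t)^(4:ℕ) + (99208813/42875)*(t - 0)^(9:ℕ)*(1 - t)^(3:ℕ) + (104267889/85750)*(t - 0)^(10:ℕ)*(1 - t)^(2:ℕ) + (88069587/214375)*(t - 0)^(11:ℕ)*(1 - t) + (58845113/857500)*(t - 0)^(12:ℕ) := by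
    ring
  rw [e]
  have a3 : 0 ≤ t - 0 := by linarith
  have a4 : 0 ≤ 1 - t := by linarith
  generalize t - 0 = t1 at a3 ⊢
  generalize 1 - t = t2 at a4 ⊢
  positivity

lemma pos_DP_A_b4 (t : ℝ) (h3 : 0 ≤ t) (h4 : t ≤ 1) :
    0 ≤ 1*(1 + 6*t^(2:ℕ) + 15*t^(4:ℕ) + 20*t^(6:ℕ) + 15*t^(8:ℕ) + 6*t^(10:ℕ) + 1*t^(12:ℕ)) + (19/105)*((-9/16) + (149/8)*t^(2:ℕ) + (-32)*t^(3:ℕ) + (1273/16)*t^(4:ℕ) + (-96)*t^(5:ℕ) + (483/4)*t^(6:ℕ) + (-96)*t^(7:ℕ) + (1273/16)*t^(8:ℕ) + (-32)*t^(9:ℕ) + (149/8)*t^(10:ℕ) + (-9/16)*t^(12:ℕ)) + (599/18375)*((-233/16) + 8*t + (-73/2)*t^(2:ℕ) + 12*t^(3:ℕ) + (-623/16)*t^(4:ℕ) + (-4)*t^(5:ℕ) + (-34)*t^(6:ℕ) + (-4)*t^(7:ℕ) + (-623/16)*t^(8:ℕ) +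 12*t^(9:ℕ) + (-73/2)*t^(10:ℕ) + 8*t^(11:ℕ) + (-233/16)*t^(12:ℕ)) + (179/30625)*((-287/16) + 27*t + (-625/4)*t^(2:ℕ) + 213*t^(3:ℕ) + (-3321/16)*t^(4:ℕ) + 184*t^(5:ℕ) + (-277/2)*t^(6:ℕ) + 184*t^(7:ℕ) + (-3321/16)*t^(8:ℕ) + 213*t^(9:ℕ) + (-625/4)*t^(10:ℕ) + 27*t^(11:ℕ) + (-287/16)*t^(12:ℕ)) + (479/459375)*(5 + 12*t + (-347/4)*t^(2:ℕ) + 62*t^(3:ℕ) + (419/2)*t^(4:ℕ) + (-378)*t^(5:ℕ) + (885/2)*t^(6:ℕ) + (-378)*t^(7:ℕ) + (419/2)*t^(8:ℕ) + 62*t^(9:ℕ) + (-347/4)*t^(10:ℕ) + 12*t^(11:ℕ) + 5*t^(12:ℕ)) + (17/91875)*((25/4) + (-20)*t + (107/2)*t^(2:ℕ) + (-120)*t^(3:ℕ) + (529/4)*t^(4:ℕ) + 52*t^(5:ℕ) + (-182)*t^(6:ℕ) + 52*t^(7:ℕ) + (529/4)*t^(8:ℕ) + (-120)*t^(9:ℕ) + (107/2)*t^(10:ℕ)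 + (-20)*t^(11:ℕ) + (25/4)*t^(12:ℕ)) + (1/30625)*((-25)*t^(4:ℕ) + 80*t^(5:ℕ) + (-114)*t^(6:ℕ) + 80*t^(7:ℕ) + (-25)*t^(8:ℕ)) - (77/500) := by
  have e : 1*(1 + 6*t^(2:ℕ) + 15*t^(4:ℕ) + 20*t^(6:ℕ) + 15*t^(8:ℕ) + 6*t^(10:ℕ) + 1*t^(12:ℕ)) + (19/105)*((-9/16) + (149/8)*t^(2:ℕ) + (-32)*t^(3:ℕ) + (1273/16)*t^(4:ℕ) + (-96)*t^(5:ℕ) + (483/4)*t^(6:ℕ) + (-96)*t^(7:ℕ) + (1273/16)*t^(8:ℕ) + (-32)*t^(9:ℕ) + (149/8)*t^(10:ℕ) + (-9/16)*t^(12:ℕ)) + (599/18375)*((-233/16) + 8*t + (-73/2)*t^(2:ℕ) + 12*t^(3:ℕ) + (-623/16)*t^(4:ℕ) + (-4)*t^(5:ℕ) + (-34)*t^(6:ℕ) + (-4)*t^(7:ℕ) + (-623/16)*t^(8:ℕ) + 12*t^(9:ℕ) + (-73/2)*t^(10:ℕ) + 8*t^(11:ℕ) + (-233/16)*t^(12:ℕ)) + (179/30625)*((-287/16)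 + 27*t + (-625/4)*t^(2:ℕ) + 213*t^(3:ℕ) + (-3321/16)*t^(4:ℕ) + 184*t^(5:ℕ) + (-277/2)*t^(6:ℕ) + 184*t^(7:ℕ) + (-3321/16)*t^(8:ℕ) + 213*t^(9:ℕ) + (-625/4)*t^(10:ℕ) + 27*t^(11:ℕ) + (-287/16)*t^(12:ℕ)) + (479/459375)*(5 + 12*t + (-347/4)*t^(2:ℕ) + 62*t^(3:ℕ) + (419/2)*t^(4:ℕ) + (-378)*t^(5:ℕ) + (885/2)*t^(6:ℕ) + (-378)*t^(7:ℕ) + (419/2)*t^(8:ℕ) + 62*t^(9:ℕ) + (-347/4)*t^(10:ℕ) + 12*t^(11:ℕ) + 5*t^(12:ℕ)) + (17/91875)*((25/4) + (-20)*t + (107/2)*t^(2:ℕ) + (-120)*t^(3:ℕ) + (529/4)*t^(4:ℕ) + 52*t^(5:ℕ) + (-182)*t^(6:ℕ) + 52*t^(7:ℕ) + (529/4)*t^(8:ℕ) + (-120)*t^(9:ℕ) + (107/2)*t^(10:ℕ) + (-20)*t^(11:ℕ) + (25/4)*t^(12:ℕ)) + (1/30625)*((-25)*t^(4:ℕ) + 80*t^(5:ℕ) +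 (-114)*t^(6:ℕ) + 80*t^(7:ℕ) + (-25)*t^(8:ℕ)) - (77/500) = (7183/42000)*(1 - t)^(12:ℕ) + (650921/262500)*(t - 0)*(1 - t)^(11:ℕ) + (6083617/262500)*(t - 0)^(2:ℕ)*(1 - t)^(10:ℕ) + (59207348/459375)*(t - 0)^(3:ℕ)*(1 - t)^(9:ℕ) + (57418827/122500)*(t - 0)^(4:ℕ)*(1 - t)^(8:ℕ) + (109450882/91875)*(t - 0)^(5:ℕ)*(1 - t)^(7:ℕ) + (144529579/65625)*(t - 0)^(6:ℕ)*(1 - t)^(6:ℕ) + (1386834434/459375)*(t - 0)^(7:ℕ)*(1 - t)^(5:ℕ) + (5655671939/1837500)*(t - 0)^(8:ℕ)*(1 - t)^(4:ℕ) + (42284083/18375)*(t - 0)^(9:ℕ)*(1 - t)^(3:ℕ) + (222819829/183750)*(t - 0)^(10:ℕ)*(1 - t)^(2:ℕ) + (12568333/30625)*(t - 0)^(11:ℕ)*(1 - t) + (25193261/367500)*(t - 0)^(12:ℕ) := by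
    ring
  rw [e]
  have a3 : 0 ≤ t - 0 := by linarith
  have a4 : 0 ≤ 1 - t := by linarith
  generalize t - 0 = t1 at a3 ⊢
  generalize 1 - t = t2 at a4 ⊢
  positivity

lemma pos_DP_A_b5 (t : ℝ) (h3 : 0 ≤ t) (h4 : t ≤ 1) :
    0 ≤ 1*(1 + 6*t^(2:ℕ) + 15*t^(4:ℕ) + 20*t^(6:ℕ) + 15*t^(8:ℕ) + 6*t^(10:ℕ) + 1*t^(12:ℕ)) + (4/21)*((-9/16) + (149/8)*t^(2:ℕ) + (-32)*t^(3:ℕ) + (1273/16)*t^(4:ℕ) + (-96)*t^(5:ℕ) + (483/4)*t^(6:ℕ) + (-96)*t^(7:ℕ) + (1273/16)*t^(8:ℕ) + (-32)*t^(9:ℕ) + (149/8)*t^(10:ℕ) + (-9/16)*t^(12:ℕ)) + (19/525)*((-233/16) + 8*t + (-73/2)*t^(2:ℕ) + 12*t^(3:ℕ) + (-623/16)*t^(4:ℕ) + (-4)*t^(5:ℕ) + (-34)*t^(6:ℕ) + (-4)*t^(7:ℕ) + (-623/16)*t^(8:ℕ) + 12*t^(9:ℕ)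 + (-73/2)*t^(10:ℕ) + 8*t^(11:ℕ) + (-233/16)*t^(12:ℕ)) + (6/875)*((-287/16) + 27*t + (-625/4)*t^(2:ℕ) + 213*t^(3:ℕ) + (-3321/16)*t^(4:ℕ) + 184*t^(5:ℕ) + (-277/2)*t^(6:ℕ) + 184*t^(7:ℕ) + (-3321/16)*t^(8:ℕ) + 213*t^(9:ℕ) + (-625/4)*t^(10:ℕ) + 27*t^(11:ℕ) + (-287/16)*t^(12:ℕ)) + (17/13125)*(5 + 12*t + (-347/4)*t^(2:ℕ) + 62*t^(3:ℕ) + (419/2)*t^(4:ℕ) + (-378)*t^(5:ℕ) + (885/2)*t^(6:ℕ) + (-378)*t^(7:ℕ) + (419/2)*t^(8:ℕ) + 62*t^(9:ℕ) + (-347/4)*t^(10:ℕ) + 12*t^(11:ℕ) + 5*t^(12:ℕ)) + (16/65625)*((25/4) + (-20)*t + (107/2)*t^(2:ℕ) + (-120)*t^(3:ℕ) + (529/4)*t^(4:ℕ) + 52*t^(5:ℕ) + (-182)*t^(6:ℕ) + 52*t^(7:ℕ) + (529/4)*t^(8:ℕ) + (-120)*t^(9:ℕ) + (107/2)*t^(10:ℕ) + (-20)*t^(11:ℕ)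 + (25/4)*t^(12:ℕ)) + (1/21875)*((-25)*t^(4:ℕ) + 80*t^(5:ℕ) + (-114)*t^(6:ℕ) + 80*t^(7:ℕ) + (-25)*t^(8:ℕ)) - (77/500) := by
  have e : 1*(1 + 6*t^(2:ℕ) + 15*t^(4:ℕ) + 20*t^(6:ℕ) + 15*t^(8:ℕ) + 6*t^(10:ℕ) + 1*t^(12:ℕ)) + (4/21)*((-9/16) + (149/8)*t^(2:ℕ) + (-32)*t^(3:ℕ) + (1273/16)*t^(4:ℕ) + (-96)*t^(5:ℕ) + (483/4)*t^(6:ℕ) + (-96)*t^(7:ℕ) + (1273/16)*t^(8:ℕ) + (-32)*t^(9:ℕ) + (149/8)*t^(10:ℕ) + (-9/16)*t^(12:ℕ)) + (19/525)*((-233/16) + 8*t + (-73/2)*t^(2:ℕ) + 12*t^(3:ℕ) + (-623/16)*t^(4:ℕ) + (-4)*t^(5:ℕ) + (-34)*t^(6:ℕ) + (-4)*t^(7:ℕ) + (-623/16)*t^(8:ℕ) + 12*t^(9:ℕ) + (-73/2)*t^(10:ℕ) + 8*t^(11:ℕ) + (-233/16)*t^(12:ℕ)) + (6/875)*((-287/16) + 27*t + (-625/4)*t^(2:ℕ)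 + 213*t^(3:ℕ) + (-3321/16)*t^(4:ℕ) + 184*t^(5:ℕ) + (-277/2)*t^(6:ℕ) + 184*t^(7:ℕ) + (-3321/16)*t^(8:ℕ) + 213*t^(9:ℕ) + (-625/4)*t^(10:ℕ) + 27*t^(11:ℕ) + (-287/16)*t^(12:ℕ)) + (17/13125)*(5 + 12*t + (-347/4)*t^(2:ℕ) + 62*t^(3:ℕ) + (419/2)*t^(4:ℕ) + (-378)*t^(5:ℕ) + (885/2)*t^(6:ℕ) + (-378)*t^(7:ℕ) + (419/2)*t^(8:ℕ) + 62*t^(9:ℕ) + (-347/4)*t^(10:ℕ) + 12*t^(11:ℕ) + 5*t^(12:ℕ)) + (16/65625)*((25/4) + (-20)*t + (107/2)*t^(2:ℕ) + (-120)*t^(3:ℕ) + (529/4)*t^(4:ℕ) + 52*t^(5:ℕ) + (-182)*t^(6:ℕ) + 52*t^(7:ℕ) + (529/4)*t^(8:ℕ) + (-120)*t^(9:ℕ) + (107/2)*t^(10:ℕ) + (-20)*t^(11:ℕ) + (25/4)*t^(12:ℕ)) + (1/21875)*((-25)*t^(4:ℕ) + 80*t^(5:ℕ) + (-114)*t^(6:ℕ) + 80*t^(7:ℕ)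 + (-25)*t^(8:ℕ)) - (77/500) = (581/6000)*(1 - t)^(12:ℕ) + (2471/1500)*(t - 0)*(1 - t)^(11:ℕ) + (1408919/75000)*(t - 0)^(2:ℕ)*(1 - t)^(10:ℕ) + (858049/7500)*(t - 0)^(3:ℕ)*(1 - t)^(9:ℕ) + (76266691/175000)*(t - 0)^(4:ℕ)*(1 - t)^(8:ℕ) + (2986049/2625)*(t - 0)^(5:ℕ)*(1 - t)^(7:ℕ) + (140321983/65625)*(t - 0)^(6:ℕ)*(1 - t)^(6:ℕ) + (194454368/65625)*(t - 0)^(7:ℕ)*(1 - t)^(5:ℕ) + (798747419/262500)*(t - 0)^(8:ℕ)*(1 - t)^(4:ℕ) + (30001943/13125)*(t - 0)^(9:ℕ)*(1 - t)^(3:ℕ) + (158592299/131250)*(t - 0)^(10:ℕ)*(1 - t)^(2:ℕ) + (1280369/3125)*(t - 0)^(11:ℕ)*(1 - t) + (2566513/37500)*(t - 0)^(12:ℕ) := by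
    ring
  rw [e]
  have a3 : 0 ≤ t - 0 := by linarith
  have a4 : 0 ≤ 1 - t := by linarith
  generalize t - 0 = t1 at a3 ⊢
  generalize 1 - t = t2 at a4 ⊢
  positivity

lemma pos_DP_A_b6 (t : ℝ) (h3 : 0 ≤ t) (h4 : t ≤ 1) :
    0 ≤ 1*(1 + 6*t^(2:ℕ) + 15*t^(4:ℕ) + 20*t^(6:ℕ) + 15*t^(8:ℕ) + 6*t^(10:ℕ) + 1*t^(12:ℕ)) + (1/5)*((-9/16) + (149/8)*t^(2:ℕ) + (-32)*t^(3:ℕ) + (1273/16)*t^(4:ℕ) + (-96)*t^(5:ℕ) + (483/4)*t^(6:ℕ) + (-96)*t^(7:ℕ) + (1273/16)*t^(8:ℕ) + (-32)*t^(9:ℕ) + (149/8)*t^(10:ℕ) + (-9/16)*t^(12:ℕ)) + (1/25)*((-233/16) + 8*t + (-73/2)*t^(2:ℕ) + 12*t^(3:ℕ) + (-623/16)*t^(4:ℕ) + (-4)*t^(5:ℕ) + (-34)*t^(6:ℕ) + (-4)*t^(7:ℕ) + (-623/16)*t^(8:ℕ) + 12*t^(9:ℕ)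 + (-73/2)*t^(10:ℕ) + 8*t^(11:ℕ) + (-233/16)*t^(12:ℕ)) + (1/125)*((-287/16) + 27*t + (-625/4)*t^(2:ℕ) + 213*t^(3:ℕ) + (-3321/16)*t^(4:ℕ) + 184*t^(5:ℕ) + (-277/2)*t^(6:ℕ) + 184*t^(7:ℕ) + (-3321/16)*t^(8:ℕ) + 213*t^(9:ℕ) + (-625/4)*t^(10:ℕ) + 27*t^(11:ℕ) + (-287/16)*t^(12:ℕ)) + (1/625)*(5 + 12*t + (-347/4)*t^(2:ℕ) + 62*t^(3:ℕ) + (419/2)*t^(4:ℕ) + (-378)*t^(5:ℕ) + (885/2)*t^(6:ℕ) + (-378)*t^(7:ℕ) + (419/2)*t^(8:ℕ) + 62*t^(9:ℕ) + (-347/4)*t^(10:ℕ) + 12*t^(11:ℕ) + 5*t^(12:ℕ)) + (1/3125)*((25/4) + (-20)*t + (107/2)*t^(2:ℕ) + (-120)*t^(3:ℕ) + (529/4)*t^(4:ℕ) + 52*t^(5:ℕ) + (-182)*t^(6:ℕ) + 52*t^(7:ℕ) + (529/4)*t^(8:ℕ) + (-120)*t^(9:ℕ) + (107/2)*t^(10:ℕ) + (-20)*t^(11:ℕ)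 + (25/4)*t^(12:ℕ)) + (1/15625)*((-25)*t^(4:ℕ) + 80*t^(5:ℕ) + (-114)*t^(6:ℕ) + 80*t^(7:ℕ) + (-25)*t^(8:ℕ)) - (77/500) := by
  have e : 1*(1 + 6*t^(2:ℕ) + 15*t^(4:ℕ) + 20*t^(6:ℕ) + 15*t^(8:ℕ) + 6*t^(10:ℕ) + 1*t^(12:ℕ)) + (1/5)*((-9/16) + (149/8)*t^(2:ℕ) + (-32)*t^(3:ℕ) + (1273/16)*t^(4:ℕ) + (-96)*t^(5:ℕ) + (483/4)*t^(6:ℕ) + (-96)*t^(7:ℕ) + (1273/16)*t^(8:ℕ) + (-32)*t^(9:ℕ) + (149/8)*t^(10:ℕ) + (-9/16)*t^(12:ℕ)) + (1/25)*((-233/16) + 8*t + (-73/2)*t^(2:ℕ) + 12*t^(3:ℕ) + (-623/16)*t^(4:ℕ) + (-4)*t^(5:ℕ) + (-34)*t^(6:ℕ) + (-4)*t^(7:ℕ) + (-623/16)*t^(8:ℕ) + 12*t^(9:ℕ) + (-73/2)*t^(10:ℕ) + 8*t^(11:ℕ) + (-233/16)*t^(12:ℕ)) + (1/125)*((-287/16) + 27*t + (-625/4)*t^(2:ℕ)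 + 213*t^(3:ℕ) + (-3321/16)*t^(4:ℕ) + 184*t^(5:ℕ) + (-277/2)*t^(6:ℕ) + 184*t^(7:ℕ) + (-3321/16)*t^(8:ℕ) + 213*t^(9:ℕ) + (-625/4)*t^(10:ℕ) + 27*t^(11:ℕ) + (-287/16)*t^(12:ℕ)) + (1/625)*(5 + 12*t + (-347/4)*t^(2:ℕ) + 62*t^(3:ℕ) + (419/2)*t^(4:ℕ) + (-378)*t^(5:ℕ) + (885/2)*t^(6:ℕ) + (-378)*t^(7:ℕ) + (419/2)*t^(8:ℕ) + 62*t^(9:ℕ) + (-347/4)*t^(10:ℕ) + 12*t^(11:ℕ) + 5*t^(12:ℕ)) + (1/3125)*((25/4) + (-20)*t + (107/2)*t^(2:ℕ) + (-120)*t^(3:ℕ) + (529/4)*t^(4:ℕ) + 52*t^(5:ℕ) + (-182)*t^(6:ℕ) + 52*t^(7:ℕ) + (529/4)*t^(8:ℕ) + (-120)*t^(9:ℕ) + (107/2)*t^(10:ℕ) + (-20)*t^(11:ℕ) + (25/4)*t^(12:ℕ)) + (1/15625)*((-25)*t^(4:ℕ) + 80*t^(5:ℕ) + (-114)*t^(6:ℕ) + 80*t^(7:ℕ) + (-25)*t^(8:ℕ))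 - (77/500) = (7/400)*(1 - t)^(12:ℕ) + (1897/2500)*(t - 0)*(1 - t)^(11:ℕ) + (44016/3125)*(t - 0)^(2:ℕ)*(1 - t)^(10:ℕ) + (24703/250)*(t - 0)^(3:ℕ)*(1 - t)^(9:ℕ) + (2500547/6250)*(t - 0)^(4:ℕ)*(1 - t)^(8:ℕ) + (3370836/3125)*(t - 0)^(5:ℕ)*(1 - t)^(7:ℕ) + (32301171/15625)*(t - 0)^(6:ℕ)*(1 - t)^(6:ℕ) + (45320226/15625)*(t - 0)^(7:ℕ)*(1 - t)^(5:ℕ) + (37535421/12500)*(t - 0)^(8:ℕ)*(1 - t)^(4:ℕ) + (7087269/3125)*(t - 0)^(9:ℕ)*(1 - t)^(3:ℕ) + (7518987/6250)*(t - 0)^(10:ℕ)*(1 - t)^(2:ℕ) + (6387381/15625)*(t - 0)^(11:ℕ)*(1 - t) + (4267879/62500)*(t - 0)^(12:ℕ) := by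
    ring
  rw [e]
  have a3 : 0 ≤ t - 0 := by linarith
  have a4 : 0 ≤ 1 - t := by linarith
  generalize t - 0 = t1 at a3 ⊢
  generalize 1 - t = t2 at a4 ⊢
  positivity

lemma pos_DP_A_id (d : ℝ) (C0 C1 C2 C3 C4 C5 C6 : ℝ) :
    C0 + d*C1 + d^(2:ℕ)*C2 + d^(3:ℕ)*C3 + d^(4:ℕ)*C4 + d^(5:ℕ)*C5 + d^(6:ℕ)*C6 = (77/500) + ((1838265625/64)*((1/5) - d)^(6:ℕ)*(1*C0 + (1/7)*C1 + (1/49)*C2 + (1/343)*C3 + (1/2401)*C4 + (1/16807)*C5 + (1/117649)*C6 - (77/500)) + (5514796875/32)*(d - (1/7))*((1/5) - d)^(5:ℕ)*(1*C0 + (16/105)*C1 + (17/735)*C2 + (6/1715)*C3 + (19/36015)*C4 + (4/50421)*C5 + (1/84035)*C6 - (77/500)) + (27573984375/64)*(d - (1/7))^(2:ℕ)*((1/5) - d)^(4:ℕ)*(1*C0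 + (17/105)*C1 + (479/18375)*C2 + (179/42875)*C3 + (599/900375)*C4 + (19/180075)*C5 + (1/60025)*C6 - (77/500)) + (9191328125/16)*(d - (1/7))^(3:ℕ)*((1/5) - d)^(3:ℕ)*(1*C0 + (6/35)*C1 + (179/6125)*C2 + (1062/214375)*C3 + (179/214375)*C4 + (6/42875)*C5 + (1/42875)*C6 - (77/500)) + (27573984375/64)*(d - (1/7))^(4:ℕ)*((1/5) - d)^(2:ℕ)*(1*C0 + (19/105)*C1 + (599/18375)*C2 + (179/30625)*C3 + (479/459375)*C4 + (17/91875)*C5 + (1/30625)*C6 - (77/500)) + (5514796875/32)*(d - (1/7))^(5:ℕ)*((1/5) - d)*(1*C0 + (4/21)*C1 + (19/525)*C2 + (6/875)*C3 + (17/13125)*C4 + (16/65625)*C5 + (1/21875)*C6 - (77/500)) + (1838265625/64)*(d - (1/7))^(6:ℕ)*(1*C0 + (1/5)*C1 + (1/25)*C2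 + (1/125)*C3 + (1/625)*C4 + (1/3125)*C5 + (1/15625)*C6 - (77/500))) := by
  ring

lemma pos_DP_A_gen (d1 d2 B0 B1 B2 B3 B4 B5 B6 : ℝ) (a1 : 0 ≤ d1) (a2 : 0 ≤ d2) (b0 : 0 ≤ B0) (b1 : 0 ≤ B1) (b2 : 0 ≤ B2) (b3 : 0 ≤ B3) (b4 : 0 ≤ B4) (b5 : 0 ≤ B5) (b6 : 0 ≤ B6) :
    0 < (77/500) + ((1838265625/64)*d2^(6:ℕ)*(B0) + (5514796875/32)*d1*d2^(5:ℕ)*(B1) + (27573984375/64)*d1^(2:ℕ)*d2^(4:ℕ)*(B2) + (9191328125/16)*d1^(3:ℕ)*d2^(3:ℕ)*(B3) + (27573984375/64)*d1^(4:ℕ)*d2^(2:ℕ)*(B4) + (5514796875/32)*d1^(5:ℕ)*d2*(B5) + (1838265625/64)*d1^(6:ℕ)*(B6)) := by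
  positivity

lemma pos_DP_A_core (d C0 C1 C2 C3 C4 C5 C6 : ℝ) (h1 : (1/7) ≤ d) (h2 : d ≤ (1/5))
    (b0 : 0 ≤ 1*C0 + (1/7)*C1 + (1/49)*C2 + (1/343)*C3 + (1/2401)*C4 + (1/16807)*C5 + (1/117649)*C6 - (77/500))
    (b1 : 0 ≤ 1*C0 + (16/105)*C1 + (17/735)*C2 + (6/1715)*C3 + (19/36015)*C4 + (4/50421)*C5 + (1/84035)*C6 - (77/500))
    (b2 : 0 ≤ 1*C0 + (17/105)*C1 + (479/18375)*C2 + (179/42875)*C3 + (599/900375)*C4 + (19/180075)*C5 + (1/60025)*C6 - (77/500))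
    (b3 : 0 ≤ 1*C0 + (6/35)*C1 + (179/6125)*C2 + (1062/214375)*C3 + (179/214375)*C4 + (6/42875)*C5 + (1/42875)*C6 - (77/500))
    (b4 : 0 ≤ 1*C0 + (19/105)*C1 + (599/18375)*C2 + (179/30625)*C3 + (479/459375)*C4 + (17/91875)*C5 + (1/30625)*C6 - (77/500))
    (b5 : 0 ≤ 1*C0 + (4/21)*C1 + (19/525)*C2 + (6/875)*C3 + (17/13125)*C4 + (16/65625)*C5 + (1/21875)*C6 - (77/500))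
    (b6 : 0 ≤ 1*C0 + (1/5)*C1 + (1/25)*C2 + (1/125)*C3 + (1/625)*C4 + (1/3125)*C5 + (1/15625)*C6 - (77/500)) :
    0 < C0 + d*C1 + d^(2:ℕ)*C2 + d^(3:ℕ)*C3 + d^(4:ℕ)*C4 + d^(5:ℕ)*C5 + d^(6:ℕ)*C6 := by
  rw [pos_DP_A_id]
  exact pos_DP_A_gen _ _ _ _ _ _ _ _ _ (sub_nonneg.2 h1) (sub_nonneg.2 h2) b0 b1 b2 b3 b4 b5 b6

lemma pos_DP_A (d t : ℝ) (h1 : (1/7) ≤ d) (h2 : d ≤ (1/5)) (h3 : 0 ≤ t) (h4 : t ≤ 1) :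
    0 < 1 + 6*t^(2:ℕ) + 15*t^(4:ℕ) + 20*t^(6:ℕ) + 15*t^(8:ℕ) + 6*t^(10:ℕ) + 1*t^(12:ℕ) + (-9/16)*d + (149/8)*d*t^(2:ℕ) + (-32)*d*t^(3:ℕ) + (1273/16)*d*t^(4:ℕ) + (-96)*d*t^(5:ℕ) + (483/4)*d*t^(6:ℕ) + (-96)*d*t^(7:ℕ) + (1273/16)*d*t^(8:ℕ) + (-32)*d*t^(9:ℕ) + (149/8)*d*t^(10:ℕ) + (-9/16)*d*t^(12:ℕ) + (-233/16)*d^(2:ℕ) + 8*d^(2:ℕ)*t + (-73/2)*d^(2:ℕ)*t^(2:ℕ) + 12*d^(2:ℕ)*t^(3:ℕ) + (-623/16)*d^(2:ℕ)*t^(4:ℕ) + (-4)*d^(2:ℕ)*t^(5:ℕ) + (-34)*d^(2:ℕ)*t^(6:ℕ) + (-4)*d^(2:ℕ)*t^(7:ℕ) + (-623/16)*d^(2:ℕ)*t^(8:ℕ) + 12*d^(2:ℕ)*t^(9:ℕ) + (-73/2)*d^(2:ℕ)*t^(10:ℕ) + 8*d^(2:ℕ)*t^(11:ℕ) + (-233/16)*d^(2:ℕ)*t^(12:ℕ) + (-287/16)*d^(3:ℕ) + 27*d^(3:ℕ)*t + (-625/4)*d^(3:ℕ)*t^(2:ℕ)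 + 213*d^(3:ℕ)*t^(3:ℕ) + (-3321/16)*d^(3:ℕ)*t^(4:ℕ) + 184*d^(3:ℕ)*t^(5:ℕ) + (-277/2)*d^(3:ℕ)*t^(6:ℕ) + 184*d^(3:ℕ)*t^(7:ℕ) + (-3321/16)*d^(3:ℕ)*t^(8:ℕ) + 213*d^(3:ℕ)*t^(9:ℕ) + (-625/4)*d^(3:ℕ)*t^(10:ℕ) + 27*d^(3:ℕ)*t^(11:ℕ) + (-287/16)*d^(3:ℕ)*t^(12:ℕ) + 5*d^(4:ℕ) + 12*d^(4:ℕ)*t + (-347/4)*d^(4:ℕ)*t^(2:ℕ) + 62*d^(4:ℕ)*t^(3:ℕ) + (419/2)*d^(4:ℕ)*t^(4:ℕ) + (-378)*d^(4:ℕ)*t^(5:ℕ) + (885/2)*d^(4:ℕ)*t^(6:ℕ) + (-378)*d^(4:ℕ)*t^(7:ℕ) + (419/2)*d^(4:ℕ)*t^(8:ℕ) + 62*d^(4:ℕ)*t^(9:ℕ) + (-347/4)*d^(4:ℕ)*t^(10:ℕ) + 12*d^(4:ℕ)*t^(11:ℕ) + 5*d^(4:ℕ)*t^(12:ℕ) + (25/4)*d^(5:ℕ) + (-20)*d^(5:ℕ)*t + (107/2)*d^(5:ℕ)*t^(2:ℕ) + (-120)*d^(5:ℕ)*t^(3:ℕ) + (529/4)*d^(5:ℕ)*t^(4:ℕ) + 52*d^(5:ℕ)*t^(5:ℕ)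 + (-182)*d^(5:ℕ)*t^(6:ℕ) + 52*d^(5:ℕ)*t^(7:ℕ) + (529/4)*d^(5:ℕ)*t^(8:ℕ) + (-120)*d^(5:ℕ)*t^(9:ℕ) + (107/2)*d^(5:ℕ)*t^(10:ℕ) + (-20)*d^(5:ℕ)*t^(11:ℕ) + (25/4)*d^(5:ℕ)*t^(12:ℕ) + (-25)*d^(6:ℕ)*t^(4:ℕ) + 80*d^(6:ℕ)*t^(5:ℕ) + (-114)*d^(6:ℕ)*t^(6:ℕ) + 80*d^(6:ℕ)*t^(7:ℕ) + (-25)*d^(6:ℕ)*t^(8:ℕ) := by
  have e0 : 1 + 6*t^(2:ℕ) + 15*t^(4:ℕ) + 20*t^(6:ℕ) + 15*t^(8:ℕ) + 6*t^(10:ℕ) + 1*t^(12:ℕ) + (-9/16)*d + (149/8)*d*t^(2:ℕ) + (-32)*d*t^(3:ℕ) + (1273/16)*d*t^(4:ℕ) + (-96)*d*t^(5:ℕ) + (483/4)*d*t^(6:ℕ) + (-96)*d*t^(7:ℕ) + (1273/16)*d*t^(8:ℕ) + (-32)*d*t^(9:ℕ) + (149/8)*d*t^(10:ℕ) + (-9/16)*d*t^(12:ℕ) + (-233/16)*d^(2:ℕ) + 8*d^(2:ℕ)*t + (-73/2)*d^(2:ℕ)*t^(2:ℕ) + 12*d^(2:ℕ)*t^(3:ℕ)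 + (-623/16)*d^(2:ℕ)*t^(4:ℕ) + (-4)*d^(2:ℕ)*t^(5:ℕ) + (-34)*d^(2:ℕ)*t^(6:ℕ) + (-4)*d^(2:ℕ)*t^(7:ℕ) + (-623/16)*d^(2:ℕ)*t^(8:ℕ) + 12*d^(2:ℕ)*t^(9:ℕ) + (-73/2)*d^(2:ℕ)*t^(10:ℕ) + 8*d^(2:ℕ)*t^(11:ℕ) + (-233/16)*d^(2:ℕ)*t^(12:ℕ) + (-287/16)*d^(3:ℕ) + 27*d^(3:ℕ)*t + (-625/4)*d^(3:ℕ)*t^(2:ℕ) + 213*d^(3:ℕ)*t^(3:ℕ) + (-3321/16)*d^(3:ℕ)*t^(4:ℕ) + 184*d^(3:ℕ)*t^(5:ℕ) + (-277/2)*d^(3:ℕ)*t^(6:ℕ) + 184*d^(3:ℕ)*t^(7:ℕ) + (-3321/16)*d^(3:ℕ)*t^(8:ℕ) + 213*d^(3:ℕ)*t^(9:ℕ) + (-625/4)*d^(3:ℕ)*t^(10:ℕ) + 27*d^(3:ℕ)*t^(11:ℕ) + (-287/16)*d^(3:ℕ)*t^(12:ℕ) + 5*d^(4:ℕ) + 12*d^(4:ℕ)*t + (-347/4)*d^(4:ℕ)*t^(2:ℕ) + 62*d^(4:ℕ)*t^(3:ℕ) + (419/2)*d^(4:ℕ)*t^(4:ℕ) + (-378)*d^(4:ℕ)*t^(5:ℕ)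 + (885/2)*d^(4:ℕ)*t^(6:ℕ) + (-378)*d^(4:ℕ)*t^(7:ℕ) + (419/2)*d^(4:ℕ)*t^(8:ℕ) + 62*d^(4:ℕ)*t^(9:ℕ) + (-347/4)*d^(4:ℕ)*t^(10:ℕ) + 12*d^(4:ℕ)*t^(11:ℕ) + 5*d^(4:ℕ)*t^(12:ℕ) + (25/4)*d^(5:ℕ) + (-20)*d^(5:ℕ)*t + (107/2)*d^(5:ℕ)*t^(2:ℕ) + (-120)*d^(5:ℕ)*t^(3:ℕ) + (529/4)*d^(5:ℕ)*t^(4:ℕ) + 52*d^(5:ℕ)*t^(5:ℕ) + (-182)*d^(5:ℕ)*t^(6:ℕ) + 52*d^(5:ℕ)*t^(7:ℕ) + (529/4)*d^(5:ℕ)*t^(8:ℕ) + (-120)*d^(5:ℕ)*t^(9:ℕ) + (107/2)*d^(5:ℕ)*t^(10:ℕ) + (-20)*d^(5:ℕ)*t^(11:ℕ) + (25/4)*d^(5:ℕ)*t^(12:ℕ) + (-25)*d^(6:ℕ)*t^(4:ℕ) + 80*d^(6:ℕ)*t^(5:ℕ) + (-114)*d^(6:ℕ)*t^(6:ℕ) + 80*d^(6:ℕ)*t^(7:ℕ) + (-25)*d^(6:ℕ)*t^(8:ℕ) = (1 + 6*t^(2:ℕ) + 15*t^(4:ℕ) + 20*t^(6:ℕ) + 15*t^(8:ℕ) + 6*t^(10:ℕ) + 1*t^(12:ℕ))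 + d*((-9/16) + (149/8)*t^(2:ℕ) + (-32)*t^(3:ℕ) + (1273/16)*t^(4:ℕ) + (-96)*t^(5:ℕ) + (483/4)*t^(6:ℕ) + (-96)*t^(7:ℕ) + (1273/16)*t^(8:ℕ) + (-32)*t^(9:ℕ) + (149/8)*t^(10:ℕ) + (-9/16)*t^(12:ℕ)) + d^(2:ℕ)*((-233/16) + 8*t + (-73/2)*t^(2:ℕ) + 12*t^(3:ℕ) + (-623/16)*t^(4:ℕ) + (-4)*t^(5:ℕ) + (-34)*t^(6:ℕ) + (-4)*t^(7:ℕ) + (-623/16)*t^(8:ℕ) + 12*t^(9:ℕ) + (-73/2)*t^(10:ℕ) + 8*t^(11:ℕ) + (-233/16)*t^(12:ℕ)) + d^(3:ℕ)*((-287/16) + 27*t + (-625/4)*t^(2:ℕ) + 213*t^(3:ℕ) + (-3321/16)*t^(4:ℕ) + 184*t^(5:ℕ) + (-277/2)*t^(6:ℕ) + 184*t^(7:ℕ) + (-3321/16)*t^(8:ℕ) + 213*t^(9:ℕ) + (-625/4)*t^(10:ℕ) + 27*t^(11:ℕ) + (-287/16)*t^(12:ℕ)) + d^(4:ℕ)*(5 + 12*t + (-347/4)*t^(2:ℕ) +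 62*t^(3:ℕ) + (419/2)*t^(4:ℕ) + (-378)*t^(5:ℕ) + (885/2)*t^(6:ℕ) + (-378)*t^(7:ℕ) + (419/2)*t^(8:ℕ) + 62*t^(9:ℕ) + (-347/4)*t^(10:ℕ) + 12*t^(11:ℕ) + 5*t^(12:ℕ)) + d^(5:ℕ)*((25/4) + (-20)*t + (107/2)*t^(2:ℕ) + (-120)*t^(3:ℕ) + (529/4)*t^(4:ℕ) + 52*t^(5:ℕ) + (-182)*t^(6:ℕ) + 52*t^(7:ℕ) + (529/4)*t^(8:ℕ) + (-120)*t^(9:ℕ) + (107/2)*t^(10:ℕ) + (-20)*t^(11:ℕ) + (25/4)*t^(12:ℕ)) + d^(6:ℕ)*((-25)*t^(4:ℕ) + 80*t^(5:ℕ) + (-114)*t^(6:ℕ) + 80*t^(7:ℕ) + (-25)*t^(8:ℕ)) := by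
    ring
  rw [e0]
  exact pos_DP_A_core d _ _ _ _ _ _ _ h1 h2 (pos_DP_A_b0 t h3 h4) (pos_DP_A_b1 t h3 h4) (pos_DP_A_b2 t h3 h4) (pos_DP_A_b3 t h3 h4) (pos_DP_A_b4 t h3 h4) (pos_DP_A_b5 t h3 h4) (pos_DP_A_b6 t h3 h4)

lemma pos_L10_A_b0 (t : ℝ) (h3 : 0 ≤ t) (h4 : t ≤ 1) :
    0 ≤ 1*(2 + 2*t + 10*t^(2:ℕ) + 10*t^(3:ℕ) + 20*t^(4:ℕ) + 20*t^(5:ℕ) + 20*t^(6:ℕ) + 20*t^(7:ℕ) + 10*t^(8:ℕ) + 10*t^(9:ℕ) + 2*t^(10:ℕ) + 2*t^(11:ℕ)) + (1/7)*(4 + 4*t + 28*t^(2:ℕ) + 28*t^(3:ℕ) + 64*t^(4:ℕ) + 64*t^(5:ℕ) + 64*t^(6:ℕ) + 64*t^(7:ℕ) + 28*t^(8:ℕ) + 28*t^(9:ℕ) + 4*t^(10:ℕ) + 4*t^(11:ℕ)) + (1/49)*(33*t^(2:ℕ) + 35*t^(3:ℕ) + 103*t^(4:ℕ) + 60*t^(5:ℕ) + 82*t^(6:ℕ) + (-3)*t^(7:ℕ) + 3*t^(8:ℕ)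 + (-46)*t^(9:ℕ) + (-9)*t^(10:ℕ) + (-18)*t^(11:ℕ)) + (1/343)*(2*t^(2:ℕ) + 19*t^(3:ℕ) + 69*t^(4:ℕ) + (-41)*t^(5:ℕ) + 56*t^(6:ℕ) + (-125)*t^(7:ℕ) + (-3)*t^(8:ℕ) + (-73)*t^(9:ℕ) + 8*t^(10:ℕ) + (-8)*t^(11:ℕ)) + (1/2401)*(8*t^(2:ℕ) + (-48)*t^(3:ℕ) + 102*t^(4:ℕ) + (-124)*t^(5:ℕ) + 96*t^(6:ℕ) + (-40)*t^(7:ℕ) + (-26)*t^(8:ℕ) + 44*t^(9:ℕ) + (-28)*t^(10:ℕ) + 8*t^(11:ℕ)) + (1/16807)*((15/4)*t^(4:ℕ) + (-35/2)*t^(5:ℕ) + (101/4)*t^(6:ℕ) + (-35/2)*t^(7:ℕ) + (15/4)*t^(8:ℕ) + 32*t^(9:ℕ) + (-48)*t^(10:ℕ) + 32*t^(11:ℕ)) + (1/117649)*((-14)*t^(4:ℕ) + 43*t^(5:ℕ) + (-61)*t^(6:ℕ) + 43*t^(7:ℕ) + (-14)*t^(8:ℕ)) + (1/823543)*((-4)*t^(4:ℕ) + 12*t^(5:ℕ) + (-17)*t^(6:ℕ) + 12*t^(7:ℕ) +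 (-4)*t^(8:ℕ)) - (1157/500) := by
  have e : 1*(2 + 2*t + 10*t^(2:ℕ) + 10*t^(3:ℕ) + 20*t^(4:ℕ) + 20*t^(5:ℕ) + 20*t^(6:ℕ) + 20*t^(7:ℕ) + 10*t^(8:ℕ) + 10*t^(9:ℕ) + 2*t^(10:ℕ) + 2*t^(11:ℕ)) + (1/7)*(4 + 4*t + 28*t^(2:ℕ) + 28*t^(3:ℕ) + 64*t^(4:ℕ) + 64*t^(5:ℕ) + 64*t^(6:ℕ) + 64*t^(7:ℕ) + 28*t^(8:ℕ) + 28*t^(9:ℕ) + 4*t^(10:ℕ) + 4*t^(11:ℕ)) + (1/49)*(33*t^(2:ℕ) + 35*t^(3:ℕ) + 103*t^(4:ℕ) + 60*t^(5:ℕ) + 82*t^(6:ℕ) + (-3)*t^(7:ℕ) + 3*t^(8:ℕ) + (-46)*t^(9:ℕ) + (-9)*t^(10:ℕ) + (-18)*t^(11:ℕ)) + (1/343)*(2*t^(2:ℕ) + 19*t^(3:ℕ) + 69*t^(4:ℕ) + (-41)*t^(5:ℕ) + 56*t^(6:ℕ) + (-125)*t^(7:ℕ) + (-3)*t^(8:ℕ) + (-73)*t^(9:ℕ) + 8*t^(10:ℕ) + (-8)*t^(11:ℕ)) + (1/2401)*(8*t^(2:ℕ) + (-48)*t^(3:ℕ)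 + 102*t^(4:ℕ) + (-124)*t^(5:ℕ) + 96*t^(6:ℕ) + (-40)*t^(7:ℕ) + (-26)*t^(8:ℕ) + 44*t^(9:ℕ) + (-28)*t^(10:ℕ) + 8*t^(11:ℕ)) + (1/16807)*((15/4)*t^(4:ℕ) + (-35/2)*t^(5:ℕ) + (101/4)*t^(6:ℕ) + (-35/2)*t^(7:ℕ) + (15/4)*t^(8:ℕ) + 32*t^(9:ℕ) + (-48)*t^(10:ℕ) + 32*t^(11:ℕ)) + (1/117649)*((-14)*t^(4:ℕ) + 43*t^(5:ℕ) + (-61)*t^(6:ℕ) + 43*t^(7:ℕ) + (-14)*t^(8:ℕ)) + (1/823543)*((-4)*t^(4:ℕ) + 12*t^(5:ℕ) + (-17)*t^(6:ℕ) + 12*t^(7:ℕ) + (-4)*t^(8:ℕ)) - (1157/500) = (901/3500)*(1 - t)^(11:ℕ) + (18911/3500)*(t - 0)*(1 - t)^(10:ℕ) + (13098773/240100)*(t - 0)^(2:ℕ)*(1 - t)^(9:ℕ) + (73250519/240100)*(t - 0)^(3:ℕ)*(1 - t)^(8:ℕ) + (88249530809/82354300)*(t - 0)^(4:ℕ)*(1 - t)^(7:ℕ)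 + (1052438701413/411771500)*(t - 0)^(5:ℕ)*(1 - t)^(6:ℕ) + (888681403269/205885750)*(t - 0)^(6:ℕ)*(1 - t)^(5:ℕ) + (108013408721/20588575)*(t - 0)^(7:ℕ)*(1 - t)^(4:ℕ) + (375159261467/82354300)*(t - 0)^(8:ℕ)*(1 - t)^(3:ℕ) + (32036194177/11764900)*(t - 0)^(9:ℕ)*(1 - t)^(2:ℕ) + (210094471807/205885750)*(t - 0)^(10:ℕ)*(1 - t) + (19060766656/102942875)*(t - 0)^(11:ℕ) := by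
    ring
  rw [e]
  have a3 : 0 ≤ t - 0 := by linarith
  have a4 : 0 ≤ 1 - t := by linarith
  generalize t - 0 = t1 at a3 ⊢
  generalize 1 - t = t2 at a4 ⊢
  positivity

lemma pos_L10_A_b1 (t : ℝ) (h3 : 0 ≤ t) (h4 : t ≤ 1) :
    0 ≤ 1*(2 + 2*t + 10*t^(2:ℕ) + 10*t^(3:ℕ) + 20*t^(4:ℕ) + 20*t^(5:ℕ) + 20*t^(6:ℕ) + 20*t^(7:ℕ) + 10*t^(8:ℕ) + 10*t^(9:ℕ) + 2*t^(10:ℕ) + 2*t^(11:ℕ)) + (37/245)*(4 + 4*t + 28*t^(2:ℕ) + 28*t^(3:ℕ) + 64*t^(4:ℕ) + 64*t^(5:ℕ) + 64*t^(6:ℕ) + 64*t^(7:ℕ) + 28*t^(8:ℕ) + 28*t^(9:ℕ) + 4*t^(10:ℕ) + 4*t^(11:ℕ)) + (39/1715)*(33*t^(2:ℕ) + 35*t^(3:ℕ) + 103*t^(4:ℕ) + 60*t^(5:ℕ) + 82*t^(6:ℕ) + (-3)*t^(7:ℕ) + 3*t^(8:ℕ) + (-46)*t^(9:ℕ) + (-9)*t^(10:ℕ) +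 (-18)*t^(11:ℕ)) + (41/12005)*(2*t^(2:ℕ) + 19*t^(3:ℕ) + 69*t^(4:ℕ) + (-41)*t^(5:ℕ) + 56*t^(6:ℕ) + (-125)*t^(7:ℕ) + (-3)*t^(8:ℕ) + (-73)*t^(9:ℕ) + 8*t^(10:ℕ) + (-8)*t^(11:ℕ)) + (43/84035)*(8*t^(2:ℕ) + (-48)*t^(3:ℕ) + 102*t^(4:ℕ) + (-124)*t^(5:ℕ) + 96*t^(6:ℕ) + (-40)*t^(7:ℕ) + (-26)*t^(8:ℕ) + 44*t^(9:ℕ) + (-28)*t^(10:ℕ) + 8*t^(11:ℕ)) + (9/117649)*((15/4)*t^(4:ℕ) + (-35/2)*t^(5:ℕ) + (101/4)*t^(6:ℕ) + (-35/2)*t^(7:ℕ) + (15/4)*t^(8:ℕ) + 32*t^(9:ℕ) + (-48)*t^(10:ℕ) + 32*t^(11:ℕ)) + (47/4117715)*((-14)*t^(4:ℕ) + 43*t^(5:ℕ) + (-61)*t^(6:ℕ) + 43*t^(7:ℕ) + (-14)*t^(8:ℕ)) + (1/588245)*((-4)*t^(4:ℕ) + 12*t^(5:ℕ) + (-17)*t^(6:ℕ) + 12*t^(7:ℕ) + (-4)*t^(8:ℕ)) - (1157/500)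 := by
  have e : 1*(2 + 2*t + 10*t^(2:ℕ) + 10*t^(3:ℕ) + 20*t^(4:ℕ) + 20*t^(5:ℕ) + 20*t^(6:ℕ) + 20*t^(7:ℕ) + 10*t^(8:ℕ) + 10*t^(9:ℕ) + 2*t^(10:ℕ) + 2*t^(11:ℕ)) + (37/245)*(4 + 4*t + 28*t^(2:ℕ) + 28*t^(3:ℕ) + 64*t^(4:ℕ) + 64*t^(5:ℕ) + 64*t^(6:ℕ) + 64*t^(7:ℕ) + 28*t^(8:ℕ) + 28*t^(9:ℕ) + 4*t^(10:ℕ) + 4*t^(11:ℕ)) + (39/1715)*(33*t^(2:ℕ) + 35*t^(3:ℕ) + 103*t^(4:ℕ) + 60*t^(5:ℕ) + 82*t^(6:ℕ) + (-3)*t^(7:ℕ) + 3*t^(8:ℕ) + (-46)*t^(9:ℕ) + (-9)*t^(10:ℕ) + (-18)*t^(11:ℕ)) + (41/12005)*(2*t^(2:ℕ) + 19*t^(3:ℕ) + 69*t^(4:ℕ) + (-41)*t^(5:ℕ) + 56*t^(6:ℕ) + (-125)*t^(7:ℕ) + (-3)*t^(8:ℕ) + (-73)*t^(9:ℕ) + 8*t^(10:ℕ) + (-8)*t^(11:ℕ)) + (43/84035)*(8*t^(2:ℕ) + (-48)*t^(3:ℕ) + 102*t^(4:ℕ)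 + (-124)*t^(5:ℕ) + 96*t^(6:ℕ) + (-40)*t^(7:ℕ) + (-26)*t^(8:ℕ) + 44*t^(9:ℕ) + (-28)*t^(10:ℕ) + 8*t^(11:ℕ)) + (9/117649)*((15/4)*t^(4:ℕ) + (-35/2)*t^(5:ℕ) + (101/4)*t^(6:ℕ) + (-35/2)*t^(7:ℕ) + (15/4)*t^(8:ℕ) + 32*t^(9:ℕ) + (-48)*t^(10:ℕ) + 32*t^(11:ℕ)) + (47/4117715)*((-14)*t^(4:ℕ) + 43*t^(5:ℕ) + (-61)*t^(6:ℕ) + 43*t^(7:ℕ) + (-14)*t^(8:ℕ)) + (1/588245)*((-4)*t^(4:ℕ) + 12*t^(5:ℕ) + (-17)*t^(6:ℕ) + 12*t^(7:ℕ) + (-4)*t^(8:ℕ)) - (1157/500) = (7107/24500)*(1 - t)^(11:ℕ) + (141977/24500)*(t - 0)*(1 - t)^(10:ℕ) + (95775091/1680700)*(t - 0)^(2:ℕ)*(1 - t)^(9:ℕ) + (529456393/1680700)*(t - 0)^(3:ℕ)*(1 - t)^(8:ℕ) + (12949253717/11764900)*(t - 0)^(4:ℕ)*(1 - t)^(7:ℕ) + (1078321826263/411771500)*(t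 - 0)^(5:ℕ)*(1 - t)^(6:ℕ) + (909508185969/205885750)*(t - 0)^(6:ℕ)*(1 - t)^(5:ℕ) + (110490346546/20588575)*(t - 0)^(7:ℕ)*(1 - t)^(4:ℕ) + (383653701967/82354300)*(t - 0)^(8:ℕ)*(1 - t)^(3:ℕ) + (229238653439/82354300)*(t - 0)^(9:ℕ)*(1 - t)^(2:ℕ) + (107295281066/102942875)*(t - 0)^(10:ℕ)*(1 - t) + (38872181137/205885750)*(t - 0)^(11:ℕ) := by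
    ring
  rw [e]
  have a3 : 0 ≤ t - 0 := by linarith
  have a4 : 0 ≤ 1 - t := by linarith
  generalize t - 0 = t1 at a3 ⊢
  generalize 1 - t = t2 at a4 ⊢
  positivity

lemma pos_L10_A_b2 (t : ℝ) (h3 : 0 ≤ t) (h4 : t ≤ 1) :
    0 ≤ 1*(2 + 2*t + 10*t^(2:ℕ) + 10*t^(3:ℕ) + 20*t^(4:ℕ) + 20*t^(5:ℕ) + 20*t^(6:ℕ) + 20*t^(7:ℕ) + 10*t^(8:ℕ) + 10*t^(9:ℕ) + 2*t^(10:ℕ) + 2*t^(11:ℕ)) + (39/245)*(4 + 4*t + 28*t^(2:ℕ) + 28*t^(3:ℕ) + 64*t^(4:ℕ) + 64*t^(5:ℕ) + 64*t^(6:ℕ) + 64*t^(7:ℕ) + 28*t^(8:ℕ) + 28*t^(9:ℕ) + 4*t^(10:ℕ) + 4*t^(11:ℕ)) + (649/25725)*(33*t^(2:ℕ) + 35*t^(3:ℕ) + 103*t^(4:ℕ) + 60*t^(5:ℕ) + 82*t^(6:ℕ) + (-3)*t^(7:ℕ) + 3*t^(8:ℕ) + (-46)*t^(9:ℕ) + (-9)*t^(10:ℕ)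 + (-18)*t^(11:ℕ)) + (239/60025)*(2*t^(2:ℕ) + 19*t^(3:ℕ) + 69*t^(4:ℕ) + (-41)*t^(5:ℕ) + 56*t^(6:ℕ) + (-125)*t^(7:ℕ) + (-3)*t^(8:ℕ) + (-73)*t^(9:ℕ) + 8*t^(10:ℕ) + (-8)*t^(11:ℕ)) + (263/420175)*(8*t^(2:ℕ) + (-48)*t^(3:ℕ) + 102*t^(4:ℕ) + (-124)*t^(5:ℕ) + 96*t^(6:ℕ) + (-40)*t^(7:ℕ) + (-26)*t^(8:ℕ) + 44*t^(9:ℕ) + (-28)*t^(10:ℕ) + 8*t^(11:ℕ)) + (173/1764735)*((15/4)*t^(4:ℕ) + (-35/2)*t^(5:ℕ) + (101/4)*t^(6:ℕ) + (-35/2)*t^(7:ℕ) + (15/4)*t^(8:ℕ) + 32*t^(9:ℕ) + (-48)*t^(10:ℕ) + 32*t^(11:ℕ)) + (9/588245)*((-14)*t^(4:ℕ) + 43*t^(5:ℕ) + (-61)*t^(6:ℕ) + 43*t^(7:ℕ) + (-14)*t^(8:ℕ)) + (1/420175)*((-4)*t^(4:ℕ) + 12*t^(5:ℕ) + (-17)*t^(6:ℕ) + 12*t^(7:ℕ) + (-4)*t^(8:ℕ)) - (1157/500)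 := by
  have e : 1*(2 + 2*t + 10*t^(2:ℕ) + 10*t^(3:ℕ) + 20*t^(4:ℕ) + 20*t^(5:ℕ) + 20*t^(6:ℕ) + 20*t^(7:ℕ) + 10*t^(8:ℕ) + 10*t^(9:ℕ) + 2*t^(10:ℕ) + 2*t^(11:ℕ)) + (39/245)*(4 + 4*t + 28*t^(2:ℕ) + 28*t^(3:ℕ) + 64*t^(4:ℕ) + 64*t^(5:ℕ) + 64*t^(6:ℕ) + 64*t^(7:ℕ) + 28*t^(8:ℕ) + 28*t^(9:ℕ) + 4*t^(10:ℕ) + 4*t^(11:ℕ)) + (649/25725)*(33*t^(2:ℕ) + 35*t^(3:ℕ) + 103*t^(4:ℕ) + 60*t^(5:ℕ) + 82*t^(6:ℕ) + (-3)*t^(7:ℕ) + 3*t^(8:ℕ) + (-46)*t^(9:ℕ) + (-9)*t^(10:ℕ) + (-18)*t^(11:ℕ)) + (239/60025)*(2*t^(2:ℕ) + 19*t^(3:ℕ) + 69*t^(4:ℕ) + (-41)*t^(5:ℕ) + 56*t^(6:ℕ) + (-125)*t^(7:ℕ) + (-3)*t^(8:ℕ) + (-73)*t^(9:ℕ) + 8*t^(10:ℕ) + (-8)*t^(11:ℕ)) + (263/420175)*(8*t^(2:ℕ) + (-48)*t^(3:ℕ)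 + 102*t^(4:ℕ) + (-124)*t^(5:ℕ) + 96*t^(6:ℕ) + (-40)*t^(7:ℕ) + (-26)*t^(8:ℕ) + 44*t^(9:ℕ) + (-28)*t^(10:ℕ) + 8*t^(11:ℕ)) + (173/1764735)*((15/4)*t^(4:ℕ) + (-35/2)*t^(5:ℕ) + (101/4)*t^(6:ℕ) + (-35/2)*t^(7:ℕ) + (15/4)*t^(8:ℕ) + 32*t^(9:ℕ) + (-48)*t^(10:ℕ) + 32*t^(11:ℕ)) + (9/588245)*((-14)*t^(4:ℕ) + 43*t^(5:ℕ) + (-61)*t^(6:ℕ) + 43*t^(7:ℕ) + (-14)*t^(8:ℕ)) + (1/420175)*((-4)*t^(4:ℕ) + 12*t^(5:ℕ) + (-17)*t^(6:ℕ) + 12*t^(7:ℕ) + (-4)*t^(8:ℕ)) - (1157/500) = (7907/24500)*(1 - t)^(11:ℕ) + (151577/24500)*(t - 0)*(1 - t)^(10:ℕ) + (3994715/67228)*(t - 0)^(2:ℕ)*(1 - t)^(9:ℕ) + (1638752483/5042100)*(t - 0)^(3:ℕ)*(1 - t)^(8:ℕ) + (39883609721/35294700)*(t - 0)^(4:ℕ)*(1 -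 t)^(7:ℕ) + (473368230277/176473500)*(t - 0)^(5:ℕ)*(1 - t)^(6:ℕ) + (398849485441/88236750)*(t - 0)^(6:ℕ)*(1 - t)^(5:ℕ) + (16144133277/2941225)*(t - 0)^(7:ℕ)*(1 - t)^(4:ℕ) + (8006045347/1680700)*(t - 0)^(8:ℕ)*(1 - t)^(3:ℕ) + (33472426913/11764900)*(t - 0)^(9:ℕ)*(1 - t)^(2:ℕ) + (31307131411/29412250)*(t - 0)^(10:ℕ)*(1 - t) + (1213138037/6302625)*(t - 0)^(11:ℕ) := by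
    ring
  rw [e]
  have a3 : 0 ≤ t - 0 := by linarith
  have a4 : 0 ≤ 1 - t := by linarith
  generalize t - 0 = t1 at a3 ⊢
  generalize 1 - t = t2 at a4 ⊢
  positivity

lemma pos_L10_A_b3 (t : ℝ) (h3 : 0 ≤ t) (h4 : t ≤ 1) :
    0 ≤ 1*(2 + 2*t + 10*t^(2:ℕ) + 10*t^(3:ℕ) + 20*t^(4:ℕ) + 20*t^(5:ℕ) + 20*t^(6:ℕ) + 20*t^(7:ℕ) + 10*t^(8:ℕ) + 10*t^(9:ℕ) + 2*t^(10:ℕ) + 2*t^(11:ℕ)) + (41/245)*(4 + 4*t + 28*t^(2:ℕ) + 28*t^(3:ℕ) + 64*t^(4:ℕ) + 64*t^(5:ℕ) + 64*t^(6:ℕ) + 64*t^(7:ℕ) + 28*t^(8:ℕ) + 28*t^(9:ℕ) + 4*t^(10:ℕ) + 4*t^(11:ℕ)) + (239/8575)*(33*t^(2:ℕ) + 35*t^(3:ℕ) + 103*t^(4:ℕ) + 60*t^(5:ℕ) + 82*t^(6:ℕ) + (-3)*t^(7:ℕ) + 3*t^(8:ℕ) + (-46)*t^(9:ℕ) + (-9)*t^(10:ℕ) +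 (-18)*t^(11:ℕ)) + (6933/1500625)*(2*t^(2:ℕ) + 19*t^(3:ℕ) + 69*t^(4:ℕ) + (-41)*t^(5:ℕ) + 56*t^(6:ℕ) + (-125)*t^(7:ℕ) + (-3)*t^(8:ℕ) + (-73)*t^(9:ℕ) + 8*t^(10:ℕ) + (-8)*t^(11:ℕ)) + (8007/10504375)*(8*t^(2:ℕ) + (-48)*t^(3:ℕ) + 102*t^(4:ℕ) + (-124)*t^(5:ℕ) + 96*t^(6:ℕ) + (-40)*t^(7:ℕ) + (-26)*t^(8:ℕ) + 44*t^(9:ℕ) + (-28)*t^(10:ℕ) + 8*t^(11:ℕ)) + (263/2100875)*((15/4)*t^(4:ℕ) + (-35/2)*t^(5:ℕ) + (101/4)*t^(6:ℕ) + (-35/2)*t^(7:ℕ) + (15/4)*t^(8:ℕ) + 32*t^(9:ℕ) + (-48)*t^(10:ℕ) + 32*t^(11:ℕ)) + (43/2100875)*((-14)*t^(4:ℕ) + 43*t^(5:ℕ) + (-61)*t^(6:ℕ) + 43*t^(7:ℕ) + (-14)*t^(8:ℕ)) + (1/300125)*((-4)*t^(4:ℕ) + 12*t^(5:ℕ) + (-17)*t^(6:ℕ) + 12*t^(7:ℕ) + (-4)*t^(8:ℕ))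 - (1157/500) := by
  have e : 1*(2 + 2*t + 10*t^(2:ℕ) + 10*t^(3:ℕ) + 20*t^(4:ℕ) + 20*t^(5:ℕ) + 20*t^(6:ℕ) + 20*t^(7:ℕ) + 10*t^(8:ℕ) + 10*t^(9:ℕ) + 2*t^(10:ℕ) + 2*t^(11:ℕ)) + (41/245)*(4 + 4*t + 28*t^(2:ℕ) + 28*t^(3:ℕ) + 64*t^(4:ℕ) + 64*t^(5:ℕ) + 64*t^(6:ℕ) + 64*t^(7:ℕ) + 28*t^(8:ℕ) + 28*t^(9:ℕ) + 4*t^(10:ℕ) + 4*t^(11:ℕ)) + (239/8575)*(33*t^(2:ℕ) + 35*t^(3:ℕ) + 103*t^(4:ℕ) + 60*t^(5:ℕ) + 82*t^(6:ℕ) + (-3)*t^(7:ℕ) + 3*t^(8:ℕ) + (-46)*t^(9:ℕ) + (-9)*t^(10:ℕ) + (-18)*t^(11:ℕ)) + (6933/1500625)*(2*t^(2:ℕ) + 19*t^(3:ℕ) + 69*t^(4:ℕ) + (-41)*t^(5:ℕ) + 56*t^(6:ℕ) + (-125)*t^(7:ℕ) + (-3)*t^(8:ℕ) + (-73)*t^(9:ℕ) + 8*t^(10:ℕ) + (-8)*t^(11:ℕ)) + (8007/10504375)*(8*t^(2:ℕ)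 + (-48)*t^(3:ℕ) + 102*t^(4:ℕ) + (-124)*t^(5:ℕ) + 96*t^(6:ℕ) + (-40)*t^(7:ℕ) + (-26)*t^(8:ℕ) + 44*t^(9:ℕ) + (-28)*t^(10:ℕ) + 8*t^(11:ℕ)) + (263/2100875)*((15/4)*t^(4:ℕ) + (-35/2)*t^(5:ℕ) + (101/4)*t^(6:ℕ) + (-35/2)*t^(7:ℕ) + (15/4)*t^(8:ℕ) + 32*t^(9:ℕ) + (-48)*t^(10:ℕ) + 32*t^(11:ℕ)) + (43/2100875)*((-14)*t^(4:ℕ) + 43*t^(5:ℕ) + (-61)*t^(6:ℕ) + 43*t^(7:ℕ) + (-14)*t^(8:ℕ)) + (1/300125)*((-4)*t^(4:ℕ) + 12*t^(5:ℕ) + (-17)*t^(6:ℕ) + 12*t^(7:ℕ) + (-4)*t^(8:ℕ)) - (1157/500) = (8707/24500)*(1 - t)^(11:ℕ) + (161177/24500)*(t - 0)*(1 - t)^(10:ℕ) + (2599245547/42017500)*(t - 0)^(2:ℕ)*(1 - t)^(9:ℕ) + (2815686957/8403500)*(t - 0)^(3:ℕ)*(1 - t)^(8:ℕ) + (389798371/336140)*(t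 - 0)^(4:ℕ)*(1 - t)^(7:ℕ) + (115413595407/42017500)*(t - 0)^(5:ℕ)*(1 - t)^(6:ℕ) + (97153667981/21008750)*(t - 0)^(6:ℕ)*(1 - t)^(5:ℕ) + (58964052148/10504375)*(t - 0)^(7:ℕ)*(1 - t)^(4:ℕ) + (1637094059/336140)*(t - 0)^(8:ℕ)*(1 - t)^(3:ℕ) + (195476615/67228)*(t - 0)^(9:ℕ)*(1 - t)^(2:ℕ) + (2283393509/2100875)*(t - 0)^(10:ℕ)*(1 - t) + (4121674491/21008750)*(t - 0)^(11:ℕ) := by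
    ring
  rw [e]
  have a3 : 0 ≤ t - 0 := by linarith
  have a4 : 0 ≤ 1 - t := by linarith
  generalize t - 0 = t1 at a3 ⊢
  generalize 1 - t = t2 at a4 ⊢
  positivity

lemma pos_L10_A_b4 (t : ℝ) (h3 : 0 ≤ t) (h4 : t ≤ 1) :
    0 ≤ 1*(2 + 2*t + 10*t^(2:ℕ) + 10*t^(3:ℕ) + 20*t^(4:ℕ) + 20*t^(5:ℕ) + 20*t^(6:ℕ) + 20*t^(7:ℕ) + 10*t^(8:ℕ) + 10*t^(9:ℕ) + 2*t^(10:ℕ) + 2*t^(11:ℕ)) + (43/245)*(4 + 4*t + 28*t^(2:ℕ) + 28*t^(3:ℕ) + 64*t^(4:ℕ) + 64*t^(5:ℕ) + 64*t^(6:ℕ) + 64*t^(7:ℕ) + 28*t^(8:ℕ) + 28*t^(9:ℕ) + 4*t^(10:ℕ) + 4*t^(11:ℕ)) + (263/8575)*(33*t^(2:ℕ) + 35*t^(3:ℕ) + 103*t^(4:ℕ) + 60*t^(5:ℕ) + 82*t^(6:ℕ) + (-3)*t^(7:ℕ) + 3*t^(8:ℕ) + (-46)*t^(9:ℕ) + (-9)*t^(10:ℕ) +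 (-18)*t^(11:ℕ)) + (8007/1500625)*(2*t^(2:ℕ) + 19*t^(3:ℕ) + 69*t^(4:ℕ) + (-41)*t^(5:ℕ) + 56*t^(6:ℕ) + (-125)*t^(7:ℕ) + (-3)*t^(8:ℕ) + (-73)*t^(9:ℕ) + 8*t^(10:ℕ) + (-8)*t^(11:ℕ)) + (6933/7503125)*(8*t^(2:ℕ) + (-48)*t^(3:ℕ) + 102*t^(4:ℕ) + (-124)*t^(5:ℕ) + 96*t^(6:ℕ) + (-40)*t^(7:ℕ) + (-26)*t^(8:ℕ) + 44*t^(9:ℕ) + (-28)*t^(10:ℕ) + 8*t^(11:ℕ)) + (239/1500625)*((15/4)*t^(4:ℕ) + (-35/2)*t^(5:ℕ) + (101/4)*t^(6:ℕ) + (-35/2)*t^(7:ℕ) + (15/4)*t^(8:ℕ) + 32*t^(9:ℕ) + (-48)*t^(10:ℕ) + 32*t^(11:ℕ)) + (41/1500625)*((-14)*t^(4:ℕ) + 43*t^(5:ℕ) + (-61)*t^(6:ℕ) + 43*t^(7:ℕ) + (-14)*t^(8:ℕ)) + (1/214375)*((-4)*t^(4:ℕ) + 12*t^(5:ℕ) + (-17)*t^(6:ℕ) + 12*t^(7:ℕ) + (-4)*t^(8:ℕ)) -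 (1157/500) := by
  have e : 1*(2 + 2*t + 10*t^(2:ℕ) + 10*t^(3:ℕ) + 20*t^(4:ℕ) + 20*t^(5:ℕ) + 20*t^(6:ℕ) + 20*t^(7:ℕ) + 10*t^(8:ℕ) + 10*t^(9:ℕ) + 2*t^(10:ℕ) + 2*t^(11:ℕ)) + (43/245)*(4 + 4*t + 28*t^(2:ℕ) + 28*t^(3:ℕ) + 64*t^(4:ℕ) + 64*t^(5:ℕ) + 64*t^(6:ℕ) + 64*t^(7:ℕ) + 28*t^(8:ℕ) + 28*t^(9:ℕ) + 4*t^(10:ℕ) + 4*t^(11:ℕ)) + (263/8575)*(33*t^(2:ℕ) + 35*t^(3:ℕ) + 103*t^(4:ℕ) + 60*t^(5:ℕ) + 82*t^(6:ℕ) + (-3)*t^(7:ℕ) + 3*t^(8:ℕ) + (-46)*t^(9:ℕ) + (-9)*t^(10:ℕ) + (-18)*t^(11:ℕ)) + (8007/1500625)*(2*t^(2:ℕ) + 19*t^(3:ℕ) + 69*t^(4:ℕ) + (-41)*t^(5:ℕ) + 56*t^(6:ℕ) + (-125)*t^(7:ℕ) + (-3)*t^(8:ℕ) + (-73)*t^(9:ℕ) + 8*t^(10:ℕ) + (-8)*t^(11:ℕ)) + (6933/7503125)*(8*t^(2:ℕ)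 + (-48)*t^(3:ℕ) + 102*t^(4:ℕ) + (-124)*t^(5:ℕ) + 96*t^(6:ℕ) + (-40)*t^(7:ℕ) + (-26)*t^(8:ℕ) + 44*t^(9:ℕ) + (-28)*t^(10:ℕ) + 8*t^(11:ℕ)) + (239/1500625)*((15/4)*t^(4:ℕ) + (-35/2)*t^(5:ℕ) + (101/4)*t^(6:ℕ) + (-35/2)*t^(7:ℕ) + (15/4)*t^(8:ℕ) + 32*t^(9:ℕ) + (-48)*t^(10:ℕ) + 32*t^(11:ℕ)) + (41/1500625)*((-14)*t^(4:ℕ) + 43*t^(5:ℕ) + (-61)*t^(6:ℕ) + 43*t^(7:ℕ) + (-14)*t^(8:ℕ)) + (1/214375)*((-4)*t^(4:ℕ) + 12*t^(5:ℕ) + (-17)*t^(6:ℕ) + 12*t^(7:ℕ) + (-4)*t^(8:ℕ)) - (1157/500) = (9507/24500)*(1 - t)^(11:ℕ) + (170777/24500)*(t - 0)*(1 - t)^(10:ℕ) + (275716823/4287500)*(t - 0)^(2:ℕ)*(1 - t)^(9:ℕ) + (10359224123/30012500)*(t - 0)^(3:ℕ)*(1 - t)^(8:ℕ) + (35700233547/30012500)*(t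 - 0)^(4:ℕ)*(1 - t)^(7:ℕ) + (84395503491/30012500)*(t - 0)^(5:ℕ)*(1 - t)^(6:ℕ) + (70982676059/15006250)*(t - 0)^(6:ℕ)*(1 - t)^(5:ℕ) + (43065797039/7503125)*(t - 0)^(7:ℕ)*(1 - t)^(4:ℕ) + (149427983641/30012500)*(t - 0)^(8:ℕ)*(1 - t)^(3:ℕ) + (89174466189/30012500)*(t - 0)^(9:ℕ)*(1 - t)^(2:ℕ) + (666059797/600250)*(t - 0)^(10:ℕ)*(1 - t) + (1500064726/7503125)*(t - 0)^(11:ℕ) := by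
    ring
  rw [e]
  have a3 : 0 ≤ t - 0 := by linarith
  have a4 : 0 ≤ 1 - t := by linarith
  generalize t - 0 = t1 at a3 ⊢
  generalize 1 - t = t2 at a4 ⊢
  positivity

lemma pos_L10_A_b5 (t : ℝ) (h3 : 0 ≤ t) (h4 : t ≤ 1) :
    0 ≤ 1*(2 + 2*t + 10*t^(2:ℕ) + 10*t^(3:ℕ) + 20*t^(4:ℕ) + 20*t^(5:ℕ) + 20*t^(6:ℕ) + 20*t^(7:ℕ) + 10*t^(8:ℕ) + 10*t^(9:ℕ) + 2*t^(10:ℕ) + 2*t^(11:ℕ)) + (9/49)*(4 + 4*t + 28*t^(2:ℕ) + 28*t^(3:ℕ) + 64*t^(4:ℕ) + 64*t^(5:ℕ) + 64*t^(6:ℕ) + 64*t^(7:ℕ) + 28*t^(8:ℕ) + 28*t^(9:ℕ) + 4*t^(10:ℕ) + 4*t^(11:ℕ)) + (173/5145)*(33*t^(2:ℕ) + 35*t^(3:ℕ) + 103*t^(4:ℕ) + 60*t^(5:ℕ) + 82*t^(6:ℕ) + (-3)*t^(7:ℕ) + 3*t^(8:ℕ) + (-46)*t^(9:ℕ) + (-9)*t^(10:ℕ) + (-18)*t^(11:ℕ))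 + (263/42875)*(2*t^(2:ℕ) + 19*t^(3:ℕ) + 69*t^(4:ℕ) + (-41)*t^(5:ℕ) + 56*t^(6:ℕ) + (-125)*t^(7:ℕ) + (-3)*t^(8:ℕ) + (-73)*t^(9:ℕ) + 8*t^(10:ℕ) + (-8)*t^(11:ℕ)) + (239/214375)*(8*t^(2:ℕ) + (-48)*t^(3:ℕ) + 102*t^(4:ℕ) + (-124)*t^(5:ℕ) + 96*t^(6:ℕ) + (-40)*t^(7:ℕ) + (-26)*t^(8:ℕ) + 44*t^(9:ℕ) + (-28)*t^(10:ℕ) + 8*t^(11:ℕ)) + (649/3215625)*((15/4)*t^(4:ℕ) + (-35/2)*t^(5:ℕ) + (101/4)*t^(6:ℕ) + (-35/2)*t^(7:ℕ) + (15/4)*t^(8:ℕ) + 32*t^(9:ℕ) + (-48)*t^(10:ℕ) + 32*t^(11:ℕ)) + (39/1071875)*((-14)*t^(4:ℕ) + 43*t^(5:ℕ) + (-61)*t^(6:ℕ) + 43*t^(7:ℕ) + (-14)*t^(8:ℕ)) + (1/153125)*((-4)*t^(4:ℕ) + 12*t^(5:ℕ) + (-17)*t^(6:ℕ) + 12*t^(7:ℕ) + (-4)*t^(8:ℕ)) - (1157/500) := by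
  have e : 1*(2 + 2*t + 10*t^(2:ℕ) + 10*t^(3:ℕ) + 20*t^(4:ℕ) + 20*t^(5:ℕ) + 20*t^(6:ℕ) + 20*t^(7:ℕ) + 10*t^(8:ℕ) + 10*t^(9:ℕ) + 2*t^(10:ℕ) + 2*t^(11:ℕ)) + (9/49)*(4 + 4*t + 28*t^(2:ℕ) + 28*t^(3:ℕ) + 64*t^(4:ℕ) + 64*t^(5:ℕ) + 64*t^(6:ℕ) + 64*t^(7:ℕ) + 28*t^(8:ℕ) + 28*t^(9:ℕ) + 4*t^(10:ℕ) + 4*t^(11:ℕ)) + (173/5145)*(33*t^(2:ℕ) + 35*t^(3:ℕ) + 103*t^(4:ℕ) + 60*t^(5:ℕ) + 82*t^(6:ℕ) + (-3)*t^(7:ℕ) + 3*t^(8:ℕ) + (-46)*t^(9:ℕ) + (-9)*t^(10:ℕ) + (-18)*t^(11:ℕ)) + (263/42875)*(2*t^(2:ℕ) + 19*t^(3:ℕ) + 69*t^(4:ℕ) + (-41)*t^(5:ℕ) + 56*t^(6:ℕ) + (-125)*t^(7:ℕ) + (-3)*t^(8:ℕ) + (-73)*t^(9:ℕ) + 8*t^(10:ℕ) + (-8)*t^(11:ℕ)) + (239/214375)*(8*t^(2:ℕ) + (-48)*t^(3:ℕ) + 102*t^(4:ℕ)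 + (-124)*t^(5:ℕ) + 96*t^(6:ℕ) + (-40)*t^(7:ℕ) + (-26)*t^(8:ℕ) + 44*t^(9:ℕ) + (-28)*t^(10:ℕ) + 8*t^(11:ℕ)) + (649/3215625)*((15/4)*t^(4:ℕ) + (-35/2)*t^(5:ℕ) + (101/4)*t^(6:ℕ) + (-35/2)*t^(7:ℕ) + (15/4)*t^(8:ℕ) + 32*t^(9:ℕ) + (-48)*t^(10:ℕ) + 32*t^(11:ℕ)) + (39/1071875)*((-14)*t^(4:ℕ) + 43*t^(5:ℕ) + (-61)*t^(6:ℕ) + 43*t^(7:ℕ) + (-14)*t^(8:ℕ)) + (1/153125)*((-4)*t^(4:ℕ) + 12*t^(5:ℕ) + (-17)*t^(6:ℕ) + 12*t^(7:ℕ) + (-4)*t^(8:ℕ)) - (1157/500) = (10307/24500)*(1 - t)^(11:ℕ) + (180377/24500)*(t - 0)*(1 - t)^(10:ℕ) + (8177949/122500)*(t - 0)^(2:ℕ)*(1 - t)^(9:ℕ) + (914064467/2572500)*(t - 0)^(3:ℕ)*(1 - t)^(8:ℕ) + (15687901837/12862500)*(t - 0)^(4:ℕ)*(1 - t)^(7:ℕ) +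 (37018558901/12862500)*(t - 0)^(5:ℕ)*(1 - t)^(6:ℕ) + (1481496671/306250)*(t - 0)^(6:ℕ)*(1 - t)^(5:ℕ) + (898571418/153125)*(t - 0)^(7:ℕ)*(1 - t)^(4:ℕ) + (13092184373/2572500)*(t - 0)^(8:ℕ)*(1 - t)^(3:ℕ) + (39048591977/12862500)*(t - 0)^(9:ℕ)*(1 - t)^(2:ℕ) + (3642353804/3215625)*(t - 0)^(10:ℕ)*(1 - t) + (1309990631/6431250)*(t - 0)^(11:ℕ) := by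
    ring
  rw [e]
  have a3 : 0 ≤ t - 0 := by linarith
  have a4 : 0 ≤ 1 - t := by linarith
  generalize t - 0 = t1 at a3 ⊢
  generalize 1 - t = t2 at a4 ⊢
  positivity

lemma pos_L10_A_b6 (t : ℝ) (h3 : 0 ≤ t) (h4 : t ≤ 1) :
    0 ≤ 1*(2 + 2*t + 10*t^(2:ℕ) + 10*t^(3:ℕ) + 20*t^(4:ℕ) + 20*t^(5:ℕ) + 20*t^(6:ℕ) + 20*t^(7:ℕ) + 10*t^(8:ℕ) + 10*t^(9:ℕ) + 2*t^(10:ℕ) + 2*t^(11:ℕ)) + (47/245)*(4 + 4*t + 28*t^(2:ℕ) + 28*t^(3:ℕ) + 64*t^(4:ℕ) + 64*t^(5:ℕ) + 64*t^(6:ℕ) + 64*t^(7:ℕ) + 28*t^(8:ℕ) + 28*t^(9:ℕ) + 4*t^(10:ℕ) + 4*t^(11:ℕ)) + (9/245)*(33*t^(2:ℕ) + 35*t^(3:ℕ) + 103*t^(4:ℕ) + 60*t^(5:ℕ) + 82*t^(6:ℕ) + (-3)*t^(7:ℕ) + 3*t^(8:ℕ) + (-46)*t^(9:ℕ) + (-9)*t^(10:ℕ) + (-18)*t^(11:ℕ))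 + (43/6125)*(2*t^(2:ℕ) + 19*t^(3:ℕ) + 69*t^(4:ℕ) + (-41)*t^(5:ℕ) + 56*t^(6:ℕ) + (-125)*t^(7:ℕ) + (-3)*t^(8:ℕ) + (-73)*t^(9:ℕ) + 8*t^(10:ℕ) + (-8)*t^(11:ℕ)) + (41/30625)*(8*t^(2:ℕ) + (-48)*t^(3:ℕ) + 102*t^(4:ℕ) + (-124)*t^(5:ℕ) + 96*t^(6:ℕ) + (-40)*t^(7:ℕ) + (-26)*t^(8:ℕ) + 44*t^(9:ℕ) + (-28)*t^(10:ℕ) + 8*t^(11:ℕ)) + (39/153125)*((15/4)*t^(4:ℕ) + (-35/2)*t^(5:ℕ) + (101/4)*t^(6:ℕ) + (-35/2)*t^(7:ℕ) + (15/4)*t^(8:ℕ) + 32*t^(9:ℕ) + (-48)*t^(10:ℕ) + 32*t^(11:ℕ)) + (37/765625)*((-14)*t^(4:ℕ) + 43*t^(5:ℕ) + (-61)*t^(6:ℕ) + 43*t^(7:ℕ) + (-14)*t^(8:ℕ)) + (1/109375)*((-4)*t^(4:ℕ) + 12*t^(5:ℕ) + (-17)*t^(6:ℕ) + 12*t^(7:ℕ) + (-4)*t^(8:ℕ)) - (1157/500) := by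
  have e : 1*(2 + 2*t + 10*t^(2:ℕ) + 10*t^(3:ℕ) + 20*t^(4:ℕ) + 20*t^(5:ℕ) + 20*t^(6:ℕ) + 20*t^(7:ℕ) + 10*t^(8:ℕ) + 10*t^(9:ℕ) + 2*t^(10:ℕ) + 2*t^(11:ℕ)) + (47/245)*(4 + 4*t + 28*t^(2:ℕ) + 28*t^(3:ℕ) + 64*t^(4:ℕ) + 64*t^(5:ℕ) + 64*t^(6:ℕ) + 64*t^(7:ℕ) + 28*t^(8:ℕ) + 28*t^(9:ℕ) + 4*t^(10:ℕ) + 4*t^(11:ℕ)) + (9/245)*(33*t^(2:ℕ) + 35*t^(3:ℕ) + 103*t^(4:ℕ) + 60*t^(5:ℕ) + 82*t^(6:ℕ) + (-3)*t^(7:ℕ) + 3*t^(8:ℕ) + (-46)*t^(9:ℕ) + (-9)*t^(10:ℕ) + (-18)*t^(11:ℕ)) + (43/6125)*(2*t^(2:ℕ) + 19*t^(3:ℕ) + 69*t^(4:ℕ) + (-41)*t^(5:ℕ) + 56*t^(6:ℕ) + (-125)*t^(7:ℕ) + (-3)*t^(8:ℕ) + (-73)*t^(9:ℕ) + 8*t^(10:ℕ) + (-8)*t^(11:ℕ)) + (41/30625)*(8*t^(2:ℕ) + (-48)*t^(3:ℕ) + 102*t^(4:ℕ)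 + (-124)*t^(5:ℕ) + 96*t^(6:ℕ) + (-40)*t^(7:ℕ) + (-26)*t^(8:ℕ) + 44*t^(9:ℕ) + (-28)*t^(10:ℕ) + 8*t^(11:ℕ)) + (39/153125)*((15/4)*t^(4:ℕ) + (-35/2)*t^(5:ℕ) + (101/4)*t^(6:ℕ) + (-35/2)*t^(7:ℕ) + (15/4)*t^(8:ℕ) + 32*t^(9:ℕ) + (-48)*t^(10:ℕ) + 32*t^(11:ℕ)) + (37/765625)*((-14)*t^(4:ℕ) + 43*t^(5:ℕ) + (-61)*t^(6:ℕ) + 43*t^(7:ℕ) + (-14)*t^(8:ℕ)) + (1/109375)*((-4)*t^(4:ℕ) + 12*t^(5:ℕ) + (-17)*t^(6:ℕ) + 12*t^(7:ℕ) + (-4)*t^(8:ℕ)) - (1157/500) = (11107/24500)*(1 - t)^(11:ℕ) + (189977/24500)*(t - 0)*(1 - t)^(10:ℕ) + (8478957/122500)*(t - 0)^(2:ℕ)*(1 - t)^(9:ℕ) + (44778031/122500)*(t - 0)^(3:ℕ)*(1 - t)^(8:ℕ) + (3828376091/3062500)*(t - 0)^(4:ℕ)*(1 - t)^(7:ℕ) + (9018556787/3062500)*(t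 - 0)^(5:ℕ)*(1 - t)^(6:ℕ) + (7574250351/1531250)*(t - 0)^(6:ℕ)*(1 - t)^(5:ℕ) + (918569837/153125)*(t - 0)^(7:ℕ)*(1 - t)^(4:ℕ) + (325097989/62500)*(t - 0)^(8:ℕ)*(1 - t)^(3:ℕ) + (9498292529/3062500)*(t - 0)^(9:ℕ)*(1 - t)^(2:ℕ) + (354049447/306250)*(t - 0)^(10:ℕ)*(1 - t) + (158856707/765625)*(t - 0)^(11:ℕ) := by
    ring
  rw [e]
  have a3 : 0 ≤ t - 0 := by linarith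
  have a4 : 0 ≤ 1 - t := by linarith
  generalize t - 0 = t1 at a3 ⊢
  generalize 1 - t = t2 at a4 ⊢
  positivity

lemma pos_L10_A_b7 (t : ℝ) (h3 : 0 ≤ t) (h4 : t ≤ 1) :
    0 ≤ 1*(2 + 2*t + 10*t^(2:ℕ) + 10*t^(3:ℕ) + 20*t^(4:ℕ) + 20*t^(5:ℕ) + 20*t^(6:ℕ) + 20*t^(7:ℕ) + 10*t^(8:ℕ) + 10*t^(9:ℕ) + 2*t^(10:ℕ) + 2*t^(11:ℕ)) + (1/5)*(4 + 4*t + 28*t^(2:ℕ) + 28*t^(3:ℕ) + 64*t^(4:ℕ) + 64*t^(5:ℕ) + 64*t^(6:ℕ) + 64*t^(7:ℕ) + 28*t^(8:ℕ) + 28*t^(9:ℕ) + 4*t^(10:ℕ) + 4*t^(11:ℕ)) + (1/25)*(33*t^(2:ℕ) + 35*t^(3:ℕ) + 103*t^(4:ℕ) + 60*t^(5:ℕ) + 82*t^(6:ℕ) + (-3)*t^(7:ℕ) + 3*t^(8:ℕ) + (-46)*t^(9:ℕ) + (-9)*t^(10:ℕ) + (-18)*t^(11:ℕ)) + (1/125)*(2*t^(2:ℕ) + 19*t^(3:ℕ) + 69*t^(4:ℕ)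 + (-41)*t^(5:ℕ) + 56*t^(6:ℕ) + (-125)*t^(7:ℕ) + (-3)*t^(8:ℕ) + (-73)*t^(9:ℕ) + 8*t^(10:ℕ) + (-8)*t^(11:ℕ)) + (1/625)*(8*t^(2:ℕ) + (-48)*t^(3:ℕ) + 102*t^(4:ℕ) + (-124)*t^(5:ℕ) + 96*t^(6:ℕ) + (-40)*t^(7:ℕ) + (-26)*t^(8:ℕ) + 44*t^(9:ℕ) + (-28)*t^(10:ℕ) + 8*t^(11:ℕ)) + (1/3125)*((15/4)*t^(4:ℕ) + (-35/2)*t^(5:ℕ) + (101/4)*t^(6:ℕ) + (-35/2)*t^(7:ℕ) + (15/4)*t^(8:ℕ) + 32*t^(9:ℕ) + (-48)*t^(10:ℕ) + 32*t^(11:ℕ)) + (1/15625)*((-14)*t^(4:ℕ) + 43*t^(5:ℕ) + (-61)*t^(6:ℕ) + 43*t^(7:ℕ) + (-14)*t^(8:ℕ)) + (1/78125)*((-4)*t^(4:ℕ) + 12*t^(5:ℕ) + (-17)*t^(6:ℕ) + 12*t^(7:ℕ) + (-4)*t^(8:ℕ)) - (1157/500) := by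
  have e : 1*(2 + 2*t + 10*t^(2:ℕ) + 10*t^(3:ℕ) + 20*t^(4:ℕ) + 20*t^(5:ℕ) + 20*t^(6:ℕ) + 20*t^(7:ℕ) + 10*t^(8:ℕ) + 10*t^(9:ℕ) + 2*t^(10:ℕ) + 2*t^(11:ℕ)) + (1/5)*(4 + 4*t + 28*t^(2:ℕ) + 28*t^(3:ℕ) + 64*t^(4:ℕ) + 64*t^(5:ℕ) + 64*t^(6:ℕ) + 64*t^(7:ℕ) + 28*t^(8:ℕ) + 28*t^(9:ℕ) + 4*t^(10:ℕ) + 4*t^(11:ℕ)) + (1/25)*(33*t^(2:ℕ) + 35*t^(3:ℕ) + 103*t^(4:ℕ) + 60*t^(5:ℕ) + 82*t^(6:ℕ) + (-3)*t^(7:ℕ) + 3*t^(8:ℕ) + (-46)*t^(9:ℕ) + (-9)*t^(10:ℕ) + (-18)*t^(11:ℕ)) + (1/125)*(2*t^(2:ℕ) + 19*t^(3:ℕ) + 69*t^(4:ℕ) + (-41)*t^(5:ℕ) + 56*t^(6:ℕ) + (-125)*t^(7:ℕ) + (-3)*t^(8:ℕ) + (-73)*t^(9:ℕ) + 8*t^(10:ℕ) + (-8)*t^(11:ℕ)) + (1/625)*(8*t^(2:ℕ) + (-48)*t^(3:ℕ) + 102*t^(4:ℕ) + (-124)*t^(5:ℕ)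 + 96*t^(6:ℕ) + (-40)*t^(7:ℕ) + (-26)*t^(8:ℕ) + 44*t^(9:ℕ) + (-28)*t^(10:ℕ) + 8*t^(11:ℕ)) + (1/3125)*((15/4)*t^(4:ℕ) + (-35/2)*t^(5:ℕ) + (101/4)*t^(6:ℕ) + (-35/2)*t^(7:ℕ) + (15/4)*t^(8:ℕ) + 32*t^(9:ℕ) + (-48)*t^(10:ℕ) + 32*t^(11:ℕ)) + (1/15625)*((-14)*t^(4:ℕ) + 43*t^(5:ℕ) + (-61)*t^(6:ℕ) + 43*t^(7:ℕ) + (-14)*t^(8:ℕ)) + (1/78125)*((-4)*t^(4:ℕ) + 12*t^(5:ℕ) + (-17)*t^(6:ℕ) + 12*t^(7:ℕ) + (-4)*t^(8:ℕ)) - (1157/500) = (243/500)*(1 - t)^(11:ℕ) + (4073/500)*(t - 0)*(1 - t)^(10:ℕ) + (179197/2500)*(t - 0)^(2:ℕ)*(1 - t)^(9:ℕ) + (939511/2500)*(t - 0)^(3:ℕ)*(1 - t)^(8:ℕ) + (400241829/312500)*(t - 0)^(4:ℕ)*(1 - t)^(7:ℕ) + (941392461/312500)*(t - 0)^(5:ℕ)*(1 - t)^(6:ℕ)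 + (790148047/156250)*(t - 0)^(6:ℕ)*(1 - t)^(5:ℕ) + (479026432/78125)*(t - 0)^(7:ℕ)*(1 - t)^(4:ℕ) + (1661163381/312500)*(t - 0)^(8:ℕ)*(1 - t)^(3:ℕ) + (990048909/312500)*(t - 0)^(9:ℕ)*(1 - t)^(2:ℕ) + (18433789/15625)*(t - 0)^(10:ℕ)*(1 - t) + (33017093/156250)*(t - 0)^(11:ℕ) := by
    ring
  rw [e]
  have a3 : 0 ≤ t - 0 := by linarith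
  have a4 : 0 ≤ 1 - t := by linarith
  generalize t - 0 = t1 at a3 ⊢
  generalize 1 - t = t2 at a4 ⊢
  positivity

lemma pos_L10_A_id (d : ℝ) (C0 C1 C2 C3 C4 C5 C6 C7 : ℝ) :
    C0 + d*C1 + d^(2:ℕ)*C2 + d^(3:ℕ)*C3 + d^(4:ℕ)*C4 + d^(5:ℕ)*C5 + d^(6:ℕ)*C6 + d^(7:ℕ)*C7 = (1157/500) + ((64339296875/128)*((1/5) - d)^(7:ℕ)*(1*C0 + (1/7)*C1 + (1/49)*C2 + (1/343)*C3 + (1/2401)*C4 + (1/16807)*C5 + (1/117649)*C6 + (1/823543)*C7 - (1157/500)) + (450375078125/128)*(d - (1/7))*((1/5) - d)^(6:ℕ)*(1*C0 + (37/245)*C1 + (39/1715)*C2 + (41/12005)*C3 + (43/84035)*C4 + (9/117649)*C5 + (47/4117715)*C6 + (1/588245)*C7 - (1157/500)) + (1351125234375/128)*(d - (1/7))^(2:ℕ)*((1/5)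 - d)^(5:ℕ)*(1*C0 + (39/245)*C1 + (649/25725)*C2 + (239/60025)*C3 + (263/420175)*C4 + (173/1764735)*C5 + (9/588245)*C6 + (1/420175)*C7 - (1157/500)) + (2251875390625/128)*(d - (1/7))^(3:ℕ)*((1/5) - d)^(4:ℕ)*(1*C0 + (41/245)*C1 + (239/8575)*C2 + (6933/1500625)*C3 + (8007/10504375)*C4 + (263/2100875)*C5 + (43/2100875)*C6 + (1/300125)*C7 - (1157/500)) + (2251875390625/128)*(d - (1/7))^(4:ℕ)*((1/5) - d)^(3:ℕ)*(1*C0 + (43/245)*C1 + (263/8575)*C2 + (8007/1500625)*C3 + (6933/7503125)*C4 + (239/1500625)*C5 + (41/1500625)*C6 + (1/214375)*C7 - (1157/500)) + (1351125234375/128)*(d - (1/7))^(5:ℕ)*((1/5) - d)^(2:ℕ)*(1*C0 + (9/49)*C1 + (173/5145)*C2 + (263/42875)*C3 + (239/214375)*C4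 + (649/3215625)*C5 + (39/1071875)*C6 + (1/153125)*C7 - (1157/500)) + (450375078125/128)*(d - (1/7))^(6:ℕ)*((1/5) - d)*(1*C0 + (47/245)*C1 + (9/245)*C2 + (43/6125)*C3 + (41/30625)*C4 + (39/153125)*C5 + (37/765625)*C6 + (1/109375)*C7 - (1157/500)) + (64339296875/128)*(d - (1/7))^(7:ℕ)*(1*C0 + (1/5)*C1 + (1/25)*C2 + (1/125)*C3 + (1/625)*C4 + (1/3125)*C5 + (1/15625)*C6 + (1/78125)*C7 - (1157/500))) := by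
  ring

lemma pos_L10_A_gen (d1 d2 B0 B1 B2 B3 B4 B5 B6 B7 : ℝ) (a1 : 0 ≤ d1) (a2 : 0 ≤ d2) (b0 : 0 ≤ B0) (b1 : 0 ≤ B1) (b2 : 0 ≤ B2) (b3 : 0 ≤ B3) (b4 : 0 ≤ B4) (b5 : 0 ≤ B5) (b6 : 0 ≤ B6) (b7 : 0 ≤ B7) :
    0 < (1157/500) + ((64339296875/128)*d2^(7:ℕ)*(B0) + (450375078125/128)*d1*d2^(6:ℕ)*(B1) + (1351125234375/128)*d1^(2:ℕ)*d2^(5:ℕ)*(B2) + (2251875390625/128)*d1^(3:ℕ)*d2^(4:ℕ)*(B3) + (2251875390625/128)*d1^(4:ℕ)*d2^(3:ℕ)*(B4) + (1351125234375/128)*d1^(5:ℕ)*d2^(2:ℕ)*(B5) + (450375078125/128)*d1^(6:ℕ)*d2*(B6) + (64339296875/128)*d1^(7:ℕ)*(B7)) := by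
  positivity

lemma pos_L10_A_core (d C0 C1 C2 C3 C4 C5 C6 C7 : ℝ) (h1 : (1/7) ≤ d) (h2 : d ≤ (1/5))
    (b0 : 0 ≤ 1*C0 + (1/7)*C1 + (1/49)*C2 + (1/343)*C3 + (1/2401)*C4 + (1/16807)*C5 + (1/117649)*C6 + (1/823543)*C7 - (1157/500))
    (b1 : 0 ≤ 1*C0 + (37/245)*C1 + (39/1715)*C2 + (41/12005)*C3 + (43/84035)*C4 + (9/117649)*C5 + (47/4117715)*C6 + (1/588245)*C7 - (1157/500))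
    (b2 : 0 ≤ 1*C0 + (39/245)*C1 + (649/25725)*C2 + (239/60025)*C3 + (263/420175)*C4 + (173/1764735)*C5 + (9/588245)*C6 + (1/420175)*C7 - (1157/500))
    (b3 : 0 ≤ 1*C0 + (41/245)*C1 + (239/8575)*C2 + (6933/1500625)*C3 + (8007/10504375)*C4 + (263/2100875)*C5 + (43/2100875)*C6 + (1/300125)*C7 - (1157/500))
    (b4 : 0 ≤ 1*C0 + (43/245)*C1 + (263/8575)*C2 + (8007/1500625)*C3 + (6933/7503125)*C4 + (239/1500625)*C5 + (41/1500625)*C6 + (1/214375)*C7 - (1157/500))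
    (b5 : 0 ≤ 1*C0 + (9/49)*C1 + (173/5145)*C2 + (263/42875)*C3 + (239/214375)*C4 + (649/3215625)*C5 + (39/1071875)*C6 + (1/153125)*C7 - (1157/500))
    (b6 : 0 ≤ 1*C0 + (47/245)*C1 + (9/245)*C2 + (43/6125)*C3 + (41/30625)*C4 + (39/153125)*C5 + (37/765625)*C6 + (1/109375)*C7 - (1157/500))
    (b7 : 0 ≤ 1*C0 + (1/5)*C1 + (1/25)*C2 + (1/125)*C3 + (1/625)*C4 + (1/3125)*C5 + (1/15625)*C6 + (1/78125)*C7 - (1157/500)) :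
    0 < C0 + d*C1 + d^(2:ℕ)*C2 + d^(3:ℕ)*C3 + d^(4:ℕ)*C4 + d^(5:ℕ)*C5 + d^(6:ℕ)*C6 + d^(7:ℕ)*C7 := by
  rw [pos_L10_A_id]
  exact pos_L10_A_gen _ _ _ _ _ _ _ _ _ _ (sub_nonneg.2 h1) (sub_nonneg.2 h2) b0 b1 b2 b3 b4 b5 b6 b7

lemma pos_L10_A (d t : ℝ) (h1 : (1/7) ≤ d) (h2 : d ≤ (1/5)) (h3 : 0 ≤ t) (h4 : t ≤ 1) :
    0 < 2 + 2*t + 10*t^(2:ℕ) + 10*t^(3:ℕ) + 20*t^(4:ℕ) + 20*t^(5:ℕ) + 20*t^(6:ℕ) + 20*t^(7:ℕ) + 10*t^(8:ℕ) + 10*t^(9:ℕ) + 2*t^(10:ℕ) + 2*t^(11:ℕ) + 4*d + 4*d*t + 28*d*t^(2:ℕ) + 28*d*t^(3:ℕ) + 64*d*t^(4:ℕ) + 64*d*t^(5:ℕ) + 64*d*t^(6:ℕ) + 64*d*t^(7:ℕ) + 28*d*t^(8:ℕ) + 28*d*t^(9:ℕ) + 4*d*t^(10:ℕ) + 4*d*t^(11:ℕ) + 33*d^(2:ℕ)*t^(2:ℕ) + 35*d^(2:ℕ)*t^(3:ℕ)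 + 103*d^(2:ℕ)*t^(4:ℕ) + 60*d^(2:ℕ)*t^(5:ℕ) + 82*d^(2:ℕ)*t^(6:ℕ) + (-3)*d^(2:ℕ)*t^(7:ℕ) + 3*d^(2:ℕ)*t^(8:ℕ) + (-46)*d^(2:ℕ)*t^(9:ℕ) + (-9)*d^(2:ℕ)*t^(10:ℕ) + (-18)*d^(2:ℕ)*t^(11:ℕ) + 2*d^(3:ℕ)*t^(2:ℕ) + 19*d^(3:ℕ)*t^(3:ℕ) + 69*d^(3:ℕ)*t^(4:ℕ) + (-41)*d^(3:ℕ)*t^(5:ℕ) + 56*d^(3:ℕ)*t^(6:ℕ) + (-125)*d^(3:ℕ)*t^(7:ℕ) + (-3)*d^(3:ℕ)*t^(8:ℕ) + (-73)*d^(3:ℕ)*t^(9:ℕ) + 8*d^(3:ℕ)*t^(10:ℕ) + (-8)*d^(3:ℕ)*t^(11:ℕ) + 8*d^(4:ℕ)*t^(2:ℕ) + (-48)*d^(4:ℕ)*t^(3:ℕ) + 102*d^(4:ℕ)*t^(4:ℕ) + (-124)*d^(4:ℕ)*t^(5:ℕ) + 96*d^(4:ℕ)*t^(6:ℕ) + (-40)*d^(4:ℕ)*t^(7:ℕ) + (-26)*d^(4:ℕ)*t^(8:ℕ) + 44*d^(4:ℕ)*t^(9:ℕ) + (-28)*d^(4:ℕ)*t^(10:ℕ) + 8*d^(4:ℕ)*t^(11:ℕ) + (15/4)*d^(5:ℕ)*t^(4:ℕ) + (-35/2)*d^(5:ℕ)*t^(5:ℕ)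 + (101/4)*d^(5:ℕ)*t^(6:ℕ) + (-35/2)*d^(5:ℕ)*t^(7:ℕ) + (15/4)*d^(5:ℕ)*t^(8:ℕ) + 32*d^(5:ℕ)*t^(9:ℕ) + (-48)*d^(5:ℕ)*t^(10:ℕ) + 32*d^(5:ℕ)*t^(11:ℕ) + (-14)*d^(6:ℕ)*t^(4:ℕ) + 43*d^(6:ℕ)*t^(5:ℕ) + (-61)*d^(6:ℕ)*t^(6:ℕ) + 43*d^(6:ℕ)*t^(7:ℕ) + (-14)*d^(6:ℕ)*t^(8:ℕ) + (-4)*d^(7:ℕ)*t^(4:ℕ) + 12*d^(7:ℕ)*t^(5:ℕ) + (-17)*d^(7:ℕ)*t^(6:ℕ) + 12*d^(7:ℕ)*t^(7:ℕ) + (-4)*d^(7:ℕ)*t^(8:ℕ) := by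
  have e0 : 2 + 2*t + 10*t^(2:ℕ) + 10*t^(3:ℕ) + 20*t^(4:ℕ) + 20*t^(5:ℕ) + 20*t^(6:ℕ) + 20*t^(7:ℕ) + 10*t^(8:ℕ) + 10*t^(9:ℕ) + 2*t^(10:ℕ) + 2*t^(11:ℕ) + 4*d + 4*d*t + 28*d*t^(2:ℕ) + 28*d*t^(3:ℕ) + 64*d*t^(4:ℕ) + 64*d*t^(5:ℕ) + 64*d*t^(6:ℕ) + 64*d*t^(7:ℕ) + 28*d*t^(8:ℕ) + 28*d*t^(9:ℕ) + 4*d*t^(10:ℕ) + 4*d*t^(11:ℕ) + 33*d^(2:ℕ)*t^(2:ℕ) + 35*d^(2:ℕ)*t^(3:ℕ) + 103*d^(2:ℕ)*t^(4:ℕ) + 60*d^(2:ℕ)*t^(5:ℕ) + 82*d^(2:ℕ)*t^(6:ℕ) + (-3)*d^(2:ℕ)*t^(7:ℕ) + 3*d^(2:ℕ)*t^(8:ℕ) + (-46)*d^(2:ℕ)*t^(9:ℕ) + (-9)*d^(2:ℕ)*t^(10:ℕ) + (-18)*d^(2:ℕ)*t^(11:ℕ) + 2*d^(3:ℕ)*t^(2:ℕ) + 19*d^(3:ℕ)*t^(3:ℕ) + 69*d^(3:ℕ)*t^(4:ℕ) + (-41)*d^(3:ℕ)*t^(5:ℕ) + 56*d^(3:ℕ)*t^(6:ℕ) + (-125)*d^(3:ℕ)*t^(7:ℕ)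 + (-3)*d^(3:ℕ)*t^(8:ℕ) + (-73)*d^(3:ℕ)*t^(9:ℕ) + 8*d^(3:ℕ)*t^(10:ℕ) + (-8)*d^(3:ℕ)*t^(11:ℕ) + 8*d^(4:ℕ)*t^(2:ℕ) + (-48)*d^(4:ℕ)*t^(3:ℕ) + 102*d^(4:ℕ)*t^(4:ℕ) + (-124)*d^(4:ℕ)*t^(5:ℕ) + 96*d^(4:ℕ)*t^(6:ℕ) + (-40)*d^(4:ℕ)*t^(7:ℕ) + (-26)*d^(4:ℕ)*t^(8:ℕ) + 44*d^(4:ℕ)*t^(9:ℕ) + (-28)*d^(4:ℕ)*t^(10:ℕ) + 8*d^(4:ℕ)*t^(11:ℕ) + (15/4)*d^(5:ℕ)*t^(4:ℕ) + (-35/2)*d^(5:ℕ)*t^(5:ℕ) + (101/4)*d^(5:ℕ)*t^(6:ℕ) + (-35/2)*d^(5:ℕ)*t^(7:ℕ) + (15/4)*d^(5:ℕ)*t^(8:ℕ) + 32*d^(5:ℕ)*t^(9:ℕ) + (-48)*d^(5:ℕ)*t^(10:ℕ) + 32*d^(5:ℕ)*t^(11:ℕ) + (-14)*d^(6:ℕ)*t^(4:ℕ) + 43*d^(6:ℕ)*t^(5:ℕ) + (-61)*d^(6:ℕ)*t^(6:ℕ) + 43*d^(6:ℕ)*t^(7:ℕ) + (-14)*d^(6:ℕ)*t^(8:ℕ) + (-4)*d^(7:ℕ)*t^(4:ℕ) + 12*d^(7:ℕ)*t^(5:ℕ)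 + (-17)*d^(7:ℕ)*t^(6:ℕ) + 12*d^(7:ℕ)*t^(7:ℕ) + (-4)*d^(7:ℕ)*t^(8:ℕ) = (2 + 2*t + 10*t^(2:ℕ) + 10*t^(3:ℕ) + 20*t^(4:ℕ) + 20*t^(5:ℕ) + 20*t^(6:ℕ) + 20*t^(7:ℕ) + 10*t^(8:ℕ) + 10*t^(9:ℕ) + 2*t^(10:ℕ) + 2*t^(11:ℕ)) + d*(4 + 4*t + 28*t^(2:ℕ) + 28*t^(3:ℕ) + 64*t^(4:ℕ) + 64*t^(5:ℕ) + 64*t^(6:ℕ) + 64*t^(7:ℕ) + 28*t^(8:ℕ) + 28*t^(9:ℕ) + 4*t^(10:ℕ) + 4*t^(11:ℕ)) + d^(2:ℕ)*(33*t^(2:ℕ) + 35*t^(3:ℕ) + 103*t^(4:ℕ) + 60*t^(5:ℕ) + 82*t^(6:ℕ) + (-3)*t^(7:ℕ) + 3*t^(8:ℕ) + (-46)*t^(9:ℕ) + (-9)*t^(10:ℕ) + (-18)*t^(11:ℕ)) + d^(3:ℕ)*(2*t^(2:ℕ) + 19*t^(3:ℕ) + 69*t^(4:ℕ) + (-41)*t^(5:ℕ) + 56*t^(6:ℕ) + (-125)*t^(7:ℕ) + (-3)*t^(8:ℕ) + (-73)*t^(9:ℕ) + 8*t^(10:ℕ) + (-8)*t^(11:ℕ)) + d^(4:ℕ)*(8*t^(2:ℕ)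 + (-48)*t^(3:ℕ) + 102*t^(4:ℕ) + (-124)*t^(5:ℕ) + 96*t^(6:ℕ) + (-40)*t^(7:ℕ) + (-26)*t^(8:ℕ) + 44*t^(9:ℕ) + (-28)*t^(10:ℕ) + 8*t^(11:ℕ)) + d^(5:ℕ)*((15/4)*t^(4:ℕ) + (-35/2)*t^(5:ℕ) + (101/4)*t^(6:ℕ) + (-35/2)*t^(7:ℕ) + (15/4)*t^(8:ℕ) + 32*t^(9:ℕ) + (-48)*t^(10:ℕ) + 32*t^(11:ℕ)) + d^(6:ℕ)*((-14)*t^(4:ℕ) + 43*t^(5:ℕ) + (-61)*t^(6:ℕ) + 43*t^(7:ℕ) + (-14)*t^(8:ℕ)) + d^(7:ℕ)*((-4)*t^(4:ℕ) + 12*t^(5:ℕ) + (-17)*t^(6:ℕ) + 12*t^(7:ℕ) + (-4)*t^(8:ℕ)) := by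
    ring
  rw [e0]
  exact pos_L10_A_core d _ _ _ _ _ _ _ _ h1 h2 (pos_L10_A_b0 t h3 h4) (pos_L10_A_b1 t h3 h4) (pos_L10_A_b2 t h3 h4) (pos_L10_A_b3 t h3 h4) (pos_L10_A_b4 t h3 h4) (pos_L10_A_b5 t h3 h4) (pos_L10_A_b6 t h3 h4) (pos_L10_A_b7 t h3 h4)

lemma pos_L20_A_b0 (t : ℝ) (h3 : 0 ≤ t) (h4 : t ≤ 1) :
    0 ≤ 1*(2 + 2*t + 10*t^(2:ℕ) + 10*t^(3:ℕ) + 20*t^(4:ℕ) + 20*t^(5:ℕ) + 20*t^(6:ℕ) + 20*t^(7:ℕ) + 10*t^(8:ℕ) + 10*t^(9:ℕ) + 2*t^(10:ℕ) + 2*t^(11:ℕ)) + (1/7)*(4 + 3*t + (59/2)*t^(2:ℕ) + 23*t^(3:ℕ) + 70*t^(4:ℕ) + 54*t^(5:ℕ) + 73*t^(6:ℕ) + 54*t^(7:ℕ) + 34*t^(8:ℕ) + 23*t^(9:ℕ) + (11/2)*t^(10:ℕ) + 3*t^(11:ℕ)) + (1/49)*((-16) + (-16)*t + (-32)*t^(2:ℕ) + (-28)*t^(3:ℕ)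 + 36*t^(4:ℕ) + 25*t^(5:ℕ) + 113*t^(6:ℕ) + 48*t^(7:ℕ) + 70*t^(8:ℕ) + 5*t^(9:ℕ) + 9*t^(10:ℕ) + (-6)*t^(11:ℕ)) + (1/343)*((-41)*t^(2:ℕ) + (-48)*t^(3:ℕ) + (-55)*t^(4:ℕ) + (-31)*t^(5:ℕ) + 51*t^(6:ℕ) + (-14)*t^(7:ℕ) + 81*t^(8:ℕ) + (-43)*t^(9:ℕ) + 16*t^(10:ℕ) + (-12)*t^(11:ℕ)) + (1/2401)*(32*t^(2:ℕ) + (-16)*t^(3:ℕ) + 4*t^(4:ℕ) + 22*t^(5:ℕ) + (-24)*t^(6:ℕ) + 28*t^(7:ℕ) + 12*t^(8:ℕ) + (-18)*t^(9:ℕ) + 8*t^(10:ℕ) + (-8)*t^(11:ℕ)) + (1/16807)*((-32)*t^(2:ℕ) + (167/4)*t^(3:ℕ) + (-12)*t^(4:ℕ) + (-79/2)*t^(5:ℕ) + (121/2)*t^(6:ℕ) + (-261/4)*t^(7:ℕ) + (87/2)*t^(8:ℕ) + (-61/4)*t^(9:ℕ) + 3*t^(10:ℕ) + (-1)*t^(11:ℕ)) + (1/117649)*(10*t^(5:ℕ) + (-31)*t^(6:ℕ) + 40*t^(7:ℕ) + (-19)*t^(8:ℕ)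 + (-7)*t^(9:ℕ) + 12*t^(10:ℕ) + (-4)*t^(11:ℕ)) + (1/823543)*((-4)*t^(7:ℕ) + 12*t^(8:ℕ) + (-17)*t^(9:ℕ) + 12*t^(10:ℕ) + (-4)*t^(11:ℕ)) - (243/125) := by
  have e : 1*(2 + 2*t + 10*t^(2:ℕ) + 10*t^(3:ℕ) + 20*t^(4:ℕ) + 20*t^(5:ℕ) + 20*t^(6:ℕ) + 20*t^(7:ℕ) + 10*t^(8:ℕ) + 10*t^(9:ℕ) + 2*t^(10:ℕ) + 2*t^(11:ℕ)) + (1/7)*(4 + 3*t + (59/2)*t^(2:ℕ) + 23*t^(3:ℕ) + 70*t^(4:ℕ) + 54*t^(5:ℕ) + 73*t^(6:ℕ) + 54*t^(7:ℕ) + 34*t^(8:ℕ) + 23*t^(9:ℕ) + (11/2)*t^(10:ℕ) + 3*t^(11:ℕ)) + (1/49)*((-16) + (-16)*t + (-32)*t^(2:ℕ) + (-28)*t^(3:ℕ) + 36*t^(4:ℕ) + 25*t^(5:ℕ) + 113*t^(6:ℕ) + 48*t^(7:ℕ) + 70*t^(8:ℕ) + 5*t^(9:ℕ) + 9*t^(10:ℕ) + (-6)*t^(11:ℕ)) + (1/343)*((-41)*t^(2:ℕ) + (-48)*t^(3:ℕ)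 + (-55)*t^(4:ℕ) + (-31)*t^(5:ℕ) + 51*t^(6:ℕ) + (-14)*t^(7:ℕ) + 81*t^(8:ℕ) + (-43)*t^(9:ℕ) + 16*t^(10:ℕ) + (-12)*t^(11:ℕ)) + (1/2401)*(32*t^(2:ℕ) + (-16)*t^(3:ℕ) + 4*t^(4:ℕ) + 22*t^(5:ℕ) + (-24)*t^(6:ℕ) + 28*t^(7:ℕ) + 12*t^(8:ℕ) + (-18)*t^(9:ℕ) + 8*t^(10:ℕ) + (-8)*t^(11:ℕ)) + (1/16807)*((-32)*t^(2:ℕ) + (167/4)*t^(3:ℕ) + (-12)*t^(4:ℕ) + (-79/2)*t^(5:ℕ) + (121/2)*t^(6:ℕ) + (-261/4)*t^(7:ℕ) + (87/2)*t^(8:ℕ) + (-61/4)*t^(9:ℕ) + 3*t^(10:ℕ) + (-1)*t^(11:ℕ)) + (1/117649)*(10*t^(5:ℕ) + (-31)*t^(6:ℕ) + 40*t^(7:ℕ) + (-19)*t^(8:ℕ) + (-7)*t^(9:ℕ) + 12*t^(10:ℕ) + (-4)*t^(11:ℕ)) + (1/823543)*((-4)*t^(7:ℕ) + 12*t^(8:ℕ) + (-17)*t^(9:ℕ) + 12*t^(10:ℕ) + (-4)*t^(11:ℕ)) - (243/125)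 = (1843/6125)*(1 - t)^(11:ℕ) + (33148/6125)*(t - 0)*(1 - t)^(10:ℕ) + (42877103/840350)*(t - 0)^(2:ℕ)*(1 - t)^(9:ℕ) + (467046693/1680700)*(t - 0)^(3:ℕ)*(1 - t)^(8:ℕ) + (406305009/420175)*(t - 0)^(4:ℕ)*(1 - t)^(7:ℕ) + (67784581607/29412250)*(t - 0)^(5:ℕ)*(1 - t)^(6:ℕ) + (115047627357/29412250)*(t - 0)^(6:ℕ)*(1 - t)^(5:ℕ) + (395384981389/82354300)*(t - 0)^(7:ℕ)*(1 - t)^(4:ℕ) + (174129135491/41177150)*(t - 0)^(8:ℕ)*(1 - t)^(3:ℕ) + (212078002469/82354300)*(t - 0)^(9:ℕ)*(1 - t)^(2:ℕ) + (203206447497/205885750)*(t - 0)^(10:ℕ)*(1 - t) + (75663425079/411771500)*(t - 0)^(11:ℕ) := by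
    ring
  rw [e]
  have a3 : 0 ≤ t - 0 := by linarith
  have a4 : 0 ≤ 1 - t := by linarith
  generalize t - 0 = t1 at a3 ⊢
  generalize 1 - t = t2 at a4 ⊢
  positivity

lemma pos_L20_A_b1 (t : ℝ) (h3 : 0 ≤ t) (h4 : t ≤ 1) :
    0 ≤ 1*(2 + 2*t + 10*t^(2:ℕ) + 10*t^(3:ℕ) + 20*t^(4:ℕ) + 20*t^(5:ℕ) + 20*t^(6:ℕ) + 20*t^(7:ℕ) + 10*t^(8:ℕ) + 10*t^(9:ℕ) + 2*t^(10:ℕ) + 2*t^(11:ℕ)) + (37/245)*(4 + 3*t + (59/2)*t^(2:ℕ) + 23*t^(3:ℕ) + 70*t^(4:ℕ) + 54*t^(5:ℕ) + 73*t^(6:ℕ) + 54*t^(7:ℕ) + 34*t^(8:ℕ) + 23*t^(9:ℕ) + (11/2)*t^(10:ℕ) + 3*t^(11:ℕ)) + (39/1715)*((-16) + (-16)*t + (-32)*t^(2:ℕ) + (-28)*t^(3:ℕ) + 36*t^(4:ℕ) + 25*t^(5:ℕ) + 113*t^(6:ℕ) + 48*t^(7:ℕ) + 70*t^(8:ℕ) +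 5*t^(9:ℕ) + 9*t^(10:ℕ) + (-6)*t^(11:ℕ)) + (41/12005)*((-41)*t^(2:ℕ) + (-48)*t^(3:ℕ) + (-55)*t^(4:ℕ) + (-31)*t^(5:ℕ) + 51*t^(6:ℕ) + (-14)*t^(7:ℕ) + 81*t^(8:ℕ) + (-43)*t^(9:ℕ) + 16*t^(10:ℕ) + (-12)*t^(11:ℕ)) + (43/84035)*(32*t^(2:ℕ) + (-16)*t^(3:ℕ) + 4*t^(4:ℕ) + 22*t^(5:ℕ) + (-24)*t^(6:ℕ) + 28*t^(7:ℕ) + 12*t^(8:ℕ) + (-18)*t^(9:ℕ) + 8*t^(10:ℕ) + (-8)*t^(11:ℕ)) + (9/117649)*((-32)*t^(2:ℕ) + (167/4)*t^(3:ℕ) + (-12)*t^(4:ℕ) + (-79/2)*t^(5:ℕ) + (121/2)*t^(6:ℕ) + (-261/4)*t^(7:ℕ) + (87/2)*t^(8:ℕ) + (-61/4)*t^(9:ℕ) + 3*t^(10:ℕ) + (-1)*t^(11:ℕ)) + (47/4117715)*(10*t^(5:ℕ) + (-31)*t^(6:ℕ) + 40*t^(7:ℕ) + (-19)*t^(8:ℕ) + (-7)*t^(9:ℕ) + 12*t^(10:ℕ) + (-4)*t^(11:ℕ)) + (1/588245)*((-4)*t^(7:ℕ)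 + 12*t^(8:ℕ) + (-17)*t^(9:ℕ) + 12*t^(10:ℕ) + (-4)*t^(11:ℕ)) - (243/125) := by
  have e : 1*(2 + 2*t + 10*t^(2:ℕ) + 10*t^(3:ℕ) + 20*t^(4:ℕ) + 20*t^(5:ℕ) + 20*t^(6:ℕ) + 20*t^(7:ℕ) + 10*t^(8:ℕ) + 10*t^(9:ℕ) + 2*t^(10:ℕ) + 2*t^(11:ℕ)) + (37/245)*(4 + 3*t + (59/2)*t^(2:ℕ) + 23*t^(3:ℕ) + 70*t^(4:ℕ) + 54*t^(5:ℕ) + 73*t^(6:ℕ) + 54*t^(7:ℕ) + 34*t^(8:ℕ) + 23*t^(9:ℕ) + (11/2)*t^(10:ℕ) + 3*t^(11:ℕ)) + (39/1715)*((-16) + (-16)*t + (-32)*t^(2:ℕ) + (-28)*t^(3:ℕ) + 36*t^(4:ℕ) + 25*t^(5:ℕ) + 113*t^(6:ℕ) + 48*t^(7:ℕ) + 70*t^(8:ℕ) + 5*t^(9:ℕ) + 9*t^(10:ℕ) + (-6)*t^(11:ℕ)) + (41/12005)*((-41)*t^(2:ℕ) + (-48)*t^(3:ℕ) + (-55)*t^(4:ℕ) + (-31)*t^(5:ℕ) + 51*t^(6:ℕ) + (-14)*t^(7:ℕ)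 + 81*t^(8:ℕ) + (-43)*t^(9:ℕ) + 16*t^(10:ℕ) + (-12)*t^(11:ℕ)) + (43/84035)*(32*t^(2:ℕ) + (-16)*t^(3:ℕ) + 4*t^(4:ℕ) + 22*t^(5:ℕ) + (-24)*t^(6:ℕ) + 28*t^(7:ℕ) + 12*t^(8:ℕ) + (-18)*t^(9:ℕ) + 8*t^(10:ℕ) + (-8)*t^(11:ℕ)) + (9/117649)*((-32)*t^(2:ℕ) + (167/4)*t^(3:ℕ) + (-12)*t^(4:ℕ) + (-79/2)*t^(5:ℕ) + (121/2)*t^(6:ℕ) + (-261/4)*t^(7:ℕ) + (87/2)*t^(8:ℕ) + (-61/4)*t^(9:ℕ) + 3*t^(10:ℕ) + (-1)*t^(11:ℕ)) + (47/4117715)*(10*t^(5:ℕ) + (-31)*t^(6:ℕ) + 40*t^(7:ℕ) + (-19)*t^(8:ℕ) + (-7)*t^(9:ℕ) + 12*t^(10:ℕ) + (-4)*t^(11:ℕ)) + (1/588245)*((-4)*t^(7:ℕ) + 12*t^(8:ℕ) + (-17)*t^(9:ℕ) + 12*t^(10:ℕ) + (-4)*t^(11:ℕ)) - (243/125) = (12701/42875)*(1 - t)^(11:ℕ) + (229286/42875)*(t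 - 0)*(1 - t)^(10:ℕ) + (298747651/5882450)*(t - 0)^(2:ℕ)*(1 - t)^(9:ℕ) + (3270320181/11764900)*(t - 0)^(3:ℕ)*(1 - t)^(8:ℕ) + (2854915913/2941225)*(t - 0)^(4:ℕ)*(1 - t)^(7:ℕ) + (477624592299/205885750)*(t - 0)^(5:ℕ)*(1 - t)^(6:ℕ) + (812691003549/205885750)*(t - 0)^(6:ℕ)*(1 - t)^(5:ℕ) + (8162358011/1680700)*(t - 0)^(7:ℕ)*(1 - t)^(4:ℕ) + (176550386421/41177150)*(t - 0)^(8:ℕ)*(1 - t)^(3:ℕ) + (215491365219/82354300)*(t - 0)^(9:ℕ)*(1 - t)^(2:ℕ) + (206856023747/205885750)*(t - 0)^(10:ℕ)*(1 - t) + (77108773129/411771500)*(t - 0)^(11:ℕ) := by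
    ring
  rw [e]
  have a3 : 0 ≤ t - 0 := by linarith
  have a4 : 0 ≤ 1 - t := by linarith
  generalize t - 0 = t1 at a3 ⊢
  generalize 1 - t = t2 at a4 ⊢
  positivity

lemma pos_L20_A_b2 (t : ℝ) (h3 : 0 ≤ t) (h4 : t ≤ 1) :
    0 ≤ 1*(2 + 2*t + 10*t^(2:ℕ) + 10*t^(3:ℕ) + 20*t^(4:ℕ) + 20*t^(5:ℕ) + 20*t^(6:ℕ) + 20*t^(7:ℕ) + 10*t^(8:ℕ) + 10*t^(9:ℕ) + 2*t^(10:ℕ) + 2*t^(11:ℕ)) + (39/245)*(4 + 3*t + (59/2)*t^(2:ℕ) + 23*t^(3:ℕ) + 70*t^(4:ℕ) + 54*t^(5:ℕ) + 73*t^(6:ℕ) + 54*t^(7:ℕ) + 34*t^(8:ℕ) + 23*t^(9:ℕ) + (11/2)*t^(10:ℕ) + 3*t^(11:ℕ)) + (649/25725)*((-16) + (-16)*t + (-32)*t^(2:ℕ) + (-28)*t^(3:ℕ) + 36*t^(4:ℕ) + 25*t^(5:ℕ) + 113*t^(6:ℕ) + 48*t^(7:ℕ) + 70*t^(8:ℕ)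 + 5*t^(9:ℕ) + 9*t^(10:ℕ) + (-6)*t^(11:ℕ)) + (239/60025)*((-41)*t^(2:ℕ) + (-48)*t^(3:ℕ) + (-55)*t^(4:ℕ) + (-31)*t^(5:ℕ) + 51*t^(6:ℕ) + (-14)*t^(7:ℕ) + 81*t^(8:ℕ) + (-43)*t^(9:ℕ) + 16*t^(10:ℕ) + (-12)*t^(11:ℕ)) + (263/420175)*(32*t^(2:ℕ) + (-16)*t^(3:ℕ) + 4*t^(4:ℕ) + 22*t^(5:ℕ) + (-24)*t^(6:ℕ) + 28*t^(7:ℕ) + 12*t^(8:ℕ) + (-18)*t^(9:ℕ) + 8*t^(10:ℕ) + (-8)*t^(11:ℕ)) + (173/1764735)*((-32)*t^(2:ℕ) + (167/4)*t^(3:ℕ) + (-12)*t^(4:ℕ) + (-79/2)*t^(5:ℕ) + (121/2)*t^(6:ℕ) + (-261/4)*t^(7:ℕ) + (87/2)*t^(8:ℕ) + (-61/4)*t^(9:ℕ) + 3*t^(10:ℕ) + (-1)*t^(11:ℕ)) + (9/588245)*(10*t^(5:ℕ) + (-31)*t^(6:ℕ) + 40*t^(7:ℕ) + (-19)*t^(8:ℕ) + (-7)*t^(9:ℕ) + 12*t^(10:ℕ) + (-4)*t^(11:ℕ))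 + (1/420175)*((-4)*t^(7:ℕ) + 12*t^(8:ℕ) + (-17)*t^(9:ℕ) + 12*t^(10:ℕ) + (-4)*t^(11:ℕ)) - (243/125) := by
  have e : 1*(2 + 2*t + 10*t^(2:ℕ) + 10*t^(3:ℕ) + 20*t^(4:ℕ) + 20*t^(5:ℕ) + 20*t^(6:ℕ) + 20*t^(7:ℕ) + 10*t^(8:ℕ) + 10*t^(9:ℕ) + 2*t^(10:ℕ) + 2*t^(11:ℕ)) + (39/245)*(4 + 3*t + (59/2)*t^(2:ℕ) + 23*t^(3:ℕ) + 70*t^(4:ℕ) + 54*t^(5:ℕ) + 73*t^(6:ℕ) + 54*t^(7:ℕ) + 34*t^(8:ℕ) + 23*t^(9:ℕ) + (11/2)*t^(10:ℕ) + 3*t^(11:ℕ)) + (649/25725)*((-16) + (-16)*t + (-32)*t^(2:ℕ) + (-28)*t^(3:ℕ) + 36*t^(4:ℕ) + 25*t^(5:ℕ) + 113*t^(6:ℕ) + 48*t^(7:ℕ) + 70*t^(8:ℕ) + 5*t^(9:ℕ) + 9*t^(10:ℕ) + (-6)*t^(11:ℕ)) + (239/60025)*((-41)*t^(2:ℕ) + (-48)*t^(3:ℕ) + (-55)*t^(4:ℕ) + (-31)*t^(5:ℕ)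 + 51*t^(6:ℕ) + (-14)*t^(7:ℕ) + 81*t^(8:ℕ) + (-43)*t^(9:ℕ) + 16*t^(10:ℕ) + (-12)*t^(11:ℕ)) + (263/420175)*(32*t^(2:ℕ) + (-16)*t^(3:ℕ) + 4*t^(4:ℕ) + 22*t^(5:ℕ) + (-24)*t^(6:ℕ) + 28*t^(7:ℕ) + 12*t^(8:ℕ) + (-18)*t^(9:ℕ) + 8*t^(10:ℕ) + (-8)*t^(11:ℕ)) + (173/1764735)*((-32)*t^(2:ℕ) + (167/4)*t^(3:ℕ) + (-12)*t^(4:ℕ) + (-79/2)*t^(5:ℕ) + (121/2)*t^(6:ℕ) + (-261/4)*t^(7:ℕ) + (87/2)*t^(8:ℕ) + (-61/4)*t^(9:ℕ) + 3*t^(10:ℕ) + (-1)*t^(11:ℕ)) + (9/588245)*(10*t^(5:ℕ) + (-31)*t^(6:ℕ) + 40*t^(7:ℕ) + (-19)*t^(8:ℕ) + (-7)*t^(9:ℕ) + 12*t^(10:ℕ) + (-4)*t^(11:ℕ)) + (1/420175)*((-4)*t^(7:ℕ) + 12*t^(8:ℕ) + (-17)*t^(9:ℕ) + 12*t^(10:ℕ) + (-4)*t^(11:ℕ)) - (243/125) = (37183/128625)*(1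 - t)^(11:ℕ) + (225256/42875)*(t - 0)*(1 - t)^(10:ℕ) + (296361717/5882450)*(t - 0)^(2:ℕ)*(1 - t)^(9:ℕ) + (1958585849/7058940)*(t - 0)^(3:ℕ)*(1 - t)^(8:ℕ) + (8584386893/8823675)*(t - 0)^(4:ℕ)*(1 - t)^(7:ℕ) + (68606667187/29412250)*(t - 0)^(5:ℕ)*(1 - t)^(6:ℕ) + (117060265297/29412250)*(t - 0)^(6:ℕ)*(1 - t)^(5:ℕ) + (8251293793/1680700)*(t - 0)^(7:ℕ)*(1 - t)^(4:ℕ) + (76677678019/17647350)*(t - 0)^(8:ℕ)*(1 - t)^(3:ℕ) + (18760748089/7058940)*(t - 0)^(9:ℕ)*(1 - t)^(2:ℕ) + (30072994211/29412250)*(t - 0)^(10:ℕ)*(1 - t) + (4810107433/25210500)*(t - 0)^(11:ℕ) := by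
    ring
  rw [e]
  have a3 : 0 ≤ t - 0 := by linarith
  have a4 : 0 ≤ 1 - t := by linarith
  generalize t - 0 = t1 at a3 ⊢
  generalize 1 - t = t2 at a4 ⊢
  positivity

lemma pos_L20_A_b3 (t : ℝ) (h3 : 0 ≤ t) (h4 : t ≤ 1) :
    0 ≤ 1*(2 + 2*t + 10*t^(2:ℕ) + 10*t^(3:ℕ) + 20*t^(4:ℕ) + 20*t^(5:ℕ) + 20*t^(6:ℕ) + 20*t^(7:ℕ) + 10*t^(8:ℕ) + 10*t^(9:ℕ) + 2*t^(10:ℕ) + 2*t^(11:ℕ)) + (41/245)*(4 + 3*t + (59/2)*t^(2:ℕ) + 23*t^(3:ℕ) + 70*t^(4:ℕ) + 54*t^(5:ℕ) + 73*t^(6:ℕ) + 54*t^(7:ℕ) + 34*t^(8:ℕ) + 23*t^(9:ℕ) + (11/2)*t^(10:ℕ) + 3*t^(11:ℕ)) + (239/8575)*((-16) + (-16)*t + (-32)*t^(2:ℕ) + (-28)*t^(3:ℕ) + 36*t^(4:ℕ) + 25*t^(5:ℕ) + 113*t^(6:ℕ) + 48*t^(7:ℕ) + 70*t^(8:ℕ) +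 5*t^(9:ℕ) + 9*t^(10:ℕ) + (-6)*t^(11:ℕ)) + (6933/1500625)*((-41)*t^(2:ℕ) + (-48)*t^(3:ℕ) + (-55)*t^(4:ℕ) + (-31)*t^(5:ℕ) + 51*t^(6:ℕ) + (-14)*t^(7:ℕ) + 81*t^(8:ℕ) + (-43)*t^(9:ℕ) + 16*t^(10:ℕ) + (-12)*t^(11:ℕ)) + (8007/10504375)*(32*t^(2:ℕ) + (-16)*t^(3:ℕ) + 4*t^(4:ℕ) + 22*t^(5:ℕ) + (-24)*t^(6:ℕ) + 28*t^(7:ℕ) + 12*t^(8:ℕ) + (-18)*t^(9:ℕ) + 8*t^(10:ℕ) + (-8)*t^(11:ℕ)) + (263/2100875)*((-32)*t^(2:ℕ) + (167/4)*t^(3:ℕ) + (-12)*t^(4:ℕ) + (-79/2)*t^(5:ℕ) + (121/2)*t^(6:ℕ) + (-261/4)*t^(7:ℕ) + (87/2)*t^(8:ℕ) + (-61/4)*t^(9:ℕ) + 3*t^(10:ℕ) + (-1)*t^(11:ℕ)) + (43/2100875)*(10*t^(5:ℕ) + (-31)*t^(6:ℕ) + 40*t^(7:ℕ) + (-19)*t^(8:ℕ) + (-7)*t^(9:ℕ) + 12*t^(10:ℕ) + (-4)*t^(11:ℕ))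 + (1/300125)*((-4)*t^(7:ℕ) + 12*t^(8:ℕ) + (-17)*t^(9:ℕ) + 12*t^(10:ℕ) + (-4)*t^(11:ℕ)) - (243/125) := by
  have e : 1*(2 + 2*t + 10*t^(2:ℕ) + 10*t^(3:ℕ) + 20*t^(4:ℕ) + 20*t^(5:ℕ) + 20*t^(6:ℕ) + 20*t^(7:ℕ) + 10*t^(8:ℕ) + 10*t^(9:ℕ) + 2*t^(10:ℕ) + 2*t^(11:ℕ)) + (41/245)*(4 + 3*t + (59/2)*t^(2:ℕ) + 23*t^(3:ℕ) + 70*t^(4:ℕ) + 54*t^(5:ℕ) + 73*t^(6:ℕ) + 54*t^(7:ℕ) + 34*t^(8:ℕ) + 23*t^(9:ℕ) + (11/2)*t^(10:ℕ) + 3*t^(11:ℕ)) + (239/8575)*((-16) + (-16)*t + (-32)*t^(2:ℕ) + (-28)*t^(3:ℕ) + 36*t^(4:ℕ) + 25*t^(5:ℕ) + 113*t^(6:ℕ) + 48*t^(7:ℕ) + 70*t^(8:ℕ) + 5*t^(9:ℕ) + 9*t^(10:ℕ) + (-6)*t^(11:ℕ)) + (6933/1500625)*((-41)*t^(2:ℕ) + (-48)*t^(3:ℕ) + (-55)*t^(4:ℕ) + (-31)*t^(5:ℕ)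 + 51*t^(6:ℕ) + (-14)*t^(7:ℕ) + 81*t^(8:ℕ) + (-43)*t^(9:ℕ) + 16*t^(10:ℕ) + (-12)*t^(11:ℕ)) + (8007/10504375)*(32*t^(2:ℕ) + (-16)*t^(3:ℕ) + 4*t^(4:ℕ) + 22*t^(5:ℕ) + (-24)*t^(6:ℕ) + 28*t^(7:ℕ) + 12*t^(8:ℕ) + (-18)*t^(9:ℕ) + 8*t^(10:ℕ) + (-8)*t^(11:ℕ)) + (263/2100875)*((-32)*t^(2:ℕ) + (167/4)*t^(3:ℕ) + (-12)*t^(4:ℕ) + (-79/2)*t^(5:ℕ) + (121/2)*t^(6:ℕ) + (-261/4)*t^(7:ℕ) + (87/2)*t^(8:ℕ) + (-61/4)*t^(9:ℕ) + 3*t^(10:ℕ) + (-1)*t^(11:ℕ)) + (43/2100875)*(10*t^(5:ℕ) + (-31)*t^(6:ℕ) + 40*t^(7:ℕ) + (-19)*t^(8:ℕ) + (-7)*t^(9:ℕ) + 12*t^(10:ℕ) + (-4)*t^(11:ℕ)) + (1/300125)*((-4)*t^(7:ℕ) + 12*t^(8:ℕ) + (-17)*t^(9:ℕ) + 12*t^(10:ℕ) + (-4)*t^(11:ℕ)) - (243/125) = (11981/42875)*(1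 - t)^(11:ℕ) + (219946/42875)*(t - 0)*(1 - t)^(10:ℕ) + (149480103/3001250)*(t - 0)^(2:ℕ)*(1 - t)^(9:ℕ) + (11611699983/42017500)*(t - 0)^(3:ℕ)*(1 - t)^(8:ℕ) + (10227681231/10504375)*(t - 0)^(4:ℕ)*(1 - t)^(7:ℕ) + (49219761467/21008750)*(t - 0)^(5:ℕ)*(1 - t)^(6:ℕ) + (12033783227/3001250)*(t - 0)^(6:ℕ)*(1 - t)^(5:ℕ) + (1190829481/240100)*(t - 0)^(7:ℕ)*(1 - t)^(4:ℕ) + (18491853661/4201750)*(t - 0)^(8:ℕ)*(1 - t)^(3:ℕ) + (113381958191/42017500)*(t - 0)^(9:ℕ)*(1 - t)^(2:ℕ) + (21854120571/21008750)*(t - 0)^(10:ℕ)*(1 - t) + (8166551241/42017500)*(t - 0)^(11:ℕ) := by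
    ring
  rw [e]
  have a3 : 0 ≤ t - 0 := by linarith
  have a4 : 0 ≤ 1 - t := by linarith
  generalize t - 0 = t1 at a3 ⊢
  generalize 1 - t = t2 at a4 ⊢
  positivity

lemma pos_L20_A_b4 (t : ℝ) (h3 : 0 ≤ t) (h4 : t ≤ 1) :
    0 ≤ 1*(2 + 2*t + 10*t^(2:ℕ) + 10*t^(3:ℕ) + 20*t^(4:ℕ) + 20*t^(5:ℕ) + 20*t^(6:ℕ) + 20*t^(7:ℕ) + 10*t^(8:ℕ) + 10*t^(9:ℕ) + 2*t^(10:ℕ) + 2*t^(11:ℕ)) + (43/245)*(4 + 3*t + (59/2)*t^(2:ℕ) + 23*t^(3:ℕ) + 70*t^(4:ℕ) + 54*t^(5:ℕ) + 73*t^(6:ℕ) + 54*t^(7:ℕ) + 34*t^(8:ℕ) + 23*t^(9:ℕ) + (11/2)*t^(10:ℕ) + 3*t^(11:ℕ)) + (263/8575)*((-16) + (-16)*t + (-32)*t^(2:ℕ) + (-28)*t^(3:ℕ) + 36*t^(4:ℕ) + 25*t^(5:ℕ) + 113*t^(6:ℕ) + 48*t^(7:ℕ) + 70*t^(8:ℕ) +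 5*t^(9:ℕ) + 9*t^(10:ℕ) + (-6)*t^(11:ℕ)) + (8007/1500625)*((-41)*t^(2:ℕ) + (-48)*t^(3:ℕ) + (-55)*t^(4:ℕ) + (-31)*t^(5:ℕ) + 51*t^(6:ℕ) + (-14)*t^(7:ℕ) + 81*t^(8:ℕ) + (-43)*t^(9:ℕ) + 16*t^(10:ℕ) + (-12)*t^(11:ℕ)) + (6933/7503125)*(32*t^(2:ℕ) + (-16)*t^(3:ℕ) + 4*t^(4:ℕ) + 22*t^(5:ℕ) + (-24)*t^(6:ℕ) + 28*t^(7:ℕ) + 12*t^(8:ℕ) + (-18)*t^(9:ℕ) + 8*t^(10:ℕ) + (-8)*t^(11:ℕ)) + (239/1500625)*((-32)*t^(2:ℕ) + (167/4)*t^(3:ℕ) + (-12)*t^(4:ℕ) + (-79/2)*t^(5:ℕ) + (121/2)*t^(6:ℕ) + (-261/4)*t^(7:ℕ) + (87/2)*t^(8:ℕ) + (-61/4)*t^(9:ℕ) + 3*t^(10:ℕ) + (-1)*t^(11:ℕ)) + (41/1500625)*(10*t^(5:ℕ) + (-31)*t^(6:ℕ) + 40*t^(7:ℕ) + (-19)*t^(8:ℕ) + (-7)*t^(9:ℕ) + 12*t^(10:ℕ) + (-4)*t^(11:ℕ))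 + (1/214375)*((-4)*t^(7:ℕ) + 12*t^(8:ℕ) + (-17)*t^(9:ℕ) + 12*t^(10:ℕ) + (-4)*t^(11:ℕ)) - (243/125) := by
  have e : 1*(2 + 2*t + 10*t^(2:ℕ) + 10*t^(3:ℕ) + 20*t^(4:ℕ) + 20*t^(5:ℕ) + 20*t^(6:ℕ) + 20*t^(7:ℕ) + 10*t^(8:ℕ) + 10*t^(9:ℕ) + 2*t^(10:ℕ) + 2*t^(11:ℕ)) + (43/245)*(4 + 3*t + (59/2)*t^(2:ℕ) + 23*t^(3:ℕ) + 70*t^(4:ℕ) + 54*t^(5:ℕ) + 73*t^(6:ℕ) + 54*t^(7:ℕ) + 34*t^(8:ℕ) + 23*t^(9:ℕ) + (11/2)*t^(10:ℕ) + 3*t^(11:ℕ)) + (263/8575)*((-16) + (-16)*t + (-32)*t^(2:ℕ) + (-28)*t^(3:ℕ) + 36*t^(4:ℕ) + 25*t^(5:ℕ) + 113*t^(6:ℕ) + 48*t^(7:ℕ) + 70*t^(8:ℕ) + 5*t^(9:ℕ) + 9*t^(10:ℕ) + (-6)*t^(11:ℕ)) + (8007/1500625)*((-41)*t^(2:ℕ) + (-48)*t^(3:ℕ) + (-55)*t^(4:ℕ) + (-31)*t^(5:ℕ)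 + 51*t^(6:ℕ) + (-14)*t^(7:ℕ) + 81*t^(8:ℕ) + (-43)*t^(9:ℕ) + 16*t^(10:ℕ) + (-12)*t^(11:ℕ)) + (6933/7503125)*(32*t^(2:ℕ) + (-16)*t^(3:ℕ) + 4*t^(4:ℕ) + 22*t^(5:ℕ) + (-24)*t^(6:ℕ) + 28*t^(7:ℕ) + 12*t^(8:ℕ) + (-18)*t^(9:ℕ) + 8*t^(10:ℕ) + (-8)*t^(11:ℕ)) + (239/1500625)*((-32)*t^(2:ℕ) + (167/4)*t^(3:ℕ) + (-12)*t^(4:ℕ) + (-79/2)*t^(5:ℕ) + (121/2)*t^(6:ℕ) + (-261/4)*t^(7:ℕ) + (87/2)*t^(8:ℕ) + (-61/4)*t^(9:ℕ) + 3*t^(10:ℕ) + (-1)*t^(11:ℕ)) + (41/1500625)*(10*t^(5:ℕ) + (-31)*t^(6:ℕ) + 40*t^(7:ℕ) + (-19)*t^(8:ℕ) + (-7)*t^(9:ℕ) + 12*t^(10:ℕ) + (-4)*t^(11:ℕ)) + (1/214375)*((-4)*t^(7:ℕ) + 12*t^(8:ℕ) + (-17)*t^(9:ℕ) + 12*t^(10:ℕ) + (-4)*t^(11:ℕ)) - (243/125) = (11461/42875)*(1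 - t)^(11:ℕ) + (213356/42875)*(t - 0)*(1 - t)^(10:ℕ) + (736236237/15006250)*(t - 0)^(2:ℕ)*(1 - t)^(9:ℕ) + (8242856399/30012500)*(t - 0)^(3:ℕ)*(1 - t)^(8:ℕ) + (7300403499/7503125)*(t - 0)^(4:ℕ)*(1 - t)^(7:ℕ) + (7054533467/3001250)*(t - 0)^(5:ℕ)*(1 - t)^(6:ℕ) + (60566305533/15006250)*(t - 0)^(6:ℕ)*(1 - t)^(5:ℕ) + (4293782909/857500)*(t - 0)^(7:ℕ)*(1 - t)^(4:ℕ) + (66860641161/15006250)*(t - 0)^(8:ℕ)*(1 - t)^(3:ℕ) + (82197398783/30012500)*(t - 0)^(9:ℕ)*(1 - t)^(2:ℕ) + (3175414451/3001250)*(t - 0)^(10:ℕ)*(1 - t) + (1188191709/6002500)*(t - 0)^(11:ℕ) := by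
    ring
  rw [e]
  have a3 : 0 ≤ t - 0 := by linarith
  have a4 : 0 ≤ 1 - t := by linarith
  generalize t - 0 = t1 at a3 ⊢
  generalize 1 - t = t2 at a4 ⊢
  positivity

lemma pos_L20_A_b5 (t : ℝ) (h3 : 0 ≤ t) (h4 : t ≤ 1) :
    0 ≤ 1*(2 + 2*t + 10*t^(2:ℕ) + 10*t^(3:ℕ) + 20*t^(4:ℕ) + 20*t^(5:ℕ) + 20*t^(6:ℕ) + 20*t^(7:ℕ) + 10*t^(8:ℕ) + 10*t^(9:ℕ) + 2*t^(10:ℕ) + 2*t^(11:ℕ)) + (9/49)*(4 + 3*t + (59/2)*t^(2:ℕ) + 23*t^(3:ℕ) + 70*t^(4:ℕ) + 54*t^(5:ℕ) + 73*t^(6:ℕ) + 54*t^(7:ℕ) + 34*t^(8:ℕ) + 23*t^(9:ℕ) + (11/2)*t^(10:ℕ) + 3*t^(11:ℕ)) + (173/5145)*((-16) + (-16)*t + (-32)*t^(2:ℕ) + (-28)*t^(3:ℕ) + 36*t^(4:ℕ) + 25*t^(5:ℕ) + 113*t^(6:ℕ) + 48*t^(7:ℕ) + 70*t^(8:ℕ) + 5*t^(9:ℕ)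 + 9*t^(10:ℕ) + (-6)*t^(11:ℕ)) + (263/42875)*((-41)*t^(2:ℕ) + (-48)*t^(3:ℕ) + (-55)*t^(4:ℕ) + (-31)*t^(5:ℕ) + 51*t^(6:ℕ) + (-14)*t^(7:ℕ) + 81*t^(8:ℕ) + (-43)*t^(9:ℕ) + 16*t^(10:ℕ) + (-12)*t^(11:ℕ)) + (239/214375)*(32*t^(2:ℕ) + (-16)*t^(3:ℕ) + 4*t^(4:ℕ) + 22*t^(5:ℕ) + (-24)*t^(6:ℕ) + 28*t^(7:ℕ) + 12*t^(8:ℕ) + (-18)*t^(9:ℕ) + 8*t^(10:ℕ) + (-8)*t^(11:ℕ)) + (649/3215625)*((-32)*t^(2:ℕ) + (167/4)*t^(3:ℕ) + (-12)*t^(4:ℕ) + (-79/2)*t^(5:ℕ) + (121/2)*t^(6:ℕ) + (-261/4)*t^(7:ℕ) + (87/2)*t^(8:ℕ) + (-61/4)*t^(9:ℕ) + 3*t^(10:ℕ) + (-1)*t^(11:ℕ)) + (39/1071875)*(10*t^(5:ℕ) + (-31)*t^(6:ℕ) + 40*t^(7:ℕ) + (-19)*t^(8:ℕ) + (-7)*t^(9:ℕ) + 12*t^(10:ℕ) + (-4)*t^(11:ℕ)) + (1/153125)*((-4)*t^(7:ℕ)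 + 12*t^(8:ℕ) + (-17)*t^(9:ℕ) + 12*t^(10:ℕ) + (-4)*t^(11:ℕ)) - (243/125) := by
  have e : 1*(2 + 2*t + 10*t^(2:ℕ) + 10*t^(3:ℕ) + 20*t^(4:ℕ) + 20*t^(5:ℕ) + 20*t^(6:ℕ) + 20*t^(7:ℕ) + 10*t^(8:ℕ) + 10*t^(9:ℕ) + 2*t^(10:ℕ) + 2*t^(11:ℕ)) + (9/49)*(4 + 3*t + (59/2)*t^(2:ℕ) + 23*t^(3:ℕ) + 70*t^(4:ℕ) + 54*t^(5:ℕ) + 73*t^(6:ℕ) + 54*t^(7:ℕ) + 34*t^(8:ℕ) + 23*t^(9:ℕ) + (11/2)*t^(10:ℕ) + 3*t^(11:ℕ)) + (173/5145)*((-16) + (-16)*t + (-32)*t^(2:ℕ) + (-28)*t^(3:ℕ) + 36*t^(4:ℕ) + 25*t^(5:ℕ) + 113*t^(6:ℕ) + 48*t^(7:ℕ) + 70*t^(8:ℕ) + 5*t^(9:ℕ) + 9*t^(10:ℕ) + (-6)*t^(11:ℕ)) + (263/42875)*((-41)*t^(2:ℕ) + (-48)*t^(3:ℕ) + (-55)*t^(4:ℕ) + (-31)*t^(5:ℕ) + 51*t^(6:ℕ) + (-14)*t^(7:ℕ)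 + 81*t^(8:ℕ) + (-43)*t^(9:ℕ) + 16*t^(10:ℕ) + (-12)*t^(11:ℕ)) + (239/214375)*(32*t^(2:ℕ) + (-16)*t^(3:ℕ) + 4*t^(4:ℕ) + 22*t^(5:ℕ) + (-24)*t^(6:ℕ) + 28*t^(7:ℕ) + 12*t^(8:ℕ) + (-18)*t^(9:ℕ) + 8*t^(10:ℕ) + (-8)*t^(11:ℕ)) + (649/3215625)*((-32)*t^(2:ℕ) + (167/4)*t^(3:ℕ) + (-12)*t^(4:ℕ) + (-79/2)*t^(5:ℕ) + (121/2)*t^(6:ℕ) + (-261/4)*t^(7:ℕ) + (87/2)*t^(8:ℕ) + (-61/4)*t^(9:ℕ) + 3*t^(10:ℕ) + (-1)*t^(11:ℕ)) + (39/1071875)*(10*t^(5:ℕ) + (-31)*t^(6:ℕ) + 40*t^(7:ℕ) + (-19)*t^(8:ℕ) + (-7)*t^(9:ℕ) + 12*t^(10:ℕ) + (-4)*t^(11:ℕ)) + (1/153125)*((-4)*t^(7:ℕ) + 12*t^(8:ℕ) + (-17)*t^(9:ℕ) + 12*t^(10:ℕ) + (-4)*t^(11:ℕ)) - (243/125) = (32503/128625)*(1 - t)^(11:ℕ) + (205486/42875)*(t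 - 0)*(1 - t)^(10:ℕ) + (309655579/6431250)*(t - 0)^(2:ℕ)*(1 - t)^(9:ℕ) + (233532211/857500)*(t - 0)^(3:ℕ)*(1 - t)^(8:ℕ) + (208124039/214375)*(t - 0)^(4:ℕ)*(1 - t)^(7:ℕ) + (202000899/85750)*(t - 0)^(5:ℕ)*(1 - t)^(6:ℕ) + (8702313597/2143750)*(t - 0)^(6:ℕ)*(1 - t)^(5:ℕ) + (21661321111/4287500)*(t - 0)^(7:ℕ)*(1 - t)^(4:ℕ) + (28995631051/6431250)*(t - 0)^(8:ℕ)*(1 - t)^(3:ℕ) + (35740896973/12862500)*(t - 0)^(9:ℕ)*(1 - t)^(2:ℕ) + (2306323027/2143750)*(t - 0)^(10:ℕ)*(1 - t) + (864204233/4287500)*(t - 0)^(11:ℕ) := by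
    ring
  rw [e]
  have a3 : 0 ≤ t - 0 := by linarith
  have a4 : 0 ≤ 1 - t := by linarith
  generalize t - 0 = t1 at a3 ⊢
  generalize 1 - t = t2 at a4 ⊢
  positivity

lemma pos_L20_A_b6 (t : ℝ) (h3 : 0 ≤ t) (h4 : t ≤ 1) :
    0 ≤ 1*(2 + 2*t + 10*t^(2:ℕ) + 10*t^(3:ℕ) + 20*t^(4:ℕ) + 20*t^(5:ℕ) + 20*t^(6:ℕ) + 20*t^(7:ℕ) + 10*t^(8:ℕ) + 10*t^(9:ℕ) + 2*t^(10:ℕ) + 2*t^(11:ℕ)) + (47/245)*(4 + 3*t + (59/2)*t^(2:ℕ) + 23*t^(3:ℕ) + 70*t^(4:ℕ) + 54*t^(5:ℕ) + 73*t^(6:ℕ) + 54*t^(7:ℕ) + 34*t^(8:ℕ) + 23*t^(9:ℕ) + (11/2)*t^(10:ℕ) + 3*t^(11:ℕ)) + (9/245)*((-16) + (-16)*t + (-32)*t^(2:ℕ) + (-28)*t^(3:ℕ) + 36*t^(4:ℕ) + 25*t^(5:ℕ) + 113*t^(6:ℕ) + 48*t^(7:ℕ) + 70*t^(8:ℕ) + 5*t^(9:ℕ)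 + 9*t^(10:ℕ) + (-6)*t^(11:ℕ)) + (43/6125)*((-41)*t^(2:ℕ) + (-48)*t^(3:ℕ) + (-55)*t^(4:ℕ) + (-31)*t^(5:ℕ) + 51*t^(6:ℕ) + (-14)*t^(7:ℕ) + 81*t^(8:ℕ) + (-43)*t^(9:ℕ) + 16*t^(10:ℕ) + (-12)*t^(11:ℕ)) + (41/30625)*(32*t^(2:ℕ) + (-16)*t^(3:ℕ) + 4*t^(4:ℕ) + 22*t^(5:ℕ) + (-24)*t^(6:ℕ) + 28*t^(7:ℕ) + 12*t^(8:ℕ) + (-18)*t^(9:ℕ) + 8*t^(10:ℕ) + (-8)*t^(11:ℕ)) + (39/153125)*((-32)*t^(2:ℕ) + (167/4)*t^(3:ℕ) + (-12)*t^(4:ℕ) + (-79/2)*t^(5:ℕ) + (121/2)*t^(6:ℕ) + (-261/4)*t^(7:ℕ) + (87/2)*t^(8:ℕ) + (-61/4)*t^(9:ℕ) + 3*t^(10:ℕ) + (-1)*t^(11:ℕ)) + (37/765625)*(10*t^(5:ℕ) + (-31)*t^(6:ℕ) + 40*t^(7:ℕ) + (-19)*t^(8:ℕ) + (-7)*t^(9:ℕ) + 12*t^(10:ℕ) + (-4)*t^(11:ℕ)) + (1/109375)*((-4)*t^(7:ℕ)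 + 12*t^(8:ℕ) + (-17)*t^(9:ℕ) + 12*t^(10:ℕ) + (-4)*t^(11:ℕ)) - (243/125) := by
  have e : 1*(2 + 2*t + 10*t^(2:ℕ) + 10*t^(3:ℕ) + 20*t^(4:ℕ) + 20*t^(5:ℕ) + 20*t^(6:ℕ) + 20*t^(7:ℕ) + 10*t^(8:ℕ) + 10*t^(9:ℕ) + 2*t^(10:ℕ) + 2*t^(11:ℕ)) + (47/245)*(4 + 3*t + (59/2)*t^(2:ℕ) + 23*t^(3:ℕ) + 70*t^(4:ℕ) + 54*t^(5:ℕ) + 73*t^(6:ℕ) + 54*t^(7:ℕ) + 34*t^(8:ℕ) + 23*t^(9:ℕ) + (11/2)*t^(10:ℕ) + 3*t^(11:ℕ)) + (9/245)*((-16) + (-16)*t + (-32)*t^(2:ℕ) + (-28)*t^(3:ℕ) + 36*t^(4:ℕ) + 25*t^(5:ℕ) + 113*t^(6:ℕ) + 48*t^(7:ℕ) + 70*t^(8:ℕ) + 5*t^(9:ℕ) + 9*t^(10:ℕ) + (-6)*t^(11:ℕ)) + (43/6125)*((-41)*t^(2:ℕ) + (-48)*t^(3:ℕ) + (-55)*t^(4:ℕ) + (-31)*t^(5:ℕ) + 51*t^(6:ℕ) + (-14)*t^(7:ℕ) +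 81*t^(8:ℕ) + (-43)*t^(9:ℕ) + 16*t^(10:ℕ) + (-12)*t^(11:ℕ)) + (41/30625)*(32*t^(2:ℕ) + (-16)*t^(3:ℕ) + 4*t^(4:ℕ) + 22*t^(5:ℕ) + (-24)*t^(6:ℕ) + 28*t^(7:ℕ) + 12*t^(8:ℕ) + (-18)*t^(9:ℕ) + 8*t^(10:ℕ) + (-8)*t^(11:ℕ)) + (39/153125)*((-32)*t^(2:ℕ) + (167/4)*t^(3:ℕ) + (-12)*t^(4:ℕ) + (-79/2)*t^(5:ℕ) + (121/2)*t^(6:ℕ) + (-261/4)*t^(7:ℕ) + (87/2)*t^(8:ℕ) + (-61/4)*t^(9:ℕ) + 3*t^(10:ℕ) + (-1)*t^(11:ℕ)) + (37/765625)*(10*t^(5:ℕ) + (-31)*t^(6:ℕ) + 40*t^(7:ℕ) + (-19)*t^(8:ℕ) + (-7)*t^(9:ℕ) + 12*t^(10:ℕ) + (-4)*t^(11:ℕ)) + (1/109375)*((-4)*t^(7:ℕ) + 12*t^(8:ℕ) + (-17)*t^(9:ℕ) + 12*t^(10:ℕ) + (-4)*t^(11:ℕ)) - (243/125) = (1443/6125)*(1 - t)^(11:ℕ) + (28048/6125)*(t - 0)*(1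 - t)^(10:ℕ) + (14413849/306250)*(t - 0)^(2:ℕ)*(1 - t)^(9:ℕ) + (943013/3500)*(t - 0)^(3:ℕ)*(1 - t)^(8:ℕ) + (29621399/30625)*(t - 0)^(4:ℕ)*(1 - t)^(7:ℕ) + (103175269/43750)*(t - 0)^(5:ℕ)*(1 - t)^(6:ℕ) + (6246734021/1531250)*(t - 0)^(6:ℕ)*(1 - t)^(5:ℕ) + (15601306463/3062500)*(t - 0)^(7:ℕ)*(1 - t)^(4:ℕ) + (997511359/218750)*(t - 0)^(8:ℕ)*(1 - t)^(3:ℕ) + (8630682103/3062500)*(t - 0)^(9:ℕ)*(1 - t)^(2:ℕ) + (1674652271/1531250)*(t - 0)^(10:ℕ)*(1 - t) + (125686789/612500)*(t - 0)^(11:ℕ) := by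
    ring
  rw [e]
  have a3 : 0 ≤ t - 0 := by linarith
  have a4 : 0 ≤ 1 - t := by linarith
  generalize t - 0 = t1 at a3 ⊢
  generalize 1 - t = t2 at a4 ⊢
  positivity

lemma pos_L20_A_b7 (t : ℝ) (h3 : 0 ≤ t) (h4 : t ≤ 1) :
    0 ≤ 1*(2 + 2*t + 10*t^(2:ℕ) + 10*t^(3:ℕ) + 20*t^(4:ℕ) + 20*t^(5:ℕ) + 20*t^(6:ℕ) + 20*t^(7:ℕ) + 10*t^(8:ℕ) + 10*t^(9:ℕ) + 2*t^(10:ℕ) + 2*t^(11:ℕ)) + (1/5)*(4 + 3*t + (59/2)*t^(2:ℕ) + 23*t^(3:ℕ) + 70*t^(4:ℕ) + 54*t^(5:ℕ) + 73*t^(6:ℕ) + 54*t^(7:ℕ) + 34*t^(8:ℕ) + 23*t^(9:ℕ) + (11/2)*t^(10:ℕ) + 3*t^(11:ℕ)) + (1/25)*((-16) + (-16)*t + (-32)*t^(2:ℕ) + (-28)*t^(3:ℕ) + 36*t^(4:ℕ) + 25*t^(5:ℕ) + 113*t^(6:ℕ) + 48*t^(7:ℕ) + 70*t^(8:ℕ) + 5*t^(9:ℕ)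 + 9*t^(10:ℕ) + (-6)*t^(11:ℕ)) + (1/125)*((-41)*t^(2:ℕ) + (-48)*t^(3:ℕ) + (-55)*t^(4:ℕ) + (-31)*t^(5:ℕ) + 51*t^(6:ℕ) + (-14)*t^(7:ℕ) + 81*t^(8:ℕ) + (-43)*t^(9:ℕ) + 16*t^(10:ℕ) + (-12)*t^(11:ℕ)) + (1/625)*(32*t^(2:ℕ) + (-16)*t^(3:ℕ) + 4*t^(4:ℕ) + 22*t^(5:ℕ) + (-24)*t^(6:ℕ) + 28*t^(7:ℕ) + 12*t^(8:ℕ) + (-18)*t^(9:ℕ) + 8*t^(10:ℕ) + (-8)*t^(11:ℕ)) + (1/3125)*((-32)*t^(2:ℕ) + (167/4)*t^(3:ℕ) + (-12)*t^(4:ℕ) + (-79/2)*t^(5:ℕ) + (121/2)*t^(6:ℕ) + (-261/4)*t^(7:ℕ) + (87/2)*t^(8:ℕ) + (-61/4)*t^(9:ℕ) + 3*t^(10:ℕ) + (-1)*t^(11:ℕ)) + (1/15625)*(10*t^(5:ℕ) + (-31)*t^(6:ℕ) + 40*t^(7:ℕ) + (-19)*t^(8:ℕ) + (-7)*t^(9:ℕ) + 12*t^(10:ℕ) + (-4)*t^(11:ℕ)) + (1/78125)*((-4)*t^(7:ℕ)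 + 12*t^(8:ℕ) + (-17)*t^(9:ℕ) + 12*t^(10:ℕ) + (-4)*t^(11:ℕ)) - (243/125) := by
  have e : 1*(2 + 2*t + 10*t^(2:ℕ) + 10*t^(3:ℕ) + 20*t^(4:ℕ) + 20*t^(5:ℕ) + 20*t^(6:ℕ) + 20*t^(7:ℕ) + 10*t^(8:ℕ) + 10*t^(9:ℕ) + 2*t^(10:ℕ) + 2*t^(11:ℕ)) + (1/5)*(4 + 3*t + (59/2)*t^(2:ℕ) + 23*t^(3:ℕ) + 70*t^(4:ℕ) + 54*t^(5:ℕ) + 73*t^(6:ℕ) + 54*t^(7:ℕ) + 34*t^(8:ℕ) + 23*t^(9:ℕ) + (11/2)*t^(10:ℕ) + 3*t^(11:ℕ)) + (1/25)*((-16) + (-16)*t + (-32)*t^(2:ℕ) + (-28)*t^(3:ℕ) + 36*t^(4:ℕ) + 25*t^(5:ℕ) + 113*t^(6:ℕ) + 48*t^(7:ℕ) + 70*t^(8:ℕ) + 5*t^(9:ℕ) + 9*t^(10:ℕ) + (-6)*t^(11:ℕ)) + (1/125)*((-41)*t^(2:ℕ) + (-48)*t^(3:ℕ) + (-55)*t^(4:ℕ) + (-31)*t^(5:ℕ) + 51*t^(6:ℕ) + (-14)*t^(7:ℕ) + 81*t^(8:ℕ)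 + (-43)*t^(9:ℕ) + 16*t^(10:ℕ) + (-12)*t^(11:ℕ)) + (1/625)*(32*t^(2:ℕ) + (-16)*t^(3:ℕ) + 4*t^(4:ℕ) + 22*t^(5:ℕ) + (-24)*t^(6:ℕ) + 28*t^(7:ℕ) + 12*t^(8:ℕ) + (-18)*t^(9:ℕ) + 8*t^(10:ℕ) + (-8)*t^(11:ℕ)) + (1/3125)*((-32)*t^(2:ℕ) + (167/4)*t^(3:ℕ) + (-12)*t^(4:ℕ) + (-79/2)*t^(5:ℕ) + (121/2)*t^(6:ℕ) + (-261/4)*t^(7:ℕ) + (87/2)*t^(8:ℕ) + (-61/4)*t^(9:ℕ) + 3*t^(10:ℕ) + (-1)*t^(11:ℕ)) + (1/15625)*(10*t^(5:ℕ) + (-31)*t^(6:ℕ) + 40*t^(7:ℕ) + (-19)*t^(8:ℕ) + (-7)*t^(9:ℕ) + 12*t^(10:ℕ) + (-4)*t^(11:ℕ)) + (1/78125)*((-4)*t^(7:ℕ) + 12*t^(8:ℕ) + (-17)*t^(9:ℕ) + 12*t^(10:ℕ) + (-4)*t^(11:ℕ)) - (243/125) = (27/125)*(1 - t)^(11:ℕ) + (542/125)*(t - 0)*(1 - t)^(10:ℕ) + (286331/6250)*(t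 - 0)^(2:ℕ)*(1 - t)^(9:ℕ) + (664801/2500)*(t - 0)^(3:ℕ)*(1 - t)^(8:ℕ) + (601337/625)*(t - 0)^(4:ℕ)*(1 - t)^(7:ℕ) + (14739369/6250)*(t - 0)^(5:ℕ)*(1 - t)^(6:ℕ) + (128011483/31250)*(t - 0)^(6:ℕ)*(1 - t)^(5:ℕ) + (1604244709/312500)*(t - 0)^(7:ℕ)*(1 - t)^(4:ℕ) + (720309427/156250)*(t - 0)^(8:ℕ)*(1 - t)^(3:ℕ) + (35715397/12500)*(t - 0)^(9:ℕ)*(1 - t)^(2:ℕ) + (173667281/156250)*(t - 0)^(10:ℕ)*(1 - t) + (65270891/312500)*(t - 0)^(11:ℕ) := by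
    ring
  rw [e]
  have a3 : 0 ≤ t - 0 := by linarith
  have a4 : 0 ≤ 1 - t := by linarith
  generalize t - 0 = t1 at a3 ⊢
  generalize 1 - t = t2 at a4 ⊢
  positivity

lemma pos_L20_A_id (d : ℝ) (C0 C1 C2 C3 C4 C5 C6 C7 : ℝ) :
    C0 + d*C1 + d^(2:ℕ)*C2 + d^(3:ℕ)*C3 + d^(4:ℕ)*C4 + d^(5:ℕ)*C5 + d^(6:ℕ)*C6 + d^(7:ℕ)*C7 = (243/125) + ((64339296875/128)*((1/5) - d)^(7:ℕ)*(1*C0 + (1/7)*C1 + (1/49)*C2 + (1/343)*C3 + (1/2401)*C4 + (1/16807)*C5 + (1/117649)*C6 + (1/823543)*C7 - (243/125)) + (450375078125/128)*(d - (1/7))*((1/5) - d)^(6:ℕ)*(1*C0 + (37/245)*C1 + (39/1715)*C2 + (41/12005)*C3 + (43/84035)*C4 + (9/117649)*C5 + (47/4117715)*C6 + (1/588245)*C7 - (243/125))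 + (1351125234375/128)*(d - (1/7))^(2:ℕ)*((1/5) - d)^(5:ℕ)*(1*C0 + (39/245)*C1 + (649/25725)*C2 + (239/60025)*C3 + (263/420175)*C4 + (173/1764735)*C5 + (9/588245)*C6 + (1/420175)*C7 - (243/125)) + (2251875390625/128)*(d - (1/7))^(3:ℕ)*((1/5) - d)^(4:ℕ)*(1*C0 + (41/245)*C1 + (239/8575)*C2 + (6933/1500625)*C3 + (8007/10504375)*C4 + (263/2100875)*C5 + (43/2100875)*C6 + (1/300125)*C7 - (243/125)) + (2251875390625/128)*(d - (1/7))^(4:ℕ)*((1/5) - d)^(3:ℕ)*(1*C0 + (43/245)*C1 + (263/8575)*C2 + (8007/1500625)*C3 + (6933/7503125)*C4 + (239/1500625)*C5 + (41/1500625)*C6 + (1/214375)*C7 - (243/125)) + (1351125234375/128)*(d - (1/7))^(5:ℕ)*((1/5) - d)^(2:ℕ)*(1*C0 + (9/49)*C1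 + (173/5145)*C2 + (263/42875)*C3 + (239/214375)*C4 + (649/3215625)*C5 + (39/1071875)*C6 + (1/153125)*C7 - (243/125)) + (450375078125/128)*(d - (1/7))^(6:ℕ)*((1/5) - d)*(1*C0 + (47/245)*C1 + (9/245)*C2 + (43/6125)*C3 + (41/30625)*C4 + (39/153125)*C5 + (37/765625)*C6 + (1/109375)*C7 - (243/125)) + (64339296875/128)*(d - (1/7))^(7:ℕ)*(1*C0 + (1/5)*C1 + (1/25)*C2 + (1/125)*C3 + (1/625)*C4 + (1/3125)*C5 + (1/15625)*C6 + (1/78125)*C7 - (243/125))) := by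
  ring

lemma pos_L20_A_gen (d1 d2 B0 B1 B2 B3 B4 B5 B6 B7 : ℝ) (a1 : 0 ≤ d1) (a2 : 0 ≤ d2) (b0 : 0 ≤ B0) (b1 : 0 ≤ B1) (b2 : 0 ≤ B2) (b3 : 0 ≤ B3) (b4 : 0 ≤ B4) (b5 : 0 ≤ B5) (b6 : 0 ≤ B6) (b7 : 0 ≤ B7) :
    0 < (243/125) + ((64339296875/128)*d2^(7:ℕ)*(B0) + (450375078125/128)*d1*d2^(6:ℕ)*(B1) + (1351125234375/128)*d1^(2:ℕ)*d2^(5:ℕ)*(B2) + (2251875390625/128)*d1^(3:ℕ)*d2^(4:ℕ)*(B3) + (2251875390625/128)*d1^(4:ℕ)*d2^(3:ℕ)*(B4) + (1351125234375/128)*d1^(5:ℕ)*d2^(2:ℕ)*(B5) + (450375078125/128)*d1^(6:ℕ)*d2*(B6) + (64339296875/128)*d1^(7:ℕ)*(B7)) := by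
  positivity

lemma pos_L20_A_core (d C0 C1 C2 C3 C4 C5 C6 C7 : ℝ) (h1 : (1/7) ≤ d) (h2 : d ≤ (1/5))
    (b0 : 0 ≤ 1*C0 + (1/7)*C1 + (1/49)*C2 + (1/343)*C3 + (1/2401)*C4 + (1/16807)*C5 + (1/117649)*C6 + (1/823543)*C7 - (243/125))
    (b1 : 0 ≤ 1*C0 + (37/245)*C1 + (39/1715)*C2 + (41/12005)*C3 + (43/84035)*C4 + (9/117649)*C5 + (47/4117715)*C6 + (1/588245)*C7 - (243/125))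
    (b2 : 0 ≤ 1*C0 + (39/245)*C1 + (649/25725)*C2 + (239/60025)*C3 + (263/420175)*C4 + (173/1764735)*C5 + (9/588245)*C6 + (1/420175)*C7 - (243/125))
    (b3 : 0 ≤ 1*C0 + (41/245)*C1 + (239/8575)*C2 + (6933/1500625)*C3 + (8007/10504375)*C4 + (263/2100875)*C5 + (43/2100875)*C6 + (1/300125)*C7 - (243/125))
    (b4 : 0 ≤ 1*C0 + (43/245)*C1 + (263/8575)*C2 + (8007/1500625)*C3 + (6933/7503125)*C4 + (239/1500625)*C5 + (41/1500625)*C6 + (1/214375)*C7 - (243/125))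
    (b5 : 0 ≤ 1*C0 + (9/49)*C1 + (173/5145)*C2 + (263/42875)*C3 + (239/214375)*C4 + (649/3215625)*C5 + (39/1071875)*C6 + (1/153125)*C7 - (243/125))
    (b6 : 0 ≤ 1*C0 + (47/245)*C1 + (9/245)*C2 + (43/6125)*C3 + (41/30625)*C4 + (39/153125)*C5 + (37/765625)*C6 + (1/109375)*C7 - (243/125))
    (b7 : 0 ≤ 1*C0 + (1/5)*C1 + (1/25)*C2 + (1/125)*C3 + (1/625)*C4 + (1/3125)*C5 + (1/15625)*C6 + (1/78125)*C7 - (243/125)) :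
    0 < C0 + d*C1 + d^(2:ℕ)*C2 + d^(3:ℕ)*C3 + d^(4:ℕ)*C4 + d^(5:ℕ)*C5 + d^(6:ℕ)*C6 + d^(7:ℕ)*C7 := by
  rw [pos_L20_A_id]
  exact pos_L20_A_gen _ _ _ _ _ _ _ _ _ _ (sub_nonneg.2 h1) (sub_nonneg.2 h2) b0 b1 b2 b3 b4 b5 b6 b7

lemma pos_L20_A (d t : ℝ) (h1 : (1/7) ≤ d) (h2 : d ≤ (1/5)) (h3 : 0 ≤ t) (h4 : t ≤ 1) :
    0 < 2 + 2*t + 10*t^(2:ℕ) + 10*t^(3:ℕ) + 20*t^(4:ℕ) + 20*t^(5:ℕ) + 20*t^(6:ℕ) + 20*t^(7:ℕ) + 10*t^(8:ℕ) + 10*t^(9:ℕ) + 2*t^(10:ℕ) + 2*t^(11:ℕ) + 4*d + 3*d*t + (59/2)*d*t^(2:ℕ) + 23*d*t^(3:ℕ) + 70*d*t^(4:ℕ) + 54*d*t^(5:ℕ) + 73*d*t^(6:ℕ) + 54*d*t^(7:ℕ) + 34*d*t^(8:ℕ) + 23*d*t^(9:ℕ) + (11/2)*d*t^(10:ℕ) + 3*d*t^(11:ℕ) + (-16)*d^(2:ℕ) + (-16)*d^(2:ℕ)*t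 + (-32)*d^(2:ℕ)*t^(2:ℕ) + (-28)*d^(2:ℕ)*t^(3:ℕ) + 36*d^(2:ℕ)*t^(4:ℕ) + 25*d^(2:ℕ)*t^(5:ℕ) + 113*d^(2:ℕ)*t^(6:ℕ) + 48*d^(2:ℕ)*t^(7:ℕ) + 70*d^(2:ℕ)*t^(8:ℕ) + 5*d^(2:ℕ)*t^(9:ℕ) + 9*d^(2:ℕ)*t^(10:ℕ) + (-6)*d^(2:ℕ)*t^(11:ℕ) + (-41)*d^(3:ℕ)*t^(2:ℕ) + (-48)*d^(3:ℕ)*t^(3:ℕ) + (-55)*d^(3:ℕ)*t^(4:ℕ) + (-31)*d^(3:ℕ)*t^(5:ℕ) + 51*d^(3:ℕ)*t^(6:ℕ) + (-14)*d^(3:ℕ)*t^(7:ℕ) + 81*d^(3:ℕ)*t^(8:ℕ) + (-43)*d^(3:ℕ)*t^(9:ℕ) + 16*d^(3:ℕ)*t^(10:ℕ) + (-12)*d^(3:ℕ)*t^(11:ℕ) + 32*d^(4:ℕ)*t^(2:ℕ) + (-16)*d^(4:ℕ)*t^(3:ℕ) + 4*d^(4:ℕ)*t^(4:ℕ) + 22*d^(4:ℕ)*t^(5:ℕ) + (-24)*d^(4:ℕ)*t^(6:ℕ) + 28*d^(4:ℕ)*t^(7:ℕ) + 12*d^(4:ℕ)*t^(8:ℕ) + (-18)*d^(4:ℕ)*t^(9:ℕ) + 8*d^(4:ℕ)*t^(10:ℕ) + (-8)*d^(4:ℕ)*t^(11:ℕ)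 + (-32)*d^(5:ℕ)*t^(2:ℕ) + (167/4)*d^(5:ℕ)*t^(3:ℕ) + (-12)*d^(5:ℕ)*t^(4:ℕ) + (-79/2)*d^(5:ℕ)*t^(5:ℕ) + (121/2)*d^(5:ℕ)*t^(6:ℕ) + (-261/4)*d^(5:ℕ)*t^(7:ℕ) + (87/2)*d^(5:ℕ)*t^(8:ℕ) + (-61/4)*d^(5:ℕ)*t^(9:ℕ) + 3*d^(5:ℕ)*t^(10:ℕ) + (-1)*d^(5:ℕ)*t^(11:ℕ) + 10*d^(6:ℕ)*t^(5:ℕ) + (-31)*d^(6:ℕ)*t^(6:ℕ) + 40*d^(6:ℕ)*t^(7:ℕ) + (-19)*d^(6:ℕ)*t^(8:ℕ) + (-7)*d^(6:ℕ)*t^(9:ℕ) + 12*d^(6:ℕ)*t^(10:ℕ) + (-4)*d^(6:ℕ)*t^(11:ℕ) + (-4)*d^(7:ℕ)*t^(7:ℕ) + 12*d^(7:ℕ)*t^(8:ℕ) + (-17)*d^(7:ℕ)*t^(9:ℕ) + 12*d^(7:ℕ)*t^(10:ℕ) + (-4)*d^(7:ℕ)*t^(11:ℕ) := by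
  have e0 : 2 + 2*t + 10*t^(2:ℕ) + 10*t^(3:ℕ) + 20*t^(4:ℕ) + 20*t^(5:ℕ) + 20*t^(6:ℕ) + 20*t^(7:ℕ) + 10*t^(8:ℕ) + 10*t^(9:ℕ) + 2*t^(10:ℕ) + 2*t^(11:ℕ) + 4*d + 3*d*t + (59/2)*d*t^(2:ℕ) + 23*d*t^(3:ℕ) + 70*d*t^(4:ℕ) + 54*d*t^(5:ℕ) + 73*d*t^(6:ℕ) + 54*d*t^(7:ℕ) + 34*d*t^(8:ℕ) + 23*d*t^(9:ℕ) + (11/2)*d*t^(10:ℕ) + 3*d*t^(11:ℕ) + (-16)*d^(2:ℕ) + (-16)*d^(2:ℕ)*t + (-32)*d^(2:ℕ)*t^(2:ℕ) + (-28)*d^(2:ℕ)*t^(3:ℕ) + 36*d^(2:ℕ)*t^(4:ℕ) + 25*d^(2:ℕ)*t^(5:ℕ) + 113*d^(2:ℕ)*t^(6:ℕ) + 48*d^(2:ℕ)*t^(7:ℕ) + 70*d^(2:ℕ)*t^(8:ℕ) + 5*d^(2:ℕ)*t^(9:ℕ) + 9*d^(2:ℕ)*t^(10:ℕ) + (-6)*d^(2:ℕ)*t^(11:ℕ) + (-41)*d^(3:ℕ)*t^(2:ℕ) + (-48)*d^(3:ℕ)*t^(3:ℕ) + (-55)*d^(3:ℕ)*t^(4:ℕ) + (-31)*d^(3:ℕ)*t^(5:ℕ)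 + 51*d^(3:ℕ)*t^(6:ℕ) + (-14)*d^(3:ℕ)*t^(7:ℕ) + 81*d^(3:ℕ)*t^(8:ℕ) + (-43)*d^(3:ℕ)*t^(9:ℕ) + 16*d^(3:ℕ)*t^(10:ℕ) + (-12)*d^(3:ℕ)*t^(11:ℕ) + 32*d^(4:ℕ)*t^(2:ℕ) + (-16)*d^(4:ℕ)*t^(3:ℕ) + 4*d^(4:ℕ)*t^(4:ℕ) + 22*d^(4:ℕ)*t^(5:ℕ) + (-24)*d^(4:ℕ)*t^(6:ℕ) + 28*d^(4:ℕ)*t^(7:ℕ) + 12*d^(4:ℕ)*t^(8:ℕ) + (-18)*d^(4:ℕ)*t^(9:ℕ) + 8*d^(4:ℕ)*t^(10:ℕ) + (-8)*d^(4:ℕ)*t^(11:ℕ) + (-32)*d^(5:ℕ)*t^(2:ℕ) + (167/4)*d^(5:ℕ)*t^(3:ℕ) + (-12)*d^(5:ℕ)*t^(4:ℕ) + (-79/2)*d^(5:ℕ)*t^(5:ℕ) + (121/2)*d^(5:ℕ)*t^(6:ℕ) + (-261/4)*d^(5:ℕ)*t^(7:ℕ) + (87/2)*d^(5:ℕ)*t^(8:ℕ) + (-61/4)*d^(5:ℕ)*t^(9:ℕ) + 3*d^(5:ℕ)*t^(10:ℕ) + (-1)*d^(5:ℕ)*t^(11:ℕ) + 10*d^(6:ℕ)*t^(5:ℕ) + (-31)*d^(6:ℕ)*t^(6:ℕ) + 40*d^(6:ℕ)*t^(7:ℕ)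 + (-19)*d^(6:ℕ)*t^(8:ℕ) + (-7)*d^(6:ℕ)*t^(9:ℕ) + 12*d^(6:ℕ)*t^(10:ℕ) + (-4)*d^(6:ℕ)*t^(11:ℕ) + (-4)*d^(7:ℕ)*t^(7:ℕ) + 12*d^(7:ℕ)*t^(8:ℕ) + (-17)*d^(7:ℕ)*t^(9:ℕ) + 12*d^(7:ℕ)*t^(10:ℕ) + (-4)*d^(7:ℕ)*t^(11:ℕ) = (2 + 2*t + 10*t^(2:ℕ) + 10*t^(3:ℕ) + 20*t^(4:ℕ) + 20*t^(5:ℕ) + 20*t^(6:ℕ) + 20*t^(7:ℕ) + 10*t^(8:ℕ) + 10*t^(9:ℕ) + 2*t^(10:ℕ) + 2*t^(11:ℕ)) + d*(4 + 3*t + (59/2)*t^(2:ℕ) + 23*t^(3:ℕ) + 70*t^(4:ℕ) + 54*t^(5:ℕ) + 73*t^(6:ℕ) + 54*t^(7:ℕ) + 34*t^(8:ℕ) + 23*t^(9:ℕ) + (11/2)*t^(10:ℕ) + 3*t^(11:ℕ)) + d^(2:ℕ)*((-16) + (-16)*t + (-32)*t^(2:ℕ) + (-28)*t^(3:ℕ) + 36*t^(4:ℕ) + 25*t^(5:ℕ) + 113*t^(6:ℕ) + 48*t^(7:ℕ) + 70*t^(8:ℕ) + 5*t^(9:ℕ) + 9*t^(10:ℕ) + (-6)*t^(11:ℕ))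 + d^(3:ℕ)*((-41)*t^(2:ℕ) + (-48)*t^(3:ℕ) + (-55)*t^(4:ℕ) + (-31)*t^(5:ℕ) + 51*t^(6:ℕ) + (-14)*t^(7:ℕ) + 81*t^(8:ℕ) + (-43)*t^(9:ℕ) + 16*t^(10:ℕ) + (-12)*t^(11:ℕ)) + d^(4:ℕ)*(32*t^(2:ℕ) + (-16)*t^(3:ℕ) + 4*t^(4:ℕ) + 22*t^(5:ℕ) + (-24)*t^(6:ℕ) + 28*t^(7:ℕ) + 12*t^(8:ℕ) + (-18)*t^(9:ℕ) + 8*t^(10:ℕ) + (-8)*t^(11:ℕ)) + d^(5:ℕ)*((-32)*t^(2:ℕ) + (167/4)*t^(3:ℕ) + (-12)*t^(4:ℕ) + (-79/2)*t^(5:ℕ) + (121/2)*t^(6:ℕ) + (-261/4)*t^(7:ℕ) + (87/2)*t^(8:ℕ) + (-61/4)*t^(9:ℕ) + 3*t^(10:ℕ) + (-1)*t^(11:ℕ)) + d^(6:ℕ)*(10*t^(5:ℕ) + (-31)*t^(6:ℕ) + 40*t^(7:ℕ) + (-19)*t^(8:ℕ) + (-7)*t^(9:ℕ) + 12*t^(10:ℕ) + (-4)*t^(11:ℕ)) + d^(7:ℕ)*((-4)*t^(7:ℕ) + 12*t^(8:ℕ) + (-17)*t^(9:ℕ) + 12*t^(10:ℕ)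 + (-4)*t^(11:ℕ)) := by
    ring
  rw [e0]
  exact pos_L20_A_core d _ _ _ _ _ _ _ _ h1 h2 (pos_L20_A_b0 t h3 h4) (pos_L20_A_b1 t h3 h4) (pos_L20_A_b2 t h3 h4) (pos_L20_A_b3 t h3 h4) (pos_L20_A_b4 t h3 h4) (pos_L20_A_b5 t h3 h4) (pos_L20_A_b6 t h3 h4) (pos_L20_A_b7 t h3 h4)

lemma pos_L1e_A_b0 (t : ℝ) (h3 : 0 ≤ t) (h4 : t ≤ 1) :
    0 ≤ 1*((1/2) + (1/2)*t + (5/2)*t^(2:ℕ) + (5/2)*t^(3:ℕ) + 5*t^(4:ℕ) + 5*t^(5:ℕ) + 5*t^(6:ℕ) + 5*t^(7:ℕ) + (5/2)*t^(8:ℕ) + (5/2)*t^(9:ℕ) + (1/2)*t^(10:ℕ) + (1/2)*t^(11:ℕ)) + (1/7)*((17/8) + (-7/8)*t + (157/8)*t^(2:ℕ) + (77/8)*t^(3:ℕ) + (253/4)*t^(4:ℕ) + (33/4)*t^(5:ℕ) + (257/4)*t^(6:ℕ) + (-59/4)*t^(7:ℕ) + (181/8)*t^(8:ℕ) + (-91/8)*t^(9:ℕ)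 + (33/8)*t^(10:ℕ) + (9/8)*t^(11:ℕ)) + (1/49)*((-7/4) + (-19/4)*t + (87/4)*t^(2:ℕ) + 28*t^(3:ℕ) + (591/4)*t^(4:ℕ) + (-21/4)*t^(5:ℕ) + (527/4)*t^(6:ℕ) + (-383/4)*t^(7:ℕ) + 8*t^(8:ℕ) + (-62)*t^(9:ℕ) + (1/2)*t^(10:ℕ) + (-17/4)*t^(11:ℕ)) + (1/343)*((537/16)*t^(2:ℕ) + (-645/16)*t^(3:ℕ) + (2847/16)*t^(4:ℕ) + (-493/4)*t^(5:ℕ) + (1077/8)*t^(6:ℕ) + (-987/16)*t^(7:ℕ) + (-501/16)*t^(8:ℕ) + (145/8)*t^(9:ℕ) + (-345/16)*t^(10:ℕ) + (-25/8)*t^(11:ℕ)) + (1/2401)*((261/8)*t^(2:ℕ) + (-589/16)*t^(3:ℕ) + (1089/16)*t^(4:ℕ) + (-1033/16)*t^(5:ℕ) + (105/4)*t^(6:ℕ) + (-37/16)*t^(7:ℕ) + (-375/16)*t^(8:ℕ) + (431/16)*t^(9:ℕ) + (-89/2)*t^(10:ℕ) + (3/2)*t^(11:ℕ)) + (1/16807)*((13/2)*t^(2:ℕ)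 + (-6)*t^(3:ℕ) + (-19/4)*t^(4:ℕ) + (61/2)*t^(5:ℕ) + (-435/8)*t^(6:ℕ) + (163/4)*t^(7:ℕ) + (-67/4)*t^(8:ℕ) + (51/4)*t^(9:ℕ) + (-87/4)*t^(10:ℕ) + (17/2)*t^(11:ℕ)) + (1/117649)*((-689/64)*t^(4:ℕ) + (1037/32)*t^(5:ℕ) + (-2939/64)*t^(6:ℕ) + (1037/32)*t^(7:ℕ) + (-689/64)*t^(8:ℕ) + 2*t^(9:ℕ) + (-3)*t^(10:ℕ) + 2*t^(11:ℕ)) + (1/823543)*((-23/8)*t^(4:ℕ) + (139/16)*t^(5:ℕ) + (-197/16)*t^(6:ℕ) + (139/16)*t^(7:ℕ) + (-23/8)*t^(8:ℕ)) + (1/5764801)*((-1/4)*t^(4:ℕ) + (3/4)*t^(5:ℕ) + (-17/16)*t^(6:ℕ) + (3/4)*t^(7:ℕ) + (-1/4)*t^(8:ℕ)) - (691/1000) := by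
  have e : 1*((1/2) + (1/2)*t + (5/2)*t^(2:ℕ) + (5/2)*t^(3:ℕ) + 5*t^(4:ℕ) + 5*t^(5:ℕ) + 5*t^(6:ℕ) + 5*t^(7:ℕ) + (5/2)*t^(8:ℕ) + (5/2)*t^(9:ℕ) + (1/2)*t^(10:ℕ) + (1/2)*t^(11:ℕ)) + (1/7)*((17/8) + (-7/8)*t + (157/8)*t^(2:ℕ) + (77/8)*t^(3:ℕ) + (253/4)*t^(4:ℕ) + (33/4)*t^(5:ℕ) + (257/4)*t^(6:ℕ) + (-59/4)*t^(7:ℕ) + (181/8)*t^(8:ℕ) + (-91/8)*t^(9:ℕ) + (33/8)*t^(10:ℕ) + (9/8)*t^(11:ℕ)) + (1/49)*((-7/4) + (-19/4)*t + (87/4)*t^(2:ℕ) + 28*t^(3:ℕ) + (591/4)*t^(4:ℕ) + (-21/4)*t^(5:ℕ) + (527/4)*t^(6:ℕ) + (-383/4)*t^(7:ℕ) + 8*t^(8:ℕ) + (-62)*t^(9:ℕ) + (1/2)*t^(10:ℕ) + (-17/4)*t^(11:ℕ)) + (1/343)*((537/16)*t^(2:ℕ) + (-645/16)*t^(3:ℕ) + (2847/16)*t^(4:ℕ) + (-493/4)*t^(5:ℕ)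 + (1077/8)*t^(6:ℕ) + (-987/16)*t^(7:ℕ) + (-501/16)*t^(8:ℕ) + (145/8)*t^(9:ℕ) + (-345/16)*t^(10:ℕ) + (-25/8)*t^(11:ℕ)) + (1/2401)*((261/8)*t^(2:ℕ) + (-589/16)*t^(3:ℕ) + (1089/16)*t^(4:ℕ) + (-1033/16)*t^(5:ℕ) + (105/4)*t^(6:ℕ) + (-37/16)*t^(7:ℕ) + (-375/16)*t^(8:ℕ) + (431/16)*t^(9:ℕ) + (-89/2)*t^(10:ℕ) + (3/2)*t^(11:ℕ)) + (1/16807)*((13/2)*t^(2:ℕ) + (-6)*t^(3:ℕ) + (-19/4)*t^(4:ℕ) + (61/2)*t^(5:ℕ) + (-435/8)*t^(6:ℕ) + (163/4)*t^(7:ℕ) + (-67/4)*t^(8:ℕ) + (51/4)*t^(9:ℕ) + (-87/4)*t^(10:ℕ) + (17/2)*t^(11:ℕ)) + (1/117649)*((-689/64)*t^(4:ℕ) + (1037/32)*t^(5:ℕ) + (-2939/64)*t^(6:ℕ) + (1037/32)*t^(7:ℕ) + (-689/64)*t^(8:ℕ) + 2*t^(9:ℕ) + (-3)*t^(10:ℕ) + 2*t^(11:ℕ)) +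 (1/823543)*((-23/8)*t^(4:ℕ) + (139/16)*t^(5:ℕ) + (-197/16)*t^(6:ℕ) + (139/16)*t^(7:ℕ) + (-23/8)*t^(8:ℕ)) + (1/5764801)*((-1/4)*t^(4:ℕ) + (3/4)*t^(5:ℕ) + (-17/16)*t^(6:ℕ) + (3/4)*t^(7:ℕ) + (-1/4)*t^(8:ℕ)) - (691/1000) = (269/3500)*(1 - t)^(11:ℕ) + (55051/49000)*(t - 0)*(1 - t)^(10:ℕ) + (86502461/6722800)*(t - 0)^(2:ℕ)*(1 - t)^(9:ℕ) + (78984119/960400)*(t - 0)^(3:ℕ)*(1 - t)^(8:ℕ) + (2967880939127/9223681600)*(t - 0)^(4:ℕ)*(1 - t)^(7:ℕ) + (38542138307639/46118408000)*(t - 0)^(5:ℕ)*(1 - t)^(6:ℕ) + (17367403913441/11529602000)*(t - 0)^(6:ℕ)*(1 - t)^(5:ℕ) + (8819114558501/4611840800)*(t - 0)^(7:ℕ)*(1 - t)^(4:ℕ) + (7798357971763/4611840800)*(t - 0)^(8:ℕ)*(1 - t)^(3:ℕ)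 + (82156313691/82354300)*(t - 0)^(9:ℕ)*(1 - t)^(2:ℕ) + (16385748127167/46118408000)*(t - 0)^(10:ℕ)*(1 - t) + (2715952860947/46118408000)*(t - 0)^(11:ℕ) := by
    ring
  rw [e]
  have a3 : 0 ≤ t - 0 := by linarith
  have a4 : 0 ≤ 1 - t := by linarith
  generalize t - 0 = t1 at a3 ⊢
  generalize 1 - t = t2 at a4 ⊢
  positivity

lemma pos_L1e_A_b1 (t : ℝ) (h3 : 0 ≤ t) (h4 : t ≤ 1) :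
    0 ≤ 1*((1/2) + (1/2)*t + (5/2)*t^(2:ℕ) + (5/2)*t^(3:ℕ) + 5*t^(4:ℕ) + 5*t^(5:ℕ) + 5*t^(6:ℕ) + 5*t^(7:ℕ) + (5/2)*t^(8:ℕ) + (5/2)*t^(9:ℕ) + (1/2)*t^(10:ℕ) + (1/2)*t^(11:ℕ)) + (3/20)*((17/8) + (-7/8)*t + (157/8)*t^(2:ℕ) + (77/8)*t^(3:ℕ) + (253/4)*t^(4:ℕ) + (33/4)*t^(5:ℕ) + (257/4)*t^(6:ℕ) + (-59/4)*t^(7:ℕ) + (181/8)*t^(8:ℕ) + (-91/8)*t^(9:ℕ) + (33/8)*t^(10:ℕ) + (9/8)*t^(11:ℕ)) + (11/490)*((-7/4) + (-19/4)*t + (87/4)*t^(2:ℕ) + 28*t^(3:ℕ) + (591/4)*t^(4:ℕ) + (-21/4)*t^(5:ℕ) + (527/4)*t^(6:ℕ) + (-383/4)*t^(7:ℕ) + 8*t^(8:ℕ) + (-62)*t^(9:ℕ) + (1/2)*t^(10:ℕ) + (-17/4)*t^(11:ℕ)) + (23/6860)*((537/16)*t^(2:ℕ) + (-645/16)*t^(3:ℕ) + (2847/16)*t^(4:ℕ) + (-493/4)*t^(5:ℕ)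 + (1077/8)*t^(6:ℕ) + (-987/16)*t^(7:ℕ) + (-501/16)*t^(8:ℕ) + (145/8)*t^(9:ℕ) + (-345/16)*t^(10:ℕ) + (-25/8)*t^(11:ℕ)) + (6/12005)*((261/8)*t^(2:ℕ) + (-589/16)*t^(3:ℕ) + (1089/16)*t^(4:ℕ) + (-1033/16)*t^(5:ℕ) + (105/4)*t^(6:ℕ) + (-37/16)*t^(7:ℕ) + (-375/16)*t^(8:ℕ) + (431/16)*t^(9:ℕ) + (-89/2)*t^(10:ℕ) + (3/2)*t^(11:ℕ)) + (5/67228)*((13/2)*t^(2:ℕ) + (-6)*t^(3:ℕ) + (-19/4)*t^(4:ℕ) + (61/2)*t^(5:ℕ) + (-435/8)*t^(6:ℕ) + (163/4)*t^(7:ℕ) + (-67/4)*t^(8:ℕ) + (51/4)*t^(9:ℕ) + (-87/4)*t^(10:ℕ) + (17/2)*t^(11:ℕ)) + (13/1176490)*((-689/64)*t^(4:ℕ) + (1037/32)*t^(5:ℕ) + (-2939/64)*t^(6:ℕ) + (1037/32)*t^(7:ℕ) + (-689/64)*t^(8:ℕ) + 2*t^(9:ℕ) + (-3)*t^(10:ℕ) + 2*t^(11:ℕ))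 + (27/16470860)*((-23/8)*t^(4:ℕ) + (139/16)*t^(5:ℕ) + (-197/16)*t^(6:ℕ) + (139/16)*t^(7:ℕ) + (-23/8)*t^(8:ℕ)) + (1/4117715)*((-1/4)*t^(4:ℕ) + (3/4)*t^(5:ℕ) + (-17/16)*t^(6:ℕ) + (3/4)*t^(7:ℕ) + (-1/4)*t^(8:ℕ)) - (691/1000) := by
  have e : 1*((1/2) + (1/2)*t + (5/2)*t^(2:ℕ) + (5/2)*t^(3:ℕ) + 5*t^(4:ℕ) + 5*t^(5:ℕ) + 5*t^(6:ℕ) + 5*t^(7:ℕ) + (5/2)*t^(8:ℕ) + (5/2)*t^(9:ℕ) + (1/2)*t^(10:ℕ) + (1/2)*t^(11:ℕ)) + (3/20)*((17/8) + (-7/8)*t + (157/8)*t^(2:ℕ) + (77/8)*t^(3:ℕ) + (253/4)*t^(4:ℕ) + (33/4)*t^(5:ℕ) + (257/4)*t^(6:ℕ) + (-59/4)*t^(7:ℕ) + (181/8)*t^(8:ℕ) + (-91/8)*t^(9:ℕ) + (33/8)*t^(10:ℕ) + (9/8)*t^(11:ℕ)) + (11/490)*((-7/4) + (-19/4)*t + (87/4)*t^(2:ℕ) + 28*t^(3:ℕ)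 + (591/4)*t^(4:ℕ) + (-21/4)*t^(5:ℕ) + (527/4)*t^(6:ℕ) + (-383/4)*t^(7:ℕ) + 8*t^(8:ℕ) + (-62)*t^(9:ℕ) + (1/2)*t^(10:ℕ) + (-17/4)*t^(11:ℕ)) + (23/6860)*((537/16)*t^(2:ℕ) + (-645/16)*t^(3:ℕ) + (2847/16)*t^(4:ℕ) + (-493/4)*t^(5:ℕ) + (1077/8)*t^(6:ℕ) + (-987/16)*t^(7:ℕ) + (-501/16)*t^(8:ℕ) + (145/8)*t^(9:ℕ) + (-345/16)*t^(10:ℕ) + (-25/8)*t^(11:ℕ)) + (6/12005)*((261/8)*t^(2:ℕ) + (-589/16)*t^(3:ℕ) + (1089/16)*t^(4:ℕ) + (-1033/16)*t^(5:ℕ) + (105/4)*t^(6:ℕ) + (-37/16)*t^(7:ℕ) + (-375/16)*t^(8:ℕ) + (431/16)*t^(9:ℕ) + (-89/2)*t^(10:ℕ) + (3/2)*t^(11:ℕ)) + (5/67228)*((13/2)*t^(2:ℕ) + (-6)*t^(3:ℕ) + (-19/4)*t^(4:ℕ) + (61/2)*t^(5:ℕ) + (-435/8)*t^(6:ℕ) + (163/4)*t^(7:ℕ) +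 (-67/4)*t^(8:ℕ) + (51/4)*t^(9:ℕ) + (-87/4)*t^(10:ℕ) + (17/2)*t^(11:ℕ)) + (13/1176490)*((-689/64)*t^(4:ℕ) + (1037/32)*t^(5:ℕ) + (-2939/64)*t^(6:ℕ) + (1037/32)*t^(7:ℕ) + (-689/64)*t^(8:ℕ) + 2*t^(9:ℕ) + (-3)*t^(10:ℕ) + 2*t^(11:ℕ)) + (27/16470860)*((-23/8)*t^(4:ℕ) + (139/16)*t^(5:ℕ) + (-197/16)*t^(6:ℕ) + (139/16)*t^(7:ℕ) + (-23/8)*t^(8:ℕ)) + (1/4117715)*((-1/4)*t^(4:ℕ) + (3/4)*t^(5:ℕ) + (-17/16)*t^(6:ℕ) + (3/4)*t^(7:ℕ) + (-1/4)*t^(8:ℕ)) - (691/1000) = (2477/28000)*(1 - t)^(11:ℕ) + (30263/24500)*(t - 0)*(1 - t)^(10:ℕ) + (364323079/26891200)*(t - 0)^(2:ℕ)*(1 - t)^(9:ℕ) + (81981849/960400)*(t - 0)^(3:ℕ)*(1 - t)^(8:ℕ) + (876608802607/2635337600)*(t - 0)^(4:ℕ)*(1 -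 t)^(7:ℕ) + (1625434681547/1882384000)*(t - 0)^(5:ℕ)*(1 - t)^(6:ℕ) + (5130070525551/3294172000)*(t - 0)^(6:ℕ)*(1 - t)^(5:ℕ) + (1303381720003/658834400)*(t - 0)^(7:ℕ)*(1 - t)^(4:ℕ) + (2305406381683/1317668800)*(t - 0)^(8:ℕ)*(1 - t)^(3:ℕ) + (1358979500121/1317668800)*(t - 0)^(9:ℕ)*(1 - t)^(2:ℕ) + (689814057741/1882384000)*(t - 0)^(10:ℕ)*(1 - t) + (113809741681/1882384000)*(t - 0)^(11:ℕ) := by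
    ring
  rw [e]
  have a3 : 0 ≤ t - 0 := by linarith
  have a4 : 0 ≤ 1 - t := by linarith
  generalize t - 0 = t1 at a3 ⊢
  generalize 1 - t = t2 at a4 ⊢
  positivity

lemma pos_L1e_A_b2 (t : ℝ) (h3 : 0 ≤ t) (h4 : t ≤ 1) :
    0 ≤ 1*((1/2) + (1/2)*t + (5/2)*t^(2:ℕ) + (5/2)*t^(3:ℕ) + 5*t^(4:ℕ) + 5*t^(5:ℕ) + 5*t^(6:ℕ) + 5*t^(7:ℕ) + (5/2)*t^(8:ℕ) + (5/2)*t^(9:ℕ) + (1/2)*t^(10:ℕ) + (1/2)*t^(11:ℕ)) + (11/70)*((17/8) + (-7/8)*t + (157/8)*t^(2:ℕ) + (77/8)*t^(3:ℕ) + (253/4)*t^(4:ℕ) + (33/4)*t^(5:ℕ) + (257/4)*t^(6:ℕ) + (-59/4)*t^(7:ℕ) + (181/8)*t^(8:ℕ) + (-91/8)*t^(9:ℕ) + (33/8)*t^(10:ℕ) + (9/8)*t^(11:ℕ)) + (211/8575)*((-7/4) + (-19/4)*t + (87/4)*t^(2:ℕ) + 28*t^(3:ℕ)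 + (591/4)*t^(4:ℕ) + (-21/4)*t^(5:ℕ) + (527/4)*t^(6:ℕ) + (-383/4)*t^(7:ℕ) + 8*t^(8:ℕ) + (-62)*t^(9:ℕ) + (1/2)*t^(10:ℕ) + (-17/4)*t^(11:ℕ)) + (461/120050)*((537/16)*t^(2:ℕ) + (-645/16)*t^(3:ℕ) + (2847/16)*t^(4:ℕ) + (-493/4)*t^(5:ℕ) + (1077/8)*t^(6:ℕ) + (-987/16)*t^(7:ℕ) + (-501/16)*t^(8:ℕ) + (145/8)*t^(9:ℕ) + (-345/16)*t^(10:ℕ) + (-25/8)*t^(11:ℕ)) + (251/420175)*((261/8)*t^(2:ℕ) + (-589/16)*t^(3:ℕ) + (1089/16)*t^(4:ℕ) + (-1033/16)*t^(5:ℕ) + (105/4)*t^(6:ℕ) + (-37/16)*t^(7:ℕ) + (-375/16)*t^(8:ℕ) + (431/16)*t^(9:ℕ) + (-89/2)*t^(10:ℕ) + (3/2)*t^(11:ℕ)) + (109/1176490)*((13/2)*t^(2:ℕ) + (-6)*t^(3:ℕ) + (-19/4)*t^(4:ℕ) + (61/2)*t^(5:ℕ) + (-435/8)*t^(6:ℕ) + (163/4)*t^(7:ℕ)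 + (-67/4)*t^(8:ℕ) + (51/4)*t^(9:ℕ) + (-87/4)*t^(10:ℕ) + (17/2)*t^(11:ℕ)) + (59/4117715)*((-689/64)*t^(4:ℕ) + (1037/32)*t^(5:ℕ) + (-2939/64)*t^(6:ℕ) + (1037/32)*t^(7:ℕ) + (-689/64)*t^(8:ℕ) + 2*t^(9:ℕ) + (-3)*t^(10:ℕ) + 2*t^(11:ℕ)) + (13/5882450)*((-23/8)*t^(4:ℕ) + (139/16)*t^(5:ℕ) + (-197/16)*t^(6:ℕ) + (139/16)*t^(7:ℕ) + (-23/8)*t^(8:ℕ)) + (1/2941225)*((-1/4)*t^(4:ℕ) + (3/4)*t^(5:ℕ) + (-17/16)*t^(6:ℕ) + (3/4)*t^(7:ℕ) + (-1/4)*t^(8:ℕ)) - (691/1000) := by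
  have e : 1*((1/2) + (1/2)*t + (5/2)*t^(2:ℕ) + (5/2)*t^(3:ℕ) + 5*t^(4:ℕ) + 5*t^(5:ℕ) + 5*t^(6:ℕ) + 5*t^(7:ℕ) + (5/2)*t^(8:ℕ) + (5/2)*t^(9:ℕ) + (1/2)*t^(10:ℕ) + (1/2)*t^(11:ℕ)) + (11/70)*((17/8) + (-7/8)*t + (157/8)*t^(2:ℕ) + (77/8)*t^(3:ℕ) + (253/4)*t^(4:ℕ) + (33/4)*t^(5:ℕ) + (257/4)*t^(6:ℕ) + (-59/4)*t^(7:ℕ) + (181/8)*t^(8:ℕ) + (-91/8)*t^(9:ℕ) + (33/8)*t^(10:ℕ) + (9/8)*t^(11:ℕ)) + (211/8575)*((-7/4) + (-19/4)*t + (87/4)*t^(2:ℕ) + 28*t^(3:ℕ) + (591/4)*t^(4:ℕ) + (-21/4)*t^(5:ℕ) + (527/4)*t^(6:ℕ) + (-383/4)*t^(7:ℕ) + 8*t^(8:ℕ) + (-62)*t^(9:ℕ) + (1/2)*t^(10:ℕ) + (-17/4)*t^(11:ℕ)) + (461/120050)*((537/16)*t^(2:ℕ) + (-645/16)*t^(3:ℕ) + (2847/16)*t^(4:ℕ) + (-493/4)*t^(5:ℕ)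 + (1077/8)*t^(6:ℕ) + (-987/16)*t^(7:ℕ) + (-501/16)*t^(8:ℕ) + (145/8)*t^(9:ℕ) + (-345/16)*t^(10:ℕ) + (-25/8)*t^(11:ℕ)) + (251/420175)*((261/8)*t^(2:ℕ) + (-589/16)*t^(3:ℕ) + (1089/16)*t^(4:ℕ) + (-1033/16)*t^(5:ℕ) + (105/4)*t^(6:ℕ) + (-37/16)*t^(7:ℕ) + (-375/16)*t^(8:ℕ) + (431/16)*t^(9:ℕ) + (-89/2)*t^(10:ℕ) + (3/2)*t^(11:ℕ)) + (109/1176490)*((13/2)*t^(2:ℕ) + (-6)*t^(3:ℕ) + (-19/4)*t^(4:ℕ) + (61/2)*t^(5:ℕ) + (-435/8)*t^(6:ℕ) + (163/4)*t^(7:ℕ) + (-67/4)*t^(8:ℕ) + (51/4)*t^(9:ℕ) + (-87/4)*t^(10:ℕ) + (17/2)*t^(11:ℕ)) + (59/4117715)*((-689/64)*t^(4:ℕ) + (1037/32)*t^(5:ℕ) + (-2939/64)*t^(6:ℕ) + (1037/32)*t^(7:ℕ) + (-689/64)*t^(8:ℕ) + 2*t^(9:ℕ) + (-3)*t^(10:ℕ) + 2*t^(11:ℕ))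 + (13/5882450)*((-23/8)*t^(4:ℕ) + (139/16)*t^(5:ℕ) + (-197/16)*t^(6:ℕ) + (139/16)*t^(7:ℕ) + (-23/8)*t^(8:ℕ)) + (1/2941225)*((-1/4)*t^(4:ℕ) + (3/4)*t^(5:ℕ) + (-17/16)*t^(6:ℕ) + (3/4)*t^(7:ℕ) + (-1/4)*t^(8:ℕ)) - (691/1000) = (9787/98000)*(1 - t)^(11:ℕ) + (461047/343000)*(t - 0)*(1 - t)^(10:ℕ) + (1338091833/94119200)*(t - 0)^(2:ℕ)*(1 - t)^(9:ℕ) + (118950463/1344560)*(t - 0)^(3:ℕ)*(1 - t)^(8:ℕ) + (452715615419/1317668800)*(t - 0)^(4:ℕ)*(1 - t)^(7:ℕ) + (5874566105117/6588344000)*(t - 0)^(5:ℕ)*(1 - t)^(6:ℕ) + (2650566601043/1647086000)*(t - 0)^(6:ℕ)*(1 - t)^(5:ℕ) + (673902589301/329417200)*(t - 0)^(7:ℕ)*(1 - t)^(4:ℕ) + (238441739503/131766880)*(t - 0)^(8:ℕ)*(1 -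 t)^(3:ℕ) + (28088572025/26353376)*(t - 0)^(9:ℕ)*(1 - t)^(2:ℕ) + (2489342606031/6588344000)*(t - 0)^(10:ℕ)*(1 - t) + (58403802813/941192000)*(t - 0)^(11:ℕ) := by
    ring
  rw [e]
  have a3 : 0 ≤ t - 0 := by linarith
  have a4 : 0 ≤ 1 - t := by linarith
  generalize t - 0 = t1 at a3 ⊢
  generalize 1 - t = t2 at a4 ⊢
  positivity

lemma pos_L1e_A_b3 (t : ℝ) (h3 : 0 ≤ t) (h4 : t ≤ 1) :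
    0 ≤ 1*((1/2) + (1/2)*t + (5/2)*t^(2:ℕ) + (5/2)*t^(3:ℕ) + 5*t^(4:ℕ) + 5*t^(5:ℕ) + 5*t^(6:ℕ) + 5*t^(7:ℕ) + (5/2)*t^(8:ℕ) + (5/2)*t^(9:ℕ) + (1/2)*t^(10:ℕ) + (1/2)*t^(11:ℕ)) + (23/140)*((17/8) + (-7/8)*t + (157/8)*t^(2:ℕ) + (77/8)*t^(3:ℕ) + (253/4)*t^(4:ℕ) + (33/4)*t^(5:ℕ) + (257/4)*t^(6:ℕ) + (-59/4)*t^(7:ℕ) + (181/8)*t^(8:ℕ) + (-91/8)*t^(9:ℕ) + (33/8)*t^(10:ℕ) + (9/8)*t^(11:ℕ)) + (461/17150)*((-7/4) + (-19/4)*t + (87/4)*t^(2:ℕ) + 28*t^(3:ℕ) + (591/4)*t^(4:ℕ) + (-21/4)*t^(5:ℕ) + (527/4)*t^(6:ℕ) + (-383/4)*t^(7:ℕ) + 8*t^(8:ℕ) + (-62)*t^(9:ℕ) + (1/2)*t^(10:ℕ) + (-17/4)*t^(11:ℕ)) + (5259/1200500)*((537/16)*t^(2:ℕ) + (-645/16)*t^(3:ℕ) + (2847/16)*t^(4:ℕ) + (-493/4)*t^(5:ℕ)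 + (1077/8)*t^(6:ℕ) + (-987/16)*t^(7:ℕ) + (-501/16)*t^(8:ℕ) + (145/8)*t^(9:ℕ) + (-345/16)*t^(10:ℕ) + (-25/8)*t^(11:ℕ)) + (1494/2100875)*((261/8)*t^(2:ℕ) + (-589/16)*t^(3:ℕ) + (1089/16)*t^(4:ℕ) + (-1033/16)*t^(5:ℕ) + (105/4)*t^(6:ℕ) + (-37/16)*t^(7:ℕ) + (-375/16)*t^(8:ℕ) + (431/16)*t^(9:ℕ) + (-89/2)*t^(10:ℕ) + (3/2)*t^(11:ℕ)) + (1353/11764900)*((13/2)*t^(2:ℕ) + (-6)*t^(3:ℕ) + (-19/4)*t^(4:ℕ) + (61/2)*t^(5:ℕ) + (-435/8)*t^(6:ℕ) + (163/4)*t^(7:ℕ) + (-67/4)*t^(8:ℕ) + (51/4)*t^(9:ℕ) + (-87/4)*t^(10:ℕ) + (17/2)*t^(11:ℕ)) + (109/5882450)*((-689/64)*t^(4:ℕ) + (1037/32)*t^(5:ℕ) + (-2939/64)*t^(6:ℕ) + (1037/32)*t^(7:ℕ) + (-689/64)*t^(8:ℕ) + 2*t^(9:ℕ) + (-3)*t^(10:ℕ)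 + 2*t^(11:ℕ)) + (1/336140)*((-23/8)*t^(4:ℕ) + (139/16)*t^(5:ℕ) + (-197/16)*t^(6:ℕ) + (139/16)*t^(7:ℕ) + (-23/8)*t^(8:ℕ)) + (1/2100875)*((-1/4)*t^(4:ℕ) + (3/4)*t^(5:ℕ) + (-17/16)*t^(6:ℕ) + (3/4)*t^(7:ℕ) + (-1/4)*t^(8:ℕ)) - (691/1000) := by
  have e : 1*((1/2) + (1/2)*t + (5/2)*t^(2:ℕ) + (5/2)*t^(3:ℕ) + 5*t^(4:ℕ) + 5*t^(5:ℕ) + 5*t^(6:ℕ) + 5*t^(7:ℕ) + (5/2)*t^(8:ℕ) + (5/2)*t^(9:ℕ) + (1/2)*t^(10:ℕ) + (1/2)*t^(11:ℕ)) + (23/140)*((17/8) + (-7/8)*t + (157/8)*t^(2:ℕ) + (77/8)*t^(3:ℕ) + (253/4)*t^(4:ℕ) + (33/4)*t^(5:ℕ) + (257/4)*t^(6:ℕ) + (-59/4)*t^(7:ℕ) + (181/8)*t^(8:ℕ) + (-91/8)*t^(9:ℕ) + (33/8)*t^(10:ℕ) + (9/8)*t^(11:ℕ)) + (461/17150)*((-7/4) + (-19/4)*t + (87/4)*t^(2:ℕ)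 + 28*t^(3:ℕ) + (591/4)*t^(4:ℕ) + (-21/4)*t^(5:ℕ) + (527/4)*t^(6:ℕ) + (-383/4)*t^(7:ℕ) + 8*t^(8:ℕ) + (-62)*t^(9:ℕ) + (1/2)*t^(10:ℕ) + (-17/4)*t^(11:ℕ)) + (5259/1200500)*((537/16)*t^(2:ℕ) + (-645/16)*t^(3:ℕ) + (2847/16)*t^(4:ℕ) + (-493/4)*t^(5:ℕ) + (1077/8)*t^(6:ℕ) + (-987/16)*t^(7:ℕ) + (-501/16)*t^(8:ℕ) + (145/8)*t^(9:ℕ) + (-345/16)*t^(10:ℕ) + (-25/8)*t^(11:ℕ)) + (1494/2100875)*((261/8)*t^(2:ℕ) + (-589/16)*t^(3:ℕ) + (1089/16)*t^(4:ℕ) + (-1033/16)*t^(5:ℕ) + (105/4)*t^(6:ℕ) + (-37/16)*t^(7:ℕ) + (-375/16)*t^(8:ℕ) + (431/16)*t^(9:ℕ) + (-89/2)*t^(10:ℕ) + (3/2)*t^(11:ℕ)) + (1353/11764900)*((13/2)*t^(2:ℕ) + (-6)*t^(3:ℕ) + (-19/4)*t^(4:ℕ) + (61/2)*t^(5:ℕ) + (-435/8)*t^(6:ℕ)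 + (163/4)*t^(7:ℕ) + (-67/4)*t^(8:ℕ) + (51/4)*t^(9:ℕ) + (-87/4)*t^(10:ℕ) + (17/2)*t^(11:ℕ)) + (109/5882450)*((-689/64)*t^(4:ℕ) + (1037/32)*t^(5:ℕ) + (-2939/64)*t^(6:ℕ) + (1037/32)*t^(7:ℕ) + (-689/64)*t^(8:ℕ) + 2*t^(9:ℕ) + (-3)*t^(10:ℕ) + 2*t^(11:ℕ)) + (1/336140)*((-23/8)*t^(4:ℕ) + (139/16)*t^(5:ℕ) + (-197/16)*t^(6:ℕ) + (139/16)*t^(7:ℕ) + (-23/8)*t^(8:ℕ)) + (1/2100875)*((-1/4)*t^(4:ℕ) + (3/4)*t^(5:ℕ) + (-17/16)*t^(6:ℕ) + (3/4)*t^(7:ℕ) + (-1/4)*t^(8:ℕ)) - (691/1000) = (21769/196000)*(1 - t)^(11:ℕ) + (124363/85750)*(t - 0)*(1 - t)^(10:ℕ) + (13999344111/941192000)*(t - 0)^(2:ℕ)*(1 - t)^(9:ℕ) + (3077681697/33614000)*(t - 0)^(3:ℕ)*(1 - t)^(8:ℕ) + (133492526177/376476800)*(t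 - 0)^(4:ℕ)*(1 - t)^(7:ℕ) + (49491786941/53782400)*(t - 0)^(5:ℕ)*(1 - t)^(6:ℕ) + (782197156029/470596000)*(t - 0)^(6:ℕ)*(1 - t)^(5:ℕ) + (497557850309/235298000)*(t - 0)^(7:ℕ)*(1 - t)^(4:ℕ) + (1760831586953/941192000)*(t - 0)^(8:ℕ)*(1 - t)^(3:ℕ) + (1036330723693/941192000)*(t - 0)^(9:ℕ)*(1 - t)^(2:ℕ) + (733091865901/1882384000)*(t - 0)^(10:ℕ)*(1 - t) + (119849266401/1882384000)*(t - 0)^(11:ℕ) := by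
    ring
  rw [e]
  have a3 : 0 ≤ t - 0 := by linarith
  have a4 : 0 ≤ 1 - t := by linarith
  generalize t - 0 = t1 at a3 ⊢
  generalize 1 - t = t2 at a4 ⊢
  positivity

lemma pos_L1e_A_b4 (t : ℝ) (h3 : 0 ≤ t) (h4 : t ≤ 1) :
    0 ≤ 1*((1/2) + (1/2)*t + (5/2)*t^(2:ℕ) + (5/2)*t^(3:ℕ) + 5*t^(4:ℕ) + 5*t^(5:ℕ) + 5*t^(6:ℕ) + 5*t^(7:ℕ) + (5/2)*t^(8:ℕ) + (5/2)*t^(9:ℕ) + (1/2)*t^(10:ℕ) + (1/2)*t^(11:ℕ)) + (6/35)*((17/8) + (-7/8)*t + (157/8)*t^(2:ℕ) + (77/8)*t^(3:ℕ) + (253/4)*t^(4:ℕ) + (33/4)*t^(5:ℕ) + (257/4)*t^(6:ℕ) + (-59/4)*t^(7:ℕ) + (181/8)*t^(8:ℕ) + (-91/8)*t^(9:ℕ) + (33/8)*t^(10:ℕ) + (9/8)*t^(11:ℕ)) + (251/8575)*((-7/4) + (-19/4)*t + (87/4)*t^(2:ℕ) + 28*t^(3:ℕ)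 + (591/4)*t^(4:ℕ) + (-21/4)*t^(5:ℕ) + (527/4)*t^(6:ℕ) + (-383/4)*t^(7:ℕ) + 8*t^(8:ℕ) + (-62)*t^(9:ℕ) + (1/2)*t^(10:ℕ) + (-17/4)*t^(11:ℕ)) + (1494/300125)*((537/16)*t^(2:ℕ) + (-645/16)*t^(3:ℕ) + (2847/16)*t^(4:ℕ) + (-493/4)*t^(5:ℕ) + (1077/8)*t^(6:ℕ) + (-987/16)*t^(7:ℕ) + (-501/16)*t^(8:ℕ) + (145/8)*t^(9:ℕ) + (-345/16)*t^(10:ℕ) + (-25/8)*t^(11:ℕ)) + (44283/52521875)*((261/8)*t^(2:ℕ) + (-589/16)*t^(3:ℕ) + (1089/16)*t^(4:ℕ) + (-1033/16)*t^(5:ℕ) + (105/4)*t^(6:ℕ) + (-37/16)*t^(7:ℕ) + (-375/16)*t^(8:ℕ) + (431/16)*t^(9:ℕ) + (-89/2)*t^(10:ℕ) + (3/2)*t^(11:ℕ)) + (1494/10504375)*((13/2)*t^(2:ℕ) + (-6)*t^(3:ℕ) + (-19/4)*t^(4:ℕ) + (61/2)*t^(5:ℕ) + (-435/8)*t^(6:ℕ) +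 (163/4)*t^(7:ℕ) + (-67/4)*t^(8:ℕ) + (51/4)*t^(9:ℕ) + (-87/4)*t^(10:ℕ) + (17/2)*t^(11:ℕ)) + (251/10504375)*((-689/64)*t^(4:ℕ) + (1037/32)*t^(5:ℕ) + (-2939/64)*t^(6:ℕ) + (1037/32)*t^(7:ℕ) + (-689/64)*t^(8:ℕ) + 2*t^(9:ℕ) + (-3)*t^(10:ℕ) + 2*t^(11:ℕ)) + (6/1500625)*((-23/8)*t^(4:ℕ) + (139/16)*t^(5:ℕ) + (-197/16)*t^(6:ℕ) + (139/16)*t^(7:ℕ) + (-23/8)*t^(8:ℕ)) + (1/1500625)*((-1/4)*t^(4:ℕ) + (3/4)*t^(5:ℕ) + (-17/16)*t^(6:ℕ) + (3/4)*t^(7:ℕ) + (-1/4)*t^(8:ℕ)) - (691/1000) := by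
  have e : 1*((1/2) + (1/2)*t + (5/2)*t^(2:ℕ) + (5/2)*t^(3:ℕ) + 5*t^(4:ℕ) + 5*t^(5:ℕ) + 5*t^(6:ℕ) + 5*t^(7:ℕ) + (5/2)*t^(8:ℕ) + (5/2)*t^(9:ℕ) + (1/2)*t^(10:ℕ) + (1/2)*t^(11:ℕ)) + (6/35)*((17/8) + (-7/8)*t + (157/8)*t^(2:ℕ) + (77/8)*t^(3:ℕ) + (253/4)*t^(4:ℕ) + (33/4)*t^(5:ℕ) + (257/4)*t^(6:ℕ) + (-59/4)*t^(7:ℕ) + (181/8)*t^(8:ℕ) + (-91/8)*t^(9:ℕ) + (33/8)*t^(10:ℕ) + (9/8)*t^(11:ℕ)) + (251/8575)*((-7/4) + (-19/4)*t + (87/4)*t^(2:ℕ) + 28*t^(3:ℕ) + (591/4)*t^(4:ℕ) + (-21/4)*t^(5:ℕ) + (527/4)*t^(6:ℕ) + (-383/4)*t^(7:ℕ) + 8*t^(8:ℕ) + (-62)*t^(9:ℕ) + (1/2)*t^(10:ℕ) + (-17/4)*t^(11:ℕ)) + (1494/300125)*((537/16)*t^(2:ℕ) + (-645/16)*t^(3:ℕ) + (2847/16)*t^(4:ℕ) + (-493/4)*t^(5:ℕ)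 + (1077/8)*t^(6:ℕ) + (-987/16)*t^(7:ℕ) + (-501/16)*t^(8:ℕ) + (145/8)*t^(9:ℕ) + (-345/16)*t^(10:ℕ) + (-25/8)*t^(11:ℕ)) + (44283/52521875)*((261/8)*t^(2:ℕ) + (-589/16)*t^(3:ℕ) + (1089/16)*t^(4:ℕ) + (-1033/16)*t^(5:ℕ) + (105/4)*t^(6:ℕ) + (-37/16)*t^(7:ℕ) + (-375/16)*t^(8:ℕ) + (431/16)*t^(9:ℕ) + (-89/2)*t^(10:ℕ) + (3/2)*t^(11:ℕ)) + (1494/10504375)*((13/2)*t^(2:ℕ) + (-6)*t^(3:ℕ) + (-19/4)*t^(4:ℕ) + (61/2)*t^(5:ℕ) + (-435/8)*t^(6:ℕ) + (163/4)*t^(7:ℕ) + (-67/4)*t^(8:ℕ) + (51/4)*t^(9:ℕ) + (-87/4)*t^(10:ℕ) + (17/2)*t^(11:ℕ)) + (251/10504375)*((-689/64)*t^(4:ℕ) + (1037/32)*t^(5:ℕ) + (-2939/64)*t^(6:ℕ) + (1037/32)*t^(7:ℕ) + (-689/64)*t^(8:ℕ) + 2*t^(9:ℕ) + (-3)*t^(10:ℕ)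 + 2*t^(11:ℕ)) + (6/1500625)*((-23/8)*t^(4:ℕ) + (139/16)*t^(5:ℕ) + (-197/16)*t^(6:ℕ) + (139/16)*t^(7:ℕ) + (-23/8)*t^(8:ℕ)) + (1/1500625)*((-1/4)*t^(4:ℕ) + (3/4)*t^(5:ℕ) + (-17/16)*t^(6:ℕ) + (3/4)*t^(7:ℕ) + (-1/4)*t^(8:ℕ)) - (691/1000) = (5981/49000)*(1 - t)^(11:ℕ) + (532897/343000)*(t - 0)*(1 - t)^(10:ℕ) + (6520874253/420175000)*(t - 0)^(2:ℕ)*(1 - t)^(9:ℕ) + (11361334071/120050000)*(t - 0)^(3:ℕ)*(1 - t)^(8:ℕ) + (1229174753613/3361400000)*(t - 0)^(4:ℕ)*(1 - t)^(7:ℕ) + (3190636294637/3361400000)*(t - 0)^(5:ℕ)*(1 - t)^(6:ℕ) + (206009095821/120050000)*(t - 0)^(6:ℕ)*(1 - t)^(5:ℕ) + (734423756229/336140000)*(t - 0)^(7:ℕ)*(1 - t)^(4:ℕ) + (464226712703/240100000)*(t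 - 0)^(8:ℕ)*(1 - t)^(3:ℕ) + (955546938309/840350000)*(t - 0)^(9:ℕ)*(1 - t)^(2:ℕ) + (192697250943/480200000)*(t - 0)^(10:ℕ)*(1 - t) + (43905419281/672280000)*(t - 0)^(11:ℕ) := by
    ring
  rw [e]
  have a3 : 0 ≤ t - 0 := by linarith
  have a4 : 0 ≤ 1 - t := by linarith
  generalize t - 0 = t1 at a3 ⊢
  generalize 1 - t = t2 at a4 ⊢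
  positivity

lemma pos_L1e_A_b5 (t : ℝ) (h3 : 0 ≤ t) (h4 : t ≤ 1) :
    0 ≤ 1*((1/2) + (1/2)*t + (5/2)*t^(2:ℕ) + (5/2)*t^(3:ℕ) + 5*t^(4:ℕ) + 5*t^(5:ℕ) + 5*t^(6:ℕ) + 5*t^(7:ℕ) + (5/2)*t^(8:ℕ) + (5/2)*t^(9:ℕ) + (1/2)*t^(10:ℕ) + (1/2)*t^(11:ℕ)) + (5/28)*((17/8) + (-7/8)*t + (157/8)*t^(2:ℕ) + (77/8)*t^(3:ℕ) + (253/4)*t^(4:ℕ) + (33/4)*t^(5:ℕ) + (257/4)*t^(6:ℕ) + (-59/4)*t^(7:ℕ) + (181/8)*t^(8:ℕ) + (-91/8)*t^(9:ℕ) + (33/8)*t^(10:ℕ) + (9/8)*t^(11:ℕ)) + (109/3430)*((-7/4) + (-19/4)*t + (87/4)*t^(2:ℕ) + 28*t^(3:ℕ) + (591/4)*t^(4:ℕ) + (-21/4)*t^(5:ℕ) + (527/4)*t^(6:ℕ) + (-383/4)*t^(7:ℕ) + 8*t^(8:ℕ) + (-62)*t^(9:ℕ) + (1/2)*t^(10:ℕ) + (-17/4)*t^(11:ℕ)) + (1353/240100)*((537/16)*t^(2:ℕ)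 + (-645/16)*t^(3:ℕ) + (2847/16)*t^(4:ℕ) + (-493/4)*t^(5:ℕ) + (1077/8)*t^(6:ℕ) + (-987/16)*t^(7:ℕ) + (-501/16)*t^(8:ℕ) + (145/8)*t^(9:ℕ) + (-345/16)*t^(10:ℕ) + (-25/8)*t^(11:ℕ)) + (1494/1500625)*((261/8)*t^(2:ℕ) + (-589/16)*t^(3:ℕ) + (1089/16)*t^(4:ℕ) + (-1033/16)*t^(5:ℕ) + (105/4)*t^(6:ℕ) + (-37/16)*t^(7:ℕ) + (-375/16)*t^(8:ℕ) + (431/16)*t^(9:ℕ) + (-89/2)*t^(10:ℕ) + (3/2)*t^(11:ℕ)) + (5259/30012500)*((13/2)*t^(2:ℕ) + (-6)*t^(3:ℕ) + (-19/4)*t^(4:ℕ) + (61/2)*t^(5:ℕ) + (-435/8)*t^(6:ℕ) + (163/4)*t^(7:ℕ) + (-67/4)*t^(8:ℕ) + (51/4)*t^(9:ℕ) + (-87/4)*t^(10:ℕ) + (17/2)*t^(11:ℕ)) + (461/15006250)*((-689/64)*t^(4:ℕ) + (1037/32)*t^(5:ℕ) + (-2939/64)*t^(6:ℕ) + (1037/32)*t^(7:ℕ)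 + (-689/64)*t^(8:ℕ) + 2*t^(9:ℕ) + (-3)*t^(10:ℕ) + 2*t^(11:ℕ)) + (23/4287500)*((-23/8)*t^(4:ℕ) + (139/16)*t^(5:ℕ) + (-197/16)*t^(6:ℕ) + (139/16)*t^(7:ℕ) + (-23/8)*t^(8:ℕ)) + (1/1071875)*((-1/4)*t^(4:ℕ) + (3/4)*t^(5:ℕ) + (-17/16)*t^(6:ℕ) + (3/4)*t^(7:ℕ) + (-1/4)*t^(8:ℕ)) - (691/1000) := by
  have e : 1*((1/2) + (1/2)*t + (5/2)*t^(2:ℕ) + (5/2)*t^(3:ℕ) + 5*t^(4:ℕ) + 5*t^(5:ℕ) + 5*t^(6:ℕ) + 5*t^(7:ℕ) + (5/2)*t^(8:ℕ) + (5/2)*t^(9:ℕ) + (1/2)*t^(10:ℕ) + (1/2)*t^(11:ℕ)) + (5/28)*((17/8) + (-7/8)*t + (157/8)*t^(2:ℕ) + (77/8)*t^(3:ℕ) + (253/4)*t^(4:ℕ) + (33/4)*t^(5:ℕ) + (257/4)*t^(6:ℕ) + (-59/4)*t^(7:ℕ) + (181/8)*t^(8:ℕ) + (-91/8)*t^(9:ℕ) + (33/8)*t^(10:ℕ) + (9/8)*t^(11:ℕ))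 + (109/3430)*((-7/4) + (-19/4)*t + (87/4)*t^(2:ℕ) + 28*t^(3:ℕ) + (591/4)*t^(4:ℕ) + (-21/4)*t^(5:ℕ) + (527/4)*t^(6:ℕ) + (-383/4)*t^(7:ℕ) + 8*t^(8:ℕ) + (-62)*t^(9:ℕ) + (1/2)*t^(10:ℕ) + (-17/4)*t^(11:ℕ)) + (1353/240100)*((537/16)*t^(2:ℕ) + (-645/16)*t^(3:ℕ) + (2847/16)*t^(4:ℕ) + (-493/4)*t^(5:ℕ) + (1077/8)*t^(6:ℕ) + (-987/16)*t^(7:ℕ) + (-501/16)*t^(8:ℕ) + (145/8)*t^(9:ℕ) + (-345/16)*t^(10:ℕ) + (-25/8)*t^(11:ℕ)) + (1494/1500625)*((261/8)*t^(2:ℕ) + (-589/16)*t^(3:ℕ) + (1089/16)*t^(4:ℕ) + (-1033/16)*t^(5:ℕ) + (105/4)*t^(6:ℕ) + (-37/16)*t^(7:ℕ) + (-375/16)*t^(8:ℕ) + (431/16)*t^(9:ℕ) + (-89/2)*t^(10:ℕ) + (3/2)*t^(11:ℕ)) + (5259/30012500)*((13/2)*t^(2:ℕ) + (-6)*t^(3:ℕ)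 + (-19/4)*t^(4:ℕ) + (61/2)*t^(5:ℕ) + (-435/8)*t^(6:ℕ) + (163/4)*t^(7:ℕ) + (-67/4)*t^(8:ℕ) + (51/4)*t^(9:ℕ) + (-87/4)*t^(10:ℕ) + (17/2)*t^(11:ℕ)) + (461/15006250)*((-689/64)*t^(4:ℕ) + (1037/32)*t^(5:ℕ) + (-2939/64)*t^(6:ℕ) + (1037/32)*t^(7:ℕ) + (-689/64)*t^(8:ℕ) + 2*t^(9:ℕ) + (-3)*t^(10:ℕ) + 2*t^(11:ℕ)) + (23/4287500)*((-23/8)*t^(4:ℕ) + (139/16)*t^(5:ℕ) + (-197/16)*t^(6:ℕ) + (139/16)*t^(7:ℕ) + (-23/8)*t^(8:ℕ)) + (1/1071875)*((-1/4)*t^(4:ℕ) + (3/4)*t^(5:ℕ) + (-17/16)*t^(6:ℕ) + (3/4)*t^(7:ℕ) + (-1/4)*t^(8:ℕ)) - (691/1000) = (26039/196000)*(1 - t)^(11:ℕ) + (283691/171500)*(t - 0)*(1 - t)^(10:ℕ) + (7756805921/480200000)*(t - 0)^(2:ℕ)*(1 - t)^(9:ℕ) + (2345919349/24010000)*(t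 - 0)^(3:ℕ)*(1 - t)^(8:ℕ) + (14477004149/38416000)*(t - 0)^(4:ℕ)*(1 - t)^(7:ℕ) + (939849940371/960400000)*(t - 0)^(5:ℕ)*(1 - t)^(6:ℕ) + (60742834623/34300000)*(t - 0)^(6:ℕ)*(1 - t)^(5:ℕ) + (541818403583/240100000)*(t - 0)^(7:ℕ)*(1 - t)^(4:ℕ) + (959177515113/480200000)*(t - 0)^(8:ℕ)*(1 - t)^(3:ℕ) + (563683453479/480200000)*(t - 0)^(9:ℕ)*(1 - t)^(2:ℕ) + (396985031853/960400000)*(t - 0)^(10:ℕ)*(1 - t) + (12863854333/192080000)*(t - 0)^(11:ℕ) := by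
    ring
  rw [e]
  have a3 : 0 ≤ t - 0 := by linarith
  have a4 : 0 ≤ 1 - t := by linarith
  generalize t - 0 = t1 at a3 ⊢
  generalize 1 - t = t2 at a4 ⊢
  positivity

lemma pos_L1e_A_b6 (t : ℝ) (h3 : 0 ≤ t) (h4 : t ≤ 1) :
    0 ≤ 1*((1/2) + (1/2)*t + (5/2)*t^(2:ℕ) + (5/2)*t^(3:ℕ) + 5*t^(4:ℕ) + 5*t^(5:ℕ) + 5*t^(6:ℕ) + 5*t^(7:ℕ) + (5/2)*t^(8:ℕ) + (5/2)*t^(9:ℕ) + (1/2)*t^(10:ℕ) + (1/2)*t^(11:ℕ)) + (13/70)*((17/8) + (-7/8)*t + (157/8)*t^(2:ℕ) + (77/8)*t^(3:ℕ) + (253/4)*t^(4:ℕ) + (33/4)*t^(5:ℕ) + (257/4)*t^(6:ℕ) + (-59/4)*t^(7:ℕ) + (181/8)*t^(8:ℕ) + (-91/8)*t^(9:ℕ) + (33/8)*t^(10:ℕ) + (9/8)*t^(11:ℕ)) + (59/1715)*((-7/4) + (-19/4)*t + (87/4)*t^(2:ℕ) + 28*t^(3:ℕ)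 + (591/4)*t^(4:ℕ) + (-21/4)*t^(5:ℕ) + (527/4)*t^(6:ℕ) + (-383/4)*t^(7:ℕ) + 8*t^(8:ℕ) + (-62)*t^(9:ℕ) + (1/2)*t^(10:ℕ) + (-17/4)*t^(11:ℕ)) + (109/17150)*((537/16)*t^(2:ℕ) + (-645/16)*t^(3:ℕ) + (2847/16)*t^(4:ℕ) + (-493/4)*t^(5:ℕ) + (1077/8)*t^(6:ℕ) + (-987/16)*t^(7:ℕ) + (-501/16)*t^(8:ℕ) + (145/8)*t^(9:ℕ) + (-345/16)*t^(10:ℕ) + (-25/8)*t^(11:ℕ)) + (251/214375)*((261/8)*t^(2:ℕ) + (-589/16)*t^(3:ℕ) + (1089/16)*t^(4:ℕ) + (-1033/16)*t^(5:ℕ) + (105/4)*t^(6:ℕ) + (-37/16)*t^(7:ℕ) + (-375/16)*t^(8:ℕ) + (431/16)*t^(9:ℕ) + (-89/2)*t^(10:ℕ) + (3/2)*t^(11:ℕ)) + (461/2143750)*((13/2)*t^(2:ℕ) + (-6)*t^(3:ℕ) + (-19/4)*t^(4:ℕ) + (61/2)*t^(5:ℕ) + (-435/8)*t^(6:ℕ) + (163/4)*t^(7:ℕ)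 + (-67/4)*t^(8:ℕ) + (51/4)*t^(9:ℕ) + (-87/4)*t^(10:ℕ) + (17/2)*t^(11:ℕ)) + (211/5359375)*((-689/64)*t^(4:ℕ) + (1037/32)*t^(5:ℕ) + (-2939/64)*t^(6:ℕ) + (1037/32)*t^(7:ℕ) + (-689/64)*t^(8:ℕ) + 2*t^(9:ℕ) + (-3)*t^(10:ℕ) + 2*t^(11:ℕ)) + (11/1531250)*((-23/8)*t^(4:ℕ) + (139/16)*t^(5:ℕ) + (-197/16)*t^(6:ℕ) + (139/16)*t^(7:ℕ) + (-23/8)*t^(8:ℕ)) + (1/765625)*((-1/4)*t^(4:ℕ) + (3/4)*t^(5:ℕ) + (-17/16)*t^(6:ℕ) + (3/4)*t^(7:ℕ) + (-1/4)*t^(8:ℕ)) - (691/1000) := by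
  have e : 1*((1/2) + (1/2)*t + (5/2)*t^(2:ℕ) + (5/2)*t^(3:ℕ) + 5*t^(4:ℕ) + 5*t^(5:ℕ) + 5*t^(6:ℕ) + 5*t^(7:ℕ) + (5/2)*t^(8:ℕ) + (5/2)*t^(9:ℕ) + (1/2)*t^(10:ℕ) + (1/2)*t^(11:ℕ)) + (13/70)*((17/8) + (-7/8)*t + (157/8)*t^(2:ℕ) + (77/8)*t^(3:ℕ) + (253/4)*t^(4:ℕ) + (33/4)*t^(5:ℕ) + (257/4)*t^(6:ℕ) + (-59/4)*t^(7:ℕ) + (181/8)*t^(8:ℕ) + (-91/8)*t^(9:ℕ) + (33/8)*t^(10:ℕ) + (9/8)*t^(11:ℕ)) + (59/1715)*((-7/4) + (-19/4)*t + (87/4)*t^(2:ℕ) + 28*t^(3:ℕ) + (591/4)*t^(4:ℕ) + (-21/4)*t^(5:ℕ) + (527/4)*t^(6:ℕ) + (-383/4)*t^(7:ℕ) + 8*t^(8:ℕ) + (-62)*t^(9:ℕ) + (1/2)*t^(10:ℕ) + (-17/4)*t^(11:ℕ)) + (109/17150)*((537/16)*t^(2:ℕ) + (-645/16)*t^(3:ℕ) + (2847/16)*t^(4:ℕ) + (-493/4)*t^(5:ℕ)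 + (1077/8)*t^(6:ℕ) + (-987/16)*t^(7:ℕ) + (-501/16)*t^(8:ℕ) + (145/8)*t^(9:ℕ) + (-345/16)*t^(10:ℕ) + (-25/8)*t^(11:ℕ)) + (251/214375)*((261/8)*t^(2:ℕ) + (-589/16)*t^(3:ℕ) + (1089/16)*t^(4:ℕ) + (-1033/16)*t^(5:ℕ) + (105/4)*t^(6:ℕ) + (-37/16)*t^(7:ℕ) + (-375/16)*t^(8:ℕ) + (431/16)*t^(9:ℕ) + (-89/2)*t^(10:ℕ) + (3/2)*t^(11:ℕ)) + (461/2143750)*((13/2)*t^(2:ℕ) + (-6)*t^(3:ℕ) + (-19/4)*t^(4:ℕ) + (61/2)*t^(5:ℕ) + (-435/8)*t^(6:ℕ) + (163/4)*t^(7:ℕ) + (-67/4)*t^(8:ℕ) + (51/4)*t^(9:ℕ) + (-87/4)*t^(10:ℕ) + (17/2)*t^(11:ℕ)) + (211/5359375)*((-689/64)*t^(4:ℕ) + (1037/32)*t^(5:ℕ) + (-2939/64)*t^(6:ℕ) + (1037/32)*t^(7:ℕ) + (-689/64)*t^(8:ℕ) + 2*t^(9:ℕ) + (-3)*t^(10:ℕ) + 2*t^(11:ℕ))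 + (11/1531250)*((-23/8)*t^(4:ℕ) + (139/16)*t^(5:ℕ) + (-197/16)*t^(6:ℕ) + (139/16)*t^(7:ℕ) + (-23/8)*t^(8:ℕ)) + (1/765625)*((-1/4)*t^(4:ℕ) + (3/4)*t^(5:ℕ) + (-17/16)*t^(6:ℕ) + (3/4)*t^(7:ℕ) + (-1/4)*t^(8:ℕ)) - (691/1000) = (14057/98000)*(1 - t)^(11:ℕ) + (600907/343000)*(t - 0)*(1 - t)^(10:ℕ) + (575410789/34300000)*(t - 0)^(2:ℕ)*(1 - t)^(9:ℕ) + (345619783/3430000)*(t - 0)^(3:ℕ)*(1 - t)^(8:ℕ) + (5324926283/13720000)*(t - 0)^(4:ℕ)*(1 - t)^(7:ℕ) + (345898139621/343000000)*(t - 0)^(5:ℕ)*(1 - t)^(6:ℕ) + (156653965667/85750000)*(t - 0)^(6:ℕ)*(1 - t)^(5:ℕ) + (99894478427/42875000)*(t - 0)^(7:ℕ)*(1 - t)^(4:ℕ) + (50539119501/24500000)*(t - 0)^(8:ℕ)*(1 - t)^(3:ℕ) + (207755572587/171500000)*(t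 - 0)^(9:ℕ)*(1 - t)^(2:ℕ) + (146000376979/343000000)*(t - 0)^(10:ℕ)*(1 - t) + (23549835983/343000000)*(t - 0)^(11:ℕ) := by
    ring
  rw [e]
  have a3 : 0 ≤ t - 0 := by linarith
  have a4 : 0 ≤ 1 - t := by linarith
  generalize t - 0 = t1 at a3 ⊢
  generalize 1 - t = t2 at a4 ⊢
  positivity

lemma pos_L1e_A_b7 (t : ℝ) (h3 : 0 ≤ t) (h4 : t ≤ 1) :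
    0 ≤ 1*((1/2) + (1/2)*t + (5/2)*t^(2:ℕ) + (5/2)*t^(3:ℕ) + 5*t^(4:ℕ) + 5*t^(5:ℕ) + 5*t^(6:ℕ) + 5*t^(7:ℕ) + (5/2)*t^(8:ℕ) + (5/2)*t^(9:ℕ) + (1/2)*t^(10:ℕ) + (1/2)*t^(11:ℕ)) + (27/140)*((17/8) + (-7/8)*t + (157/8)*t^(2:ℕ) + (77/8)*t^(3:ℕ) + (253/4)*t^(4:ℕ) + (33/4)*t^(5:ℕ) + (257/4)*t^(6:ℕ) + (-59/4)*t^(7:ℕ) + (181/8)*t^(8:ℕ) + (-91/8)*t^(9:ℕ) + (33/8)*t^(10:ℕ) + (9/8)*t^(11:ℕ)) + (13/350)*((-7/4) + (-19/4)*t + (87/4)*t^(2:ℕ) + 28*t^(3:ℕ) + (591/4)*t^(4:ℕ) + (-21/4)*t^(5:ℕ) + (527/4)*t^(6:ℕ) + (-383/4)*t^(7:ℕ) + 8*t^(8:ℕ) + (-62)*t^(9:ℕ) + (1/2)*t^(10:ℕ) + (-17/4)*t^(11:ℕ)) + (1/140)*((537/16)*t^(2:ℕ) + (-645/16)*t^(3:ℕ) + (2847/16)*t^(4:ℕ) + (-493/4)*t^(5:ℕ)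 + (1077/8)*t^(6:ℕ) + (-987/16)*t^(7:ℕ) + (-501/16)*t^(8:ℕ) + (145/8)*t^(9:ℕ) + (-345/16)*t^(10:ℕ) + (-25/8)*t^(11:ℕ)) + (6/4375)*((261/8)*t^(2:ℕ) + (-589/16)*t^(3:ℕ) + (1089/16)*t^(4:ℕ) + (-1033/16)*t^(5:ℕ) + (105/4)*t^(6:ℕ) + (-37/16)*t^(7:ℕ) + (-375/16)*t^(8:ℕ) + (431/16)*t^(9:ℕ) + (-89/2)*t^(10:ℕ) + (3/2)*t^(11:ℕ)) + (23/87500)*((13/2)*t^(2:ℕ) + (-6)*t^(3:ℕ) + (-19/4)*t^(4:ℕ) + (61/2)*t^(5:ℕ) + (-435/8)*t^(6:ℕ) + (163/4)*t^(7:ℕ) + (-67/4)*t^(8:ℕ) + (51/4)*t^(9:ℕ) + (-87/4)*t^(10:ℕ) + (17/2)*t^(11:ℕ)) + (11/218750)*((-689/64)*t^(4:ℕ) + (1037/32)*t^(5:ℕ) + (-2939/64)*t^(6:ℕ) + (1037/32)*t^(7:ℕ) + (-689/64)*t^(8:ℕ) + 2*t^(9:ℕ) + (-3)*t^(10:ℕ) + 2*t^(11:ℕ))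 + (3/312500)*((-23/8)*t^(4:ℕ) + (139/16)*t^(5:ℕ) + (-197/16)*t^(6:ℕ) + (139/16)*t^(7:ℕ) + (-23/8)*t^(8:ℕ)) + (1/546875)*((-1/4)*t^(4:ℕ) + (3/4)*t^(5:ℕ) + (-17/16)*t^(6:ℕ) + (3/4)*t^(7:ℕ) + (-1/4)*t^(8:ℕ)) - (691/1000) := by
  have e : 1*((1/2) + (1/2)*t + (5/2)*t^(2:ℕ) + (5/2)*t^(3:ℕ) + 5*t^(4:ℕ) + 5*t^(5:ℕ) + 5*t^(6:ℕ) + 5*t^(7:ℕ) + (5/2)*t^(8:ℕ) + (5/2)*t^(9:ℕ) + (1/2)*t^(10:ℕ) + (1/2)*t^(11:ℕ)) + (27/140)*((17/8) + (-7/8)*t + (157/8)*t^(2:ℕ) + (77/8)*t^(3:ℕ) + (253/4)*t^(4:ℕ) + (33/4)*t^(5:ℕ) + (257/4)*t^(6:ℕ) + (-59/4)*t^(7:ℕ) + (181/8)*t^(8:ℕ) + (-91/8)*t^(9:ℕ) + (33/8)*t^(10:ℕ) + (9/8)*t^(11:ℕ)) + (13/350)*((-7/4) + (-19/4)*t + (87/4)*t^(2:ℕ) + 28*t^(3:ℕ)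 + (591/4)*t^(4:ℕ) + (-21/4)*t^(5:ℕ) + (527/4)*t^(6:ℕ) + (-383/4)*t^(7:ℕ) + 8*t^(8:ℕ) + (-62)*t^(9:ℕ) + (1/2)*t^(10:ℕ) + (-17/4)*t^(11:ℕ)) + (1/140)*((537/16)*t^(2:ℕ) + (-645/16)*t^(3:ℕ) + (2847/16)*t^(4:ℕ) + (-493/4)*t^(5:ℕ) + (1077/8)*t^(6:ℕ) + (-987/16)*t^(7:ℕ) + (-501/16)*t^(8:ℕ) + (145/8)*t^(9:ℕ) + (-345/16)*t^(10:ℕ) + (-25/8)*t^(11:ℕ)) + (6/4375)*((261/8)*t^(2:ℕ) + (-589/16)*t^(3:ℕ) + (1089/16)*t^(4:ℕ) + (-1033/16)*t^(5:ℕ) + (105/4)*t^(6:ℕ) + (-37/16)*t^(7:ℕ) + (-375/16)*t^(8:ℕ) + (431/16)*t^(9:ℕ) + (-89/2)*t^(10:ℕ) + (3/2)*t^(11:ℕ)) + (23/87500)*((13/2)*t^(2:ℕ) + (-6)*t^(3:ℕ) + (-19/4)*t^(4:ℕ) + (61/2)*t^(5:ℕ) + (-435/8)*t^(6:ℕ) + (163/4)*t^(7:ℕ) + (-67/4)*t^(8:ℕ)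 + (51/4)*t^(9:ℕ) + (-87/4)*t^(10:ℕ) + (17/2)*t^(11:ℕ)) + (11/218750)*((-689/64)*t^(4:ℕ) + (1037/32)*t^(5:ℕ) + (-2939/64)*t^(6:ℕ) + (1037/32)*t^(7:ℕ) + (-689/64)*t^(8:ℕ) + 2*t^(9:ℕ) + (-3)*t^(10:ℕ) + 2*t^(11:ℕ)) + (3/312500)*((-23/8)*t^(4:ℕ) + (139/16)*t^(5:ℕ) + (-197/16)*t^(6:ℕ) + (139/16)*t^(7:ℕ) + (-23/8)*t^(8:ℕ)) + (1/546875)*((-1/4)*t^(4:ℕ) + (3/4)*t^(5:ℕ) + (-17/16)*t^(6:ℕ) + (3/4)*t^(7:ℕ) + (-1/4)*t^(8:ℕ)) - (691/1000) = (4307/28000)*(1 - t)^(11:ℕ) + (1616/875)*(t - 0)*(1 - t)^(10:ℕ) + (3477451/200000)*(t - 0)^(2:ℕ)*(1 - t)^(9:ℕ) + (207627/2000)*(t - 0)^(3:ℕ)*(1 - t)^(8:ℕ) + (27963402891/70000000)*(t - 0)^(4:ℕ)*(1 - t)^(7:ℕ) + (72712787841/70000000)*(t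 - 0)^(5:ℕ)*(1 - t)^(6:ℕ) + (6593557959/3500000)*(t - 0)^(6:ℕ)*(1 - t)^(5:ℕ) + (2630136291/1093750)*(t - 0)^(7:ℕ)*(1 - t)^(4:ℕ) + (74535880311/35000000)*(t - 0)^(8:ℕ)*(1 - t)^(3:ℕ) + (43741171879/35000000)*(t - 0)^(9:ℕ)*(1 - t)^(2:ℕ) + (876396497/2000000)*(t - 0)^(10:ℕ)*(1 - t) + (985175731/14000000)*(t - 0)^(11:ℕ) := by
    ring
  rw [e]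
  have a3 : 0 ≤ t - 0 := by linarith
  have a4 : 0 ≤ 1 - t := by linarith
  generalize t - 0 = t1 at a3 ⊢
  generalize 1 - t = t2 at a4 ⊢
  positivity

lemma pos_L1e_A_b8 (t : ℝ) (h3 : 0 ≤ t) (h4 : t ≤ 1) :
    0 ≤ 1*((1/2) + (1/2)*t + (5/2)*t^(2:ℕ) + (5/2)*t^(3:ℕ) + 5*t^(4:ℕ) + 5*t^(5:ℕ) + 5*t^(6:ℕ) + 5*t^(7:ℕ) + (5/2)*t^(8:ℕ) + (5/2)*t^(9:ℕ) + (1/2)*t^(10:ℕ) + (1/2)*t^(11:ℕ)) + (1/5)*((17/8) + (-7/8)*t + (157/8)*t^(2:ℕ) + (77/8)*t^(3:ℕ) + (253/4)*t^(4:ℕ) + (33/4)*t^(5:ℕ) + (257/4)*t^(6:ℕ) + (-59/4)*t^(7:ℕ) + (181/8)*t^(8:ℕ) + (-91/8)*t^(9:ℕ) + (33/8)*t^(10:ℕ) + (9/8)*t^(11:ℕ)) + (1/25)*((-7/4) + (-19/4)*t + (87/4)*t^(2:ℕ) + 28*t^(3:ℕ) + (591/4)*t^(4:ℕ) +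 (-21/4)*t^(5:ℕ) + (527/4)*t^(6:ℕ) + (-383/4)*t^(7:ℕ) + 8*t^(8:ℕ) + (-62)*t^(9:ℕ) + (1/2)*t^(10:ℕ) + (-17/4)*t^(11:ℕ)) + (1/125)*((537/16)*t^(2:ℕ) + (-645/16)*t^(3:ℕ) + (2847/16)*t^(4:ℕ) + (-493/4)*t^(5:ℕ) + (1077/8)*t^(6:ℕ) + (-987/16)*t^(7:ℕ) + (-501/16)*t^(8:ℕ) + (145/8)*t^(9:ℕ) + (-345/16)*t^(10:ℕ) + (-25/8)*t^(11:ℕ)) + (1/625)*((261/8)*t^(2:ℕ) + (-589/16)*t^(3:ℕ) + (1089/16)*t^(4:ℕ) + (-1033/16)*t^(5:ℕ) + (105/4)*t^(6:ℕ) + (-37/16)*t^(7:ℕ) + (-375/16)*t^(8:ℕ) + (431/16)*t^(9:ℕ) + (-89/2)*t^(10:ℕ) + (3/2)*t^(11:ℕ)) + (1/3125)*((13/2)*t^(2:ℕ) + (-6)*t^(3:ℕ) + (-19/4)*t^(4:ℕ) + (61/2)*t^(5:ℕ) + (-435/8)*t^(6:ℕ) + (163/4)*t^(7:ℕ) + (-67/4)*t^(8:ℕ) + (51/4)*t^(9:ℕ)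 + (-87/4)*t^(10:ℕ) + (17/2)*t^(11:ℕ)) + (1/15625)*((-689/64)*t^(4:ℕ) + (1037/32)*t^(5:ℕ) + (-2939/64)*t^(6:ℕ) + (1037/32)*t^(7:ℕ) + (-689/64)*t^(8:ℕ) + 2*t^(9:ℕ) + (-3)*t^(10:ℕ) + 2*t^(11:ℕ)) + (1/78125)*((-23/8)*t^(4:ℕ) + (139/16)*t^(5:ℕ) + (-197/16)*t^(6:ℕ) + (139/16)*t^(7:ℕ) + (-23/8)*t^(8:ℕ)) + (1/390625)*((-1/4)*t^(4:ℕ) + (3/4)*t^(5:ℕ) + (-17/16)*t^(6:ℕ) + (3/4)*t^(7:ℕ) + (-1/4)*t^(8:ℕ)) - (691/1000) := by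
  have e : 1*((1/2) + (1/2)*t + (5/2)*t^(2:ℕ) + (5/2)*t^(3:ℕ) + 5*t^(4:ℕ) + 5*t^(5:ℕ) + 5*t^(6:ℕ) + 5*t^(7:ℕ) + (5/2)*t^(8:ℕ) + (5/2)*t^(9:ℕ) + (1/2)*t^(10:ℕ) + (1/2)*t^(11:ℕ)) + (1/5)*((17/8) + (-7/8)*t + (157/8)*t^(2:ℕ) + (77/8)*t^(3:ℕ) + (253/4)*t^(4:ℕ) + (33/4)*t^(5:ℕ) + (257/4)*t^(6:ℕ) + (-59/4)*t^(7:ℕ) + (181/8)*t^(8:ℕ) + (-91/8)*t^(9:ℕ) + (33/8)*t^(10:ℕ) + (9/8)*t^(11:ℕ)) + (1/25)*((-7/4) + (-19/4)*t + (87/4)*t^(2:ℕ) + 28*t^(3:ℕ) + (591/4)*t^(4:ℕ) + (-21/4)*t^(5:ℕ) + (527/4)*t^(6:ℕ) + (-383/4)*t^(7:ℕ) + 8*t^(8:ℕ) + (-62)*t^(9:ℕ) + (1/2)*t^(10:ℕ) + (-17/4)*t^(11:ℕ)) + (1/125)*((537/16)*t^(2:ℕ) + (-645/16)*t^(3:ℕ) + (2847/16)*t^(4:ℕ) + (-493/4)*t^(5:ℕ)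 + (1077/8)*t^(6:ℕ) + (-987/16)*t^(7:ℕ) + (-501/16)*t^(8:ℕ) + (145/8)*t^(9:ℕ) + (-345/16)*t^(10:ℕ) + (-25/8)*t^(11:ℕ)) + (1/625)*((261/8)*t^(2:ℕ) + (-589/16)*t^(3:ℕ) + (1089/16)*t^(4:ℕ) + (-1033/16)*t^(5:ℕ) + (105/4)*t^(6:ℕ) + (-37/16)*t^(7:ℕ) + (-375/16)*t^(8:ℕ) + (431/16)*t^(9:ℕ) + (-89/2)*t^(10:ℕ) + (3/2)*t^(11:ℕ)) + (1/3125)*((13/2)*t^(2:ℕ) + (-6)*t^(3:ℕ) + (-19/4)*t^(4:ℕ) + (61/2)*t^(5:ℕ) + (-435/8)*t^(6:ℕ) + (163/4)*t^(7:ℕ) + (-67/4)*t^(8:ℕ) + (51/4)*t^(9:ℕ) + (-87/4)*t^(10:ℕ) + (17/2)*t^(11:ℕ)) + (1/15625)*((-689/64)*t^(4:ℕ) + (1037/32)*t^(5:ℕ) + (-2939/64)*t^(6:ℕ) + (1037/32)*t^(7:ℕ) + (-689/64)*t^(8:ℕ) + 2*t^(9:ℕ) + (-3)*t^(10:ℕ) + 2*t^(11:ℕ)) + (1/78125)*((-23/8)*t^(4:ℕ)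 + (139/16)*t^(5:ℕ) + (-197/16)*t^(6:ℕ) + (139/16)*t^(7:ℕ) + (-23/8)*t^(8:ℕ)) + (1/390625)*((-1/4)*t^(4:ℕ) + (3/4)*t^(5:ℕ) + (-17/16)*t^(6:ℕ) + (3/4)*t^(7:ℕ) + (-1/4)*t^(8:ℕ)) - (691/1000) = (41/250)*(1 - t)^(11:ℕ) + (1939/1000)*(t - 0)*(1 - t)^(10:ℕ) + (899389/50000)*(t - 0)^(2:ℕ)*(1 - t)^(9:ℕ) + (1068567/10000)*(t - 0)^(3:ℕ)*(1 - t)^(8:ℕ) + (10273591839/25000000)*(t - 0)^(4:ℕ)*(1 - t)^(7:ℕ) + (26738307051/25000000)*(t - 0)^(5:ℕ)*(1 - t)^(6:ℕ) + (12137312301/6250000)*(t - 0)^(6:ℕ)*(1 - t)^(5:ℕ) + (31013168649/12500000)*(t - 0)^(7:ℕ)*(1 - t)^(4:ℕ) + (27472549323/12500000)*(t - 0)^(8:ℕ)*(1 - t)^(3:ℕ) + (4027807093/3125000)*(t - 0)^(9:ℕ)*(1 - t)^(2:ℕ) + (2254902671/5000000)*(t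 - 0)^(10:ℕ)*(1 - t) + (1802635151/25000000)*(t - 0)^(11:ℕ) := by
    ring
  rw [e]
  have a3 : 0 ≤ t - 0 := by linarith
  have a4 : 0 ≤ 1 - t := by linarith
  generalize t - 0 = t1 at a3 ⊢
  generalize 1 - t = t2 at a4 ⊢
  positivity

lemma pos_L1e_A_id (d : ℝ) (C0 C1 C2 C3 C4 C5 C6 C7 C8 : ℝ) :
    C0 + d*C1 + d^(2:ℕ)*C2 + d^(3:ℕ)*C3 + d^(4:ℕ)*C4 + d^(5:ℕ)*C5 + d^(6:ℕ)*C6 + d^(7:ℕ)*C7 + d^(8:ℕ)*C8 = (691/1000) + ((2251875390625/256)*((1/5) - d)^(8:ℕ)*(1*C0 + (1/7)*C1 + (1/49)*C2 + (1/343)*C3 + (1/2401)*C4 + (1/16807)*C5 + (1/117649)*C6 + (1/823543)*C7 + (1/5764801)*C8 - (691/1000)) + (2251875390625/32)*(d - (1/7))*((1/5) - d)^(7:ℕ)*(1*C0 + (3/20)*C1 + (11/490)*C2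 + (23/6860)*C3 + (6/12005)*C4 + (5/67228)*C5 + (13/1176490)*C6 + (27/16470860)*C7 + (1/4117715)*C8 - (691/1000)) + (15763127734375/64)*(d - (1/7))^(2:ℕ)*((1/5) - d)^(6:ℕ)*(1*C0 + (11/70)*C1 + (211/8575)*C2 + (461/120050)*C3 + (251/420175)*C4 + (109/1176490)*C5 + (59/4117715)*C6 + (13/5882450)*C7 + (1/2941225)*C8 - (691/1000)) + (15763127734375/32)*(d - (1/7))^(3:ℕ)*((1/5) - d)^(5:ℕ)*(1*C0 + (23/140)*C1 + (461/17150)*C2 + (5259/1200500)*C3 + (1494/2100875)*C4 + (1353/11764900)*C5 + (109/5882450)*C6 + (1/336140)*C7 + (1/2100875)*C8 - (691/1000)) + (78815638671875/128)*(d - (1/7))^(4:ℕ)*((1/5) - d)^(4:ℕ)*(1*C0 + (6/35)*C1 + (251/8575)*C2 + (1494/300125)*C3 +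 (44283/52521875)*C4 + (1494/10504375)*C5 + (251/10504375)*C6 + (6/1500625)*C7 + (1/1500625)*C8 - (691/1000)) + (15763127734375/32)*(d - (1/7))^(5:ℕ)*((1/5) - d)^(3:ℕ)*(1*C0 + (5/28)*C1 + (109/3430)*C2 + (1353/240100)*C3 + (1494/1500625)*C4 + (5259/30012500)*C5 + (461/15006250)*C6 + (23/4287500)*C7 + (1/1071875)*C8 - (691/1000)) + (15763127734375/64)*(d - (1/7))^(6:ℕ)*((1/5) - d)^(2:ℕ)*(1*C0 + (13/70)*C1 + (59/1715)*C2 + (109/17150)*C3 + (251/214375)*C4 + (461/2143750)*C5 + (211/5359375)*C6 + (11/1531250)*C7 + (1/765625)*C8 - (691/1000)) + (2251875390625/32)*(d - (1/7))^(7:ℕ)*((1/5) - d)*(1*C0 + (27/140)*C1 + (13/350)*C2 + (1/140)*C3 + (6/4375)*C4 + (23/87500)*C5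 + (11/218750)*C6 + (3/312500)*C7 + (1/546875)*C8 - (691/1000)) + (2251875390625/256)*(d - (1/7))^(8:ℕ)*(1*C0 + (1/5)*C1 + (1/25)*C2 + (1/125)*C3 + (1/625)*C4 + (1/3125)*C5 + (1/15625)*C6 + (1/78125)*C7 + (1/390625)*C8 - (691/1000))) := by
  ring

lemma pos_L1e_A_gen (d1 d2 B0 B1 B2 B3 B4 B5 B6 B7 B8 : ℝ) (a1 : 0 ≤ d1) (a2 : 0 ≤ d2) (b0 : 0 ≤ B0) (b1 : 0 ≤ B1) (b2 : 0 ≤ B2) (b3 : 0 ≤ B3) (b4 : 0 ≤ B4) (b5 : 0 ≤ B5) (b6 : 0 ≤ B6) (b7 : 0 ≤ B7) (b8 : 0 ≤ B8) :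
    0 < (691/1000) + ((2251875390625/256)*d2^(8:ℕ)*(B0) + (2251875390625/32)*d1*d2^(7:ℕ)*(B1) + (15763127734375/64)*d1^(2:ℕ)*d2^(6:ℕ)*(B2) + (15763127734375/32)*d1^(3:ℕ)*d2^(5:ℕ)*(B3) + (78815638671875/128)*d1^(4:ℕ)*d2^(4:ℕ)*(B4) + (15763127734375/32)*d1^(5:ℕ)*d2^(3:ℕ)*(B5) + (15763127734375/64)*d1^(6:ℕ)*d2^(2:ℕ)*(B6) + (2251875390625/32)*d1^(7:ℕ)*d2*(B7) + (2251875390625/256)*d1^(8:ℕ)*(B8)) := by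
  positivity

lemma pos_L1e_A_core (d C0 C1 C2 C3 C4 C5 C6 C7 C8 : ℝ) (h1 : (1/7) ≤ d) (h2 : d ≤ (1/5))
    (b0 : 0 ≤ 1*C0 + (1/7)*C1 + (1/49)*C2 + (1/343)*C3 + (1/2401)*C4 + (1/16807)*C5 + (1/117649)*C6 + (1/823543)*C7 + (1/5764801)*C8 - (691/1000))
    (b1 : 0 ≤ 1*C0 + (3/20)*C1 + (11/490)*C2 + (23/6860)*C3 + (6/12005)*C4 + (5/67228)*C5 + (13/1176490)*C6 + (27/16470860)*C7 + (1/4117715)*C8 - (691/1000))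
    (b2 : 0 ≤ 1*C0 + (11/70)*C1 + (211/8575)*C2 + (461/120050)*C3 + (251/420175)*C4 + (109/1176490)*C5 + (59/4117715)*C6 + (13/5882450)*C7 + (1/2941225)*C8 - (691/1000))
    (b3 : 0 ≤ 1*C0 + (23/140)*C1 + (461/17150)*C2 + (5259/1200500)*C3 + (1494/2100875)*C4 + (1353/11764900)*C5 + (109/5882450)*C6 + (1/336140)*C7 + (1/2100875)*C8 - (691/1000))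
    (b4 : 0 ≤ 1*C0 + (6/35)*C1 + (251/8575)*C2 + (1494/300125)*C3 + (44283/52521875)*C4 + (1494/10504375)*C5 + (251/10504375)*C6 + (6/1500625)*C7 + (1/1500625)*C8 - (691/1000))
    (b5 : 0 ≤ 1*C0 + (5/28)*C1 + (109/3430)*C2 + (1353/240100)*C3 + (1494/1500625)*C4 + (5259/30012500)*C5 + (461/15006250)*C6 + (23/4287500)*C7 + (1/1071875)*C8 - (691/1000))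
    (b6 : 0 ≤ 1*C0 + (13/70)*C1 + (59/1715)*C2 + (109/17150)*C3 + (251/214375)*C4 + (461/2143750)*C5 + (211/5359375)*C6 + (11/1531250)*C7 + (1/765625)*C8 - (691/1000))
    (b7 : 0 ≤ 1*C0 + (27/140)*C1 + (13/350)*C2 + (1/140)*C3 + (6/4375)*C4 + (23/87500)*C5 + (11/218750)*C6 + (3/312500)*C7 + (1/546875)*C8 - (691/1000))
    (b8 : 0 ≤ 1*C0 + (1/5)*C1 + (1/25)*C2 + (1/125)*C3 + (1/625)*C4 + (1/3125)*C5 + (1/15625)*C6 + (1/78125)*C7 + (1/390625)*C8 - (691/1000)) :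
    0 < C0 + d*C1 + d^(2:ℕ)*C2 + d^(3:ℕ)*C3 + d^(4:ℕ)*C4 + d^(5:ℕ)*C5 + d^(6:ℕ)*C6 + d^(7:ℕ)*C7 + d^(8:ℕ)*C8 := by
  rw [pos_L1e_A_id]
  exact pos_L1e_A_gen _ _ _ _ _ _ _ _ _ _ _ (sub_nonneg.2 h1) (sub_nonneg.2 h2) b0 b1 b2 b3 b4 b5 b6 b7 b8

lemma pos_L1e_A (d t : ℝ) (h1 : (1/7) ≤ d) (h2 : d ≤ (1/5)) (h3 : 0 ≤ t) (h4 : t ≤ 1) :
    0 < (1/2) + (1/2)*t + (5/2)*t^(2:ℕ) + (5/2)*t^(3:ℕ) + 5*t^(4:ℕ) + 5*t^(5:ℕ) + 5*t^(6:ℕ) + 5*t^(7:ℕ) + (5/2)*t^(8:ℕ) + (5/2)*t^(9:ℕ) + (1/2)*t^(10:ℕ) + (1/2)*t^(11:ℕ) + (17/8)*d + (-7/8)*d*t + (157/8)*d*t^(2:ℕ) + (77/8)*d*t^(3:ℕ) + (253/4)*d*t^(4:ℕ) + (33/4)*d*t^(5:ℕ) + (257/4)*d*t^(6:ℕ) + (-59/4)*d*t^(7:ℕ) + (181/8)*d*t^(8:ℕ) +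 (-91/8)*d*t^(9:ℕ) + (33/8)*d*t^(10:ℕ) + (9/8)*d*t^(11:ℕ) + (-7/4)*d^(2:ℕ) + (-19/4)*d^(2:ℕ)*t + (87/4)*d^(2:ℕ)*t^(2:ℕ) + 28*d^(2:ℕ)*t^(3:ℕ) + (591/4)*d^(2:ℕ)*t^(4:ℕ) + (-21/4)*d^(2:ℕ)*t^(5:ℕ) + (527/4)*d^(2:ℕ)*t^(6:ℕ) + (-383/4)*d^(2:ℕ)*t^(7:ℕ) + 8*d^(2:ℕ)*t^(8:ℕ) + (-62)*d^(2:ℕ)*t^(9:ℕ) + (1/2)*d^(2:ℕ)*t^(10:ℕ) + (-17/4)*d^(2:ℕ)*t^(11:ℕ) + (537/16)*d^(3:ℕ)*t^(2:ℕ) + (-645/16)*d^(3:ℕ)*t^(3:ℕ) + (2847/16)*d^(3:ℕ)*t^(4:ℕ) + (-493/4)*d^(3:ℕ)*t^(5:ℕ) + (1077/8)*d^(3:ℕ)*t^(6:ℕ) + (-987/16)*d^(3:ℕ)*t^(7:ℕ) + (-501/16)*d^(3:ℕ)*t^(8:ℕ) + (145/8)*d^(3:ℕ)*t^(9:ℕ) + (-345/16)*d^(3:ℕ)*t^(10:ℕ) + (-25/8)*d^(3:ℕ)*t^(11:ℕ) + (261/8)*d^(4:ℕ)*t^(2:ℕ) + (-589/16)*d^(4:ℕ)*t^(3:ℕ)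 + (1089/16)*d^(4:ℕ)*t^(4:ℕ) + (-1033/16)*d^(4:ℕ)*t^(5:ℕ) + (105/4)*d^(4:ℕ)*t^(6:ℕ) + (-37/16)*d^(4:ℕ)*t^(7:ℕ) + (-375/16)*d^(4:ℕ)*t^(8:ℕ) + (431/16)*d^(4:ℕ)*t^(9:ℕ) + (-89/2)*d^(4:ℕ)*t^(10:ℕ) + (3/2)*d^(4:ℕ)*t^(11:ℕ) + (13/2)*d^(5:ℕ)*t^(2:ℕ) + (-6)*d^(5:ℕ)*t^(3:ℕ) + (-19/4)*d^(5:ℕ)*t^(4:ℕ) + (61/2)*d^(5:ℕ)*t^(5:ℕ) + (-435/8)*d^(5:ℕ)*t^(6:ℕ) + (163/4)*d^(5:ℕ)*t^(7:ℕ) + (-67/4)*d^(5:ℕ)*t^(8:ℕ) + (51/4)*d^(5:ℕ)*t^(9:ℕ) + (-87/4)*d^(5:ℕ)*t^(10:ℕ) + (17/2)*d^(5:ℕ)*t^(11:ℕ) + (-689/64)*d^(6:ℕ)*t^(4:ℕ) + (1037/32)*d^(6:ℕ)*t^(5:ℕ) + (-2939/64)*d^(6:ℕ)*t^(6:ℕ) + (1037/32)*d^(6:ℕ)*t^(7:ℕ) + (-689/64)*d^(6:ℕ)*t^(8:ℕ) + 2*d^(6:ℕ)*t^(9:ℕ) + (-3)*d^(6:ℕ)*t^(10:ℕ) + 2*d^(6:ℕ)*t^(11:ℕ)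 + (-23/8)*d^(7:ℕ)*t^(4:ℕ) + (139/16)*d^(7:ℕ)*t^(5:ℕ) + (-197/16)*d^(7:ℕ)*t^(6:ℕ) + (139/16)*d^(7:ℕ)*t^(7:ℕ) + (-23/8)*d^(7:ℕ)*t^(8:ℕ) + (-1/4)*d^(8:ℕ)*t^(4:ℕ) + (3/4)*d^(8:ℕ)*t^(5:ℕ) + (-17/16)*d^(8:ℕ)*t^(6:ℕ) + (3/4)*d^(8:ℕ)*t^(7:ℕ) + (-1/4)*d^(8:ℕ)*t^(8:ℕ) := by
  have e0 : (1/2) + (1/2)*t + (5/2)*t^(2:ℕ) + (5/2)*t^(3:ℕ) + 5*t^(4:ℕ) + 5*t^(5:ℕ) + 5*t^(6:ℕ) + 5*t^(7:ℕ) + (5/2)*t^(8:ℕ) + (5/2)*t^(9:ℕ) + (1/2)*t^(10:ℕ) + (1/2)*t^(11:ℕ) + (17/8)*d + (-7/8)*d*t + (157/8)*d*t^(2:ℕ) + (77/8)*d*t^(3:ℕ) + (253/4)*d*t^(4:ℕ) + (33/4)*d*t^(5:ℕ) + (257/4)*d*t^(6:ℕ) + (-59/4)*d*t^(7:ℕ) + (181/8)*d*t^(8:ℕ) + (-91/8)*d*t^(9:ℕ) + (33/8)*d*t^(10:ℕ) + (9/8)*d*t^(11:ℕ) + (-7/4)*d^(2:ℕ)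 + (-19/4)*d^(2:ℕ)*t + (87/4)*d^(2:ℕ)*t^(2:ℕ) + 28*d^(2:ℕ)*t^(3:ℕ) + (591/4)*d^(2:ℕ)*t^(4:ℕ) + (-21/4)*d^(2:ℕ)*t^(5:ℕ) + (527/4)*d^(2:ℕ)*t^(6:ℕ) + (-383/4)*d^(2:ℕ)*t^(7:ℕ) + 8*d^(2:ℕ)*t^(8:ℕ) + (-62)*d^(2:ℕ)*t^(9:ℕ) + (1/2)*d^(2:ℕ)*t^(10:ℕ) + (-17/4)*d^(2:ℕ)*t^(11:ℕ) + (537/16)*d^(3:ℕ)*t^(2:ℕ) + (-645/16)*d^(3:ℕ)*t^(3:ℕ) + (2847/16)*d^(3:ℕ)*t^(4:ℕ) + (-493/4)*d^(3:ℕ)*t^(5:ℕ) + (1077/8)*d^(3:ℕ)*t^(6:ℕ) + (-987/16)*d^(3:ℕ)*t^(7:ℕ) + (-501/16)*d^(3:ℕ)*t^(8:ℕ) + (145/8)*d^(3:ℕ)*t^(9:ℕ) + (-345/16)*d^(3:ℕ)*t^(10:ℕ) + (-25/8)*d^(3:ℕ)*t^(11:ℕ) + (261/8)*d^(4:ℕ)*t^(2:ℕ) + (-589/16)*d^(4:ℕ)*t^(3:ℕ) + (1089/16)*d^(4:ℕ)*t^(4:ℕ) + (-1033/16)*d^(4:ℕ)*t^(5:ℕ) + (105/4)*d^(4:ℕ)*t^(6:ℕ)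 + (-37/16)*d^(4:ℕ)*t^(7:ℕ) + (-375/16)*d^(4:ℕ)*t^(8:ℕ) + (431/16)*d^(4:ℕ)*t^(9:ℕ) + (-89/2)*d^(4:ℕ)*t^(10:ℕ) + (3/2)*d^(4:ℕ)*t^(11:ℕ) + (13/2)*d^(5:ℕ)*t^(2:ℕ) + (-6)*d^(5:ℕ)*t^(3:ℕ) + (-19/4)*d^(5:ℕ)*t^(4:ℕ) + (61/2)*d^(5:ℕ)*t^(5:ℕ) + (-435/8)*d^(5:ℕ)*t^(6:ℕ) + (163/4)*d^(5:ℕ)*t^(7:ℕ) + (-67/4)*d^(5:ℕ)*t^(8:ℕ) + (51/4)*d^(5:ℕ)*t^(9:ℕ) + (-87/4)*d^(5:ℕ)*t^(10:ℕ) + (17/2)*d^(5:ℕ)*t^(11:ℕ) + (-689/64)*d^(6:ℕ)*t^(4:ℕ) + (1037/32)*d^(6:ℕ)*t^(5:ℕ) + (-2939/64)*d^(6:ℕ)*t^(6:ℕ) + (1037/32)*d^(6:ℕ)*t^(7:ℕ) + (-689/64)*d^(6:ℕ)*t^(8:ℕ) + 2*d^(6:ℕ)*t^(9:ℕ) + (-3)*d^(6:ℕ)*t^(10:ℕ) + 2*d^(6:ℕ)*t^(11:ℕ) + (-23/8)*d^(7:ℕ)*t^(4:ℕ) + (139/16)*d^(7:ℕ)*t^(5:ℕ) + (-197/16)*d^(7:ℕ)*t^(6:ℕ)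 + (139/16)*d^(7:ℕ)*t^(7:ℕ) + (-23/8)*d^(7:ℕ)*t^(8:ℕ) + (-1/4)*d^(8:ℕ)*t^(4:ℕ) + (3/4)*d^(8:ℕ)*t^(5:ℕ) + (-17/16)*d^(8:ℕ)*t^(6:ℕ) + (3/4)*d^(8:ℕ)*t^(7:ℕ) + (-1/4)*d^(8:ℕ)*t^(8:ℕ) = ((1/2) + (1/2)*t + (5/2)*t^(2:ℕ) + (5/2)*t^(3:ℕ) + 5*t^(4:ℕ) + 5*t^(5:ℕ) + 5*t^(6:ℕ) + 5*t^(7:ℕ) + (5/2)*t^(8:ℕ) + (5/2)*t^(9:ℕ) + (1/2)*t^(10:ℕ) + (1/2)*t^(11:ℕ)) + d*((17/8) + (-7/8)*t + (157/8)*t^(2:ℕ) + (77/8)*t^(3:ℕ) + (253/4)*t^(4:ℕ) + (33/4)*t^(5:ℕ) + (257/4)*t^(6:ℕ) + (-59/4)*t^(7:ℕ) + (181/8)*t^(8:ℕ) + (-91/8)*t^(9:ℕ) + (33/8)*t^(10:ℕ) + (9/8)*t^(11:ℕ)) + d^(2:ℕ)*((-7/4) + (-19/4)*t + (87/4)*t^(2:ℕ) + 28*t^(3:ℕ) + (591/4)*t^(4:ℕ) + (-21/4)*t^(5:ℕ) + (527/4)*t^(6:ℕ) + (-383/4)*t^(7:ℕ)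 + 8*t^(8:ℕ) + (-62)*t^(9:ℕ) + (1/2)*t^(10:ℕ) + (-17/4)*t^(11:ℕ)) + d^(3:ℕ)*((537/16)*t^(2:ℕ) + (-645/16)*t^(3:ℕ) + (2847/16)*t^(4:ℕ) + (-493/4)*t^(5:ℕ) + (1077/8)*t^(6:ℕ) + (-987/16)*t^(7:ℕ) + (-501/16)*t^(8:ℕ) + (145/8)*t^(9:ℕ) + (-345/16)*t^(10:ℕ) + (-25/8)*t^(11:ℕ)) + d^(4:ℕ)*((261/8)*t^(2:ℕ) + (-589/16)*t^(3:ℕ) + (1089/16)*t^(4:ℕ) + (-1033/16)*t^(5:ℕ) + (105/4)*t^(6:ℕ) + (-37/16)*t^(7:ℕ) + (-375/16)*t^(8:ℕ) + (431/16)*t^(9:ℕ) + (-89/2)*t^(10:ℕ) + (3/2)*t^(11:ℕ)) + d^(5:ℕ)*((13/2)*t^(2:ℕ) + (-6)*t^(3:ℕ) + (-19/4)*t^(4:ℕ) + (61/2)*t^(5:ℕ) + (-435/8)*t^(6:ℕ) + (163/4)*t^(7:ℕ) + (-67/4)*t^(8:ℕ) + (51/4)*t^(9:ℕ) + (-87/4)*t^(10:ℕ) + (17/2)*t^(11:ℕ)) + d^(6:ℕ)*((-689/64)*t^(4:ℕ)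 + (1037/32)*t^(5:ℕ) + (-2939/64)*t^(6:ℕ) + (1037/32)*t^(7:ℕ) + (-689/64)*t^(8:ℕ) + 2*t^(9:ℕ) + (-3)*t^(10:ℕ) + 2*t^(11:ℕ)) + d^(7:ℕ)*((-23/8)*t^(4:ℕ) + (139/16)*t^(5:ℕ) + (-197/16)*t^(6:ℕ) + (139/16)*t^(7:ℕ) + (-23/8)*t^(8:ℕ)) + d^(8:ℕ)*((-1/4)*t^(4:ℕ) + (3/4)*t^(5:ℕ) + (-17/16)*t^(6:ℕ) + (3/4)*t^(7:ℕ) + (-1/4)*t^(8:ℕ)) := by
    ring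
  rw [e0]
  exact pos_L1e_A_core d _ _ _ _ _ _ _ _ _ h1 h2 (pos_L1e_A_b0 t h3 h4) (pos_L1e_A_b1 t h3 h4) (pos_L1e_A_b2 t h3 h4) (pos_L1e_A_b3 t h3 h4) (pos_L1e_A_b4 t h3 h4) (pos_L1e_A_b5 t h3 h4) (pos_L1e_A_b6 t h3 h4) (pos_L1e_A_b7 t h3 h4) (pos_L1e_A_b8 t h3 h4)

lemma pos_L2e_A_b0_s0 (t : ℝ) (h3 : 0 ≤ t) (h4 : t ≤ (1/2)) :
    0 ≤ 1*((1/2) + (-1/2)*t + 4*t^(2:ℕ) + (-5/2)*t^(3:ℕ) + 11*t^(4:ℕ) + (-5)*t^(5:ℕ) + 14*t^(6:ℕ) + (-5)*t^(7:ℕ) + (17/2)*t^(8:ℕ) + (-5/2)*t^(9:ℕ) + 2*t^(10:ℕ) + (-1/2)*t^(11:ℕ)) + (1/7)*((9/8) + (-19/8)*t + (-29/8)*t^(2:ℕ) + (-71/8)*t^(3:ℕ) + (77/4)*t^(4:ℕ) + (1/4)*t^(5:ℕ) + (255/4)*t^(6:ℕ) + (-19/4)*t^(7:ℕ) + (397/8)*t^(8:ℕ) + (-143/8)*t^(9:ℕ)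 + (79/8)*t^(10:ℕ) + (-51/8)*t^(11:ℕ)) + (1/49)*((-15/4) + (-109/16)*t + (-1813/32)*t^(2:ℕ) + (-677/16)*t^(3:ℕ) + (-399/8)*t^(4:ℕ) + (73/8)*t^(5:ℕ) + (1589/16)*t^(6:ℕ) + (-27/8)*t^(7:ℕ) + (947/8)*t^(8:ℕ) + (-1237/16)*t^(9:ℕ) + (707/32)*t^(10:ℕ) + (-469/16)*t^(11:ℕ)) + (1/343)*((-1) + (-1)*t + 7*t^(2:ℕ) + (-133/4)*t^(3:ℕ) + (-195/4)*t^(4:ℕ) + (609/16)*t^(5:ℕ) + (-375/16)*t^(6:ℕ) + (55/2)*t^(7:ℕ) + (523/8)*t^(8:ℕ) + (-1411/16)*t^(9:ℕ) + (513/16)*t^(10:ℕ) + (-363/8)*t^(11:ℕ)) + (1/2401)*((207/16)*t^(2:ℕ) + (61/4)*t^(3:ℕ) + (49/16)*t^(4:ℕ) + (-231/16)*t^(5:ℕ) + (91/16)*t^(6:ℕ) + (-37/8)*t^(7:ℕ) + (625/16)*t^(8:ℕ) + (-671/16)*t^(9:ℕ) + (47/2)*t^(10:ℕ) + (-147/4)*t^(11:ℕ))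 + (1/16807)*((-6)*t^(2:ℕ) + (127/8)*t^(3:ℕ) + (1/4)*t^(4:ℕ) + (-43/8)*t^(5:ℕ) + (-45/4)*t^(6:ℕ) + (169/8)*t^(7:ℕ) + (-1/2)*t^(8:ℕ) + (-67/4)*t^(9:ℕ) + 17*t^(10:ℕ) + (-11)*t^(11:ℕ)) + (1/117649)*((-2)*t^(2:ℕ) + (167/64)*t^(3:ℕ) + (-3/4)*t^(4:ℕ) + (81/32)*t^(5:ℕ) + (-375/32)*t^(6:ℕ) + (763/64)*t^(7:ℕ) + (167/32)*t^(8:ℕ) + (-1373/64)*t^(9:ℕ) + (291/16)*t^(10:ℕ) + (-97/16)*t^(11:ℕ)) + (1/823543)*((5/8)*t^(5:ℕ) + (-31/16)*t^(6:ℕ) + (1/2)*t^(7:ℕ) + (77/16)*t^(8:ℕ) + (-143/16)*t^(9:ℕ) + (27/4)*t^(10:ℕ) + (-9/4)*t^(11:ℕ)) + (1/5764801)*((-1/4)*t^(7:ℕ) + (3/4)*t^(8:ℕ) + (-17/16)*t^(9:ℕ) + (3/4)*t^(10:ℕ) + (-1/4)*t^(11:ℕ)) - (73/500) := by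
  have e : 1*((1/2) + (-1/2)*t + 4*t^(2:ℕ) + (-5/2)*t^(3:ℕ) + 11*t^(4:ℕ) + (-5)*t^(5:ℕ) + 14*t^(6:ℕ) + (-5)*t^(7:ℕ) + (17/2)*t^(8:ℕ) + (-5/2)*t^(9:ℕ) + 2*t^(10:ℕ) + (-1/2)*t^(11:ℕ)) + (1/7)*((9/8) + (-19/8)*t + (-29/8)*t^(2:ℕ) + (-71/8)*t^(3:ℕ) + (77/4)*t^(4:ℕ) + (1/4)*t^(5:ℕ) + (255/4)*t^(6:ℕ) + (-19/4)*t^(7:ℕ) + (397/8)*t^(8:ℕ) + (-143/8)*t^(9:ℕ) + (79/8)*t^(10:ℕ) + (-51/8)*t^(11:ℕ)) + (1/49)*((-15/4) + (-109/16)*t + (-1813/32)*t^(2:ℕ) + (-677/16)*t^(3:ℕ) + (-399/8)*t^(4:ℕ) + (73/8)*t^(5:ℕ) + (1589/16)*t^(6:ℕ) + (-27/8)*t^(7:ℕ) + (947/8)*t^(8:ℕ) + (-1237/16)*t^(9:ℕ) + (707/32)*t^(10:ℕ) + (-469/16)*t^(11:ℕ)) + (1/343)*((-1) + (-1)*t + 7*t^(2:ℕ) + (-133/4)*t^(3:ℕ)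 + (-195/4)*t^(4:ℕ) + (609/16)*t^(5:ℕ) + (-375/16)*t^(6:ℕ) + (55/2)*t^(7:ℕ) + (523/8)*t^(8:ℕ) + (-1411/16)*t^(9:ℕ) + (513/16)*t^(10:ℕ) + (-363/8)*t^(11:ℕ)) + (1/2401)*((207/16)*t^(2:ℕ) + (61/4)*t^(3:ℕ) + (49/16)*t^(4:ℕ) + (-231/16)*t^(5:ℕ) + (91/16)*t^(6:ℕ) + (-37/8)*t^(7:ℕ) + (625/16)*t^(8:ℕ) + (-671/16)*t^(9:ℕ) + (47/2)*t^(10:ℕ) + (-147/4)*t^(11:ℕ)) + (1/16807)*((-6)*t^(2:ℕ) + (127/8)*t^(3:ℕ) + (1/4)*t^(4:ℕ) + (-43/8)*t^(5:ℕ) + (-45/4)*t^(6:ℕ) + (169/8)*t^(7:ℕ) + (-1/2)*t^(8:ℕ) + (-67/4)*t^(9:ℕ) + 17*t^(10:ℕ) + (-11)*t^(11:ℕ)) + (1/117649)*((-2)*t^(2:ℕ) + (167/64)*t^(3:ℕ) + (-3/4)*t^(4:ℕ) + (81/32)*t^(5:ℕ) + (-375/32)*t^(6:ℕ) + (763/64)*t^(7:ℕ) + (167/32)*t^(8:ℕ)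 + (-1373/64)*t^(9:ℕ) + (291/16)*t^(10:ℕ) + (-97/16)*t^(11:ℕ)) + (1/823543)*((5/8)*t^(5:ℕ) + (-31/16)*t^(6:ℕ) + (1/2)*t^(7:ℕ) + (77/16)*t^(8:ℕ) + (-143/16)*t^(9:ℕ) + (27/4)*t^(10:ℕ) + (-9/4)*t^(11:ℕ)) + (1/5764801)*((-1/4)*t^(7:ℕ) + (3/4)*t^(8:ℕ) + (-17/16)*t^(9:ℕ) + (3/4)*t^(10:ℕ) + (-1/4)*t^(11:ℕ)) - (73/500) = (38220032/42875)*((1/2) - t)^(11:ℕ) + (377340352/42875)*(t - 0)*((1/2) - t)^(10:ℕ) + (118192163536/2941225)*(t - 0)^(2:ℕ)*((1/2) - t)^(9:ℕ) + (327937654908/2941225)*(t - 0)^(3:ℕ)*((1/2) - t)^(8:ℕ) + (614364377016/2941225)*(t - 0)^(4:ℕ)*((1/2) - t)^(7:ℕ) + (28731791626134/102942875)*(t - 0)^(5:ℕ)*((1/2) - t)^(6:ℕ) + (28360376250259/102942875)*(t - 0)^(6:ℕ)*((1/2)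 - t)^(5:ℕ) + (118811386530311/576480100)*(t - 0)^(7:ℕ)*((1/2) - t)^(4:ℕ) + (68133456663343/576480100)*(t - 0)^(8:ℕ)*((1/2) - t)^(3:ℕ) + (116584052998499/2305920400)*(t - 0)^(9:ℕ)*((1/2) - t)^(2:ℕ) + (166593011804649/11529602000)*(t - 0)^(10:ℕ)*((1/2) - t) + (5850815894921/2882400500)*(t - 0)^(11:ℕ) := by
    ring
  rw [e]
  have a3 : 0 ≤ t - 0 := by linarith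
  have a4 : 0 ≤ (1/2) - t := by linarith
  generalize t - 0 = t1 at a3 ⊢
  generalize (1/2) - t = t2 at a4 ⊢
  positivity

lemma pos_L2e_A_b0_s1 (t : ℝ) (h3 : (1/2) ≤ t) (h4 : t ≤ 1) :
    0 ≤ 1*((1/2) + (-1/2)*t + 4*t^(2:ℕ) + (-5/2)*t^(3:ℕ) + 11*t^(4:ℕ) + (-5)*t^(5:ℕ) + 14*t^(6:ℕ) + (-5)*t^(7:ℕ) + (17/2)*t^(8:ℕ) + (-5/2)*t^(9:ℕ) + 2*t^(10:ℕ) + (-1/2)*t^(11:ℕ)) + (1/7)*((9/8) + (-19/8)*t + (-29/8)*t^(2:ℕ) + (-71/8)*t^(3:ℕ) + (77/4)*t^(4:ℕ) + (1/4)*t^(5:ℕ) + (255/4)*t^(6:ℕ) + (-19/4)*t^(7:ℕ) + (397/8)*t^(8:ℕ) + (-143/8)*t^(9:ℕ) + (79/8)*t^(10:ℕ) + (-51/8)*t^(11:ℕ)) + (1/49)*((-15/4) + (-109/16)*t + (-1813/32)*t^(2:ℕ) + (-677/16)*t^(3:ℕ) + (-399/8)*t^(4:ℕ) +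 (73/8)*t^(5:ℕ) + (1589/16)*t^(6:ℕ) + (-27/8)*t^(7:ℕ) + (947/8)*t^(8:ℕ) + (-1237/16)*t^(9:ℕ) + (707/32)*t^(10:ℕ) + (-469/16)*t^(11:ℕ)) + (1/343)*((-1) + (-1)*t + 7*t^(2:ℕ) + (-133/4)*t^(3:ℕ) + (-195/4)*t^(4:ℕ) + (609/16)*t^(5:ℕ) + (-375/16)*t^(6:ℕ) + (55/2)*t^(7:ℕ) + (523/8)*t^(8:ℕ) + (-1411/16)*t^(9:ℕ) + (513/16)*t^(10:ℕ) + (-363/8)*t^(11:ℕ)) + (1/2401)*((207/16)*t^(2:ℕ) + (61/4)*t^(3:ℕ) + (49/16)*t^(4:ℕ) + (-231/16)*t^(5:ℕ) + (91/16)*t^(6:ℕ) + (-37/8)*t^(7:ℕ) + (625/16)*t^(8:ℕ) + (-671/16)*t^(9:ℕ) + (47/2)*t^(10:ℕ) + (-147/4)*t^(11:ℕ)) + (1/16807)*((-6)*t^(2:ℕ) + (127/8)*t^(3:ℕ) + (1/4)*t^(4:ℕ) + (-43/8)*t^(5:ℕ) + (-45/4)*t^(6:ℕ) + (169/8)*t^(7:ℕ) + (-1/2)*t^(8:ℕ)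 + (-67/4)*t^(9:ℕ) + 17*t^(10:ℕ) + (-11)*t^(11:ℕ)) + (1/117649)*((-2)*t^(2:ℕ) + (167/64)*t^(3:ℕ) + (-3/4)*t^(4:ℕ) + (81/32)*t^(5:ℕ) + (-375/32)*t^(6:ℕ) + (763/64)*t^(7:ℕ) + (167/32)*t^(8:ℕ) + (-1373/64)*t^(9:ℕ) + (291/16)*t^(10:ℕ) + (-97/16)*t^(11:ℕ)) + (1/823543)*((5/8)*t^(5:ℕ) + (-31/16)*t^(6:ℕ) + (1/2)*t^(7:ℕ) + (77/16)*t^(8:ℕ) + (-143/16)*t^(9:ℕ) + (27/4)*t^(10:ℕ) + (-9/4)*t^(11:ℕ)) + (1/5764801)*((-1/4)*t^(7:ℕ) + (3/4)*t^(8:ℕ) + (-17/16)*t^(9:ℕ) + (3/4)*t^(10:ℕ) + (-1/4)*t^(11:ℕ)) - (73/500) := by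
  have e : 1*((1/2) + (-1/2)*t + 4*t^(2:ℕ) + (-5/2)*t^(3:ℕ) + 11*t^(4:ℕ) + (-5)*t^(5:ℕ) + 14*t^(6:ℕ) + (-5)*t^(7:ℕ) + (17/2)*t^(8:ℕ) + (-5/2)*t^(9:ℕ) + 2*t^(10:ℕ) + (-1/2)*t^(11:ℕ)) + (1/7)*((9/8) + (-19/8)*t + (-29/8)*t^(2:ℕ) + (-71/8)*t^(3:ℕ) + (77/4)*t^(4:ℕ) + (1/4)*t^(5:ℕ) + (255/4)*t^(6:ℕ) + (-19/4)*t^(7:ℕ) + (397/8)*t^(8:ℕ) + (-143/8)*t^(9:ℕ) + (79/8)*t^(10:ℕ) + (-51/8)*t^(11:ℕ)) + (1/49)*((-15/4) + (-109/16)*t + (-1813/32)*t^(2:ℕ) + (-677/16)*t^(3:ℕ) + (-399/8)*t^(4:ℕ) + (73/8)*t^(5:ℕ) + (1589/16)*t^(6:ℕ) + (-27/8)*t^(7:ℕ) + (947/8)*t^(8:ℕ) + (-1237/16)*t^(9:ℕ) + (707/32)*t^(10:ℕ) + (-469/16)*t^(11:ℕ)) + (1/343)*((-1) + (-1)*t + 7*t^(2:ℕ) + (-133/4)*t^(3:ℕ)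 + (-195/4)*t^(4:ℕ) + (609/16)*t^(5:ℕ) + (-375/16)*t^(6:ℕ) + (55/2)*t^(7:ℕ) + (523/8)*t^(8:ℕ) + (-1411/16)*t^(9:ℕ) + (513/16)*t^(10:ℕ) + (-363/8)*t^(11:ℕ)) + (1/2401)*((207/16)*t^(2:ℕ) + (61/4)*t^(3:ℕ) + (49/16)*t^(4:ℕ) + (-231/16)*t^(5:ℕ) + (91/16)*t^(6:ℕ) + (-37/8)*t^(7:ℕ) + (625/16)*t^(8:ℕ) + (-671/16)*t^(9:ℕ) + (47/2)*t^(10:ℕ) + (-147/4)*t^(11:ℕ)) + (1/16807)*((-6)*t^(2:ℕ) + (127/8)*t^(3:ℕ) + (1/4)*t^(4:ℕ) + (-43/8)*t^(5:ℕ) + (-45/4)*t^(6:ℕ) + (169/8)*t^(7:ℕ) + (-1/2)*t^(8:ℕ) + (-67/4)*t^(9:ℕ) + 17*t^(10:ℕ) + (-11)*t^(11:ℕ)) + (1/117649)*((-2)*t^(2:ℕ) + (167/64)*t^(3:ℕ) + (-3/4)*t^(4:ℕ) + (81/32)*t^(5:ℕ) + (-375/32)*t^(6:ℕ) + (763/64)*t^(7:ℕ) + (167/32)*t^(8:ℕ)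 + (-1373/64)*t^(9:ℕ) + (291/16)*t^(10:ℕ) + (-97/16)*t^(11:ℕ)) + (1/823543)*((5/8)*t^(5:ℕ) + (-31/16)*t^(6:ℕ) + (1/2)*t^(7:ℕ) + (77/16)*t^(8:ℕ) + (-143/16)*t^(9:ℕ) + (27/4)*t^(10:ℕ) + (-9/4)*t^(11:ℕ)) + (1/5764801)*((-1/4)*t^(7:ℕ) + (3/4)*t^(8:ℕ) + (-17/16)*t^(9:ℕ) + (3/4)*t^(10:ℕ) + (-1/4)*t^(11:ℕ)) - (73/500) = (5850815894921/2882400500)*(1 - t)^(11:ℕ) + (348278786948399/11529602000)*(t - (1/2))*(1 - t)^(10:ℕ) + (479955603285999/2305920400)*(t - (1/2))^(2:ℕ)*(1 - t)^(9:ℕ) + (1003546143694411/1152960200)*(t - (1/2))^(3:ℕ)*(1 - t)^(8:ℕ) + (1407699006276211/576480100)*(t - (1/2))^(4:ℕ)*(1 - t)^(7:ℕ) + (989921970284893/205885750)*(t - (1/2))^(5:ℕ)*(1 - t)^(6:ℕ)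 + (696231046477009/102942875)*(t - (1/2))^(6:ℕ)*(1 - t)^(5:ℕ) + (977777357169934/144120025)*(t - (1/2))^(7:ℕ)*(1 - t)^(4:ℕ) + (684606400447792/144120025)*(t - (1/2))^(8:ℕ)*(1 - t)^(3:ℕ) + (318290684860464/144120025)*(t - (1/2))^(9:ℕ)*(1 - t)^(2:ℕ) + (441695128366064/720600125)*(t - (1/2))^(10:ℕ)*(1 - t) + (55364619145824/720600125)*(t - (1/2))^(11:ℕ) := by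
    ring
  rw [e]
  have a3 : 0 ≤ t - (1/2) := by linarith
  have a4 : 0 ≤ 1 - t := by linarith
  generalize t - (1/2) = t1 at a3 ⊢
  generalize 1 - t = t2 at a4 ⊢
  positivity

lemma pos_L2e_A_b0 (t : ℝ) (h3 : 0 ≤ t) (h4 : t ≤ 1) :
    0 ≤ 1*((1/2) + (-1/2)*t + 4*t^(2:ℕ) + (-5/2)*t^(3:ℕ) + 11*t^(4:ℕ) + (-5)*t^(5:ℕ) + 14*t^(6:ℕ) + (-5)*t^(7:ℕ) + (17/2)*t^(8:ℕ) + (-5/2)*t^(9:ℕ) + 2*t^(10:ℕ) + (-1/2)*t^(11:ℕ)) + (1/7)*((9/8) + (-19/8)*t + (-29/8)*t^(2:ℕ) + (-71/8)*t^(3:ℕ) + (77/4)*t^(4:ℕ) + (1/4)*t^(5:ℕ) + (255/4)*t^(6:ℕ) + (-19/4)*t^(7:ℕ) + (397/8)*t^(8:ℕ) + (-143/8)*t^(9:ℕ) + (79/8)*t^(10:ℕ) + (-51/8)*t^(11:ℕ)) + (1/49)*((-15/4) + (-109/16)*t + (-1813/32)*t^(2:ℕ)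 + (-677/16)*t^(3:ℕ) + (-399/8)*t^(4:ℕ) + (73/8)*t^(5:ℕ) + (1589/16)*t^(6:ℕ) + (-27/8)*t^(7:ℕ) + (947/8)*t^(8:ℕ) + (-1237/16)*t^(9:ℕ) + (707/32)*t^(10:ℕ) + (-469/16)*t^(11:ℕ)) + (1/343)*((-1) + (-1)*t + 7*t^(2:ℕ) + (-133/4)*t^(3:ℕ) + (-195/4)*t^(4:ℕ) + (609/16)*t^(5:ℕ) + (-375/16)*t^(6:ℕ) + (55/2)*t^(7:ℕ) + (523/8)*t^(8:ℕ) + (-1411/16)*t^(9:ℕ) + (513/16)*t^(10:ℕ) + (-363/8)*t^(11:ℕ)) + (1/2401)*((207/16)*t^(2:ℕ) + (61/4)*t^(3:ℕ) + (49/16)*t^(4:ℕ) + (-231/16)*t^(5:ℕ) + (91/16)*t^(6:ℕ) + (-37/8)*t^(7:ℕ) + (625/16)*t^(8:ℕ) + (-671/16)*t^(9:ℕ) + (47/2)*t^(10:ℕ) + (-147/4)*t^(11:ℕ)) + (1/16807)*((-6)*t^(2:ℕ) + (127/8)*t^(3:ℕ) + (1/4)*t^(4:ℕ) + (-43/8)*t^(5:ℕ) +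 (-45/4)*t^(6:ℕ) + (169/8)*t^(7:ℕ) + (-1/2)*t^(8:ℕ) + (-67/4)*t^(9:ℕ) + 17*t^(10:ℕ) + (-11)*t^(11:ℕ)) + (1/117649)*((-2)*t^(2:ℕ) + (167/64)*t^(3:ℕ) + (-3/4)*t^(4:ℕ) + (81/32)*t^(5:ℕ) + (-375/32)*t^(6:ℕ) + (763/64)*t^(7:ℕ) + (167/32)*t^(8:ℕ) + (-1373/64)*t^(9:ℕ) + (291/16)*t^(10:ℕ) + (-97/16)*t^(11:ℕ)) + (1/823543)*((5/8)*t^(5:ℕ) + (-31/16)*t^(6:ℕ) + (1/2)*t^(7:ℕ) + (77/16)*t^(8:ℕ) + (-143/16)*t^(9:ℕ) + (27/4)*t^(10:ℕ) + (-9/4)*t^(11:ℕ)) + (1/5764801)*((-1/4)*t^(7:ℕ) + (3/4)*t^(8:ℕ) + (-17/16)*t^(9:ℕ) + (3/4)*t^(10:ℕ) + (-1/4)*t^(11:ℕ)) - (73/500) := by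
  rcases le_total t (1/2) with h2 | h2
  · 
    exact pos_L2e_A_b0_s0 t (by assumption) (by assumption)
  · 
    exact pos_L2e_A_b0_s1 t (by assumption) (by assumption)

lemma pos_L2e_A_b1_s0 (t : ℝ) (h3 : 0 ≤ t) (h4 : t ≤ (1/2)) :
    0 ≤ 1*((1/2) + (-1/2)*t + 4*t^(2:ℕ) + (-5/2)*t^(3:ℕ) + 11*t^(4:ℕ) + (-5)*t^(5:ℕ) + 14*t^(6:ℕ) + (-5)*t^(7:ℕ) + (17/2)*t^(8:ℕ) + (-5/2)*t^(9:ℕ) + 2*t^(10:ℕ) + (-1/2)*t^(11:ℕ)) + (3/20)*((9/8) + (-19/8)*t + (-29/8)*t^(2:ℕ) + (-71/8)*t^(3:ℕ) + (77/4)*t^(4:ℕ) + (1/4)*t^(5:ℕ) + (255/4)*t^(6:ℕ) + (-19/4)*t^(7:ℕ) + (397/8)*t^(8:ℕ) + (-143/8)*t^(9:ℕ) + (79/8)*t^(10:ℕ) + (-51/8)*t^(11:ℕ)) + (11/490)*((-15/4) + (-109/16)*t + (-1813/32)*t^(2:ℕ)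 + (-677/16)*t^(3:ℕ) + (-399/8)*t^(4:ℕ) + (73/8)*t^(5:ℕ) + (1589/16)*t^(6:ℕ) + (-27/8)*t^(7:ℕ) + (947/8)*t^(8:ℕ) + (-1237/16)*t^(9:ℕ) + (707/32)*t^(10:ℕ) + (-469/16)*t^(11:ℕ)) + (23/6860)*((-1) + (-1)*t + 7*t^(2:ℕ) + (-133/4)*t^(3:ℕ) + (-195/4)*t^(4:ℕ) + (609/16)*t^(5:ℕ) + (-375/16)*t^(6:ℕ) + (55/2)*t^(7:ℕ) + (523/8)*t^(8:ℕ) + (-1411/16)*t^(9:ℕ) + (513/16)*t^(10:ℕ) + (-363/8)*t^(11:ℕ)) + (6/12005)*((207/16)*t^(2:ℕ) + (61/4)*t^(3:ℕ) + (49/16)*t^(4:ℕ) + (-231/16)*t^(5:ℕ) + (91/16)*t^(6:ℕ) + (-37/8)*t^(7:ℕ) + (625/16)*t^(8:ℕ) + (-671/16)*t^(9:ℕ) + (47/2)*t^(10:ℕ) + (-147/4)*t^(11:ℕ)) + (5/67228)*((-6)*t^(2:ℕ) + (127/8)*t^(3:ℕ) + (1/4)*t^(4:ℕ) + (-43/8)*t^(5:ℕ)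 + (-45/4)*t^(6:ℕ) + (169/8)*t^(7:ℕ) + (-1/2)*t^(8:ℕ) + (-67/4)*t^(9:ℕ) + 17*t^(10:ℕ) + (-11)*t^(11:ℕ)) + (13/1176490)*((-2)*t^(2:ℕ) + (167/64)*t^(3:ℕ) + (-3/4)*t^(4:ℕ) + (81/32)*t^(5:ℕ) + (-375/32)*t^(6:ℕ) + (763/64)*t^(7:ℕ) + (167/32)*t^(8:ℕ) + (-1373/64)*t^(9:ℕ) + (291/16)*t^(10:ℕ) + (-97/16)*t^(11:ℕ)) + (27/16470860)*((5/8)*t^(5:ℕ) + (-31/16)*t^(6:ℕ) + (1/2)*t^(7:ℕ) + (77/16)*t^(8:ℕ) + (-143/16)*t^(9:ℕ) + (27/4)*t^(10:ℕ) + (-9/4)*t^(11:ℕ)) + (1/4117715)*((-1/4)*t^(7:ℕ) + (3/4)*t^(8:ℕ) + (-17/16)*t^(9:ℕ) + (3/4)*t^(10:ℕ) + (-1/4)*t^(11:ℕ)) - (73/500) := by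
  have e : 1*((1/2) + (-1/2)*t + 4*t^(2:ℕ) + (-5/2)*t^(3:ℕ) + 11*t^(4:ℕ) + (-5)*t^(5:ℕ) + 14*t^(6:ℕ) + (-5)*t^(7:ℕ) + (17/2)*t^(8:ℕ) + (-5/2)*t^(9:ℕ) + 2*t^(10:ℕ) + (-1/2)*t^(11:ℕ)) + (3/20)*((9/8) + (-19/8)*t + (-29/8)*t^(2:ℕ) + (-71/8)*t^(3:ℕ) + (77/4)*t^(4:ℕ) + (1/4)*t^(5:ℕ) + (255/4)*t^(6:ℕ) + (-19/4)*t^(7:ℕ) + (397/8)*t^(8:ℕ) + (-143/8)*t^(9:ℕ) + (79/8)*t^(10:ℕ) + (-51/8)*t^(11:ℕ)) + (11/490)*((-15/4) + (-109/16)*t + (-1813/32)*t^(2:ℕ) + (-677/16)*t^(3:ℕ) + (-399/8)*t^(4:ℕ) + (73/8)*t^(5:ℕ) + (1589/16)*t^(6:ℕ) + (-27/8)*t^(7:ℕ) + (947/8)*t^(8:ℕ) + (-1237/16)*t^(9:ℕ) + (707/32)*t^(10:ℕ) + (-469/16)*t^(11:ℕ)) + (23/6860)*((-1) + (-1)*t + 7*t^(2:ℕ) + (-133/4)*t^(3:ℕ)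 + (-195/4)*t^(4:ℕ) + (609/16)*t^(5:ℕ) + (-375/16)*t^(6:ℕ) + (55/2)*t^(7:ℕ) + (523/8)*t^(8:ℕ) + (-1411/16)*t^(9:ℕ) + (513/16)*t^(10:ℕ) + (-363/8)*t^(11:ℕ)) + (6/12005)*((207/16)*t^(2:ℕ) + (61/4)*t^(3:ℕ) + (49/16)*t^(4:ℕ) + (-231/16)*t^(5:ℕ) + (91/16)*t^(6:ℕ) + (-37/8)*t^(7:ℕ) + (625/16)*t^(8:ℕ) + (-671/16)*t^(9:ℕ) + (47/2)*t^(10:ℕ) + (-147/4)*t^(11:ℕ)) + (5/67228)*((-6)*t^(2:ℕ) + (127/8)*t^(3:ℕ) + (1/4)*t^(4:ℕ) + (-43/8)*t^(5:ℕ) + (-45/4)*t^(6:ℕ) + (169/8)*t^(7:ℕ) + (-1/2)*t^(8:ℕ) + (-67/4)*t^(9:ℕ) + 17*t^(10:ℕ) + (-11)*t^(11:ℕ)) + (13/1176490)*((-2)*t^(2:ℕ) + (167/64)*t^(3:ℕ) + (-3/4)*t^(4:ℕ) + (81/32)*t^(5:ℕ) + (-375/32)*t^(6:ℕ) + (763/64)*t^(7:ℕ) + (167/32)*t^(8:ℕ)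 + (-1373/64)*t^(9:ℕ) + (291/16)*t^(10:ℕ) + (-97/16)*t^(11:ℕ)) + (27/16470860)*((5/8)*t^(5:ℕ) + (-31/16)*t^(6:ℕ) + (1/2)*t^(7:ℕ) + (77/16)*t^(8:ℕ) + (-143/16)*t^(9:ℕ) + (27/4)*t^(10:ℕ) + (-9/4)*t^(11:ℕ)) + (1/4117715)*((-1/4)*t^(7:ℕ) + (3/4)*t^(8:ℕ) + (-17/16)*t^(9:ℕ) + (3/4)*t^(10:ℕ) + (-1/4)*t^(11:ℕ)) - (73/500) = (38215232/42875)*((1/2) - t)^(11:ℕ) + (375913152/42875)*(t - 0)*((1/2) - t)^(10:ℕ) + (117024192696/2941225)*(t - 0)^(2:ℕ)*((1/2) - t)^(9:ℕ) + (321654792318/2941225)*(t - 0)^(3:ℕ)*((1/2) - t)^(8:ℕ) + (594513894656/2941225)*(t - 0)^(4:ℕ)*((1/2) - t)^(7:ℕ) + (27306314286834/102942875)*(t - 0)^(5:ℕ)*((1/2) - t)^(6:ℕ) + (52755773094543/205885750)*(t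 - 0)^(6:ℕ)*((1/2) - t)^(5:ℕ) + (30923535183341/164708600)*(t - 0)^(7:ℕ)*((1/2) - t)^(4:ℕ) + (44706445354/420175)*(t - 0)^(8:ℕ)*((1/2) - t)^(3:ℕ) + (4301373500447/94119200)*(t - 0)^(9:ℕ)*((1/2) - t)^(2:ℕ) + (10954728769641/823543000)*(t - 0)^(10:ℕ)*((1/2) - t) + (6304737251349/3294172000)*(t - 0)^(11:ℕ) := by
    ring
  rw [e]
  have a3 : 0 ≤ t - 0 := by linarith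
  have a4 : 0 ≤ (1/2) - t := by linarith
  generalize t - 0 = t1 at a3 ⊢
  generalize (1/2) - t = t2 at a4 ⊢
  positivity

lemma pos_L2e_A_b1_s1 (t : ℝ) (h3 : (1/2) ≤ t) (h4 : t ≤ 1) :
    0 ≤ 1*((1/2) + (-1/2)*t + 4*t^(2:ℕ) + (-5/2)*t^(3:ℕ) + 11*t^(4:ℕ) + (-5)*t^(5:ℕ) + 14*t^(6:ℕ) + (-5)*t^(7:ℕ) + (17/2)*t^(8:ℕ) + (-5/2)*t^(9:ℕ) + 2*t^(10:ℕ) + (-1/2)*t^(11:ℕ)) + (3/20)*((9/8) + (-19/8)*t + (-29/8)*t^(2:ℕ) + (-71/8)*t^(3:ℕ) + (77/4)*t^(4:ℕ) + (1/4)*t^(5:ℕ) + (255/4)*t^(6:ℕ) + (-19/4)*t^(7:ℕ) + (397/8)*t^(8:ℕ) + (-143/8)*t^(9:ℕ) + (79/8)*t^(10:ℕ) + (-51/8)*t^(11:ℕ)) + (11/490)*((-15/4) + (-109/16)*t + (-1813/32)*t^(2:ℕ) + (-677/16)*t^(3:ℕ) + (-399/8)*t^(4:ℕ)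 + (73/8)*t^(5:ℕ) + (1589/16)*t^(6:ℕ) + (-27/8)*t^(7:ℕ) + (947/8)*t^(8:ℕ) + (-1237/16)*t^(9:ℕ) + (707/32)*t^(10:ℕ) + (-469/16)*t^(11:ℕ)) + (23/6860)*((-1) + (-1)*t + 7*t^(2:ℕ) + (-133/4)*t^(3:ℕ) + (-195/4)*t^(4:ℕ) + (609/16)*t^(5:ℕ) + (-375/16)*t^(6:ℕ) + (55/2)*t^(7:ℕ) + (523/8)*t^(8:ℕ) + (-1411/16)*t^(9:ℕ) + (513/16)*t^(10:ℕ) + (-363/8)*t^(11:ℕ)) + (6/12005)*((207/16)*t^(2:ℕ) + (61/4)*t^(3:ℕ) + (49/16)*t^(4:ℕ) + (-231/16)*t^(5:ℕ) + (91/16)*t^(6:ℕ) + (-37/8)*t^(7:ℕ) + (625/16)*t^(8:ℕ) + (-671/16)*t^(9:ℕ) + (47/2)*t^(10:ℕ) + (-147/4)*t^(11:ℕ)) + (5/67228)*((-6)*t^(2:ℕ) + (127/8)*t^(3:ℕ) + (1/4)*t^(4:ℕ) + (-43/8)*t^(5:ℕ) + (-45/4)*t^(6:ℕ) + (169/8)*t^(7:ℕ) +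 (-1/2)*t^(8:ℕ) + (-67/4)*t^(9:ℕ) + 17*t^(10:ℕ) + (-11)*t^(11:ℕ)) + (13/1176490)*((-2)*t^(2:ℕ) + (167/64)*t^(3:ℕ) + (-3/4)*t^(4:ℕ) + (81/32)*t^(5:ℕ) + (-375/32)*t^(6:ℕ) + (763/64)*t^(7:ℕ) + (167/32)*t^(8:ℕ) + (-1373/64)*t^(9:ℕ) + (291/16)*t^(10:ℕ) + (-97/16)*t^(11:ℕ)) + (27/16470860)*((5/8)*t^(5:ℕ) + (-31/16)*t^(6:ℕ) + (1/2)*t^(7:ℕ) + (77/16)*t^(8:ℕ) + (-143/16)*t^(9:ℕ) + (27/4)*t^(10:ℕ) + (-9/4)*t^(11:ℕ)) + (1/4117715)*((-1/4)*t^(7:ℕ) + (3/4)*t^(8:ℕ) + (-17/16)*t^(9:ℕ) + (3/4)*t^(10:ℕ) + (-1/4)*t^(11:ℕ)) - (73/500) := by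
  have e : 1*((1/2) + (-1/2)*t + 4*t^(2:ℕ) + (-5/2)*t^(3:ℕ) + 11*t^(4:ℕ) + (-5)*t^(5:ℕ) + 14*t^(6:ℕ) + (-5)*t^(7:ℕ) + (17/2)*t^(8:ℕ) + (-5/2)*t^(9:ℕ) + 2*t^(10:ℕ) + (-1/2)*t^(11:ℕ)) + (3/20)*((9/8) + (-19/8)*t + (-29/8)*t^(2:ℕ) + (-71/8)*t^(3:ℕ) + (77/4)*t^(4:ℕ) + (1/4)*t^(5:ℕ) + (255/4)*t^(6:ℕ) + (-19/4)*t^(7:ℕ) + (397/8)*t^(8:ℕ) + (-143/8)*t^(9:ℕ) + (79/8)*t^(10:ℕ) + (-51/8)*t^(11:ℕ)) + (11/490)*((-15/4) + (-109/16)*t + (-1813/32)*t^(2:ℕ) + (-677/16)*t^(3:ℕ) + (-399/8)*t^(4:ℕ) + (73/8)*t^(5:ℕ) + (1589/16)*t^(6:ℕ) + (-27/8)*t^(7:ℕ) + (947/8)*t^(8:ℕ) + (-1237/16)*t^(9:ℕ) + (707/32)*t^(10:ℕ) + (-469/16)*t^(11:ℕ)) + (23/6860)*((-1) + (-1)*t + 7*t^(2:ℕ) + (-133/4)*t^(3:ℕ)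 + (-195/4)*t^(4:ℕ) + (609/16)*t^(5:ℕ) + (-375/16)*t^(6:ℕ) + (55/2)*t^(7:ℕ) + (523/8)*t^(8:ℕ) + (-1411/16)*t^(9:ℕ) + (513/16)*t^(10:ℕ) + (-363/8)*t^(11:ℕ)) + (6/12005)*((207/16)*t^(2:ℕ) + (61/4)*t^(3:ℕ) + (49/16)*t^(4:ℕ) + (-231/16)*t^(5:ℕ) + (91/16)*t^(6:ℕ) + (-37/8)*t^(7:ℕ) + (625/16)*t^(8:ℕ) + (-671/16)*t^(9:ℕ) + (47/2)*t^(10:ℕ) + (-147/4)*t^(11:ℕ)) + (5/67228)*((-6)*t^(2:ℕ) + (127/8)*t^(3:ℕ) + (1/4)*t^(4:ℕ) + (-43/8)*t^(5:ℕ) + (-45/4)*t^(6:ℕ) + (169/8)*t^(7:ℕ) + (-1/2)*t^(8:ℕ) + (-67/4)*t^(9:ℕ) + 17*t^(10:ℕ) + (-11)*t^(11:ℕ)) + (13/1176490)*((-2)*t^(2:ℕ) + (167/64)*t^(3:ℕ) + (-3/4)*t^(4:ℕ) + (81/32)*t^(5:ℕ) + (-375/32)*t^(6:ℕ) + (763/64)*t^(7:ℕ) + (167/32)*t^(8:ℕ)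 + (-1373/64)*t^(9:ℕ) + (291/16)*t^(10:ℕ) + (-97/16)*t^(11:ℕ)) + (27/16470860)*((5/8)*t^(5:ℕ) + (-31/16)*t^(6:ℕ) + (1/2)*t^(7:ℕ) + (77/16)*t^(8:ℕ) + (-143/16)*t^(9:ℕ) + (27/4)*t^(10:ℕ) + (-9/4)*t^(11:ℕ)) + (1/4117715)*((-1/4)*t^(7:ℕ) + (3/4)*t^(8:ℕ) + (-17/16)*t^(9:ℕ) + (3/4)*t^(10:ℕ) + (-1/4)*t^(11:ℕ)) - (73/500) = (6304737251349/3294172000)*(1 - t)^(11:ℕ) + (47442652225557/1647086000)*(t - (1/2))*(1 - t)^(10:ℕ) + (132242393248229/658834400)*(t - (1/2))^(2:ℕ)*(1 - t)^(9:ℕ) + (279421523134541/329417200)*(t - (1/2))^(3:ℕ)*(1 - t)^(8:ℕ) + (395613542620761/164708600)*(t - (1/2))^(4:ℕ)*(1 - t)^(7:ℕ) + (1963080941983061/411771500)*(t - (1/2))^(5:ℕ)*(1 - t)^(6:ℕ)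 + (1390034039447843/205885750)*(t - (1/2))^(6:ℕ)*(1 - t)^(5:ℕ) + (140223598284247/20588575)*(t - (1/2))^(7:ℕ)*(1 - t)^(4:ℕ) + (98630882756976/20588575)*(t - (1/2))^(8:ℕ)*(1 - t)^(3:ℕ) + (134181436544/60025)*(t - (1/2))^(9:ℕ)*(1 - t)^(2:ℕ) + (9149817012136/14706125)*(t - (1/2))^(10:ℕ)*(1 - t) + (8044496088432/102942875)*(t - (1/2))^(11:ℕ) := by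
    ring
  rw [e]
  have a3 : 0 ≤ t - (1/2) := by linarith
  have a4 : 0 ≤ 1 - t := by linarith
  generalize t - (1/2) = t1 at a3 ⊢
  generalize 1 - t = t2 at a4 ⊢
  positivity

lemma pos_L2e_A_b1 (t : ℝ) (h3 : 0 ≤ t) (h4 : t ≤ 1) :
    0 ≤ 1*((1/2) + (-1/2)*t + 4*t^(2:ℕ) + (-5/2)*t^(3:ℕ) + 11*t^(4:ℕ) + (-5)*t^(5:ℕ) + 14*t^(6:ℕ) + (-5)*t^(7:ℕ) + (17/2)*t^(8:ℕ) + (-5/2)*t^(9:ℕ) + 2*t^(10:ℕ) + (-1/2)*t^(11:ℕ)) + (3/20)*((9/8) + (-19/8)*t + (-29/8)*t^(2:ℕ) + (-71/8)*t^(3:ℕ) + (77/4)*t^(4:ℕ) + (1/4)*t^(5:ℕ) + (255/4)*t^(6:ℕ) + (-19/4)*t^(7:ℕ) + (397/8)*t^(8:ℕ) + (-143/8)*t^(9:ℕ) + (79/8)*t^(10:ℕ) + (-51/8)*t^(11:ℕ)) + (11/490)*((-15/4) + (-109/16)*t + (-1813/32)*t^(2:ℕ)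 + (-677/16)*t^(3:ℕ) + (-399/8)*t^(4:ℕ) + (73/8)*t^(5:ℕ) + (1589/16)*t^(6:ℕ) + (-27/8)*t^(7:ℕ) + (947/8)*t^(8:ℕ) + (-1237/16)*t^(9:ℕ) + (707/32)*t^(10:ℕ) + (-469/16)*t^(11:ℕ)) + (23/6860)*((-1) + (-1)*t + 7*t^(2:ℕ) + (-133/4)*t^(3:ℕ) + (-195/4)*t^(4:ℕ) + (609/16)*t^(5:ℕ) + (-375/16)*t^(6:ℕ) + (55/2)*t^(7:ℕ) + (523/8)*t^(8:ℕ) + (-1411/16)*t^(9:ℕ) + (513/16)*t^(10:ℕ) + (-363/8)*t^(11:ℕ)) + (6/12005)*((207/16)*t^(2:ℕ) + (61/4)*t^(3:ℕ) + (49/16)*t^(4:ℕ) + (-231/16)*t^(5:ℕ) + (91/16)*t^(6:ℕ) + (-37/8)*t^(7:ℕ) + (625/16)*t^(8:ℕ) + (-671/16)*t^(9:ℕ) + (47/2)*t^(10:ℕ) + (-147/4)*t^(11:ℕ)) + (5/67228)*((-6)*t^(2:ℕ) + (127/8)*t^(3:ℕ) + (1/4)*t^(4:ℕ) + (-43/8)*t^(5:ℕ)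 + (-45/4)*t^(6:ℕ) + (169/8)*t^(7:ℕ) + (-1/2)*t^(8:ℕ) + (-67/4)*t^(9:ℕ) + 17*t^(10:ℕ) + (-11)*t^(11:ℕ)) + (13/1176490)*((-2)*t^(2:ℕ) + (167/64)*t^(3:ℕ) + (-3/4)*t^(4:ℕ) + (81/32)*t^(5:ℕ) + (-375/32)*t^(6:ℕ) + (763/64)*t^(7:ℕ) + (167/32)*t^(8:ℕ) + (-1373/64)*t^(9:ℕ) + (291/16)*t^(10:ℕ) + (-97/16)*t^(11:ℕ)) + (27/16470860)*((5/8)*t^(5:ℕ) + (-31/16)*t^(6:ℕ) + (1/2)*t^(7:ℕ) + (77/16)*t^(8:ℕ) + (-143/16)*t^(9:ℕ) + (27/4)*t^(10:ℕ) + (-9/4)*t^(11:ℕ)) + (1/4117715)*((-1/4)*t^(7:ℕ) + (3/4)*t^(8:ℕ) + (-17/16)*t^(9:ℕ) + (3/4)*t^(10:ℕ) + (-1/4)*t^(11:ℕ)) - (73/500) := by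
  rcases le_total t (1/2) with h2 | h2
  · 
    exact pos_L2e_A_b1_s0 t (by assumption) (by assumption)
  · 
    exact pos_L2e_A_b1_s1 t (by assumption) (by assumption)

lemma pos_L2e_A_b2_s0 (t : ℝ) (h3 : 0 ≤ t) (h4 : t ≤ (1/2)) :
    0 ≤ 1*((1/2) + (-1/2)*t + 4*t^(2:ℕ) + (-5/2)*t^(3:ℕ) + 11*t^(4:ℕ) + (-5)*t^(5:ℕ) + 14*t^(6:ℕ) + (-5)*t^(7:ℕ) + (17/2)*t^(8:ℕ) + (-5/2)*t^(9:ℕ) + 2*t^(10:ℕ) + (-1/2)*t^(11:ℕ)) + (11/70)*((9/8) + (-19/8)*t + (-29/8)*t^(2:ℕ) + (-71/8)*t^(3:ℕ) + (77/4)*t^(4:ℕ) + (1/4)*t^(5:ℕ) + (255/4)*t^(6:ℕ) + (-19/4)*t^(7:ℕ) + (397/8)*t^(8:ℕ) + (-143/8)*t^(9:ℕ) + (79/8)*t^(10:ℕ) + (-51/8)*t^(11:ℕ)) + (211/8575)*((-15/4) + (-109/16)*t + (-1813/32)*t^(2:ℕ)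 + (-677/16)*t^(3:ℕ) + (-399/8)*t^(4:ℕ) + (73/8)*t^(5:ℕ) + (1589/16)*t^(6:ℕ) + (-27/8)*t^(7:ℕ) + (947/8)*t^(8:ℕ) + (-1237/16)*t^(9:ℕ) + (707/32)*t^(10:ℕ) + (-469/16)*t^(11:ℕ)) + (461/120050)*((-1) + (-1)*t + 7*t^(2:ℕ) + (-133/4)*t^(3:ℕ) + (-195/4)*t^(4:ℕ) + (609/16)*t^(5:ℕ) + (-375/16)*t^(6:ℕ) + (55/2)*t^(7:ℕ) + (523/8)*t^(8:ℕ) + (-1411/16)*t^(9:ℕ) + (513/16)*t^(10:ℕ) + (-363/8)*t^(11:ℕ)) + (251/420175)*((207/16)*t^(2:ℕ) + (61/4)*t^(3:ℕ) + (49/16)*t^(4:ℕ) + (-231/16)*t^(5:ℕ) + (91/16)*t^(6:ℕ) + (-37/8)*t^(7:ℕ) + (625/16)*t^(8:ℕ) + (-671/16)*t^(9:ℕ) + (47/2)*t^(10:ℕ) + (-147/4)*t^(11:ℕ)) + (109/1176490)*((-6)*t^(2:ℕ) + (127/8)*t^(3:ℕ) + (1/4)*t^(4:ℕ) + (-43/8)*t^(5:ℕ)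 + (-45/4)*t^(6:ℕ) + (169/8)*t^(7:ℕ) + (-1/2)*t^(8:ℕ) + (-67/4)*t^(9:ℕ) + 17*t^(10:ℕ) + (-11)*t^(11:ℕ)) + (59/4117715)*((-2)*t^(2:ℕ) + (167/64)*t^(3:ℕ) + (-3/4)*t^(4:ℕ) + (81/32)*t^(5:ℕ) + (-375/32)*t^(6:ℕ) + (763/64)*t^(7:ℕ) + (167/32)*t^(8:ℕ) + (-1373/64)*t^(9:ℕ) + (291/16)*t^(10:ℕ) + (-97/16)*t^(11:ℕ)) + (13/5882450)*((5/8)*t^(5:ℕ) + (-31/16)*t^(6:ℕ) + (1/2)*t^(7:ℕ) + (77/16)*t^(8:ℕ) + (-143/16)*t^(9:ℕ) + (27/4)*t^(10:ℕ) + (-9/4)*t^(11:ℕ)) + (1/2941225)*((-1/4)*t^(7:ℕ) + (3/4)*t^(8:ℕ) + (-17/16)*t^(9:ℕ) + (3/4)*t^(10:ℕ) + (-1/4)*t^(11:ℕ)) - (73/500) := by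
  have e : 1*((1/2) + (-1/2)*t + 4*t^(2:ℕ) + (-5/2)*t^(3:ℕ) + 11*t^(4:ℕ) + (-5)*t^(5:ℕ) + 14*t^(6:ℕ) + (-5)*t^(7:ℕ) + (17/2)*t^(8:ℕ) + (-5/2)*t^(9:ℕ) + 2*t^(10:ℕ) + (-1/2)*t^(11:ℕ)) + (11/70)*((9/8) + (-19/8)*t + (-29/8)*t^(2:ℕ) + (-71/8)*t^(3:ℕ) + (77/4)*t^(4:ℕ) + (1/4)*t^(5:ℕ) + (255/4)*t^(6:ℕ) + (-19/4)*t^(7:ℕ) + (397/8)*t^(8:ℕ) + (-143/8)*t^(9:ℕ) + (79/8)*t^(10:ℕ) + (-51/8)*t^(11:ℕ)) + (211/8575)*((-15/4) + (-109/16)*t + (-1813/32)*t^(2:ℕ) + (-677/16)*t^(3:ℕ) + (-399/8)*t^(4:ℕ) + (73/8)*t^(5:ℕ) + (1589/16)*t^(6:ℕ) + (-27/8)*t^(7:ℕ) + (947/8)*t^(8:ℕ) + (-1237/16)*t^(9:ℕ) + (707/32)*t^(10:ℕ) + (-469/16)*t^(11:ℕ)) + (461/120050)*((-1) + (-1)*t + 7*t^(2:ℕ)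 + (-133/4)*t^(3:ℕ) + (-195/4)*t^(4:ℕ) + (609/16)*t^(5:ℕ) + (-375/16)*t^(6:ℕ) + (55/2)*t^(7:ℕ) + (523/8)*t^(8:ℕ) + (-1411/16)*t^(9:ℕ) + (513/16)*t^(10:ℕ) + (-363/8)*t^(11:ℕ)) + (251/420175)*((207/16)*t^(2:ℕ) + (61/4)*t^(3:ℕ) + (49/16)*t^(4:ℕ) + (-231/16)*t^(5:ℕ) + (91/16)*t^(6:ℕ) + (-37/8)*t^(7:ℕ) + (625/16)*t^(8:ℕ) + (-671/16)*t^(9:ℕ) + (47/2)*t^(10:ℕ) + (-147/4)*t^(11:ℕ)) + (109/1176490)*((-6)*t^(2:ℕ) + (127/8)*t^(3:ℕ) + (1/4)*t^(4:ℕ) + (-43/8)*t^(5:ℕ) + (-45/4)*t^(6:ℕ) + (169/8)*t^(7:ℕ) + (-1/2)*t^(8:ℕ) + (-67/4)*t^(9:ℕ) + 17*t^(10:ℕ) + (-11)*t^(11:ℕ)) + (59/4117715)*((-2)*t^(2:ℕ) + (167/64)*t^(3:ℕ) + (-3/4)*t^(4:ℕ) + (81/32)*t^(5:ℕ) + (-375/32)*t^(6:ℕ)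 + (763/64)*t^(7:ℕ) + (167/32)*t^(8:ℕ) + (-1373/64)*t^(9:ℕ) + (291/16)*t^(10:ℕ) + (-97/16)*t^(11:ℕ)) + (13/5882450)*((5/8)*t^(5:ℕ) + (-31/16)*t^(6:ℕ) + (1/2)*t^(7:ℕ) + (77/16)*t^(8:ℕ) + (-143/16)*t^(9:ℕ) + (27/4)*t^(10:ℕ) + (-9/4)*t^(11:ℕ)) + (1/2941225)*((-1/4)*t^(7:ℕ) + (3/4)*t^(8:ℕ) + (-17/16)*t^(9:ℕ) + (3/4)*t^(10:ℕ) + (-1/4)*t^(11:ℕ)) - (73/500) = (267173504/300125)*((1/2) - t)^(11:ℕ) + (2617847424/300125)*(t - 0)*((1/2) - t)^(10:ℕ) + (809621190096/20588575)*(t - 0)^(2:ℕ)*((1/2) - t)^(9:ℕ) + (2202800589828/20588575)*(t - 0)^(3:ℕ)*((1/2) - t)^(8:ℕ) + (4011126001368/20588575)*(t - 0)^(4:ℕ)*((1/2) - t)^(7:ℕ) + (25782293373184/102942875)*(t - 0)^(5:ℕ)*((1/2)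 - t)^(6:ℕ) + (24273568654849/102942875)*(t - 0)^(6:ℕ)*((1/2) - t)^(5:ℕ) + (13864021158373/82354300)*(t - 0)^(7:ℕ)*((1/2) - t)^(4:ℕ) + (3868985748367/41177150)*(t - 0)^(8:ℕ)*((1/2) - t)^(3:ℕ) + (13366769206689/329417200)*(t - 0)^(9:ℕ)*((1/2) - t)^(2:ℕ) + (9956505877151/823543000)*(t - 0)^(10:ℕ)*((1/2) - t) + (2949820097307/1647086000)*(t - 0)^(11:ℕ) := by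
    ring
  rw [e]
  have a3 : 0 ≤ t - 0 := by linarith
  have a4 : 0 ≤ (1/2) - t := by linarith
  generalize t - 0 = t1 at a3 ⊢
  generalize (1/2) - t = t2 at a4 ⊢
  positivity

lemma pos_L2e_A_b2_s1 (t : ℝ) (h3 : (1/2) ≤ t) (h4 : t ≤ 1) :
    0 ≤ 1*((1/2) + (-1/2)*t + 4*t^(2:ℕ) + (-5/2)*t^(3:ℕ) + 11*t^(4:ℕ) + (-5)*t^(5:ℕ) + 14*t^(6:ℕ) + (-5)*t^(7:ℕ) + (17/2)*t^(8:ℕ) + (-5/2)*t^(9:ℕ) + 2*t^(10:ℕ) + (-1/2)*t^(11:ℕ)) + (11/70)*((9/8) + (-19/8)*t + (-29/8)*t^(2:ℕ) + (-71/8)*t^(3:ℕ) + (77/4)*t^(4:ℕ) + (1/4)*t^(5:ℕ) + (255/4)*t^(6:ℕ) + (-19/4)*t^(7:ℕ) + (397/8)*t^(8:ℕ) + (-143/8)*t^(9:ℕ) + (79/8)*t^(10:ℕ) + (-51/8)*t^(11:ℕ)) + (211/8575)*((-15/4) + (-109/16)*t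 + (-1813/32)*t^(2:ℕ) + (-677/16)*t^(3:ℕ) + (-399/8)*t^(4:ℕ) + (73/8)*t^(5:ℕ) + (1589/16)*t^(6:ℕ) + (-27/8)*t^(7:ℕ) + (947/8)*t^(8:ℕ) + (-1237/16)*t^(9:ℕ) + (707/32)*t^(10:ℕ) + (-469/16)*t^(11:ℕ)) + (461/120050)*((-1) + (-1)*t + 7*t^(2:ℕ) + (-133/4)*t^(3:ℕ) + (-195/4)*t^(4:ℕ) + (609/16)*t^(5:ℕ) + (-375/16)*t^(6:ℕ) + (55/2)*t^(7:ℕ) + (523/8)*t^(8:ℕ) + (-1411/16)*t^(9:ℕ) + (513/16)*t^(10:ℕ) + (-363/8)*t^(11:ℕ)) + (251/420175)*((207/16)*t^(2:ℕ) + (61/4)*t^(3:ℕ) + (49/16)*t^(4:ℕ) + (-231/16)*t^(5:ℕ) + (91/16)*t^(6:ℕ) + (-37/8)*t^(7:ℕ) + (625/16)*t^(8:ℕ) + (-671/16)*t^(9:ℕ) + (47/2)*t^(10:ℕ) + (-147/4)*t^(11:ℕ)) + (109/1176490)*((-6)*t^(2:ℕ) + (127/8)*t^(3:ℕ) +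 (1/4)*t^(4:ℕ) + (-43/8)*t^(5:ℕ) + (-45/4)*t^(6:ℕ) + (169/8)*t^(7:ℕ) + (-1/2)*t^(8:ℕ) + (-67/4)*t^(9:ℕ) + 17*t^(10:ℕ) + (-11)*t^(11:ℕ)) + (59/4117715)*((-2)*t^(2:ℕ) + (167/64)*t^(3:ℕ) + (-3/4)*t^(4:ℕ) + (81/32)*t^(5:ℕ) + (-375/32)*t^(6:ℕ) + (763/64)*t^(7:ℕ) + (167/32)*t^(8:ℕ) + (-1373/64)*t^(9:ℕ) + (291/16)*t^(10:ℕ) + (-97/16)*t^(11:ℕ)) + (13/5882450)*((5/8)*t^(5:ℕ) + (-31/16)*t^(6:ℕ) + (1/2)*t^(7:ℕ) + (77/16)*t^(8:ℕ) + (-143/16)*t^(9:ℕ) + (27/4)*t^(10:ℕ) + (-9/4)*t^(11:ℕ)) + (1/2941225)*((-1/4)*t^(7:ℕ) + (3/4)*t^(8:ℕ) + (-17/16)*t^(9:ℕ) + (3/4)*t^(10:ℕ) + (-1/4)*t^(11:ℕ)) - (73/500) := by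
  have e : 1*((1/2) + (-1/2)*t + 4*t^(2:ℕ) + (-5/2)*t^(3:ℕ) + 11*t^(4:ℕ) + (-5)*t^(5:ℕ) + 14*t^(6:ℕ) + (-5)*t^(7:ℕ) + (17/2)*t^(8:ℕ) + (-5/2)*t^(9:ℕ) + 2*t^(10:ℕ) + (-1/2)*t^(11:ℕ)) + (11/70)*((9/8) + (-19/8)*t + (-29/8)*t^(2:ℕ) + (-71/8)*t^(3:ℕ) + (77/4)*t^(4:ℕ) + (1/4)*t^(5:ℕ) + (255/4)*t^(6:ℕ) + (-19/4)*t^(7:ℕ) + (397/8)*t^(8:ℕ) + (-143/8)*t^(9:ℕ) + (79/8)*t^(10:ℕ) + (-51/8)*t^(11:ℕ)) + (211/8575)*((-15/4) + (-109/16)*t + (-1813/32)*t^(2:ℕ) + (-677/16)*t^(3:ℕ) + (-399/8)*t^(4:ℕ) + (73/8)*t^(5:ℕ) + (1589/16)*t^(6:ℕ) + (-27/8)*t^(7:ℕ) + (947/8)*t^(8:ℕ) + (-1237/16)*t^(9:ℕ) + (707/32)*t^(10:ℕ) + (-469/16)*t^(11:ℕ)) + (461/120050)*((-1) + (-1)*t + 7*t^(2:ℕ)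 + (-133/4)*t^(3:ℕ) + (-195/4)*t^(4:ℕ) + (609/16)*t^(5:ℕ) + (-375/16)*t^(6:ℕ) + (55/2)*t^(7:ℕ) + (523/8)*t^(8:ℕ) + (-1411/16)*t^(9:ℕ) + (513/16)*t^(10:ℕ) + (-363/8)*t^(11:ℕ)) + (251/420175)*((207/16)*t^(2:ℕ) + (61/4)*t^(3:ℕ) + (49/16)*t^(4:ℕ) + (-231/16)*t^(5:ℕ) + (91/16)*t^(6:ℕ) + (-37/8)*t^(7:ℕ) + (625/16)*t^(8:ℕ) + (-671/16)*t^(9:ℕ) + (47/2)*t^(10:ℕ) + (-147/4)*t^(11:ℕ)) + (109/1176490)*((-6)*t^(2:ℕ) + (127/8)*t^(3:ℕ) + (1/4)*t^(4:ℕ) + (-43/8)*t^(5:ℕ) + (-45/4)*t^(6:ℕ) + (169/8)*t^(7:ℕ) + (-1/2)*t^(8:ℕ) + (-67/4)*t^(9:ℕ) + 17*t^(10:ℕ) + (-11)*t^(11:ℕ)) + (59/4117715)*((-2)*t^(2:ℕ) + (167/64)*t^(3:ℕ) + (-3/4)*t^(4:ℕ) + (81/32)*t^(5:ℕ) + (-375/32)*t^(6:ℕ)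 + (763/64)*t^(7:ℕ) + (167/32)*t^(8:ℕ) + (-1373/64)*t^(9:ℕ) + (291/16)*t^(10:ℕ) + (-97/16)*t^(11:ℕ)) + (13/5882450)*((5/8)*t^(5:ℕ) + (-31/16)*t^(6:ℕ) + (1/2)*t^(7:ℕ) + (77/16)*t^(8:ℕ) + (-143/16)*t^(9:ℕ) + (27/4)*t^(10:ℕ) + (-9/4)*t^(11:ℕ)) + (1/2941225)*((-1/4)*t^(7:ℕ) + (3/4)*t^(8:ℕ) + (-17/16)*t^(9:ℕ) + (3/4)*t^(10:ℕ) + (-1/4)*t^(11:ℕ)) - (73/500) = (2949820097307/1647086000)*(1 - t)^(11:ℕ) + (11245757596613/411771500)*(t - (1/2))*(1 - t)^(10:ℕ) + (9072400924427/47059600)*(t - (1/2))^(2:ℕ)*(1 - t)^(9:ℕ) + (19395288733403/23529800)*(t - (1/2))^(3:ℕ)*(1 - t)^(8:ℕ) + (38837622026797/16470860)*(t - (1/2))^(4:ℕ)*(1 - t)^(7:ℕ) + (971907253973713/205885750)*(t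 - (1/2))^(5:ℕ)*(1 - t)^(6:ℕ) + (693131868842319/102942875)*(t - (1/2))^(6:ℕ)*(1 - t)^(5:ℕ) + (28132995125678/4117715)*(t - (1/2))^(7:ℕ)*(1 - t)^(4:ℕ) + (99410882244192/20588575)*(t - (1/2))^(8:ℕ)*(1 - t)^(3:ℕ) + (6651770583296/2941225)*(t - (1/2))^(9:ℕ)*(1 - t)^(2:ℕ) + (64983409971952/102942875)*(t - (1/2))^(10:ℕ)*(1 - t) + (8178516169312/102942875)*(t - (1/2))^(11:ℕ) := by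
    ring
  rw [e]
  have a3 : 0 ≤ t - (1/2) := by linarith
  have a4 : 0 ≤ 1 - t := by linarith
  generalize t - (1/2) = t1 at a3 ⊢
  generalize 1 - t = t2 at a4 ⊢
  positivity

lemma pos_L2e_A_b2 (t : ℝ) (h3 : 0 ≤ t) (h4 : t ≤ 1) :
    0 ≤ 1*((1/2) + (-1/2)*t + 4*t^(2:ℕ) + (-5/2)*t^(3:ℕ) + 11*t^(4:ℕ) + (-5)*t^(5:ℕ) + 14*t^(6:ℕ) + (-5)*t^(7:ℕ) + (17/2)*t^(8:ℕ) + (-5/2)*t^(9:ℕ) + 2*t^(10:ℕ) + (-1/2)*t^(11:ℕ)) + (11/70)*((9/8) + (-19/8)*t + (-29/8)*t^(2:ℕ) + (-71/8)*t^(3:ℕ) + (77/4)*t^(4:ℕ) + (1/4)*t^(5:ℕ) + (255/4)*t^(6:ℕ) + (-19/4)*t^(7:ℕ) + (397/8)*t^(8:ℕ) + (-143/8)*t^(9:ℕ) + (79/8)*t^(10:ℕ) + (-51/8)*t^(11:ℕ)) + (211/8575)*((-15/4) + (-109/16)*t + (-1813/32)*t^(2:ℕ)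 + (-677/16)*t^(3:ℕ) + (-399/8)*t^(4:ℕ) + (73/8)*t^(5:ℕ) + (1589/16)*t^(6:ℕ) + (-27/8)*t^(7:ℕ) + (947/8)*t^(8:ℕ) + (-1237/16)*t^(9:ℕ) + (707/32)*t^(10:ℕ) + (-469/16)*t^(11:ℕ)) + (461/120050)*((-1) + (-1)*t + 7*t^(2:ℕ) + (-133/4)*t^(3:ℕ) + (-195/4)*t^(4:ℕ) + (609/16)*t^(5:ℕ) + (-375/16)*t^(6:ℕ) + (55/2)*t^(7:ℕ) + (523/8)*t^(8:ℕ) + (-1411/16)*t^(9:ℕ) + (513/16)*t^(10:ℕ) + (-363/8)*t^(11:ℕ)) + (251/420175)*((207/16)*t^(2:ℕ) + (61/4)*t^(3:ℕ) + (49/16)*t^(4:ℕ) + (-231/16)*t^(5:ℕ) + (91/16)*t^(6:ℕ) + (-37/8)*t^(7:ℕ) + (625/16)*t^(8:ℕ) + (-671/16)*t^(9:ℕ) + (47/2)*t^(10:ℕ) + (-147/4)*t^(11:ℕ)) + (109/1176490)*((-6)*t^(2:ℕ) + (127/8)*t^(3:ℕ) + (1/4)*t^(4:ℕ) + (-43/8)*t^(5:ℕ)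 + (-45/4)*t^(6:ℕ) + (169/8)*t^(7:ℕ) + (-1/2)*t^(8:ℕ) + (-67/4)*t^(9:ℕ) + 17*t^(10:ℕ) + (-11)*t^(11:ℕ)) + (59/4117715)*((-2)*t^(2:ℕ) + (167/64)*t^(3:ℕ) + (-3/4)*t^(4:ℕ) + (81/32)*t^(5:ℕ) + (-375/32)*t^(6:ℕ) + (763/64)*t^(7:ℕ) + (167/32)*t^(8:ℕ) + (-1373/64)*t^(9:ℕ) + (291/16)*t^(10:ℕ) + (-97/16)*t^(11:ℕ)) + (13/5882450)*((5/8)*t^(5:ℕ) + (-31/16)*t^(6:ℕ) + (1/2)*t^(7:ℕ) + (77/16)*t^(8:ℕ) + (-143/16)*t^(9:ℕ) + (27/4)*t^(10:ℕ) + (-9/4)*t^(11:ℕ)) + (1/2941225)*((-1/4)*t^(7:ℕ) + (3/4)*t^(8:ℕ) + (-17/16)*t^(9:ℕ) + (3/4)*t^(10:ℕ) + (-1/4)*t^(11:ℕ)) - (73/500) := by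
  rcases le_total t (1/2) with h2 | h2
  · 
    exact pos_L2e_A_b2_s0 t (by assumption) (by assumption)
  · 
    exact pos_L2e_A_b2_s1 t (by assumption) (by assumption)

lemma pos_L2e_A_b3_s0 (t : ℝ) (h3 : 0 ≤ t) (h4 : t ≤ (1/2)) :
    0 ≤ 1*((1/2) + (-1/2)*t + 4*t^(2:ℕ) + (-5/2)*t^(3:ℕ) + 11*t^(4:ℕ) + (-5)*t^(5:ℕ) + 14*t^(6:ℕ) + (-5)*t^(7:ℕ) + (17/2)*t^(8:ℕ) + (-5/2)*t^(9:ℕ) + 2*t^(10:ℕ) + (-1/2)*t^(11:ℕ)) + (23/140)*((9/8) + (-19/8)*t + (-29/8)*t^(2:ℕ) + (-71/8)*t^(3:ℕ) + (77/4)*t^(4:ℕ) + (1/4)*t^(5:ℕ) + (255/4)*t^(6:ℕ) + (-19/4)*t^(7:ℕ) + (397/8)*t^(8:ℕ) + (-143/8)*t^(9:ℕ) + (79/8)*t^(10:ℕ) + (-51/8)*t^(11:ℕ)) + (461/17150)*((-15/4) + (-109/16)*t + (-1813/32)*t^(2:ℕ)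 + (-677/16)*t^(3:ℕ) + (-399/8)*t^(4:ℕ) + (73/8)*t^(5:ℕ) + (1589/16)*t^(6:ℕ) + (-27/8)*t^(7:ℕ) + (947/8)*t^(8:ℕ) + (-1237/16)*t^(9:ℕ) + (707/32)*t^(10:ℕ) + (-469/16)*t^(11:ℕ)) + (5259/1200500)*((-1) + (-1)*t + 7*t^(2:ℕ) + (-133/4)*t^(3:ℕ) + (-195/4)*t^(4:ℕ) + (609/16)*t^(5:ℕ) + (-375/16)*t^(6:ℕ) + (55/2)*t^(7:ℕ) + (523/8)*t^(8:ℕ) + (-1411/16)*t^(9:ℕ) + (513/16)*t^(10:ℕ) + (-363/8)*t^(11:ℕ)) + (1494/2100875)*((207/16)*t^(2:ℕ) + (61/4)*t^(3:ℕ) + (49/16)*t^(4:ℕ) + (-231/16)*t^(5:ℕ) + (91/16)*t^(6:ℕ) + (-37/8)*t^(7:ℕ) + (625/16)*t^(8:ℕ) + (-671/16)*t^(9:ℕ) + (47/2)*t^(10:ℕ) + (-147/4)*t^(11:ℕ)) + (1353/11764900)*((-6)*t^(2:ℕ) + (127/8)*t^(3:ℕ) + (1/4)*t^(4:ℕ) +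 (-43/8)*t^(5:ℕ) + (-45/4)*t^(6:ℕ) + (169/8)*t^(7:ℕ) + (-1/2)*t^(8:ℕ) + (-67/4)*t^(9:ℕ) + 17*t^(10:ℕ) + (-11)*t^(11:ℕ)) + (109/5882450)*((-2)*t^(2:ℕ) + (167/64)*t^(3:ℕ) + (-3/4)*t^(4:ℕ) + (81/32)*t^(5:ℕ) + (-375/32)*t^(6:ℕ) + (763/64)*t^(7:ℕ) + (167/32)*t^(8:ℕ) + (-1373/64)*t^(9:ℕ) + (291/16)*t^(10:ℕ) + (-97/16)*t^(11:ℕ)) + (1/336140)*((5/8)*t^(5:ℕ) + (-31/16)*t^(6:ℕ) + (1/2)*t^(7:ℕ) + (77/16)*t^(8:ℕ) + (-143/16)*t^(9:ℕ) + (27/4)*t^(10:ℕ) + (-9/4)*t^(11:ℕ)) + (1/2100875)*((-1/4)*t^(7:ℕ) + (3/4)*t^(8:ℕ) + (-17/16)*t^(9:ℕ) + (3/4)*t^(10:ℕ) + (-1/4)*t^(11:ℕ)) - (73/500) := by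
  have e : 1*((1/2) + (-1/2)*t + 4*t^(2:ℕ) + (-5/2)*t^(3:ℕ) + 11*t^(4:ℕ) + (-5)*t^(5:ℕ) + 14*t^(6:ℕ) + (-5)*t^(7:ℕ) + (17/2)*t^(8:ℕ) + (-5/2)*t^(9:ℕ) + 2*t^(10:ℕ) + (-1/2)*t^(11:ℕ)) + (23/140)*((9/8) + (-19/8)*t + (-29/8)*t^(2:ℕ) + (-71/8)*t^(3:ℕ) + (77/4)*t^(4:ℕ) + (1/4)*t^(5:ℕ) + (255/4)*t^(6:ℕ) + (-19/4)*t^(7:ℕ) + (397/8)*t^(8:ℕ) + (-143/8)*t^(9:ℕ) + (79/8)*t^(10:ℕ) + (-51/8)*t^(11:ℕ)) + (461/17150)*((-15/4) + (-109/16)*t + (-1813/32)*t^(2:ℕ) + (-677/16)*t^(3:ℕ) + (-399/8)*t^(4:ℕ) + (73/8)*t^(5:ℕ) + (1589/16)*t^(6:ℕ) + (-27/8)*t^(7:ℕ) + (947/8)*t^(8:ℕ) + (-1237/16)*t^(9:ℕ) + (707/32)*t^(10:ℕ) + (-469/16)*t^(11:ℕ)) + (5259/1200500)*((-1) + (-1)*t + 7*t^(2:ℕ)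 + (-133/4)*t^(3:ℕ) + (-195/4)*t^(4:ℕ) + (609/16)*t^(5:ℕ) + (-375/16)*t^(6:ℕ) + (55/2)*t^(7:ℕ) + (523/8)*t^(8:ℕ) + (-1411/16)*t^(9:ℕ) + (513/16)*t^(10:ℕ) + (-363/8)*t^(11:ℕ)) + (1494/2100875)*((207/16)*t^(2:ℕ) + (61/4)*t^(3:ℕ) + (49/16)*t^(4:ℕ) + (-231/16)*t^(5:ℕ) + (91/16)*t^(6:ℕ) + (-37/8)*t^(7:ℕ) + (625/16)*t^(8:ℕ) + (-671/16)*t^(9:ℕ) + (47/2)*t^(10:ℕ) + (-147/4)*t^(11:ℕ)) + (1353/11764900)*((-6)*t^(2:ℕ) + (127/8)*t^(3:ℕ) + (1/4)*t^(4:ℕ) + (-43/8)*t^(5:ℕ) + (-45/4)*t^(6:ℕ) + (169/8)*t^(7:ℕ) + (-1/2)*t^(8:ℕ) + (-67/4)*t^(9:ℕ) + 17*t^(10:ℕ) + (-11)*t^(11:ℕ)) + (109/5882450)*((-2)*t^(2:ℕ) + (167/64)*t^(3:ℕ) + (-3/4)*t^(4:ℕ) + (81/32)*t^(5:ℕ) + (-375/32)*t^(6:ℕ)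 + (763/64)*t^(7:ℕ) + (167/32)*t^(8:ℕ) + (-1373/64)*t^(9:ℕ) + (291/16)*t^(10:ℕ) + (-97/16)*t^(11:ℕ)) + (1/336140)*((5/8)*t^(5:ℕ) + (-31/16)*t^(6:ℕ) + (1/2)*t^(7:ℕ) + (77/16)*t^(8:ℕ) + (-143/16)*t^(9:ℕ) + (27/4)*t^(10:ℕ) + (-9/4)*t^(11:ℕ)) + (1/2100875)*((-1/4)*t^(7:ℕ) + (3/4)*t^(8:ℕ) + (-17/16)*t^(9:ℕ) + (3/4)*t^(10:ℕ) + (-1/4)*t^(11:ℕ)) - (73/500) = (266538816/300125)*((1/2) - t)^(11:ℕ) + (2600724992/300125)*(t - 0)*((1/2) - t)^(10:ℕ) + (81499254824/2100875)*(t - 0)^(2:ℕ)*((1/2) - t)^(9:ℕ) + (1535137233726/14706125)*(t - 0)^(3:ℕ)*((1/2) - t)^(8:ℕ) + (392764814608/2100875)*(t - 0)^(4:ℕ)*((1/2) - t)^(7:ℕ) + (3451351047316/14706125)*(t - 0)^(5:ℕ)*((1/2) - t)^(6:ℕ)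 + (6299187023089/29412250)*(t - 0)^(6:ℕ)*((1/2) - t)^(5:ℕ) + (17399496407299/117649000)*(t - 0)^(7:ℕ)*((1/2) - t)^(4:ℕ) + (951395862443/11764900)*(t - 0)^(8:ℕ)*((1/2) - t)^(3:ℕ) + (337917278407/9604000)*(t - 0)^(9:ℕ)*((1/2) - t)^(2:ℕ) + (2544200545079/235298000)*(t - 0)^(10:ℕ)*((1/2) - t) + (781612868077/470596000)*(t - 0)^(11:ℕ) := by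
    ring
  rw [e]
  have a3 : 0 ≤ t - 0 := by linarith
  have a4 : 0 ≤ (1/2) - t := by linarith
  generalize t - 0 = t1 at a3 ⊢
  generalize (1/2) - t = t2 at a4 ⊢
  positivity

lemma pos_L2e_A_b3_s1 (t : ℝ) (h3 : (1/2) ≤ t) (h4 : t ≤ 1) :
    0 ≤ 1*((1/2) + (-1/2)*t + 4*t^(2:ℕ) + (-5/2)*t^(3:ℕ) + 11*t^(4:ℕ) + (-5)*t^(5:ℕ) + 14*t^(6:ℕ) + (-5)*t^(7:ℕ) + (17/2)*t^(8:ℕ) + (-5/2)*t^(9:ℕ) + 2*t^(10:ℕ) + (-1/2)*t^(11:ℕ)) + (23/140)*((9/8) + (-19/8)*t + (-29/8)*t^(2:ℕ) + (-71/8)*t^(3:ℕ) + (77/4)*t^(4:ℕ) + (1/4)*t^(5:ℕ) + (255/4)*t^(6:ℕ) + (-19/4)*t^(7:ℕ) + (397/8)*t^(8:ℕ) + (-143/8)*t^(9:ℕ) + (79/8)*t^(10:ℕ) + (-51/8)*t^(11:ℕ)) + (461/17150)*((-15/4) + (-109/16)*t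 + (-1813/32)*t^(2:ℕ) + (-677/16)*t^(3:ℕ) + (-399/8)*t^(4:ℕ) + (73/8)*t^(5:ℕ) + (1589/16)*t^(6:ℕ) + (-27/8)*t^(7:ℕ) + (947/8)*t^(8:ℕ) + (-1237/16)*t^(9:ℕ) + (707/32)*t^(10:ℕ) + (-469/16)*t^(11:ℕ)) + (5259/1200500)*((-1) + (-1)*t + 7*t^(2:ℕ) + (-133/4)*t^(3:ℕ) + (-195/4)*t^(4:ℕ) + (609/16)*t^(5:ℕ) + (-375/16)*t^(6:ℕ) + (55/2)*t^(7:ℕ) + (523/8)*t^(8:ℕ) + (-1411/16)*t^(9:ℕ) + (513/16)*t^(10:ℕ) + (-363/8)*t^(11:ℕ)) + (1494/2100875)*((207/16)*t^(2:ℕ) + (61/4)*t^(3:ℕ) + (49/16)*t^(4:ℕ) + (-231/16)*t^(5:ℕ) + (91/16)*t^(6:ℕ) + (-37/8)*t^(7:ℕ) + (625/16)*t^(8:ℕ) + (-671/16)*t^(9:ℕ) + (47/2)*t^(10:ℕ) + (-147/4)*t^(11:ℕ)) + (1353/11764900)*((-6)*t^(2:ℕ) + (127/8)*t^(3:ℕ)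 + (1/4)*t^(4:ℕ) + (-43/8)*t^(5:ℕ) + (-45/4)*t^(6:ℕ) + (169/8)*t^(7:ℕ) + (-1/2)*t^(8:ℕ) + (-67/4)*t^(9:ℕ) + 17*t^(10:ℕ) + (-11)*t^(11:ℕ)) + (109/5882450)*((-2)*t^(2:ℕ) + (167/64)*t^(3:ℕ) + (-3/4)*t^(4:ℕ) + (81/32)*t^(5:ℕ) + (-375/32)*t^(6:ℕ) + (763/64)*t^(7:ℕ) + (167/32)*t^(8:ℕ) + (-1373/64)*t^(9:ℕ) + (291/16)*t^(10:ℕ) + (-97/16)*t^(11:ℕ)) + (1/336140)*((5/8)*t^(5:ℕ) + (-31/16)*t^(6:ℕ) + (1/2)*t^(7:ℕ) + (77/16)*t^(8:ℕ) + (-143/16)*t^(9:ℕ) + (27/4)*t^(10:ℕ) + (-9/4)*t^(11:ℕ)) + (1/2100875)*((-1/4)*t^(7:ℕ) + (3/4)*t^(8:ℕ) + (-17/16)*t^(9:ℕ) + (3/4)*t^(10:ℕ) + (-1/4)*t^(11:ℕ)) - (73/500) := by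
  have e : 1*((1/2) + (-1/2)*t + 4*t^(2:ℕ) + (-5/2)*t^(3:ℕ) + 11*t^(4:ℕ) + (-5)*t^(5:ℕ) + 14*t^(6:ℕ) + (-5)*t^(7:ℕ) + (17/2)*t^(8:ℕ) + (-5/2)*t^(9:ℕ) + 2*t^(10:ℕ) + (-1/2)*t^(11:ℕ)) + (23/140)*((9/8) + (-19/8)*t + (-29/8)*t^(2:ℕ) + (-71/8)*t^(3:ℕ) + (77/4)*t^(4:ℕ) + (1/4)*t^(5:ℕ) + (255/4)*t^(6:ℕ) + (-19/4)*t^(7:ℕ) + (397/8)*t^(8:ℕ) + (-143/8)*t^(9:ℕ) + (79/8)*t^(10:ℕ) + (-51/8)*t^(11:ℕ)) + (461/17150)*((-15/4) + (-109/16)*t + (-1813/32)*t^(2:ℕ) + (-677/16)*t^(3:ℕ) + (-399/8)*t^(4:ℕ) + (73/8)*t^(5:ℕ) + (1589/16)*t^(6:ℕ) + (-27/8)*t^(7:ℕ) + (947/8)*t^(8:ℕ) + (-1237/16)*t^(9:ℕ) + (707/32)*t^(10:ℕ) + (-469/16)*t^(11:ℕ)) + (5259/1200500)*((-1) + (-1)*t + 7*t^(2:ℕ)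 + (-133/4)*t^(3:ℕ) + (-195/4)*t^(4:ℕ) + (609/16)*t^(5:ℕ) + (-375/16)*t^(6:ℕ) + (55/2)*t^(7:ℕ) + (523/8)*t^(8:ℕ) + (-1411/16)*t^(9:ℕ) + (513/16)*t^(10:ℕ) + (-363/8)*t^(11:ℕ)) + (1494/2100875)*((207/16)*t^(2:ℕ) + (61/4)*t^(3:ℕ) + (49/16)*t^(4:ℕ) + (-231/16)*t^(5:ℕ) + (91/16)*t^(6:ℕ) + (-37/8)*t^(7:ℕ) + (625/16)*t^(8:ℕ) + (-671/16)*t^(9:ℕ) + (47/2)*t^(10:ℕ) + (-147/4)*t^(11:ℕ)) + (1353/11764900)*((-6)*t^(2:ℕ) + (127/8)*t^(3:ℕ) + (1/4)*t^(4:ℕ) + (-43/8)*t^(5:ℕ) + (-45/4)*t^(6:ℕ) + (169/8)*t^(7:ℕ) + (-1/2)*t^(8:ℕ) + (-67/4)*t^(9:ℕ) + 17*t^(10:ℕ) + (-11)*t^(11:ℕ)) + (109/5882450)*((-2)*t^(2:ℕ) + (167/64)*t^(3:ℕ) + (-3/4)*t^(4:ℕ) + (81/32)*t^(5:ℕ) + (-375/32)*t^(6:ℕ)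 + (763/64)*t^(7:ℕ) + (167/32)*t^(8:ℕ) + (-1373/64)*t^(9:ℕ) + (291/16)*t^(10:ℕ) + (-97/16)*t^(11:ℕ)) + (1/336140)*((5/8)*t^(5:ℕ) + (-31/16)*t^(6:ℕ) + (1/2)*t^(7:ℕ) + (77/16)*t^(8:ℕ) + (-143/16)*t^(9:ℕ) + (27/4)*t^(10:ℕ) + (-9/4)*t^(11:ℕ)) + (1/2100875)*((-1/4)*t^(7:ℕ) + (3/4)*t^(8:ℕ) + (-17/16)*t^(9:ℕ) + (3/4)*t^(10:ℕ) + (-1/4)*t^(11:ℕ)) - (73/500) = (781612868077/470596000)*(1 - t)^(11:ℕ) + (756692625471/29412250)*(t - (1/2))*(1 - t)^(10:ℕ) + (86744755815723/470596000)*(t - (1/2))^(2:ℕ)*(1 - t)^(9:ℕ) + (187901997345227/235298000)*(t - (1/2))^(3:ℕ)*(1 - t)^(8:ℕ) + (271774961750087/117649000)*(t - (1/2))^(4:ℕ)*(1 - t)^(7:ℕ) + (274576058099983/58824500)*(t -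 (1/2))^(5:ℕ)*(1 - t)^(6:ℕ) + (39461244817233/5882450)*(t - (1/2))^(6:ℕ)*(1 - t)^(5:ℕ) + (100718517793597/14706125)*(t - (1/2))^(7:ℕ)*(1 - t)^(4:ℕ) + (71528902732032/14706125)*(t - (1/2))^(8:ℕ)*(1 - t)^(3:ℕ) + (33631695010512/14706125)*(t - (1/2))^(9:ℕ)*(1 - t)^(2:ℕ) + (9414722530216/14706125)*(t - (1/2))^(10:ℕ)*(1 - t) + (237464079824/2941225)*(t - (1/2))^(11:ℕ) := by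
    ring
  rw [e]
  have a3 : 0 ≤ t - (1/2) := by linarith
  have a4 : 0 ≤ 1 - t := by linarith
  generalize t - (1/2) = t1 at a3 ⊢
  generalize 1 - t = t2 at a4 ⊢
  positivity

lemma pos_L2e_A_b3 (t : ℝ) (h3 : 0 ≤ t) (h4 : t ≤ 1) :
    0 ≤ 1*((1/2) + (-1/2)*t + 4*t^(2:ℕ) + (-5/2)*t^(3:ℕ) + 11*t^(4:ℕ) + (-5)*t^(5:ℕ) + 14*t^(6:ℕ) + (-5)*t^(7:ℕ) + (17/2)*t^(8:ℕ) + (-5/2)*t^(9:ℕ) + 2*t^(10:ℕ) + (-1/2)*t^(11:ℕ)) + (23/140)*((9/8) + (-19/8)*t + (-29/8)*t^(2:ℕ) + (-71/8)*t^(3:ℕ) + (77/4)*t^(4:ℕ) + (1/4)*t^(5:ℕ) + (255/4)*t^(6:ℕ) + (-19/4)*t^(7:ℕ) + (397/8)*t^(8:ℕ) + (-143/8)*t^(9:ℕ) + (79/8)*t^(10:ℕ) + (-51/8)*t^(11:ℕ)) + (461/17150)*((-15/4) + (-109/16)*t + (-1813/32)*t^(2:ℕ)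 + (-677/16)*t^(3:ℕ) + (-399/8)*t^(4:ℕ) + (73/8)*t^(5:ℕ) + (1589/16)*t^(6:ℕ) + (-27/8)*t^(7:ℕ) + (947/8)*t^(8:ℕ) + (-1237/16)*t^(9:ℕ) + (707/32)*t^(10:ℕ) + (-469/16)*t^(11:ℕ)) + (5259/1200500)*((-1) + (-1)*t + 7*t^(2:ℕ) + (-133/4)*t^(3:ℕ) + (-195/4)*t^(4:ℕ) + (609/16)*t^(5:ℕ) + (-375/16)*t^(6:ℕ) + (55/2)*t^(7:ℕ) + (523/8)*t^(8:ℕ) + (-1411/16)*t^(9:ℕ) + (513/16)*t^(10:ℕ) + (-363/8)*t^(11:ℕ)) + (1494/2100875)*((207/16)*t^(2:ℕ) + (61/4)*t^(3:ℕ) + (49/16)*t^(4:ℕ) + (-231/16)*t^(5:ℕ) + (91/16)*t^(6:ℕ) + (-37/8)*t^(7:ℕ) + (625/16)*t^(8:ℕ) + (-671/16)*t^(9:ℕ) + (47/2)*t^(10:ℕ) + (-147/4)*t^(11:ℕ)) + (1353/11764900)*((-6)*t^(2:ℕ) + (127/8)*t^(3:ℕ) + (1/4)*t^(4:ℕ) +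 (-43/8)*t^(5:ℕ) + (-45/4)*t^(6:ℕ) + (169/8)*t^(7:ℕ) + (-1/2)*t^(8:ℕ) + (-67/4)*t^(9:ℕ) + 17*t^(10:ℕ) + (-11)*t^(11:ℕ)) + (109/5882450)*((-2)*t^(2:ℕ) + (167/64)*t^(3:ℕ) + (-3/4)*t^(4:ℕ) + (81/32)*t^(5:ℕ) + (-375/32)*t^(6:ℕ) + (763/64)*t^(7:ℕ) + (167/32)*t^(8:ℕ) + (-1373/64)*t^(9:ℕ) + (291/16)*t^(10:ℕ) + (-97/16)*t^(11:ℕ)) + (1/336140)*((5/8)*t^(5:ℕ) + (-31/16)*t^(6:ℕ) + (1/2)*t^(7:ℕ) + (77/16)*t^(8:ℕ) + (-143/16)*t^(9:ℕ) + (27/4)*t^(10:ℕ) + (-9/4)*t^(11:ℕ)) + (1/2100875)*((-1/4)*t^(7:ℕ) + (3/4)*t^(8:ℕ) + (-17/16)*t^(9:ℕ) + (3/4)*t^(10:ℕ) + (-1/4)*t^(11:ℕ)) - (73/500) := by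
  rcases le_total t (1/2) with h2 | h2
  · 
    exact pos_L2e_A_b3_s0 t (by assumption) (by assumption)
  · 
    exact pos_L2e_A_b3_s1 t (by assumption) (by assumption)

lemma pos_L2e_A_b4_s0 (t : ℝ) (h3 : 0 ≤ t) (h4 : t ≤ (1/2)) :
    0 ≤ 1*((1/2) + (-1/2)*t + 4*t^(2:ℕ) + (-5/2)*t^(3:ℕ) + 11*t^(4:ℕ) + (-5)*t^(5:ℕ) + 14*t^(6:ℕ) + (-5)*t^(7:ℕ) + (17/2)*t^(8:ℕ) + (-5/2)*t^(9:ℕ) + 2*t^(10:ℕ) + (-1/2)*t^(11:ℕ)) + (6/35)*((9/8) + (-19/8)*t + (-29/8)*t^(2:ℕ) + (-71/8)*t^(3:ℕ) + (77/4)*t^(4:ℕ) + (1/4)*t^(5:ℕ) + (255/4)*t^(6:ℕ) + (-19/4)*t^(7:ℕ) + (397/8)*t^(8:ℕ) + (-143/8)*t^(9:ℕ) + (79/8)*t^(10:ℕ) + (-51/8)*t^(11:ℕ)) + (251/8575)*((-15/4) + (-109/16)*t + (-1813/32)*t^(2:ℕ)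 + (-677/16)*t^(3:ℕ) + (-399/8)*t^(4:ℕ) + (73/8)*t^(5:ℕ) + (1589/16)*t^(6:ℕ) + (-27/8)*t^(7:ℕ) + (947/8)*t^(8:ℕ) + (-1237/16)*t^(9:ℕ) + (707/32)*t^(10:ℕ) + (-469/16)*t^(11:ℕ)) + (1494/300125)*((-1) + (-1)*t + 7*t^(2:ℕ) + (-133/4)*t^(3:ℕ) + (-195/4)*t^(4:ℕ) + (609/16)*t^(5:ℕ) + (-375/16)*t^(6:ℕ) + (55/2)*t^(7:ℕ) + (523/8)*t^(8:ℕ) + (-1411/16)*t^(9:ℕ) + (513/16)*t^(10:ℕ) + (-363/8)*t^(11:ℕ)) + (44283/52521875)*((207/16)*t^(2:ℕ) + (61/4)*t^(3:ℕ) + (49/16)*t^(4:ℕ) + (-231/16)*t^(5:ℕ) + (91/16)*t^(6:ℕ) + (-37/8)*t^(7:ℕ) + (625/16)*t^(8:ℕ) + (-671/16)*t^(9:ℕ) + (47/2)*t^(10:ℕ) + (-147/4)*t^(11:ℕ)) + (1494/10504375)*((-6)*t^(2:ℕ) + (127/8)*t^(3:ℕ) + (1/4)*t^(4:ℕ)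 + (-43/8)*t^(5:ℕ) + (-45/4)*t^(6:ℕ) + (169/8)*t^(7:ℕ) + (-1/2)*t^(8:ℕ) + (-67/4)*t^(9:ℕ) + 17*t^(10:ℕ) + (-11)*t^(11:ℕ)) + (251/10504375)*((-2)*t^(2:ℕ) + (167/64)*t^(3:ℕ) + (-3/4)*t^(4:ℕ) + (81/32)*t^(5:ℕ) + (-375/32)*t^(6:ℕ) + (763/64)*t^(7:ℕ) + (167/32)*t^(8:ℕ) + (-1373/64)*t^(9:ℕ) + (291/16)*t^(10:ℕ) + (-97/16)*t^(11:ℕ)) + (6/1500625)*((5/8)*t^(5:ℕ) + (-31/16)*t^(6:ℕ) + (1/2)*t^(7:ℕ) + (77/16)*t^(8:ℕ) + (-143/16)*t^(9:ℕ) + (27/4)*t^(10:ℕ) + (-9/4)*t^(11:ℕ)) + (1/1500625)*((-1/4)*t^(7:ℕ) + (3/4)*t^(8:ℕ) + (-17/16)*t^(9:ℕ) + (3/4)*t^(10:ℕ) + (-1/4)*t^(11:ℕ)) - (73/500) := by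
  have e : 1*((1/2) + (-1/2)*t + 4*t^(2:ℕ) + (-5/2)*t^(3:ℕ) + 11*t^(4:ℕ) + (-5)*t^(5:ℕ) + 14*t^(6:ℕ) + (-5)*t^(7:ℕ) + (17/2)*t^(8:ℕ) + (-5/2)*t^(9:ℕ) + 2*t^(10:ℕ) + (-1/2)*t^(11:ℕ)) + (6/35)*((9/8) + (-19/8)*t + (-29/8)*t^(2:ℕ) + (-71/8)*t^(3:ℕ) + (77/4)*t^(4:ℕ) + (1/4)*t^(5:ℕ) + (255/4)*t^(6:ℕ) + (-19/4)*t^(7:ℕ) + (397/8)*t^(8:ℕ) + (-143/8)*t^(9:ℕ) + (79/8)*t^(10:ℕ) + (-51/8)*t^(11:ℕ)) + (251/8575)*((-15/4) + (-109/16)*t + (-1813/32)*t^(2:ℕ) + (-677/16)*t^(3:ℕ) + (-399/8)*t^(4:ℕ) + (73/8)*t^(5:ℕ) + (1589/16)*t^(6:ℕ) + (-27/8)*t^(7:ℕ) + (947/8)*t^(8:ℕ) + (-1237/16)*t^(9:ℕ) + (707/32)*t^(10:ℕ) + (-469/16)*t^(11:ℕ)) + (1494/300125)*((-1) + (-1)*t + 7*t^(2:ℕ)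 + (-133/4)*t^(3:ℕ) + (-195/4)*t^(4:ℕ) + (609/16)*t^(5:ℕ) + (-375/16)*t^(6:ℕ) + (55/2)*t^(7:ℕ) + (523/8)*t^(8:ℕ) + (-1411/16)*t^(9:ℕ) + (513/16)*t^(10:ℕ) + (-363/8)*t^(11:ℕ)) + (44283/52521875)*((207/16)*t^(2:ℕ) + (61/4)*t^(3:ℕ) + (49/16)*t^(4:ℕ) + (-231/16)*t^(5:ℕ) + (91/16)*t^(6:ℕ) + (-37/8)*t^(7:ℕ) + (625/16)*t^(8:ℕ) + (-671/16)*t^(9:ℕ) + (47/2)*t^(10:ℕ) + (-147/4)*t^(11:ℕ)) + (1494/10504375)*((-6)*t^(2:ℕ) + (127/8)*t^(3:ℕ) + (1/4)*t^(4:ℕ) + (-43/8)*t^(5:ℕ) + (-45/4)*t^(6:ℕ) + (169/8)*t^(7:ℕ) + (-1/2)*t^(8:ℕ) + (-67/4)*t^(9:ℕ) + 17*t^(10:ℕ) + (-11)*t^(11:ℕ)) + (251/10504375)*((-2)*t^(2:ℕ) + (167/64)*t^(3:ℕ) + (-3/4)*t^(4:ℕ) + (81/32)*t^(5:ℕ) + (-375/32)*t^(6:ℕ)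 + (763/64)*t^(7:ℕ) + (167/32)*t^(8:ℕ) + (-1373/64)*t^(9:ℕ) + (291/16)*t^(10:ℕ) + (-97/16)*t^(11:ℕ)) + (6/1500625)*((5/8)*t^(5:ℕ) + (-31/16)*t^(6:ℕ) + (1/2)*t^(7:ℕ) + (77/16)*t^(8:ℕ) + (-143/16)*t^(9:ℕ) + (27/4)*t^(10:ℕ) + (-9/4)*t^(11:ℕ)) + (1/1500625)*((-1/4)*t^(7:ℕ) + (3/4)*t^(8:ℕ) + (-17/16)*t^(9:ℕ) + (3/4)*t^(10:ℕ) + (-1/4)*t^(11:ℕ)) - (73/500) = (265600512/300125)*((1/2) - t)^(11:ℕ) + (2580001216/300125)*(t - 0)*((1/2) - t)^(10:ℕ) + (2006061000432/52521875)*(t - 0)^(2:ℕ)*((1/2) - t)^(9:ℕ) + (1066701892148/10504375)*(t - 0)^(3:ℕ)*((1/2) - t)^(8:ℕ) + (9376183105864/52521875)*(t - 0)^(4:ℕ)*((1/2) - t)^(7:ℕ) + (11447726087554/52521875)*(t - 0)^(5:ℕ)*((1/2)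 - t)^(6:ℕ) + (10050199306499/52521875)*(t - 0)^(6:ℕ)*((1/2) - t)^(5:ℕ) + (4335064869/34300)*(t - 0)^(7:ℕ)*((1/2) - t)^(4:ℕ) + (2014492170629/30012500)*(t - 0)^(8:ℕ)*((1/2) - t)^(3:ℕ) + (4962253320401/168070000)*(t - 0)^(9:ℕ)*((1/2) - t)^(2:ℕ) + (7958365150513/840350000)*(t - 0)^(10:ℕ)*((1/2) - t) + (640258507401/420175000)*(t - 0)^(11:ℕ) := by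
    ring
  rw [e]
  have a3 : 0 ≤ t - 0 := by linarith
  have a4 : 0 ≤ (1/2) - t := by linarith
  generalize t - 0 = t1 at a3 ⊢
  generalize (1/2) - t = t2 at a4 ⊢
  positivity

lemma pos_L2e_A_b4_s1 (t : ℝ) (h3 : (1/2) ≤ t) (h4 : t ≤ 1) :
    0 ≤ 1*((1/2) + (-1/2)*t + 4*t^(2:ℕ) + (-5/2)*t^(3:ℕ) + 11*t^(4:ℕ) + (-5)*t^(5:ℕ) + 14*t^(6:ℕ) + (-5)*t^(7:ℕ) + (17/2)*t^(8:ℕ) + (-5/2)*t^(9:ℕ) + 2*t^(10:ℕ) + (-1/2)*t^(11:ℕ)) + (6/35)*((9/8) + (-19/8)*t + (-29/8)*t^(2:ℕ) + (-71/8)*t^(3:ℕ) + (77/4)*t^(4:ℕ) + (1/4)*t^(5:ℕ) + (255/4)*t^(6:ℕ) + (-19/4)*t^(7:ℕ) + (397/8)*t^(8:ℕ) + (-143/8)*t^(9:ℕ) + (79/8)*t^(10:ℕ) + (-51/8)*t^(11:ℕ)) + (251/8575)*((-15/4) + (-109/16)*t +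 (-1813/32)*t^(2:ℕ) + (-677/16)*t^(3:ℕ) + (-399/8)*t^(4:ℕ) + (73/8)*t^(5:ℕ) + (1589/16)*t^(6:ℕ) + (-27/8)*t^(7:ℕ) + (947/8)*t^(8:ℕ) + (-1237/16)*t^(9:ℕ) + (707/32)*t^(10:ℕ) + (-469/16)*t^(11:ℕ)) + (1494/300125)*((-1) + (-1)*t + 7*t^(2:ℕ) + (-133/4)*t^(3:ℕ) + (-195/4)*t^(4:ℕ) + (609/16)*t^(5:ℕ) + (-375/16)*t^(6:ℕ) + (55/2)*t^(7:ℕ) + (523/8)*t^(8:ℕ) + (-1411/16)*t^(9:ℕ) + (513/16)*t^(10:ℕ) + (-363/8)*t^(11:ℕ)) + (44283/52521875)*((207/16)*t^(2:ℕ) + (61/4)*t^(3:ℕ) + (49/16)*t^(4:ℕ) + (-231/16)*t^(5:ℕ) + (91/16)*t^(6:ℕ) + (-37/8)*t^(7:ℕ) + (625/16)*t^(8:ℕ) + (-671/16)*t^(9:ℕ) + (47/2)*t^(10:ℕ) + (-147/4)*t^(11:ℕ)) + (1494/10504375)*((-6)*t^(2:ℕ) + (127/8)*t^(3:ℕ)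 + (1/4)*t^(4:ℕ) + (-43/8)*t^(5:ℕ) + (-45/4)*t^(6:ℕ) + (169/8)*t^(7:ℕ) + (-1/2)*t^(8:ℕ) + (-67/4)*t^(9:ℕ) + 17*t^(10:ℕ) + (-11)*t^(11:ℕ)) + (251/10504375)*((-2)*t^(2:ℕ) + (167/64)*t^(3:ℕ) + (-3/4)*t^(4:ℕ) + (81/32)*t^(5:ℕ) + (-375/32)*t^(6:ℕ) + (763/64)*t^(7:ℕ) + (167/32)*t^(8:ℕ) + (-1373/64)*t^(9:ℕ) + (291/16)*t^(10:ℕ) + (-97/16)*t^(11:ℕ)) + (6/1500625)*((5/8)*t^(5:ℕ) + (-31/16)*t^(6:ℕ) + (1/2)*t^(7:ℕ) + (77/16)*t^(8:ℕ) + (-143/16)*t^(9:ℕ) + (27/4)*t^(10:ℕ) + (-9/4)*t^(11:ℕ)) + (1/1500625)*((-1/4)*t^(7:ℕ) + (3/4)*t^(8:ℕ) + (-17/16)*t^(9:ℕ) + (3/4)*t^(10:ℕ) + (-1/4)*t^(11:ℕ)) - (73/500) := by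
  have e : 1*((1/2) + (-1/2)*t + 4*t^(2:ℕ) + (-5/2)*t^(3:ℕ) + 11*t^(4:ℕ) + (-5)*t^(5:ℕ) + 14*t^(6:ℕ) + (-5)*t^(7:ℕ) + (17/2)*t^(8:ℕ) + (-5/2)*t^(9:ℕ) + 2*t^(10:ℕ) + (-1/2)*t^(11:ℕ)) + (6/35)*((9/8) + (-19/8)*t + (-29/8)*t^(2:ℕ) + (-71/8)*t^(3:ℕ) + (77/4)*t^(4:ℕ) + (1/4)*t^(5:ℕ) + (255/4)*t^(6:ℕ) + (-19/4)*t^(7:ℕ) + (397/8)*t^(8:ℕ) + (-143/8)*t^(9:ℕ) + (79/8)*t^(10:ℕ) + (-51/8)*t^(11:ℕ)) + (251/8575)*((-15/4) + (-109/16)*t + (-1813/32)*t^(2:ℕ) + (-677/16)*t^(3:ℕ) + (-399/8)*t^(4:ℕ) + (73/8)*t^(5:ℕ) + (1589/16)*t^(6:ℕ) + (-27/8)*t^(7:ℕ) + (947/8)*t^(8:ℕ) + (-1237/16)*t^(9:ℕ) + (707/32)*t^(10:ℕ) + (-469/16)*t^(11:ℕ)) + (1494/300125)*((-1) + (-1)*t + 7*t^(2:ℕ)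 + (-133/4)*t^(3:ℕ) + (-195/4)*t^(4:ℕ) + (609/16)*t^(5:ℕ) + (-375/16)*t^(6:ℕ) + (55/2)*t^(7:ℕ) + (523/8)*t^(8:ℕ) + (-1411/16)*t^(9:ℕ) + (513/16)*t^(10:ℕ) + (-363/8)*t^(11:ℕ)) + (44283/52521875)*((207/16)*t^(2:ℕ) + (61/4)*t^(3:ℕ) + (49/16)*t^(4:ℕ) + (-231/16)*t^(5:ℕ) + (91/16)*t^(6:ℕ) + (-37/8)*t^(7:ℕ) + (625/16)*t^(8:ℕ) + (-671/16)*t^(9:ℕ) + (47/2)*t^(10:ℕ) + (-147/4)*t^(11:ℕ)) + (1494/10504375)*((-6)*t^(2:ℕ) + (127/8)*t^(3:ℕ) + (1/4)*t^(4:ℕ) + (-43/8)*t^(5:ℕ) + (-45/4)*t^(6:ℕ) + (169/8)*t^(7:ℕ) + (-1/2)*t^(8:ℕ) + (-67/4)*t^(9:ℕ) + 17*t^(10:ℕ) + (-11)*t^(11:ℕ)) + (251/10504375)*((-2)*t^(2:ℕ) + (167/64)*t^(3:ℕ) + (-3/4)*t^(4:ℕ) + (81/32)*t^(5:ℕ) + (-375/32)*t^(6:ℕ)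 + (763/64)*t^(7:ℕ) + (167/32)*t^(8:ℕ) + (-1373/64)*t^(9:ℕ) + (291/16)*t^(10:ℕ) + (-97/16)*t^(11:ℕ)) + (6/1500625)*((5/8)*t^(5:ℕ) + (-31/16)*t^(6:ℕ) + (1/2)*t^(7:ℕ) + (77/16)*t^(8:ℕ) + (-143/16)*t^(9:ℕ) + (27/4)*t^(10:ℕ) + (-9/4)*t^(11:ℕ)) + (1/1500625)*((-1/4)*t^(7:ℕ) + (3/4)*t^(8:ℕ) + (-17/16)*t^(9:ℕ) + (3/4)*t^(10:ℕ) + (-1/4)*t^(11:ℕ)) - (73/500) = (640258507401/420175000)*(1 - t)^(11:ℕ) + (20213009175131/840350000)*(t - (1/2))*(1 - t)^(10:ℕ) + (29471541369637/168070000)*(t - (1/2))^(2:ℕ)*(1 - t)^(9:ℕ) + (323986875252389/420175000)*(t - (1/2))^(3:ℕ)*(1 - t)^(8:ℕ) + (474409570299877/210087500)*(t - (1/2))^(4:ℕ)*(1 - t)^(7:ℕ) + (96822610293173/21008750)*(t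 - (1/2))^(5:ℕ)*(1 - t)^(6:ℕ) + (350680190759729/52521875)*(t - (1/2))^(6:ℕ)*(1 - t)^(5:ℕ) + (360320903882266/52521875)*(t - (1/2))^(7:ℕ)*(1 - t)^(4:ℕ) + (257191830009584/52521875)*(t - (1/2))^(8:ℕ)*(1 - t)^(3:ℕ) + (121402976835888/52521875)*(t - (1/2))^(9:ℕ)*(1 - t)^(2:ℕ) + (34085381820816/52521875)*(t - (1/2))^(10:ℕ)*(1 - t) + (4307462920352/52521875)*(t - (1/2))^(11:ℕ) := by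
    ring
  rw [e]
  have a3 : 0 ≤ t - (1/2) := by linarith
  have a4 : 0 ≤ 1 - t := by linarith
  generalize t - (1/2) = t1 at a3 ⊢
  generalize 1 - t = t2 at a4 ⊢
  positivity

lemma pos_L2e_A_b4 (t : ℝ) (h3 : 0 ≤ t) (h4 : t ≤ 1) :
    0 ≤ 1*((1/2) + (-1/2)*t + 4*t^(2:ℕ) + (-5/2)*t^(3:ℕ) + 11*t^(4:ℕ) + (-5)*t^(5:ℕ) + 14*t^(6:ℕ) + (-5)*t^(7:ℕ) + (17/2)*t^(8:ℕ) + (-5/2)*t^(9:ℕ) + 2*t^(10:ℕ) + (-1/2)*t^(11:ℕ)) + (6/35)*((9/8) + (-19/8)*t + (-29/8)*t^(2:ℕ) + (-71/8)*t^(3:ℕ) + (77/4)*t^(4:ℕ) + (1/4)*t^(5:ℕ) + (255/4)*t^(6:ℕ) + (-19/4)*t^(7:ℕ) + (397/8)*t^(8:ℕ) + (-143/8)*t^(9:ℕ) + (79/8)*t^(10:ℕ) + (-51/8)*t^(11:ℕ)) + (251/8575)*((-15/4) + (-109/16)*t + (-1813/32)*t^(2:ℕ)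 + (-677/16)*t^(3:ℕ) + (-399/8)*t^(4:ℕ) + (73/8)*t^(5:ℕ) + (1589/16)*t^(6:ℕ) + (-27/8)*t^(7:ℕ) + (947/8)*t^(8:ℕ) + (-1237/16)*t^(9:ℕ) + (707/32)*t^(10:ℕ) + (-469/16)*t^(11:ℕ)) + (1494/300125)*((-1) + (-1)*t + 7*t^(2:ℕ) + (-133/4)*t^(3:ℕ) + (-195/4)*t^(4:ℕ) + (609/16)*t^(5:ℕ) + (-375/16)*t^(6:ℕ) + (55/2)*t^(7:ℕ) + (523/8)*t^(8:ℕ) + (-1411/16)*t^(9:ℕ) + (513/16)*t^(10:ℕ) + (-363/8)*t^(11:ℕ)) + (44283/52521875)*((207/16)*t^(2:ℕ) + (61/4)*t^(3:ℕ) + (49/16)*t^(4:ℕ) + (-231/16)*t^(5:ℕ) + (91/16)*t^(6:ℕ) + (-37/8)*t^(7:ℕ) + (625/16)*t^(8:ℕ) + (-671/16)*t^(9:ℕ) + (47/2)*t^(10:ℕ) + (-147/4)*t^(11:ℕ)) + (1494/10504375)*((-6)*t^(2:ℕ) + (127/8)*t^(3:ℕ) + (1/4)*t^(4:ℕ)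 + (-43/8)*t^(5:ℕ) + (-45/4)*t^(6:ℕ) + (169/8)*t^(7:ℕ) + (-1/2)*t^(8:ℕ) + (-67/4)*t^(9:ℕ) + 17*t^(10:ℕ) + (-11)*t^(11:ℕ)) + (251/10504375)*((-2)*t^(2:ℕ) + (167/64)*t^(3:ℕ) + (-3/4)*t^(4:ℕ) + (81/32)*t^(5:ℕ) + (-375/32)*t^(6:ℕ) + (763/64)*t^(7:ℕ) + (167/32)*t^(8:ℕ) + (-1373/64)*t^(9:ℕ) + (291/16)*t^(10:ℕ) + (-97/16)*t^(11:ℕ)) + (6/1500625)*((5/8)*t^(5:ℕ) + (-31/16)*t^(6:ℕ) + (1/2)*t^(7:ℕ) + (77/16)*t^(8:ℕ) + (-143/16)*t^(9:ℕ) + (27/4)*t^(10:ℕ) + (-9/4)*t^(11:ℕ)) + (1/1500625)*((-1/4)*t^(7:ℕ) + (3/4)*t^(8:ℕ) + (-17/16)*t^(9:ℕ) + (3/4)*t^(10:ℕ) + (-1/4)*t^(11:ℕ)) - (73/500) := by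
  rcases le_total t (1/2) with h2 | h2
  · 
    exact pos_L2e_A_b4_s0 t (by assumption) (by assumption)
  · 
    exact pos_L2e_A_b4_s1 t (by assumption) (by assumption)

lemma pos_L2e_A_b5_s0 (t : ℝ) (h3 : 0 ≤ t) (h4 : t ≤ (1/2)) :
    0 ≤ 1*((1/2) + (-1/2)*t + 4*t^(2:ℕ) + (-5/2)*t^(3:ℕ) + 11*t^(4:ℕ) + (-5)*t^(5:ℕ) + 14*t^(6:ℕ) + (-5)*t^(7:ℕ) + (17/2)*t^(8:ℕ) + (-5/2)*t^(9:ℕ) + 2*t^(10:ℕ) + (-1/2)*t^(11:ℕ)) + (5/28)*((9/8) + (-19/8)*t + (-29/8)*t^(2:ℕ) + (-71/8)*t^(3:ℕ) + (77/4)*t^(4:ℕ) + (1/4)*t^(5:ℕ) + (255/4)*t^(6:ℕ) + (-19/4)*t^(7:ℕ) + (397/8)*t^(8:ℕ) + (-143/8)*t^(9:ℕ) + (79/8)*t^(10:ℕ) + (-51/8)*t^(11:ℕ)) + (109/3430)*((-15/4) + (-109/16)*t + (-1813/32)*t^(2:ℕ)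 + (-677/16)*t^(3:ℕ) + (-399/8)*t^(4:ℕ) + (73/8)*t^(5:ℕ) + (1589/16)*t^(6:ℕ) + (-27/8)*t^(7:ℕ) + (947/8)*t^(8:ℕ) + (-1237/16)*t^(9:ℕ) + (707/32)*t^(10:ℕ) + (-469/16)*t^(11:ℕ)) + (1353/240100)*((-1) + (-1)*t + 7*t^(2:ℕ) + (-133/4)*t^(3:ℕ) + (-195/4)*t^(4:ℕ) + (609/16)*t^(5:ℕ) + (-375/16)*t^(6:ℕ) + (55/2)*t^(7:ℕ) + (523/8)*t^(8:ℕ) + (-1411/16)*t^(9:ℕ) + (513/16)*t^(10:ℕ) + (-363/8)*t^(11:ℕ)) + (1494/1500625)*((207/16)*t^(2:ℕ) + (61/4)*t^(3:ℕ) + (49/16)*t^(4:ℕ) + (-231/16)*t^(5:ℕ) + (91/16)*t^(6:ℕ) + (-37/8)*t^(7:ℕ) + (625/16)*t^(8:ℕ) + (-671/16)*t^(9:ℕ) + (47/2)*t^(10:ℕ) + (-147/4)*t^(11:ℕ)) + (5259/30012500)*((-6)*t^(2:ℕ) + (127/8)*t^(3:ℕ) + (1/4)*t^(4:ℕ) +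 (-43/8)*t^(5:ℕ) + (-45/4)*t^(6:ℕ) + (169/8)*t^(7:ℕ) + (-1/2)*t^(8:ℕ) + (-67/4)*t^(9:ℕ) + 17*t^(10:ℕ) + (-11)*t^(11:ℕ)) + (461/15006250)*((-2)*t^(2:ℕ) + (167/64)*t^(3:ℕ) + (-3/4)*t^(4:ℕ) + (81/32)*t^(5:ℕ) + (-375/32)*t^(6:ℕ) + (763/64)*t^(7:ℕ) + (167/32)*t^(8:ℕ) + (-1373/64)*t^(9:ℕ) + (291/16)*t^(10:ℕ) + (-97/16)*t^(11:ℕ)) + (23/4287500)*((5/8)*t^(5:ℕ) + (-31/16)*t^(6:ℕ) + (1/2)*t^(7:ℕ) + (77/16)*t^(8:ℕ) + (-143/16)*t^(9:ℕ) + (27/4)*t^(10:ℕ) + (-9/4)*t^(11:ℕ)) + (1/1071875)*((-1/4)*t^(7:ℕ) + (3/4)*t^(8:ℕ) + (-17/16)*t^(9:ℕ) + (3/4)*t^(10:ℕ) + (-1/4)*t^(11:ℕ)) - (73/500) := by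
  have e : 1*((1/2) + (-1/2)*t + 4*t^(2:ℕ) + (-5/2)*t^(3:ℕ) + 11*t^(4:ℕ) + (-5)*t^(5:ℕ) + 14*t^(6:ℕ) + (-5)*t^(7:ℕ) + (17/2)*t^(8:ℕ) + (-5/2)*t^(9:ℕ) + 2*t^(10:ℕ) + (-1/2)*t^(11:ℕ)) + (5/28)*((9/8) + (-19/8)*t + (-29/8)*t^(2:ℕ) + (-71/8)*t^(3:ℕ) + (77/4)*t^(4:ℕ) + (1/4)*t^(5:ℕ) + (255/4)*t^(6:ℕ) + (-19/4)*t^(7:ℕ) + (397/8)*t^(8:ℕ) + (-143/8)*t^(9:ℕ) + (79/8)*t^(10:ℕ) + (-51/8)*t^(11:ℕ)) + (109/3430)*((-15/4) + (-109/16)*t + (-1813/32)*t^(2:ℕ) + (-677/16)*t^(3:ℕ) + (-399/8)*t^(4:ℕ) + (73/8)*t^(5:ℕ) + (1589/16)*t^(6:ℕ) + (-27/8)*t^(7:ℕ) + (947/8)*t^(8:ℕ) + (-1237/16)*t^(9:ℕ) + (707/32)*t^(10:ℕ) + (-469/16)*t^(11:ℕ)) + (1353/240100)*((-1) + (-1)*t + 7*t^(2:ℕ)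 + (-133/4)*t^(3:ℕ) + (-195/4)*t^(4:ℕ) + (609/16)*t^(5:ℕ) + (-375/16)*t^(6:ℕ) + (55/2)*t^(7:ℕ) + (523/8)*t^(8:ℕ) + (-1411/16)*t^(9:ℕ) + (513/16)*t^(10:ℕ) + (-363/8)*t^(11:ℕ)) + (1494/1500625)*((207/16)*t^(2:ℕ) + (61/4)*t^(3:ℕ) + (49/16)*t^(4:ℕ) + (-231/16)*t^(5:ℕ) + (91/16)*t^(6:ℕ) + (-37/8)*t^(7:ℕ) + (625/16)*t^(8:ℕ) + (-671/16)*t^(9:ℕ) + (47/2)*t^(10:ℕ) + (-147/4)*t^(11:ℕ)) + (5259/30012500)*((-6)*t^(2:ℕ) + (127/8)*t^(3:ℕ) + (1/4)*t^(4:ℕ) + (-43/8)*t^(5:ℕ) + (-45/4)*t^(6:ℕ) + (169/8)*t^(7:ℕ) + (-1/2)*t^(8:ℕ) + (-67/4)*t^(9:ℕ) + 17*t^(10:ℕ) + (-11)*t^(11:ℕ)) + (461/15006250)*((-2)*t^(2:ℕ) + (167/64)*t^(3:ℕ) + (-3/4)*t^(4:ℕ) + (81/32)*t^(5:ℕ) + (-375/32)*t^(6:ℕ)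 + (763/64)*t^(7:ℕ) + (167/32)*t^(8:ℕ) + (-1373/64)*t^(9:ℕ) + (291/16)*t^(10:ℕ) + (-97/16)*t^(11:ℕ)) + (23/4287500)*((5/8)*t^(5:ℕ) + (-31/16)*t^(6:ℕ) + (1/2)*t^(7:ℕ) + (77/16)*t^(8:ℕ) + (-143/16)*t^(9:ℕ) + (27/4)*t^(10:ℕ) + (-9/4)*t^(11:ℕ)) + (1/1071875)*((-1/4)*t^(7:ℕ) + (3/4)*t^(8:ℕ) + (-17/16)*t^(9:ℕ) + (3/4)*t^(10:ℕ) + (-1/4)*t^(11:ℕ)) - (73/500) = (264356544/300125)*((1/2) - t)^(11:ℕ) + (2555652544/300125)*(t - 0)*((1/2) - t)^(10:ℕ) + (281582685336/7503125)*(t - 0)^(2:ℕ)*((1/2) - t)^(9:ℕ) + (738851682022/7503125)*(t - 0)^(3:ℕ)*((1/2) - t)^(8:ℕ) + (1271935631264/7503125)*(t - 0)^(4:ℕ)*((1/2) - t)^(7:ℕ) + (1502645484178/7503125)*(t - 0)^(5:ℕ)*((1/2) - t)^(6:ℕ)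 + (2511229910809/15006250)*(t - 0)^(6:ℕ)*((1/2) - t)^(5:ℕ) + (890296499721/8575000)*(t - 0)^(7:ℕ)*((1/2) - t)^(4:ℕ) + (31646294521/600250)*(t - 0)^(8:ℕ)*((1/2) - t)^(3:ℕ) + (1133086952871/48020000)*(t - 0)^(9:ℕ)*((1/2) - t)^(2:ℕ) + (9679133983/1200500)*(t - 0)^(10:ℕ)*((1/2) - t) + (331238714143/240100000)*(t - 0)^(11:ℕ) := by
    ring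
  rw [e]
  have a3 : 0 ≤ t - 0 := by linarith
  have a4 : 0 ≤ (1/2) - t := by linarith
  generalize t - 0 = t1 at a3 ⊢
  generalize (1/2) - t = t2 at a4 ⊢
  positivity

lemma pos_L2e_A_b5_s1 (t : ℝ) (h3 : (1/2) ≤ t) (h4 : t ≤ 1) :
    0 ≤ 1*((1/2) + (-1/2)*t + 4*t^(2:ℕ) + (-5/2)*t^(3:ℕ) + 11*t^(4:ℕ) + (-5)*t^(5:ℕ) + 14*t^(6:ℕ) + (-5)*t^(7:ℕ) + (17/2)*t^(8:ℕ) + (-5/2)*t^(9:ℕ) + 2*t^(10:ℕ) + (-1/2)*t^(11:ℕ)) + (5/28)*((9/8) + (-19/8)*t + (-29/8)*t^(2:ℕ) + (-71/8)*t^(3:ℕ) + (77/4)*t^(4:ℕ) + (1/4)*t^(5:ℕ) + (255/4)*t^(6:ℕ) + (-19/4)*t^(7:ℕ) + (397/8)*t^(8:ℕ) + (-143/8)*t^(9:ℕ) + (79/8)*t^(10:ℕ) + (-51/8)*t^(11:ℕ)) + (109/3430)*((-15/4) + (-109/16)*t + (-1813/32)*t^(2:ℕ)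 + (-677/16)*t^(3:ℕ) + (-399/8)*t^(4:ℕ) + (73/8)*t^(5:ℕ) + (1589/16)*t^(6:ℕ) + (-27/8)*t^(7:ℕ) + (947/8)*t^(8:ℕ) + (-1237/16)*t^(9:ℕ) + (707/32)*t^(10:ℕ) + (-469/16)*t^(11:ℕ)) + (1353/240100)*((-1) + (-1)*t + 7*t^(2:ℕ) + (-133/4)*t^(3:ℕ) + (-195/4)*t^(4:ℕ) + (609/16)*t^(5:ℕ) + (-375/16)*t^(6:ℕ) + (55/2)*t^(7:ℕ) + (523/8)*t^(8:ℕ) + (-1411/16)*t^(9:ℕ) + (513/16)*t^(10:ℕ) + (-363/8)*t^(11:ℕ)) + (1494/1500625)*((207/16)*t^(2:ℕ) + (61/4)*t^(3:ℕ) + (49/16)*t^(4:ℕ) + (-231/16)*t^(5:ℕ) + (91/16)*t^(6:ℕ) + (-37/8)*t^(7:ℕ) + (625/16)*t^(8:ℕ) + (-671/16)*t^(9:ℕ) + (47/2)*t^(10:ℕ) + (-147/4)*t^(11:ℕ)) + (5259/30012500)*((-6)*t^(2:ℕ) + (127/8)*t^(3:ℕ) + (1/4)*t^(4:ℕ) +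 (-43/8)*t^(5:ℕ) + (-45/4)*t^(6:ℕ) + (169/8)*t^(7:ℕ) + (-1/2)*t^(8:ℕ) + (-67/4)*t^(9:ℕ) + 17*t^(10:ℕ) + (-11)*t^(11:ℕ)) + (461/15006250)*((-2)*t^(2:ℕ) + (167/64)*t^(3:ℕ) + (-3/4)*t^(4:ℕ) + (81/32)*t^(5:ℕ) + (-375/32)*t^(6:ℕ) + (763/64)*t^(7:ℕ) + (167/32)*t^(8:ℕ) + (-1373/64)*t^(9:ℕ) + (291/16)*t^(10:ℕ) + (-97/16)*t^(11:ℕ)) + (23/4287500)*((5/8)*t^(5:ℕ) + (-31/16)*t^(6:ℕ) + (1/2)*t^(7:ℕ) + (77/16)*t^(8:ℕ) + (-143/16)*t^(9:ℕ) + (27/4)*t^(10:ℕ) + (-9/4)*t^(11:ℕ)) + (1/1071875)*((-1/4)*t^(7:ℕ) + (3/4)*t^(8:ℕ) + (-17/16)*t^(9:ℕ) + (3/4)*t^(10:ℕ) + (-1/4)*t^(11:ℕ)) - (73/500) := by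
  have e : 1*((1/2) + (-1/2)*t + 4*t^(2:ℕ) + (-5/2)*t^(3:ℕ) + 11*t^(4:ℕ) + (-5)*t^(5:ℕ) + 14*t^(6:ℕ) + (-5)*t^(7:ℕ) + (17/2)*t^(8:ℕ) + (-5/2)*t^(9:ℕ) + 2*t^(10:ℕ) + (-1/2)*t^(11:ℕ)) + (5/28)*((9/8) + (-19/8)*t + (-29/8)*t^(2:ℕ) + (-71/8)*t^(3:ℕ) + (77/4)*t^(4:ℕ) + (1/4)*t^(5:ℕ) + (255/4)*t^(6:ℕ) + (-19/4)*t^(7:ℕ) + (397/8)*t^(8:ℕ) + (-143/8)*t^(9:ℕ) + (79/8)*t^(10:ℕ) + (-51/8)*t^(11:ℕ)) + (109/3430)*((-15/4) + (-109/16)*t + (-1813/32)*t^(2:ℕ) + (-677/16)*t^(3:ℕ) + (-399/8)*t^(4:ℕ) + (73/8)*t^(5:ℕ) + (1589/16)*t^(6:ℕ) + (-27/8)*t^(7:ℕ) + (947/8)*t^(8:ℕ) + (-1237/16)*t^(9:ℕ) + (707/32)*t^(10:ℕ) + (-469/16)*t^(11:ℕ)) + (1353/240100)*((-1) + (-1)*t + 7*t^(2:ℕ)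 + (-133/4)*t^(3:ℕ) + (-195/4)*t^(4:ℕ) + (609/16)*t^(5:ℕ) + (-375/16)*t^(6:ℕ) + (55/2)*t^(7:ℕ) + (523/8)*t^(8:ℕ) + (-1411/16)*t^(9:ℕ) + (513/16)*t^(10:ℕ) + (-363/8)*t^(11:ℕ)) + (1494/1500625)*((207/16)*t^(2:ℕ) + (61/4)*t^(3:ℕ) + (49/16)*t^(4:ℕ) + (-231/16)*t^(5:ℕ) + (91/16)*t^(6:ℕ) + (-37/8)*t^(7:ℕ) + (625/16)*t^(8:ℕ) + (-671/16)*t^(9:ℕ) + (47/2)*t^(10:ℕ) + (-147/4)*t^(11:ℕ)) + (5259/30012500)*((-6)*t^(2:ℕ) + (127/8)*t^(3:ℕ) + (1/4)*t^(4:ℕ) + (-43/8)*t^(5:ℕ) + (-45/4)*t^(6:ℕ) + (169/8)*t^(7:ℕ) + (-1/2)*t^(8:ℕ) + (-67/4)*t^(9:ℕ) + 17*t^(10:ℕ) + (-11)*t^(11:ℕ)) + (461/15006250)*((-2)*t^(2:ℕ) + (167/64)*t^(3:ℕ) + (-3/4)*t^(4:ℕ) + (81/32)*t^(5:ℕ) + (-375/32)*t^(6:ℕ)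 + (763/64)*t^(7:ℕ) + (167/32)*t^(8:ℕ) + (-1373/64)*t^(9:ℕ) + (291/16)*t^(10:ℕ) + (-97/16)*t^(11:ℕ)) + (23/4287500)*((5/8)*t^(5:ℕ) + (-31/16)*t^(6:ℕ) + (1/2)*t^(7:ℕ) + (77/16)*t^(8:ℕ) + (-143/16)*t^(9:ℕ) + (27/4)*t^(10:ℕ) + (-9/4)*t^(11:ℕ)) + (1/1071875)*((-1/4)*t^(7:ℕ) + (3/4)*t^(8:ℕ) + (-17/16)*t^(9:ℕ) + (3/4)*t^(10:ℕ) + (-1/4)*t^(11:ℕ)) - (73/500) = (331238714143/240100000)*(1 - t)^(11:ℕ) + (2675712457273/120050000)*(t - (1/2))*(1 - t)^(10:ℕ) + (7964283188763/48020000)*(t - (1/2))^(2:ℕ)*(1 - t)^(9:ℕ) + (712422348923/960400)*(t - (1/2))^(3:ℕ)*(1 - t)^(8:ℕ) + (132190327265987/60025000)*(t - (1/2))^(4:ℕ)*(1 - t)^(7:ℕ) + (27272245743439/6002500)*(t - (1/2))^(5:ℕ)*(1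 - t)^(6:ℕ) + (99622837421029/15006250)*(t - (1/2))^(6:ℕ)*(1 - t)^(5:ℕ) + (51524769429381/7503125)*(t - (1/2))^(7:ℕ)*(1 - t)^(4:ℕ) + (1478814457584/300125)*(t - (1/2))^(8:ℕ)*(1 - t)^(3:ℕ) + (17521493996128/7503125)*(t - (1/2))^(9:ℕ)*(1 - t)^(2:ℕ) + (4934108830376/7503125)*(t - (1/2))^(10:ℕ)*(1 - t) + (24993064848/300125)*(t - (1/2))^(11:ℕ) := by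
    ring
  rw [e]
  have a3 : 0 ≤ t - (1/2) := by linarith
  have a4 : 0 ≤ 1 - t := by linarith
  generalize t - (1/2) = t1 at a3 ⊢
  generalize 1 - t = t2 at a4 ⊢
  positivity

lemma pos_L2e_A_b5 (t : ℝ) (h3 : 0 ≤ t) (h4 : t ≤ 1) :
    0 ≤ 1*((1/2) + (-1/2)*t + 4*t^(2:ℕ) + (-5/2)*t^(3:ℕ) + 11*t^(4:ℕ) + (-5)*t^(5:ℕ) + 14*t^(6:ℕ) + (-5)*t^(7:ℕ) + (17/2)*t^(8:ℕ) + (-5/2)*t^(9:ℕ) + 2*t^(10:ℕ) + (-1/2)*t^(11:ℕ)) + (5/28)*((9/8) + (-19/8)*t + (-29/8)*t^(2:ℕ) + (-71/8)*t^(3:ℕ) + (77/4)*t^(4:ℕ) + (1/4)*t^(5:ℕ) + (255/4)*t^(6:ℕ) + (-19/4)*t^(7:ℕ) + (397/8)*t^(8:ℕ) + (-143/8)*t^(9:ℕ) + (79/8)*t^(10:ℕ) + (-51/8)*t^(11:ℕ)) + (109/3430)*((-15/4) + (-109/16)*t + (-1813/32)*t^(2:ℕ)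 + (-677/16)*t^(3:ℕ) + (-399/8)*t^(4:ℕ) + (73/8)*t^(5:ℕ) + (1589/16)*t^(6:ℕ) + (-27/8)*t^(7:ℕ) + (947/8)*t^(8:ℕ) + (-1237/16)*t^(9:ℕ) + (707/32)*t^(10:ℕ) + (-469/16)*t^(11:ℕ)) + (1353/240100)*((-1) + (-1)*t + 7*t^(2:ℕ) + (-133/4)*t^(3:ℕ) + (-195/4)*t^(4:ℕ) + (609/16)*t^(5:ℕ) + (-375/16)*t^(6:ℕ) + (55/2)*t^(7:ℕ) + (523/8)*t^(8:ℕ) + (-1411/16)*t^(9:ℕ) + (513/16)*t^(10:ℕ) + (-363/8)*t^(11:ℕ)) + (1494/1500625)*((207/16)*t^(2:ℕ) + (61/4)*t^(3:ℕ) + (49/16)*t^(4:ℕ) + (-231/16)*t^(5:ℕ) + (91/16)*t^(6:ℕ) + (-37/8)*t^(7:ℕ) + (625/16)*t^(8:ℕ) + (-671/16)*t^(9:ℕ) + (47/2)*t^(10:ℕ) + (-147/4)*t^(11:ℕ)) + (5259/30012500)*((-6)*t^(2:ℕ) + (127/8)*t^(3:ℕ) + (1/4)*t^(4:ℕ) +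 (-43/8)*t^(5:ℕ) + (-45/4)*t^(6:ℕ) + (169/8)*t^(7:ℕ) + (-1/2)*t^(8:ℕ) + (-67/4)*t^(9:ℕ) + 17*t^(10:ℕ) + (-11)*t^(11:ℕ)) + (461/15006250)*((-2)*t^(2:ℕ) + (167/64)*t^(3:ℕ) + (-3/4)*t^(4:ℕ) + (81/32)*t^(5:ℕ) + (-375/32)*t^(6:ℕ) + (763/64)*t^(7:ℕ) + (167/32)*t^(8:ℕ) + (-1373/64)*t^(9:ℕ) + (291/16)*t^(10:ℕ) + (-97/16)*t^(11:ℕ)) + (23/4287500)*((5/8)*t^(5:ℕ) + (-31/16)*t^(6:ℕ) + (1/2)*t^(7:ℕ) + (77/16)*t^(8:ℕ) + (-143/16)*t^(9:ℕ) + (27/4)*t^(10:ℕ) + (-9/4)*t^(11:ℕ)) + (1/1071875)*((-1/4)*t^(7:ℕ) + (3/4)*t^(8:ℕ) + (-17/16)*t^(9:ℕ) + (3/4)*t^(10:ℕ) + (-1/4)*t^(11:ℕ)) - (73/500) := by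
  rcases le_total t (1/2) with h2 | h2
  · 
    exact pos_L2e_A_b5_s0 t (by assumption) (by assumption)
  · 
    exact pos_L2e_A_b5_s1 t (by assumption) (by assumption)

lemma pos_L2e_A_b6_s0 (t : ℝ) (h3 : 0 ≤ t) (h4 : t ≤ (1/2)) :
    0 ≤ 1*((1/2) + (-1/2)*t + 4*t^(2:ℕ) + (-5/2)*t^(3:ℕ) + 11*t^(4:ℕ) + (-5)*t^(5:ℕ) + 14*t^(6:ℕ) + (-5)*t^(7:ℕ) + (17/2)*t^(8:ℕ) + (-5/2)*t^(9:ℕ) + 2*t^(10:ℕ) + (-1/2)*t^(11:ℕ)) + (13/70)*((9/8) + (-19/8)*t + (-29/8)*t^(2:ℕ) + (-71/8)*t^(3:ℕ) + (77/4)*t^(4:ℕ) + (1/4)*t^(5:ℕ) + (255/4)*t^(6:ℕ) + (-19/4)*t^(7:ℕ) + (397/8)*t^(8:ℕ) + (-143/8)*t^(9:ℕ) + (79/8)*t^(10:ℕ) + (-51/8)*t^(11:ℕ)) + (59/1715)*((-15/4) + (-109/16)*t + (-1813/32)*t^(2:ℕ)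 + (-677/16)*t^(3:ℕ) + (-399/8)*t^(4:ℕ) + (73/8)*t^(5:ℕ) + (1589/16)*t^(6:ℕ) + (-27/8)*t^(7:ℕ) + (947/8)*t^(8:ℕ) + (-1237/16)*t^(9:ℕ) + (707/32)*t^(10:ℕ) + (-469/16)*t^(11:ℕ)) + (109/17150)*((-1) + (-1)*t + 7*t^(2:ℕ) + (-133/4)*t^(3:ℕ) + (-195/4)*t^(4:ℕ) + (609/16)*t^(5:ℕ) + (-375/16)*t^(6:ℕ) + (55/2)*t^(7:ℕ) + (523/8)*t^(8:ℕ) + (-1411/16)*t^(9:ℕ) + (513/16)*t^(10:ℕ) + (-363/8)*t^(11:ℕ)) + (251/214375)*((207/16)*t^(2:ℕ) + (61/4)*t^(3:ℕ) + (49/16)*t^(4:ℕ) + (-231/16)*t^(5:ℕ) + (91/16)*t^(6:ℕ) + (-37/8)*t^(7:ℕ) + (625/16)*t^(8:ℕ) + (-671/16)*t^(9:ℕ) + (47/2)*t^(10:ℕ) + (-147/4)*t^(11:ℕ)) + (461/2143750)*((-6)*t^(2:ℕ) + (127/8)*t^(3:ℕ) + (1/4)*t^(4:ℕ) + (-43/8)*t^(5:ℕ)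 + (-45/4)*t^(6:ℕ) + (169/8)*t^(7:ℕ) + (-1/2)*t^(8:ℕ) + (-67/4)*t^(9:ℕ) + 17*t^(10:ℕ) + (-11)*t^(11:ℕ)) + (211/5359375)*((-2)*t^(2:ℕ) + (167/64)*t^(3:ℕ) + (-3/4)*t^(4:ℕ) + (81/32)*t^(5:ℕ) + (-375/32)*t^(6:ℕ) + (763/64)*t^(7:ℕ) + (167/32)*t^(8:ℕ) + (-1373/64)*t^(9:ℕ) + (291/16)*t^(10:ℕ) + (-97/16)*t^(11:ℕ)) + (11/1531250)*((5/8)*t^(5:ℕ) + (-31/16)*t^(6:ℕ) + (1/2)*t^(7:ℕ) + (77/16)*t^(8:ℕ) + (-143/16)*t^(9:ℕ) + (27/4)*t^(10:ℕ) + (-9/4)*t^(11:ℕ)) + (1/765625)*((-1/4)*t^(7:ℕ) + (3/4)*t^(8:ℕ) + (-17/16)*t^(9:ℕ) + (3/4)*t^(10:ℕ) + (-1/4)*t^(11:ℕ)) - (73/500) := by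
  have e : 1*((1/2) + (-1/2)*t + 4*t^(2:ℕ) + (-5/2)*t^(3:ℕ) + 11*t^(4:ℕ) + (-5)*t^(5:ℕ) + 14*t^(6:ℕ) + (-5)*t^(7:ℕ) + (17/2)*t^(8:ℕ) + (-5/2)*t^(9:ℕ) + 2*t^(10:ℕ) + (-1/2)*t^(11:ℕ)) + (13/70)*((9/8) + (-19/8)*t + (-29/8)*t^(2:ℕ) + (-71/8)*t^(3:ℕ) + (77/4)*t^(4:ℕ) + (1/4)*t^(5:ℕ) + (255/4)*t^(6:ℕ) + (-19/4)*t^(7:ℕ) + (397/8)*t^(8:ℕ) + (-143/8)*t^(9:ℕ) + (79/8)*t^(10:ℕ) + (-51/8)*t^(11:ℕ)) + (59/1715)*((-15/4) + (-109/16)*t + (-1813/32)*t^(2:ℕ) + (-677/16)*t^(3:ℕ) + (-399/8)*t^(4:ℕ) + (73/8)*t^(5:ℕ) + (1589/16)*t^(6:ℕ) + (-27/8)*t^(7:ℕ) + (947/8)*t^(8:ℕ) + (-1237/16)*t^(9:ℕ) + (707/32)*t^(10:ℕ) + (-469/16)*t^(11:ℕ)) + (109/17150)*((-1) + (-1)*t + 7*t^(2:ℕ) +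 (-133/4)*t^(3:ℕ) + (-195/4)*t^(4:ℕ) + (609/16)*t^(5:ℕ) + (-375/16)*t^(6:ℕ) + (55/2)*t^(7:ℕ) + (523/8)*t^(8:ℕ) + (-1411/16)*t^(9:ℕ) + (513/16)*t^(10:ℕ) + (-363/8)*t^(11:ℕ)) + (251/214375)*((207/16)*t^(2:ℕ) + (61/4)*t^(3:ℕ) + (49/16)*t^(4:ℕ) + (-231/16)*t^(5:ℕ) + (91/16)*t^(6:ℕ) + (-37/8)*t^(7:ℕ) + (625/16)*t^(8:ℕ) + (-671/16)*t^(9:ℕ) + (47/2)*t^(10:ℕ) + (-147/4)*t^(11:ℕ)) + (461/2143750)*((-6)*t^(2:ℕ) + (127/8)*t^(3:ℕ) + (1/4)*t^(4:ℕ) + (-43/8)*t^(5:ℕ) + (-45/4)*t^(6:ℕ) + (169/8)*t^(7:ℕ) + (-1/2)*t^(8:ℕ) + (-67/4)*t^(9:ℕ) + 17*t^(10:ℕ) + (-11)*t^(11:ℕ)) + (211/5359375)*((-2)*t^(2:ℕ) + (167/64)*t^(3:ℕ) + (-3/4)*t^(4:ℕ) + (81/32)*t^(5:ℕ) + (-375/32)*t^(6:ℕ) +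 (763/64)*t^(7:ℕ) + (167/32)*t^(8:ℕ) + (-1373/64)*t^(9:ℕ) + (291/16)*t^(10:ℕ) + (-97/16)*t^(11:ℕ)) + (11/1531250)*((5/8)*t^(5:ℕ) + (-31/16)*t^(6:ℕ) + (1/2)*t^(7:ℕ) + (77/16)*t^(8:ℕ) + (-143/16)*t^(9:ℕ) + (27/4)*t^(10:ℕ) + (-9/4)*t^(11:ℕ)) + (1/765625)*((-1/4)*t^(7:ℕ) + (3/4)*t^(8:ℕ) + (-17/16)*t^(9:ℕ) + (3/4)*t^(10:ℕ) + (-1/4)*t^(11:ℕ)) - (73/500) = (37543552/42875)*((1/2) - t)^(11:ℕ) + (361093632/42875)*(t - 0)*((1/2) - t)^(10:ℕ) + (197195359056/5359375)*(t - 0)^(2:ℕ)*((1/2) - t)^(9:ℕ) + (509993193812/5359375)*(t - 0)^(3:ℕ)*((1/2) - t)^(8:ℕ) + (857256910904/5359375)*(t - 0)^(4:ℕ)*((1/2) - t)^(7:ℕ) + (973316815708/5359375)*(t - 0)^(5:ℕ)*((1/2) - t)^(6:ℕ) +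 (761811137693/5359375)*(t - 0)^(6:ℕ)*((1/2) - t)^(5:ℕ) + (245629309671/3062500)*(t - 0)^(7:ℕ)*((1/2) - t)^(4:ℕ) + (201869597091/5359375)*(t - 0)^(8:ℕ)*((1/2) - t)^(3:ℕ) + (1491905725293/85750000)*(t - 0)^(9:ℕ)*((1/2) - t)^(2:ℕ) + (35315165098/5359375)*(t - 0)^(10:ℕ)*((1/2) - t) + (4212979861/3430000)*(t - 0)^(11:ℕ) := by
    ring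
  rw [e]
  have a3 : 0 ≤ t - 0 := by linarith
  have a4 : 0 ≤ (1/2) - t := by linarith
  generalize t - 0 = t1 at a3 ⊢
  generalize (1/2) - t = t2 at a4 ⊢
  positivity

lemma pos_L2e_A_b6_s1 (t : ℝ) (h3 : (1/2) ≤ t) (h4 : t ≤ 1) :
    0 ≤ 1*((1/2) + (-1/2)*t + 4*t^(2:ℕ) + (-5/2)*t^(3:ℕ) + 11*t^(4:ℕ) + (-5)*t^(5:ℕ) + 14*t^(6:ℕ) + (-5)*t^(7:ℕ) + (17/2)*t^(8:ℕ) + (-5/2)*t^(9:ℕ) + 2*t^(10:ℕ) + (-1/2)*t^(11:ℕ)) + (13/70)*((9/8) + (-19/8)*t + (-29/8)*t^(2:ℕ) + (-71/8)*t^(3:ℕ) + (77/4)*t^(4:ℕ) + (1/4)*t^(5:ℕ) + (255/4)*t^(6:ℕ) + (-19/4)*t^(7:ℕ) + (397/8)*t^(8:ℕ) + (-143/8)*t^(9:ℕ) + (79/8)*t^(10:ℕ) + (-51/8)*t^(11:ℕ)) + (59/1715)*((-15/4) + (-109/16)*t + (-1813/32)*t^(2:ℕ)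 + (-677/16)*t^(3:ℕ) + (-399/8)*t^(4:ℕ) + (73/8)*t^(5:ℕ) + (1589/16)*t^(6:ℕ) + (-27/8)*t^(7:ℕ) + (947/8)*t^(8:ℕ) + (-1237/16)*t^(9:ℕ) + (707/32)*t^(10:ℕ) + (-469/16)*t^(11:ℕ)) + (109/17150)*((-1) + (-1)*t + 7*t^(2:ℕ) + (-133/4)*t^(3:ℕ) + (-195/4)*t^(4:ℕ) + (609/16)*t^(5:ℕ) + (-375/16)*t^(6:ℕ) + (55/2)*t^(7:ℕ) + (523/8)*t^(8:ℕ) + (-1411/16)*t^(9:ℕ) + (513/16)*t^(10:ℕ) + (-363/8)*t^(11:ℕ)) + (251/214375)*((207/16)*t^(2:ℕ) + (61/4)*t^(3:ℕ) + (49/16)*t^(4:ℕ) + (-231/16)*t^(5:ℕ) + (91/16)*t^(6:ℕ) + (-37/8)*t^(7:ℕ) + (625/16)*t^(8:ℕ) + (-671/16)*t^(9:ℕ) + (47/2)*t^(10:ℕ) + (-147/4)*t^(11:ℕ)) + (461/2143750)*((-6)*t^(2:ℕ) + (127/8)*t^(3:ℕ) + (1/4)*t^(4:ℕ) + (-43/8)*t^(5:ℕ)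 + (-45/4)*t^(6:ℕ) + (169/8)*t^(7:ℕ) + (-1/2)*t^(8:ℕ) + (-67/4)*t^(9:ℕ) + 17*t^(10:ℕ) + (-11)*t^(11:ℕ)) + (211/5359375)*((-2)*t^(2:ℕ) + (167/64)*t^(3:ℕ) + (-3/4)*t^(4:ℕ) + (81/32)*t^(5:ℕ) + (-375/32)*t^(6:ℕ) + (763/64)*t^(7:ℕ) + (167/32)*t^(8:ℕ) + (-1373/64)*t^(9:ℕ) + (291/16)*t^(10:ℕ) + (-97/16)*t^(11:ℕ)) + (11/1531250)*((5/8)*t^(5:ℕ) + (-31/16)*t^(6:ℕ) + (1/2)*t^(7:ℕ) + (77/16)*t^(8:ℕ) + (-143/16)*t^(9:ℕ) + (27/4)*t^(10:ℕ) + (-9/4)*t^(11:ℕ)) + (1/765625)*((-1/4)*t^(7:ℕ) + (3/4)*t^(8:ℕ) + (-17/16)*t^(9:ℕ) + (3/4)*t^(10:ℕ) + (-1/4)*t^(11:ℕ)) - (73/500) := by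
  have e : 1*((1/2) + (-1/2)*t + 4*t^(2:ℕ) + (-5/2)*t^(3:ℕ) + 11*t^(4:ℕ) + (-5)*t^(5:ℕ) + 14*t^(6:ℕ) + (-5)*t^(7:ℕ) + (17/2)*t^(8:ℕ) + (-5/2)*t^(9:ℕ) + 2*t^(10:ℕ) + (-1/2)*t^(11:ℕ)) + (13/70)*((9/8) + (-19/8)*t + (-29/8)*t^(2:ℕ) + (-71/8)*t^(3:ℕ) + (77/4)*t^(4:ℕ) + (1/4)*t^(5:ℕ) + (255/4)*t^(6:ℕ) + (-19/4)*t^(7:ℕ) + (397/8)*t^(8:ℕ) + (-143/8)*t^(9:ℕ) + (79/8)*t^(10:ℕ) + (-51/8)*t^(11:ℕ)) + (59/1715)*((-15/4) + (-109/16)*t + (-1813/32)*t^(2:ℕ) + (-677/16)*t^(3:ℕ) + (-399/8)*t^(4:ℕ) + (73/8)*t^(5:ℕ) + (1589/16)*t^(6:ℕ) + (-27/8)*t^(7:ℕ) + (947/8)*t^(8:ℕ) + (-1237/16)*t^(9:ℕ) + (707/32)*t^(10:ℕ) + (-469/16)*t^(11:ℕ)) + (109/17150)*((-1) + (-1)*t + 7*t^(2:ℕ) +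 (-133/4)*t^(3:ℕ) + (-195/4)*t^(4:ℕ) + (609/16)*t^(5:ℕ) + (-375/16)*t^(6:ℕ) + (55/2)*t^(7:ℕ) + (523/8)*t^(8:ℕ) + (-1411/16)*t^(9:ℕ) + (513/16)*t^(10:ℕ) + (-363/8)*t^(11:ℕ)) + (251/214375)*((207/16)*t^(2:ℕ) + (61/4)*t^(3:ℕ) + (49/16)*t^(4:ℕ) + (-231/16)*t^(5:ℕ) + (91/16)*t^(6:ℕ) + (-37/8)*t^(7:ℕ) + (625/16)*t^(8:ℕ) + (-671/16)*t^(9:ℕ) + (47/2)*t^(10:ℕ) + (-147/4)*t^(11:ℕ)) + (461/2143750)*((-6)*t^(2:ℕ) + (127/8)*t^(3:ℕ) + (1/4)*t^(4:ℕ) + (-43/8)*t^(5:ℕ) + (-45/4)*t^(6:ℕ) + (169/8)*t^(7:ℕ) + (-1/2)*t^(8:ℕ) + (-67/4)*t^(9:ℕ) + 17*t^(10:ℕ) + (-11)*t^(11:ℕ)) + (211/5359375)*((-2)*t^(2:ℕ) + (167/64)*t^(3:ℕ) + (-3/4)*t^(4:ℕ) + (81/32)*t^(5:ℕ) + (-375/32)*t^(6:ℕ) +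 (763/64)*t^(7:ℕ) + (167/32)*t^(8:ℕ) + (-1373/64)*t^(9:ℕ) + (291/16)*t^(10:ℕ) + (-97/16)*t^(11:ℕ)) + (11/1531250)*((5/8)*t^(5:ℕ) + (-31/16)*t^(6:ℕ) + (1/2)*t^(7:ℕ) + (77/16)*t^(8:ℕ) + (-143/16)*t^(9:ℕ) + (27/4)*t^(10:ℕ) + (-9/4)*t^(11:ℕ)) + (1/765625)*((-1/4)*t^(7:ℕ) + (3/4)*t^(8:ℕ) + (-17/16)*t^(9:ℕ) + (3/4)*t^(10:ℕ) + (-1/4)*t^(11:ℕ)) - (73/500) = (4212979861/3430000)*(1 - t)^(11:ℕ) + (876048140991/42875000)*(t - (1/2))*(1 - t)^(10:ℕ) + (13362442129433/85750000)*(t - (1/2))^(2:ℕ)*(1 - t)^(9:ℕ) + (30472524716289/42875000)*(t - (1/2))^(3:ℕ)*(1 - t)^(8:ℕ) + (45926458501101/21437500)*(t - (1/2))^(4:ℕ)*(1 - t)^(7:ℕ) + (47935265194361/10718750)*(t - (1/2))^(5:ℕ)*(1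 - t)^(6:ℕ) + (721220649043/109375)*(t - (1/2))^(6:ℕ)*(1 - t)^(5:ℕ) + (36812750664182/5359375)*(t - (1/2))^(7:ℕ)*(1 - t)^(4:ℕ) + (26557292613696/5359375)*(t - (1/2))^(8:ℕ)*(1 - t)^(3:ℕ) + (12638281177888/5359375)*(t - (1/2))^(9:ℕ)*(1 - t)^(2:ℕ) + (3569795319088/5359375)*(t - (1/2))^(10:ℕ)*(1 - t) + (452997509344/5359375)*(t - (1/2))^(11:ℕ) := by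
    ring
  rw [e]
  have a3 : 0 ≤ t - (1/2) := by linarith
  have a4 : 0 ≤ 1 - t := by linarith
  generalize t - (1/2) = t1 at a3 ⊢
  generalize 1 - t = t2 at a4 ⊢
  positivity

lemma pos_L2e_A_b6 (t : ℝ) (h3 : 0 ≤ t) (h4 : t ≤ 1) :
    0 ≤ 1*((1/2) + (-1/2)*t + 4*t^(2:ℕ) + (-5/2)*t^(3:ℕ) + 11*t^(4:ℕ) + (-5)*t^(5:ℕ) + 14*t^(6:ℕ) + (-5)*t^(7:ℕ) + (17/2)*t^(8:ℕ) + (-5/2)*t^(9:ℕ) + 2*t^(10:ℕ) + (-1/2)*t^(11:ℕ)) + (13/70)*((9/8) + (-19/8)*t + (-29/8)*t^(2:ℕ) + (-71/8)*t^(3:ℕ) + (77/4)*t^(4:ℕ) + (1/4)*t^(5:ℕ) + (255/4)*t^(6:ℕ) + (-19/4)*t^(7:ℕ) + (397/8)*t^(8:ℕ) + (-143/8)*t^(9:ℕ) + (79/8)*t^(10:ℕ) + (-51/8)*t^(11:ℕ)) + (59/1715)*((-15/4) + (-109/16)*t + (-1813/32)*t^(2:ℕ)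 + (-677/16)*t^(3:ℕ) + (-399/8)*t^(4:ℕ) + (73/8)*t^(5:ℕ) + (1589/16)*t^(6:ℕ) + (-27/8)*t^(7:ℕ) + (947/8)*t^(8:ℕ) + (-1237/16)*t^(9:ℕ) + (707/32)*t^(10:ℕ) + (-469/16)*t^(11:ℕ)) + (109/17150)*((-1) + (-1)*t + 7*t^(2:ℕ) + (-133/4)*t^(3:ℕ) + (-195/4)*t^(4:ℕ) + (609/16)*t^(5:ℕ) + (-375/16)*t^(6:ℕ) + (55/2)*t^(7:ℕ) + (523/8)*t^(8:ℕ) + (-1411/16)*t^(9:ℕ) + (513/16)*t^(10:ℕ) + (-363/8)*t^(11:ℕ)) + (251/214375)*((207/16)*t^(2:ℕ) + (61/4)*t^(3:ℕ) + (49/16)*t^(4:ℕ) + (-231/16)*t^(5:ℕ) + (91/16)*t^(6:ℕ) + (-37/8)*t^(7:ℕ) + (625/16)*t^(8:ℕ) + (-671/16)*t^(9:ℕ) + (47/2)*t^(10:ℕ) + (-147/4)*t^(11:ℕ)) + (461/2143750)*((-6)*t^(2:ℕ) + (127/8)*t^(3:ℕ) + (1/4)*t^(4:ℕ) + (-43/8)*t^(5:ℕ)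 + (-45/4)*t^(6:ℕ) + (169/8)*t^(7:ℕ) + (-1/2)*t^(8:ℕ) + (-67/4)*t^(9:ℕ) + 17*t^(10:ℕ) + (-11)*t^(11:ℕ)) + (211/5359375)*((-2)*t^(2:ℕ) + (167/64)*t^(3:ℕ) + (-3/4)*t^(4:ℕ) + (81/32)*t^(5:ℕ) + (-375/32)*t^(6:ℕ) + (763/64)*t^(7:ℕ) + (167/32)*t^(8:ℕ) + (-1373/64)*t^(9:ℕ) + (291/16)*t^(10:ℕ) + (-97/16)*t^(11:ℕ)) + (11/1531250)*((5/8)*t^(5:ℕ) + (-31/16)*t^(6:ℕ) + (1/2)*t^(7:ℕ) + (77/16)*t^(8:ℕ) + (-143/16)*t^(9:ℕ) + (27/4)*t^(10:ℕ) + (-9/4)*t^(11:ℕ)) + (1/765625)*((-1/4)*t^(7:ℕ) + (3/4)*t^(8:ℕ) + (-17/16)*t^(9:ℕ) + (3/4)*t^(10:ℕ) + (-1/4)*t^(11:ℕ)) - (73/500) := by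
  rcases le_total t (1/2) with h2 | h2
  · 
    exact pos_L2e_A_b6_s0 t (by assumption) (by assumption)
  · 
    exact pos_L2e_A_b6_s1 t (by assumption) (by assumption)

lemma pos_L2e_A_b7_s0 (t : ℝ) (h3 : 0 ≤ t) (h4 : t ≤ (1/2)) :
    0 ≤ 1*((1/2) + (-1/2)*t + 4*t^(2:ℕ) + (-5/2)*t^(3:ℕ) + 11*t^(4:ℕ) + (-5)*t^(5:ℕ) + 14*t^(6:ℕ) + (-5)*t^(7:ℕ) + (17/2)*t^(8:ℕ) + (-5/2)*t^(9:ℕ) + 2*t^(10:ℕ) + (-1/2)*t^(11:ℕ)) + (27/140)*((9/8) + (-19/8)*t + (-29/8)*t^(2:ℕ) + (-71/8)*t^(3:ℕ) + (77/4)*t^(4:ℕ) + (1/4)*t^(5:ℕ) + (255/4)*t^(6:ℕ) + (-19/4)*t^(7:ℕ) + (397/8)*t^(8:ℕ) + (-143/8)*t^(9:ℕ) + (79/8)*t^(10:ℕ) + (-51/8)*t^(11:ℕ)) + (13/350)*((-15/4) + (-109/16)*t + (-1813/32)*t^(2:ℕ)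 + (-677/16)*t^(3:ℕ) + (-399/8)*t^(4:ℕ) + (73/8)*t^(5:ℕ) + (1589/16)*t^(6:ℕ) + (-27/8)*t^(7:ℕ) + (947/8)*t^(8:ℕ) + (-1237/16)*t^(9:ℕ) + (707/32)*t^(10:ℕ) + (-469/16)*t^(11:ℕ)) + (1/140)*((-1) + (-1)*t + 7*t^(2:ℕ) + (-133/4)*t^(3:ℕ) + (-195/4)*t^(4:ℕ) + (609/16)*t^(5:ℕ) + (-375/16)*t^(6:ℕ) + (55/2)*t^(7:ℕ) + (523/8)*t^(8:ℕ) + (-1411/16)*t^(9:ℕ) + (513/16)*t^(10:ℕ) + (-363/8)*t^(11:ℕ)) + (6/4375)*((207/16)*t^(2:ℕ) + (61/4)*t^(3:ℕ) + (49/16)*t^(4:ℕ) + (-231/16)*t^(5:ℕ) + (91/16)*t^(6:ℕ) + (-37/8)*t^(7:ℕ) + (625/16)*t^(8:ℕ) + (-671/16)*t^(9:ℕ) + (47/2)*t^(10:ℕ) + (-147/4)*t^(11:ℕ)) + (23/87500)*((-6)*t^(2:ℕ) + (127/8)*t^(3:ℕ) + (1/4)*t^(4:ℕ) + (-43/8)*t^(5:ℕ) +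 (-45/4)*t^(6:ℕ) + (169/8)*t^(7:ℕ) + (-1/2)*t^(8:ℕ) + (-67/4)*t^(9:ℕ) + 17*t^(10:ℕ) + (-11)*t^(11:ℕ)) + (11/218750)*((-2)*t^(2:ℕ) + (167/64)*t^(3:ℕ) + (-3/4)*t^(4:ℕ) + (81/32)*t^(5:ℕ) + (-375/32)*t^(6:ℕ) + (763/64)*t^(7:ℕ) + (167/32)*t^(8:ℕ) + (-1373/64)*t^(9:ℕ) + (291/16)*t^(10:ℕ) + (-97/16)*t^(11:ℕ)) + (3/312500)*((5/8)*t^(5:ℕ) + (-31/16)*t^(6:ℕ) + (1/2)*t^(7:ℕ) + (77/16)*t^(8:ℕ) + (-143/16)*t^(9:ℕ) + (27/4)*t^(10:ℕ) + (-9/4)*t^(11:ℕ)) + (1/546875)*((-1/4)*t^(7:ℕ) + (3/4)*t^(8:ℕ) + (-17/16)*t^(9:ℕ) + (3/4)*t^(10:ℕ) + (-1/4)*t^(11:ℕ)) - (73/500) := by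
  have e : 1*((1/2) + (-1/2)*t + 4*t^(2:ℕ) + (-5/2)*t^(3:ℕ) + 11*t^(4:ℕ) + (-5)*t^(5:ℕ) + 14*t^(6:ℕ) + (-5)*t^(7:ℕ) + (17/2)*t^(8:ℕ) + (-5/2)*t^(9:ℕ) + 2*t^(10:ℕ) + (-1/2)*t^(11:ℕ)) + (27/140)*((9/8) + (-19/8)*t + (-29/8)*t^(2:ℕ) + (-71/8)*t^(3:ℕ) + (77/4)*t^(4:ℕ) + (1/4)*t^(5:ℕ) + (255/4)*t^(6:ℕ) + (-19/4)*t^(7:ℕ) + (397/8)*t^(8:ℕ) + (-143/8)*t^(9:ℕ) + (79/8)*t^(10:ℕ) + (-51/8)*t^(11:ℕ)) + (13/350)*((-15/4) + (-109/16)*t + (-1813/32)*t^(2:ℕ) + (-677/16)*t^(3:ℕ) + (-399/8)*t^(4:ℕ) + (73/8)*t^(5:ℕ) + (1589/16)*t^(6:ℕ) + (-27/8)*t^(7:ℕ) + (947/8)*t^(8:ℕ) + (-1237/16)*t^(9:ℕ) + (707/32)*t^(10:ℕ) + (-469/16)*t^(11:ℕ)) + (1/140)*((-1) + (-1)*t + 7*t^(2:ℕ) + (-133/4)*t^(3:ℕ)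 + (-195/4)*t^(4:ℕ) + (609/16)*t^(5:ℕ) + (-375/16)*t^(6:ℕ) + (55/2)*t^(7:ℕ) + (523/8)*t^(8:ℕ) + (-1411/16)*t^(9:ℕ) + (513/16)*t^(10:ℕ) + (-363/8)*t^(11:ℕ)) + (6/4375)*((207/16)*t^(2:ℕ) + (61/4)*t^(3:ℕ) + (49/16)*t^(4:ℕ) + (-231/16)*t^(5:ℕ) + (91/16)*t^(6:ℕ) + (-37/8)*t^(7:ℕ) + (625/16)*t^(8:ℕ) + (-671/16)*t^(9:ℕ) + (47/2)*t^(10:ℕ) + (-147/4)*t^(11:ℕ)) + (23/87500)*((-6)*t^(2:ℕ) + (127/8)*t^(3:ℕ) + (1/4)*t^(4:ℕ) + (-43/8)*t^(5:ℕ) + (-45/4)*t^(6:ℕ) + (169/8)*t^(7:ℕ) + (-1/2)*t^(8:ℕ) + (-67/4)*t^(9:ℕ) + 17*t^(10:ℕ) + (-11)*t^(11:ℕ)) + (11/218750)*((-2)*t^(2:ℕ) + (167/64)*t^(3:ℕ) + (-3/4)*t^(4:ℕ) + (81/32)*t^(5:ℕ) + (-375/32)*t^(6:ℕ) + (763/64)*t^(7:ℕ) + (167/32)*t^(8:ℕ)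 + (-1373/64)*t^(9:ℕ) + (291/16)*t^(10:ℕ) + (-97/16)*t^(11:ℕ)) + (3/312500)*((5/8)*t^(5:ℕ) + (-31/16)*t^(6:ℕ) + (1/2)*t^(7:ℕ) + (77/16)*t^(8:ℕ) + (-143/16)*t^(9:ℕ) + (27/4)*t^(10:ℕ) + (-9/4)*t^(11:ℕ)) + (1/546875)*((-1/4)*t^(7:ℕ) + (3/4)*t^(8:ℕ) + (-17/16)*t^(9:ℕ) + (3/4)*t^(10:ℕ) + (-1/4)*t^(11:ℕ)) - (73/500) = (760768/875)*((1/2) - t)^(11:ℕ) + (7276928/875)*(t - 0)*((1/2) - t)^(10:ℕ) + (3936584648/109375)*(t - 0)^(2:ℕ)*((1/2) - t)^(9:ℕ) + (1431358278/15625)*(t - 0)^(3:ℕ)*((1/2) - t)^(8:ℕ) + (2340925776/15625)*(t - 0)^(4:ℕ)*((1/2) - t)^(7:ℕ) + (17716708536/109375)*(t - 0)^(5:ℕ)*((1/2) - t)^(6:ℕ) + (126601922319/1093750)*(t - 0)^(6:ℕ)*((1/2) - t)^(5:ℕ) + (242933943669/4375000)*(t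 - 0)^(7:ℕ)*((1/2) - t)^(4:ℕ) + (6861019209/312500)*(t - 0)^(8:ℕ)*((1/2) - t)^(3:ℕ) + (191293655009/17500000)*(t - 0)^(9:ℕ)*((1/2) - t)^(2:ℕ) + (44193568523/8750000)*(t - 0)^(10:ℕ)*((1/2) - t) + (2674598129/2500000)*(t - 0)^(11:ℕ) := by
    ring
  rw [e]
  have a3 : 0 ≤ t - 0 := by linarith
  have a4 : 0 ≤ (1/2) - t := by linarith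
  generalize t - 0 = t1 at a3 ⊢
  generalize (1/2) - t = t2 at a4 ⊢
  positivity

lemma pos_L2e_A_b7_s1 (t : ℝ) (h3 : (1/2) ≤ t) (h4 : t ≤ 1) :
    0 ≤ 1*((1/2) + (-1/2)*t + 4*t^(2:ℕ) + (-5/2)*t^(3:ℕ) + 11*t^(4:ℕ) + (-5)*t^(5:ℕ) + 14*t^(6:ℕ) + (-5)*t^(7:ℕ) + (17/2)*t^(8:ℕ) + (-5/2)*t^(9:ℕ) + 2*t^(10:ℕ) + (-1/2)*t^(11:ℕ)) + (27/140)*((9/8) + (-19/8)*t + (-29/8)*t^(2:ℕ) + (-71/8)*t^(3:ℕ) + (77/4)*t^(4:ℕ) + (1/4)*t^(5:ℕ) + (255/4)*t^(6:ℕ) + (-19/4)*t^(7:ℕ) + (397/8)*t^(8:ℕ) + (-143/8)*t^(9:ℕ) + (79/8)*t^(10:ℕ) + (-51/8)*t^(11:ℕ)) + (13/350)*((-15/4) + (-109/16)*t + (-1813/32)*t^(2:ℕ) + (-677/16)*t^(3:ℕ) + (-399/8)*t^(4:ℕ) + (73/8)*t^(5:ℕ) + (1589/16)*t^(6:ℕ)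 + (-27/8)*t^(7:ℕ) + (947/8)*t^(8:ℕ) + (-1237/16)*t^(9:ℕ) + (707/32)*t^(10:ℕ) + (-469/16)*t^(11:ℕ)) + (1/140)*((-1) + (-1)*t + 7*t^(2:ℕ) + (-133/4)*t^(3:ℕ) + (-195/4)*t^(4:ℕ) + (609/16)*t^(5:ℕ) + (-375/16)*t^(6:ℕ) + (55/2)*t^(7:ℕ) + (523/8)*t^(8:ℕ) + (-1411/16)*t^(9:ℕ) + (513/16)*t^(10:ℕ) + (-363/8)*t^(11:ℕ)) + (6/4375)*((207/16)*t^(2:ℕ) + (61/4)*t^(3:ℕ) + (49/16)*t^(4:ℕ) + (-231/16)*t^(5:ℕ) + (91/16)*t^(6:ℕ) + (-37/8)*t^(7:ℕ) + (625/16)*t^(8:ℕ) + (-671/16)*t^(9:ℕ) + (47/2)*t^(10:ℕ) + (-147/4)*t^(11:ℕ)) + (23/87500)*((-6)*t^(2:ℕ) + (127/8)*t^(3:ℕ) + (1/4)*t^(4:ℕ) + (-43/8)*t^(5:ℕ) + (-45/4)*t^(6:ℕ) + (169/8)*t^(7:ℕ) + (-1/2)*t^(8:ℕ) + (-67/4)*t^(9:ℕ) + 17*t^(10:ℕ)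 + (-11)*t^(11:ℕ)) + (11/218750)*((-2)*t^(2:ℕ) + (167/64)*t^(3:ℕ) + (-3/4)*t^(4:ℕ) + (81/32)*t^(5:ℕ) + (-375/32)*t^(6:ℕ) + (763/64)*t^(7:ℕ) + (167/32)*t^(8:ℕ) + (-1373/64)*t^(9:ℕ) + (291/16)*t^(10:ℕ) + (-97/16)*t^(11:ℕ)) + (3/312500)*((5/8)*t^(5:ℕ) + (-31/16)*t^(6:ℕ) + (1/2)*t^(7:ℕ) + (77/16)*t^(8:ℕ) + (-143/16)*t^(9:ℕ) + (27/4)*t^(10:ℕ) + (-9/4)*t^(11:ℕ)) + (1/546875)*((-1/4)*t^(7:ℕ) + (3/4)*t^(8:ℕ) + (-17/16)*t^(9:ℕ) + (3/4)*t^(10:ℕ) + (-1/4)*t^(11:ℕ)) - (73/500) := by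
  have e : 1*((1/2) + (-1/2)*t + 4*t^(2:ℕ) + (-5/2)*t^(3:ℕ) + 11*t^(4:ℕ) + (-5)*t^(5:ℕ) + 14*t^(6:ℕ) + (-5)*t^(7:ℕ) + (17/2)*t^(8:ℕ) + (-5/2)*t^(9:ℕ) + 2*t^(10:ℕ) + (-1/2)*t^(11:ℕ)) + (27/140)*((9/8) + (-19/8)*t + (-29/8)*t^(2:ℕ) + (-71/8)*t^(3:ℕ) + (77/4)*t^(4:ℕ) + (1/4)*t^(5:ℕ) + (255/4)*t^(6:ℕ) + (-19/4)*t^(7:ℕ) + (397/8)*t^(8:ℕ) + (-143/8)*t^(9:ℕ) + (79/8)*t^(10:ℕ) + (-51/8)*t^(11:ℕ)) + (13/350)*((-15/4) + (-109/16)*t + (-1813/32)*t^(2:ℕ) + (-677/16)*t^(3:ℕ) + (-399/8)*t^(4:ℕ) + (73/8)*t^(5:ℕ) + (1589/16)*t^(6:ℕ) + (-27/8)*t^(7:ℕ) + (947/8)*t^(8:ℕ) + (-1237/16)*t^(9:ℕ) + (707/32)*t^(10:ℕ) + (-469/16)*t^(11:ℕ)) + (1/140)*((-1) + (-1)*t + 7*t^(2:ℕ) + (-133/4)*t^(3:ℕ)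 + (-195/4)*t^(4:ℕ) + (609/16)*t^(5:ℕ) + (-375/16)*t^(6:ℕ) + (55/2)*t^(7:ℕ) + (523/8)*t^(8:ℕ) + (-1411/16)*t^(9:ℕ) + (513/16)*t^(10:ℕ) + (-363/8)*t^(11:ℕ)) + (6/4375)*((207/16)*t^(2:ℕ) + (61/4)*t^(3:ℕ) + (49/16)*t^(4:ℕ) + (-231/16)*t^(5:ℕ) + (91/16)*t^(6:ℕ) + (-37/8)*t^(7:ℕ) + (625/16)*t^(8:ℕ) + (-671/16)*t^(9:ℕ) + (47/2)*t^(10:ℕ) + (-147/4)*t^(11:ℕ)) + (23/87500)*((-6)*t^(2:ℕ) + (127/8)*t^(3:ℕ) + (1/4)*t^(4:ℕ) + (-43/8)*t^(5:ℕ) + (-45/4)*t^(6:ℕ) + (169/8)*t^(7:ℕ) + (-1/2)*t^(8:ℕ) + (-67/4)*t^(9:ℕ) + 17*t^(10:ℕ) + (-11)*t^(11:ℕ)) + (11/218750)*((-2)*t^(2:ℕ) + (167/64)*t^(3:ℕ) + (-3/4)*t^(4:ℕ) + (81/32)*t^(5:ℕ) + (-375/32)*t^(6:ℕ) + (763/64)*t^(7:ℕ) + (167/32)*t^(8:ℕ)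 + (-1373/64)*t^(9:ℕ) + (291/16)*t^(10:ℕ) + (-97/16)*t^(11:ℕ)) + (3/312500)*((5/8)*t^(5:ℕ) + (-31/16)*t^(6:ℕ) + (1/2)*t^(7:ℕ) + (77/16)*t^(8:ℕ) + (-143/16)*t^(9:ℕ) + (27/4)*t^(10:ℕ) + (-9/4)*t^(11:ℕ)) + (1/546875)*((-1/4)*t^(7:ℕ) + (3/4)*t^(8:ℕ) + (-17/16)*t^(9:ℕ) + (3/4)*t^(10:ℕ) + (-1/4)*t^(11:ℕ)) - (73/500) = (2674598129/2500000)*(1 - t)^(11:ℕ) + (16175048741/875000)*(t - (1/2))*(1 - t)^(10:ℕ) + (363204576107/2500000)*(t - (1/2))^(2:ℕ)*(1 - t)^(9:ℕ) + (5931335379069/8750000)*(t - (1/2))^(3:ℕ)*(1 - t)^(8:ℕ) + (9093011042097/4375000)*(t - (1/2))^(4:ℕ)*(1 - t)^(7:ℕ) + (9612965559369/2187500)*(t - (1/2))^(5:ℕ)*(1 - t)^(6:ℕ) + (7155963571563/1093750)*(t - (1/2))^(6:ℕ)*(1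 - t)^(5:ℕ) + (3754625417619/546875)*(t - (1/2))^(7:ℕ)*(1 - t)^(4:ℕ) + (2723841032928/546875)*(t - (1/2))^(8:ℕ)*(1 - t)^(3:ℕ) + (1301713887568/546875)*(t - (1/2))^(9:ℕ)*(1 - t)^(2:ℕ) + (368814312536/546875)*(t - (1/2))^(10:ℕ)*(1 - t) + (46899271408/546875)*(t - (1/2))^(11:ℕ) := by
    ring
  rw [e]
  have a3 : 0 ≤ t - (1/2) := by linarith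
  have a4 : 0 ≤ 1 - t := by linarith
  generalize t - (1/2) = t1 at a3 ⊢
  generalize 1 - t = t2 at a4 ⊢
  positivity

lemma pos_L2e_A_b7 (t : ℝ) (h3 : 0 ≤ t) (h4 : t ≤ 1) :
    0 ≤ 1*((1/2) + (-1/2)*t + 4*t^(2:ℕ) + (-5/2)*t^(3:ℕ) + 11*t^(4:ℕ) + (-5)*t^(5:ℕ) + 14*t^(6:ℕ) + (-5)*t^(7:ℕ) + (17/2)*t^(8:ℕ) + (-5/2)*t^(9:ℕ) + 2*t^(10:ℕ) + (-1/2)*t^(11:ℕ)) + (27/140)*((9/8) + (-19/8)*t + (-29/8)*t^(2:ℕ) + (-71/8)*t^(3:ℕ) + (77/4)*t^(4:ℕ) + (1/4)*t^(5:ℕ) + (255/4)*t^(6:ℕ) + (-19/4)*t^(7:ℕ) + (397/8)*t^(8:ℕ) + (-143/8)*t^(9:ℕ) + (79/8)*t^(10:ℕ) + (-51/8)*t^(11:ℕ)) + (13/350)*((-15/4) + (-109/16)*t + (-1813/32)*t^(2:ℕ) + (-677/16)*t^(3:ℕ) + (-399/8)*t^(4:ℕ) + (73/8)*t^(5:ℕ)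 + (1589/16)*t^(6:ℕ) + (-27/8)*t^(7:ℕ) + (947/8)*t^(8:ℕ) + (-1237/16)*t^(9:ℕ) + (707/32)*t^(10:ℕ) + (-469/16)*t^(11:ℕ)) + (1/140)*((-1) + (-1)*t + 7*t^(2:ℕ) + (-133/4)*t^(3:ℕ) + (-195/4)*t^(4:ℕ) + (609/16)*t^(5:ℕ) + (-375/16)*t^(6:ℕ) + (55/2)*t^(7:ℕ) + (523/8)*t^(8:ℕ) + (-1411/16)*t^(9:ℕ) + (513/16)*t^(10:ℕ) + (-363/8)*t^(11:ℕ)) + (6/4375)*((207/16)*t^(2:ℕ) + (61/4)*t^(3:ℕ) + (49/16)*t^(4:ℕ) + (-231/16)*t^(5:ℕ) + (91/16)*t^(6:ℕ) + (-37/8)*t^(7:ℕ) + (625/16)*t^(8:ℕ) + (-671/16)*t^(9:ℕ) + (47/2)*t^(10:ℕ) + (-147/4)*t^(11:ℕ)) + (23/87500)*((-6)*t^(2:ℕ) + (127/8)*t^(3:ℕ) + (1/4)*t^(4:ℕ) + (-43/8)*t^(5:ℕ) + (-45/4)*t^(6:ℕ) + (169/8)*t^(7:ℕ) + (-1/2)*t^(8:ℕ) + (-67/4)*t^(9:ℕ)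 + 17*t^(10:ℕ) + (-11)*t^(11:ℕ)) + (11/218750)*((-2)*t^(2:ℕ) + (167/64)*t^(3:ℕ) + (-3/4)*t^(4:ℕ) + (81/32)*t^(5:ℕ) + (-375/32)*t^(6:ℕ) + (763/64)*t^(7:ℕ) + (167/32)*t^(8:ℕ) + (-1373/64)*t^(9:ℕ) + (291/16)*t^(10:ℕ) + (-97/16)*t^(11:ℕ)) + (3/312500)*((5/8)*t^(5:ℕ) + (-31/16)*t^(6:ℕ) + (1/2)*t^(7:ℕ) + (77/16)*t^(8:ℕ) + (-143/16)*t^(9:ℕ) + (27/4)*t^(10:ℕ) + (-9/4)*t^(11:ℕ)) + (1/546875)*((-1/4)*t^(7:ℕ) + (3/4)*t^(8:ℕ) + (-17/16)*t^(9:ℕ) + (3/4)*t^(10:ℕ) + (-1/4)*t^(11:ℕ)) - (73/500) := by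
  rcases le_total t (1/2) with h2 | h2
  · 
    exact pos_L2e_A_b7_s0 t (by assumption) (by assumption)
  · 
    exact pos_L2e_A_b7_s1 t (by assumption) (by assumption)

lemma pos_L2e_A_b8_s0 (t : ℝ) (h3 : 0 ≤ t) (h4 : t ≤ (1/2)) :
    0 ≤ 1*((1/2) + (-1/2)*t + 4*t^(2:ℕ) + (-5/2)*t^(3:ℕ) + 11*t^(4:ℕ) + (-5)*t^(5:ℕ) + 14*t^(6:ℕ) + (-5)*t^(7:ℕ) + (17/2)*t^(8:ℕ) + (-5/2)*t^(9:ℕ) + 2*t^(10:ℕ) + (-1/2)*t^(11:ℕ)) + (1/5)*((9/8) + (-19/8)*t + (-29/8)*t^(2:ℕ) + (-71/8)*t^(3:ℕ) + (77/4)*t^(4:ℕ) + (1/4)*t^(5:ℕ) + (255/4)*t^(6:ℕ) + (-19/4)*t^(7:ℕ) + (397/8)*t^(8:ℕ) + (-143/8)*t^(9:ℕ) + (79/8)*t^(10:ℕ) + (-51/8)*t^(11:ℕ)) + (1/25)*((-15/4) + (-109/16)*t + (-1813/32)*t^(2:ℕ)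 + (-677/16)*t^(3:ℕ) + (-399/8)*t^(4:ℕ) + (73/8)*t^(5:ℕ) + (1589/16)*t^(6:ℕ) + (-27/8)*t^(7:ℕ) + (947/8)*t^(8:ℕ) + (-1237/16)*t^(9:ℕ) + (707/32)*t^(10:ℕ) + (-469/16)*t^(11:ℕ)) + (1/125)*((-1) + (-1)*t + 7*t^(2:ℕ) + (-133/4)*t^(3:ℕ) + (-195/4)*t^(4:ℕ) + (609/16)*t^(5:ℕ) + (-375/16)*t^(6:ℕ) + (55/2)*t^(7:ℕ) + (523/8)*t^(8:ℕ) + (-1411/16)*t^(9:ℕ) + (513/16)*t^(10:ℕ) + (-363/8)*t^(11:ℕ)) + (1/625)*((207/16)*t^(2:ℕ) + (61/4)*t^(3:ℕ) + (49/16)*t^(4:ℕ) + (-231/16)*t^(5:ℕ) + (91/16)*t^(6:ℕ) + (-37/8)*t^(7:ℕ) + (625/16)*t^(8:ℕ) + (-671/16)*t^(9:ℕ) + (47/2)*t^(10:ℕ) + (-147/4)*t^(11:ℕ)) + (1/3125)*((-6)*t^(2:ℕ) + (127/8)*t^(3:ℕ) + (1/4)*t^(4:ℕ) + (-43/8)*t^(5:ℕ) + (-45/4)*t^(6:ℕ)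 + (169/8)*t^(7:ℕ) + (-1/2)*t^(8:ℕ) + (-67/4)*t^(9:ℕ) + 17*t^(10:ℕ) + (-11)*t^(11:ℕ)) + (1/15625)*((-2)*t^(2:ℕ) + (167/64)*t^(3:ℕ) + (-3/4)*t^(4:ℕ) + (81/32)*t^(5:ℕ) + (-375/32)*t^(6:ℕ) + (763/64)*t^(7:ℕ) + (167/32)*t^(8:ℕ) + (-1373/64)*t^(9:ℕ) + (291/16)*t^(10:ℕ) + (-97/16)*t^(11:ℕ)) + (1/78125)*((5/8)*t^(5:ℕ) + (-31/16)*t^(6:ℕ) + (1/2)*t^(7:ℕ) + (77/16)*t^(8:ℕ) + (-143/16)*t^(9:ℕ) + (27/4)*t^(10:ℕ) + (-9/4)*t^(11:ℕ)) + (1/390625)*((-1/4)*t^(7:ℕ) + (3/4)*t^(8:ℕ) + (-17/16)*t^(9:ℕ) + (3/4)*t^(10:ℕ) + (-1/4)*t^(11:ℕ)) - (73/500) := by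
  have e : 1*((1/2) + (-1/2)*t + 4*t^(2:ℕ) + (-5/2)*t^(3:ℕ) + 11*t^(4:ℕ) + (-5)*t^(5:ℕ) + 14*t^(6:ℕ) + (-5)*t^(7:ℕ) + (17/2)*t^(8:ℕ) + (-5/2)*t^(9:ℕ) + 2*t^(10:ℕ) + (-1/2)*t^(11:ℕ)) + (1/5)*((9/8) + (-19/8)*t + (-29/8)*t^(2:ℕ) + (-71/8)*t^(3:ℕ) + (77/4)*t^(4:ℕ) + (1/4)*t^(5:ℕ) + (255/4)*t^(6:ℕ) + (-19/4)*t^(7:ℕ) + (397/8)*t^(8:ℕ) + (-143/8)*t^(9:ℕ) + (79/8)*t^(10:ℕ) + (-51/8)*t^(11:ℕ)) + (1/25)*((-15/4) + (-109/16)*t + (-1813/32)*t^(2:ℕ) + (-677/16)*t^(3:ℕ) + (-399/8)*t^(4:ℕ) + (73/8)*t^(5:ℕ) + (1589/16)*t^(6:ℕ) + (-27/8)*t^(7:ℕ) + (947/8)*t^(8:ℕ) + (-1237/16)*t^(9:ℕ) + (707/32)*t^(10:ℕ) + (-469/16)*t^(11:ℕ)) + (1/125)*((-1) + (-1)*t + 7*t^(2:ℕ) + (-133/4)*t^(3:ℕ)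 + (-195/4)*t^(4:ℕ) + (609/16)*t^(5:ℕ) + (-375/16)*t^(6:ℕ) + (55/2)*t^(7:ℕ) + (523/8)*t^(8:ℕ) + (-1411/16)*t^(9:ℕ) + (513/16)*t^(10:ℕ) + (-363/8)*t^(11:ℕ)) + (1/625)*((207/16)*t^(2:ℕ) + (61/4)*t^(3:ℕ) + (49/16)*t^(4:ℕ) + (-231/16)*t^(5:ℕ) + (91/16)*t^(6:ℕ) + (-37/8)*t^(7:ℕ) + (625/16)*t^(8:ℕ) + (-671/16)*t^(9:ℕ) + (47/2)*t^(10:ℕ) + (-147/4)*t^(11:ℕ)) + (1/3125)*((-6)*t^(2:ℕ) + (127/8)*t^(3:ℕ) + (1/4)*t^(4:ℕ) + (-43/8)*t^(5:ℕ) + (-45/4)*t^(6:ℕ) + (169/8)*t^(7:ℕ) + (-1/2)*t^(8:ℕ) + (-67/4)*t^(9:ℕ) + 17*t^(10:ℕ) + (-11)*t^(11:ℕ)) + (1/15625)*((-2)*t^(2:ℕ) + (167/64)*t^(3:ℕ) + (-3/4)*t^(4:ℕ) + (81/32)*t^(5:ℕ) + (-375/32)*t^(6:ℕ) + (763/64)*t^(7:ℕ) + (167/32)*t^(8:ℕ)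 + (-1373/64)*t^(9:ℕ) + (291/16)*t^(10:ℕ) + (-97/16)*t^(11:ℕ)) + (1/78125)*((5/8)*t^(5:ℕ) + (-31/16)*t^(6:ℕ) + (1/2)*t^(7:ℕ) + (77/16)*t^(8:ℕ) + (-143/16)*t^(9:ℕ) + (27/4)*t^(10:ℕ) + (-9/4)*t^(11:ℕ)) + (1/390625)*((-1/4)*t^(7:ℕ) + (3/4)*t^(8:ℕ) + (-17/16)*t^(9:ℕ) + (3/4)*t^(10:ℕ) + (-1/4)*t^(11:ℕ)) - (73/500) = (107776/125)*((1/2) - t)^(11:ℕ) + (1024832/125)*(t - 0)*((1/2) - t)^(10:ℕ) + (548747216/15625)*(t - 0)^(2:ℕ)*((1/2) - t)^(9:ℕ) + (1372109532/15625)*(t - 0)^(3:ℕ)*((1/2) - t)^(8:ℕ) + (2173636344/15625)*(t - 0)^(4:ℕ)*((1/2) - t)^(7:ℕ) + (2209072506/15625)*(t - 0)^(5:ℕ)*((1/2) - t)^(6:ℕ) + (6887351253/78125)*(t - 0)^(6:ℕ)*((1/2) - t)^(5:ℕ) + (46547146119/1562500)*(t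 - 0)^(7:ℕ)*((1/2) - t)^(4:ℕ) + (1745945679/312500)*(t - 0)^(8:ℕ)*((1/2) - t)^(3:ℕ) + (26212968131/6250000)*(t - 0)^(9:ℕ)*((1/2) - t)^(2:ℕ) + (4307900501/1250000)*(t - 0)^(10:ℕ)*((1/2) - t) + (706461223/781250)*(t - 0)^(11:ℕ) := by
    ring
  rw [e]
  have a3 : 0 ≤ t - 0 := by linarith
  have a4 : 0 ≤ (1/2) - t := by linarith
  generalize t - 0 = t1 at a3 ⊢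
  generalize (1/2) - t = t2 at a4 ⊢
  positivity

lemma pos_L2e_A_b8_s1 (t : ℝ) (h3 : (1/2) ≤ t) (h4 : t ≤ 1) :
    0 ≤ 1*((1/2) + (-1/2)*t + 4*t^(2:ℕ) + (-5/2)*t^(3:ℕ) + 11*t^(4:ℕ) + (-5)*t^(5:ℕ) + 14*t^(6:ℕ) + (-5)*t^(7:ℕ) + (17/2)*t^(8:ℕ) + (-5/2)*t^(9:ℕ) + 2*t^(10:ℕ) + (-1/2)*t^(11:ℕ)) + (1/5)*((9/8) + (-19/8)*t + (-29/8)*t^(2:ℕ) + (-71/8)*t^(3:ℕ) + (77/4)*t^(4:ℕ) + (1/4)*t^(5:ℕ) + (255/4)*t^(6:ℕ) + (-19/4)*t^(7:ℕ) + (397/8)*t^(8:ℕ) + (-143/8)*t^(9:ℕ) + (79/8)*t^(10:ℕ) + (-51/8)*t^(11:ℕ)) + (1/25)*((-15/4) + (-109/16)*t + (-1813/32)*t^(2:ℕ) + (-677/16)*t^(3:ℕ) + (-399/8)*t^(4:ℕ) + (73/8)*t^(5:ℕ) + (1589/16)*t^(6:ℕ) + (-27/8)*t^(7:ℕ) + (947/8)*t^(8:ℕ) +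 (-1237/16)*t^(9:ℕ) + (707/32)*t^(10:ℕ) + (-469/16)*t^(11:ℕ)) + (1/125)*((-1) + (-1)*t + 7*t^(2:ℕ) + (-133/4)*t^(3:ℕ) + (-195/4)*t^(4:ℕ) + (609/16)*t^(5:ℕ) + (-375/16)*t^(6:ℕ) + (55/2)*t^(7:ℕ) + (523/8)*t^(8:ℕ) + (-1411/16)*t^(9:ℕ) + (513/16)*t^(10:ℕ) + (-363/8)*t^(11:ℕ)) + (1/625)*((207/16)*t^(2:ℕ) + (61/4)*t^(3:ℕ) + (49/16)*t^(4:ℕ) + (-231/16)*t^(5:ℕ) + (91/16)*t^(6:ℕ) + (-37/8)*t^(7:ℕ) + (625/16)*t^(8:ℕ) + (-671/16)*t^(9:ℕ) + (47/2)*t^(10:ℕ) + (-147/4)*t^(11:ℕ)) + (1/3125)*((-6)*t^(2:ℕ) + (127/8)*t^(3:ℕ) + (1/4)*t^(4:ℕ) + (-43/8)*t^(5:ℕ) + (-45/4)*t^(6:ℕ) + (169/8)*t^(7:ℕ) + (-1/2)*t^(8:ℕ) + (-67/4)*t^(9:ℕ) + 17*t^(10:ℕ) + (-11)*t^(11:ℕ)) + (1/15625)*((-2)*t^(2:ℕ)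 + (167/64)*t^(3:ℕ) + (-3/4)*t^(4:ℕ) + (81/32)*t^(5:ℕ) + (-375/32)*t^(6:ℕ) + (763/64)*t^(7:ℕ) + (167/32)*t^(8:ℕ) + (-1373/64)*t^(9:ℕ) + (291/16)*t^(10:ℕ) + (-97/16)*t^(11:ℕ)) + (1/78125)*((5/8)*t^(5:ℕ) + (-31/16)*t^(6:ℕ) + (1/2)*t^(7:ℕ) + (77/16)*t^(8:ℕ) + (-143/16)*t^(9:ℕ) + (27/4)*t^(10:ℕ) + (-9/4)*t^(11:ℕ)) + (1/390625)*((-1/4)*t^(7:ℕ) + (3/4)*t^(8:ℕ) + (-17/16)*t^(9:ℕ) + (3/4)*t^(10:ℕ) + (-1/4)*t^(11:ℕ)) - (73/500) := by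
  have e : 1*((1/2) + (-1/2)*t + 4*t^(2:ℕ) + (-5/2)*t^(3:ℕ) + 11*t^(4:ℕ) + (-5)*t^(5:ℕ) + 14*t^(6:ℕ) + (-5)*t^(7:ℕ) + (17/2)*t^(8:ℕ) + (-5/2)*t^(9:ℕ) + 2*t^(10:ℕ) + (-1/2)*t^(11:ℕ)) + (1/5)*((9/8) + (-19/8)*t + (-29/8)*t^(2:ℕ) + (-71/8)*t^(3:ℕ) + (77/4)*t^(4:ℕ) + (1/4)*t^(5:ℕ) + (255/4)*t^(6:ℕ) + (-19/4)*t^(7:ℕ) + (397/8)*t^(8:ℕ) + (-143/8)*t^(9:ℕ) + (79/8)*t^(10:ℕ) + (-51/8)*t^(11:ℕ)) + (1/25)*((-15/4) + (-109/16)*t + (-1813/32)*t^(2:ℕ) + (-677/16)*t^(3:ℕ) + (-399/8)*t^(4:ℕ) + (73/8)*t^(5:ℕ) + (1589/16)*t^(6:ℕ) + (-27/8)*t^(7:ℕ) + (947/8)*t^(8:ℕ) + (-1237/16)*t^(9:ℕ) + (707/32)*t^(10:ℕ) + (-469/16)*t^(11:ℕ)) + (1/125)*((-1) + (-1)*t + 7*t^(2:ℕ) + (-133/4)*t^(3:ℕ)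 + (-195/4)*t^(4:ℕ) + (609/16)*t^(5:ℕ) + (-375/16)*t^(6:ℕ) + (55/2)*t^(7:ℕ) + (523/8)*t^(8:ℕ) + (-1411/16)*t^(9:ℕ) + (513/16)*t^(10:ℕ) + (-363/8)*t^(11:ℕ)) + (1/625)*((207/16)*t^(2:ℕ) + (61/4)*t^(3:ℕ) + (49/16)*t^(4:ℕ) + (-231/16)*t^(5:ℕ) + (91/16)*t^(6:ℕ) + (-37/8)*t^(7:ℕ) + (625/16)*t^(8:ℕ) + (-671/16)*t^(9:ℕ) + (47/2)*t^(10:ℕ) + (-147/4)*t^(11:ℕ)) + (1/3125)*((-6)*t^(2:ℕ) + (127/8)*t^(3:ℕ) + (1/4)*t^(4:ℕ) + (-43/8)*t^(5:ℕ) + (-45/4)*t^(6:ℕ) + (169/8)*t^(7:ℕ) + (-1/2)*t^(8:ℕ) + (-67/4)*t^(9:ℕ) + 17*t^(10:ℕ) + (-11)*t^(11:ℕ)) + (1/15625)*((-2)*t^(2:ℕ) + (167/64)*t^(3:ℕ) + (-3/4)*t^(4:ℕ) + (81/32)*t^(5:ℕ) + (-375/32)*t^(6:ℕ) + (763/64)*t^(7:ℕ) + (167/32)*t^(8:ℕ)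 + (-1373/64)*t^(9:ℕ) + (291/16)*t^(10:ℕ) + (-97/16)*t^(11:ℕ)) + (1/78125)*((5/8)*t^(5:ℕ) + (-31/16)*t^(6:ℕ) + (1/2)*t^(7:ℕ) + (77/16)*t^(8:ℕ) + (-143/16)*t^(9:ℕ) + (27/4)*t^(10:ℕ) + (-9/4)*t^(11:ℕ)) + (1/390625)*((-1/4)*t^(7:ℕ) + (3/4)*t^(8:ℕ) + (-17/16)*t^(9:ℕ) + (3/4)*t^(10:ℕ) + (-1/4)*t^(11:ℕ)) - (73/500) = (706461223/781250)*(1 - t)^(11:ℕ) + (102797672743/6250000)*(t - (1/2))*(1 - t)^(10:ℕ) + (838794670511/6250000)*(t - (1/2))^(2:ℕ)*(1 - t)^(9:ℕ) + (2010017288379/3125000)*(t - (1/2))^(3:ℕ)*(1 - t)^(8:ℕ) + (628257651639/312500)*(t - (1/2))^(4:ℕ)*(1 - t)^(7:ℕ) + (3367712711919/781250)*(t - (1/2))^(5:ℕ)*(1 - t)^(6:ℕ) + (2532993668547/390625)*(t - (1/2))^(6:ℕ)*(1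 - t)^(5:ℕ) + (2678645014302/390625)*(t - (1/2))^(7:ℕ)*(1 - t)^(4:ℕ) + (1954545025776/390625)*(t - (1/2))^(8:ℕ)*(1 - t)^(3:ℕ) + (37524348656/15625)*(t - (1/2))^(9:ℕ)*(1 - t)^(2:ℕ) + (266625585328/390625)*(t - (1/2))^(10:ℕ)*(1 - t) + (33975821792/390625)*(t - (1/2))^(11:ℕ) := by
    ring
  rw [e]
  have a3 : 0 ≤ t - (1/2) := by linarith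
  have a4 : 0 ≤ 1 - t := by linarith
  generalize t - (1/2) = t1 at a3 ⊢
  generalize 1 - t = t2 at a4 ⊢
  positivity

lemma pos_L2e_A_b8 (t : ℝ) (h3 : 0 ≤ t) (h4 : t ≤ 1) :
    0 ≤ 1*((1/2) + (-1/2)*t + 4*t^(2:ℕ) + (-5/2)*t^(3:ℕ) + 11*t^(4:ℕ) + (-5)*t^(5:ℕ) + 14*t^(6:ℕ) + (-5)*t^(7:ℕ) + (17/2)*t^(8:ℕ) + (-5/2)*t^(9:ℕ) + 2*t^(10:ℕ) + (-1/2)*t^(11:ℕ)) + (1/5)*((9/8) + (-19/8)*t + (-29/8)*t^(2:ℕ) + (-71/8)*t^(3:ℕ) + (77/4)*t^(4:ℕ) + (1/4)*t^(5:ℕ) + (255/4)*t^(6:ℕ) + (-19/4)*t^(7:ℕ) + (397/8)*t^(8:ℕ) + (-143/8)*t^(9:ℕ) + (79/8)*t^(10:ℕ) + (-51/8)*t^(11:ℕ)) + (1/25)*((-15/4) + (-109/16)*t + (-1813/32)*t^(2:ℕ) + (-677/16)*t^(3:ℕ) + (-399/8)*t^(4:ℕ) + (73/8)*t^(5:ℕ)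 + (1589/16)*t^(6:ℕ) + (-27/8)*t^(7:ℕ) + (947/8)*t^(8:ℕ) + (-1237/16)*t^(9:ℕ) + (707/32)*t^(10:ℕ) + (-469/16)*t^(11:ℕ)) + (1/125)*((-1) + (-1)*t + 7*t^(2:ℕ) + (-133/4)*t^(3:ℕ) + (-195/4)*t^(4:ℕ) + (609/16)*t^(5:ℕ) + (-375/16)*t^(6:ℕ) + (55/2)*t^(7:ℕ) + (523/8)*t^(8:ℕ) + (-1411/16)*t^(9:ℕ) + (513/16)*t^(10:ℕ) + (-363/8)*t^(11:ℕ)) + (1/625)*((207/16)*t^(2:ℕ) + (61/4)*t^(3:ℕ) + (49/16)*t^(4:ℕ) + (-231/16)*t^(5:ℕ) + (91/16)*t^(6:ℕ) + (-37/8)*t^(7:ℕ) + (625/16)*t^(8:ℕ) + (-671/16)*t^(9:ℕ) + (47/2)*t^(10:ℕ) + (-147/4)*t^(11:ℕ)) + (1/3125)*((-6)*t^(2:ℕ) + (127/8)*t^(3:ℕ) + (1/4)*t^(4:ℕ) + (-43/8)*t^(5:ℕ) + (-45/4)*t^(6:ℕ) + (169/8)*t^(7:ℕ) + (-1/2)*t^(8:ℕ) + (-67/4)*t^(9:ℕ)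 + 17*t^(10:ℕ) + (-11)*t^(11:ℕ)) + (1/15625)*((-2)*t^(2:ℕ) + (167/64)*t^(3:ℕ) + (-3/4)*t^(4:ℕ) + (81/32)*t^(5:ℕ) + (-375/32)*t^(6:ℕ) + (763/64)*t^(7:ℕ) + (167/32)*t^(8:ℕ) + (-1373/64)*t^(9:ℕ) + (291/16)*t^(10:ℕ) + (-97/16)*t^(11:ℕ)) + (1/78125)*((5/8)*t^(5:ℕ) + (-31/16)*t^(6:ℕ) + (1/2)*t^(7:ℕ) + (77/16)*t^(8:ℕ) + (-143/16)*t^(9:ℕ) + (27/4)*t^(10:ℕ) + (-9/4)*t^(11:ℕ)) + (1/390625)*((-1/4)*t^(7:ℕ) + (3/4)*t^(8:ℕ) + (-17/16)*t^(9:ℕ) + (3/4)*t^(10:ℕ) + (-1/4)*t^(11:ℕ)) - (73/500) := by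
  rcases le_total t (1/2) with h2 | h2
  · 
    exact pos_L2e_A_b8_s0 t (by assumption) (by assumption)
  · 
    exact pos_L2e_A_b8_s1 t (by assumption) (by assumption)

lemma pos_L2e_A_id (d : ℝ) (C0 C1 C2 C3 C4 C5 C6 C7 C8 : ℝ) :
    C0 + d*C1 + d^(2:ℕ)*C2 + d^(3:ℕ)*C3 + d^(4:ℕ)*C4 + d^(5:ℕ)*C5 + d^(6:ℕ)*C6 + d^(7:ℕ)*C7 + d^(8:ℕ)*C8 = (73/500) + ((2251875390625/256)*((1/5) - d)^(8:ℕ)*(1*C0 + (1/7)*C1 + (1/49)*C2 + (1/343)*C3 + (1/2401)*C4 + (1/16807)*C5 + (1/117649)*C6 + (1/823543)*C7 + (1/5764801)*C8 - (73/500)) + (2251875390625/32)*(d - (1/7))*((1/5) - d)^(7:ℕ)*(1*C0 + (3/20)*C1 + (11/490)*C2 + (23/6860)*C3 + (6/12005)*C4 + (5/67228)*C5 + (13/1176490)*C6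 + (27/16470860)*C7 + (1/4117715)*C8 - (73/500)) + (15763127734375/64)*(d - (1/7))^(2:ℕ)*((1/5) - d)^(6:ℕ)*(1*C0 + (11/70)*C1 + (211/8575)*C2 + (461/120050)*C3 + (251/420175)*C4 + (109/1176490)*C5 + (59/4117715)*C6 + (13/5882450)*C7 + (1/2941225)*C8 - (73/500)) + (15763127734375/32)*(d - (1/7))^(3:ℕ)*((1/5) - d)^(5:ℕ)*(1*C0 + (23/140)*C1 + (461/17150)*C2 + (5259/1200500)*C3 + (1494/2100875)*C4 + (1353/11764900)*C5 + (109/5882450)*C6 + (1/336140)*C7 + (1/2100875)*C8 - (73/500)) + (78815638671875/128)*(d - (1/7))^(4:ℕ)*((1/5) - d)^(4:ℕ)*(1*C0 + (6/35)*C1 + (251/8575)*C2 + (1494/300125)*C3 + (44283/52521875)*C4 + (1494/10504375)*C5 + (251/10504375)*C6 + (6/1500625)*C7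 + (1/1500625)*C8 - (73/500)) + (15763127734375/32)*(d - (1/7))^(5:ℕ)*((1/5) - d)^(3:ℕ)*(1*C0 + (5/28)*C1 + (109/3430)*C2 + (1353/240100)*C3 + (1494/1500625)*C4 + (5259/30012500)*C5 + (461/15006250)*C6 + (23/4287500)*C7 + (1/1071875)*C8 - (73/500)) + (15763127734375/64)*(d - (1/7))^(6:ℕ)*((1/5) - d)^(2:ℕ)*(1*C0 + (13/70)*C1 + (59/1715)*C2 + (109/17150)*C3 + (251/214375)*C4 + (461/2143750)*C5 + (211/5359375)*C6 + (11/1531250)*C7 + (1/765625)*C8 - (73/500)) + (2251875390625/32)*(d - (1/7))^(7:ℕ)*((1/5) - d)*(1*C0 + (27/140)*C1 + (13/350)*C2 + (1/140)*C3 + (6/4375)*C4 + (23/87500)*C5 + (11/218750)*C6 + (3/312500)*C7 + (1/546875)*C8 - (73/500)) + (2251875390625/256)*(d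 - (1/7))^(8:ℕ)*(1*C0 + (1/5)*C1 + (1/25)*C2 + (1/125)*C3 + (1/625)*C4 + (1/3125)*C5 + (1/15625)*C6 + (1/78125)*C7 + (1/390625)*C8 - (73/500))) := by
  ring

lemma pos_L2e_A_gen (d1 d2 B0 B1 B2 B3 B4 B5 B6 B7 B8 : ℝ) (a1 : 0 ≤ d1) (a2 : 0 ≤ d2) (b0 : 0 ≤ B0) (b1 : 0 ≤ B1) (b2 : 0 ≤ B2) (b3 : 0 ≤ B3) (b4 : 0 ≤ B4) (b5 : 0 ≤ B5) (b6 : 0 ≤ B6) (b7 : 0 ≤ B7) (b8 : 0 ≤ B8) :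
    0 < (73/500) + ((2251875390625/256)*d2^(8:ℕ)*(B0) + (2251875390625/32)*d1*d2^(7:ℕ)*(B1) + (15763127734375/64)*d1^(2:ℕ)*d2^(6:ℕ)*(B2) + (15763127734375/32)*d1^(3:ℕ)*d2^(5:ℕ)*(B3) + (78815638671875/128)*d1^(4:ℕ)*d2^(4:ℕ)*(B4) + (15763127734375/32)*d1^(5:ℕ)*d2^(3:ℕ)*(B5) + (15763127734375/64)*d1^(6:ℕ)*d2^(2:ℕ)*(B6) + (2251875390625/32)*d1^(7:ℕ)*d2*(B7) + (2251875390625/256)*d1^(8:ℕ)*(B8)) := by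
  positivity

lemma pos_L2e_A_core (d C0 C1 C2 C3 C4 C5 C6 C7 C8 : ℝ) (h1 : (1/7) ≤ d) (h2 : d ≤ (1/5))
    (b0 : 0 ≤ 1*C0 + (1/7)*C1 + (1/49)*C2 + (1/343)*C3 + (1/2401)*C4 + (1/16807)*C5 + (1/117649)*C6 + (1/823543)*C7 + (1/5764801)*C8 - (73/500))
    (b1 : 0 ≤ 1*C0 + (3/20)*C1 + (11/490)*C2 + (23/6860)*C3 + (6/12005)*C4 + (5/67228)*C5 + (13/1176490)*C6 + (27/16470860)*C7 + (1/4117715)*C8 - (73/500))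
    (b2 : 0 ≤ 1*C0 + (11/70)*C1 + (211/8575)*C2 + (461/120050)*C3 + (251/420175)*C4 + (109/1176490)*C5 + (59/4117715)*C6 + (13/5882450)*C7 + (1/2941225)*C8 - (73/500))
    (b3 : 0 ≤ 1*C0 + (23/140)*C1 + (461/17150)*C2 + (5259/1200500)*C3 + (1494/2100875)*C4 + (1353/11764900)*C5 + (109/5882450)*C6 + (1/336140)*C7 + (1/2100875)*C8 - (73/500))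
    (b4 : 0 ≤ 1*C0 + (6/35)*C1 + (251/8575)*C2 + (1494/300125)*C3 + (44283/52521875)*C4 + (1494/10504375)*C5 + (251/10504375)*C6 + (6/1500625)*C7 + (1/1500625)*C8 - (73/500))
    (b5 : 0 ≤ 1*C0 + (5/28)*C1 + (109/3430)*C2 + (1353/240100)*C3 + (1494/1500625)*C4 + (5259/30012500)*C5 + (461/15006250)*C6 + (23/4287500)*C7 + (1/1071875)*C8 - (73/500))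
    (b6 : 0 ≤ 1*C0 + (13/70)*C1 + (59/1715)*C2 + (109/17150)*C3 + (251/214375)*C4 + (461/2143750)*C5 + (211/5359375)*C6 + (11/1531250)*C7 + (1/765625)*C8 - (73/500))
    (b7 : 0 ≤ 1*C0 + (27/140)*C1 + (13/350)*C2 + (1/140)*C3 + (6/4375)*C4 + (23/87500)*C5 + (11/218750)*C6 + (3/312500)*C7 + (1/546875)*C8 - (73/500))
    (b8 : 0 ≤ 1*C0 + (1/5)*C1 + (1/25)*C2 + (1/125)*C3 + (1/625)*C4 + (1/3125)*C5 + (1/15625)*C6 + (1/78125)*C7 + (1/390625)*C8 - (73/500)) :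
    0 < C0 + d*C1 + d^(2:ℕ)*C2 + d^(3:ℕ)*C3 + d^(4:ℕ)*C4 + d^(5:ℕ)*C5 + d^(6:ℕ)*C6 + d^(7:ℕ)*C7 + d^(8:ℕ)*C8 := by
  rw [pos_L2e_A_id]
  exact pos_L2e_A_gen _ _ _ _ _ _ _ _ _ _ _ (sub_nonneg.2 h1) (sub_nonneg.2 h2) b0 b1 b2 b3 b4 b5 b6 b7 b8

lemma pos_L2e_A (d t : ℝ) (h1 : (1/7) ≤ d) (h2 : d ≤ (1/5)) (h3 : 0 ≤ t) (h4 : t ≤ 1) :
    0 < (1/2) + (-1/2)*t + 4*t^(2:ℕ) + (-5/2)*t^(3:ℕ) + 11*t^(4:ℕ) + (-5)*t^(5:ℕ) + 14*t^(6:ℕ) + (-5)*t^(7:ℕ) + (17/2)*t^(8:ℕ) + (-5/2)*t^(9:ℕ) + 2*t^(10:ℕ) + (-1/2)*t^(11:ℕ) + (9/8)*d + (-19/8)*d*t + (-29/8)*d*t^(2:ℕ) + (-71/8)*d*t^(3:ℕ) + (77/4)*d*t^(4:ℕ) + (1/4)*d*t^(5:ℕ) + (255/4)*d*t^(6:ℕ) + (-19/4)*d*t^(7:ℕ) + (397/8)*d*t^(8:ℕ)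 + (-143/8)*d*t^(9:ℕ) + (79/8)*d*t^(10:ℕ) + (-51/8)*d*t^(11:ℕ) + (-15/4)*d^(2:ℕ) + (-109/16)*d^(2:ℕ)*t + (-1813/32)*d^(2:ℕ)*t^(2:ℕ) + (-677/16)*d^(2:ℕ)*t^(3:ℕ) + (-399/8)*d^(2:ℕ)*t^(4:ℕ) + (73/8)*d^(2:ℕ)*t^(5:ℕ) + (1589/16)*d^(2:ℕ)*t^(6:ℕ) + (-27/8)*d^(2:ℕ)*t^(7:ℕ) + (947/8)*d^(2:ℕ)*t^(8:ℕ) + (-1237/16)*d^(2:ℕ)*t^(9:ℕ) + (707/32)*d^(2:ℕ)*t^(10:ℕ) + (-469/16)*d^(2:ℕ)*t^(11:ℕ) + (-1)*d^(3:ℕ) + (-1)*d^(3:ℕ)*t + 7*d^(3:ℕ)*t^(2:ℕ) + (-133/4)*d^(3:ℕ)*t^(3:ℕ) + (-195/4)*d^(3:ℕ)*t^(4:ℕ) + (609/16)*d^(3:ℕ)*t^(5:ℕ) + (-375/16)*d^(3:ℕ)*t^(6:ℕ) + (55/2)*d^(3:ℕ)*t^(7:ℕ) + (523/8)*d^(3:ℕ)*t^(8:ℕ) + (-1411/16)*d^(3:ℕ)*t^(9:ℕ) + (513/16)*d^(3:ℕ)*t^(10:ℕ) + (-363/8)*d^(3:ℕ)*t^(11:ℕ)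 + (207/16)*d^(4:ℕ)*t^(2:ℕ) + (61/4)*d^(4:ℕ)*t^(3:ℕ) + (49/16)*d^(4:ℕ)*t^(4:ℕ) + (-231/16)*d^(4:ℕ)*t^(5:ℕ) + (91/16)*d^(4:ℕ)*t^(6:ℕ) + (-37/8)*d^(4:ℕ)*t^(7:ℕ) + (625/16)*d^(4:ℕ)*t^(8:ℕ) + (-671/16)*d^(4:ℕ)*t^(9:ℕ) + (47/2)*d^(4:ℕ)*t^(10:ℕ) + (-147/4)*d^(4:ℕ)*t^(11:ℕ) + (-6)*d^(5:ℕ)*t^(2:ℕ) + (127/8)*d^(5:ℕ)*t^(3:ℕ) + (1/4)*d^(5:ℕ)*t^(4:ℕ) + (-43/8)*d^(5:ℕ)*t^(5:ℕ) + (-45/4)*d^(5:ℕ)*t^(6:ℕ) + (169/8)*d^(5:ℕ)*t^(7:ℕ) + (-1/2)*d^(5:ℕ)*t^(8:ℕ) + (-67/4)*d^(5:ℕ)*t^(9:ℕ) + 17*d^(5:ℕ)*t^(10:ℕ) + (-11)*d^(5:ℕ)*t^(11:ℕ) + (-2)*d^(6:ℕ)*t^(2:ℕ) + (167/64)*d^(6:ℕ)*t^(3:ℕ) + (-3/4)*d^(6:ℕ)*t^(4:ℕ) + (81/32)*d^(6:ℕ)*t^(5:ℕ) + (-375/32)*d^(6:ℕ)*t^(6:ℕ) + (763/64)*d^(6:ℕ)*t^(7:ℕ)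 + (167/32)*d^(6:ℕ)*t^(8:ℕ) + (-1373/64)*d^(6:ℕ)*t^(9:ℕ) + (291/16)*d^(6:ℕ)*t^(10:ℕ) + (-97/16)*d^(6:ℕ)*t^(11:ℕ) + (5/8)*d^(7:ℕ)*t^(5:ℕ) + (-31/16)*d^(7:ℕ)*t^(6:ℕ) + (1/2)*d^(7:ℕ)*t^(7:ℕ) + (77/16)*d^(7:ℕ)*t^(8:ℕ) + (-143/16)*d^(7:ℕ)*t^(9:ℕ) + (27/4)*d^(7:ℕ)*t^(10:ℕ) + (-9/4)*d^(7:ℕ)*t^(11:ℕ) + (-1/4)*d^(8:ℕ)*t^(7:ℕ) + (3/4)*d^(8:ℕ)*t^(8:ℕ) + (-17/16)*d^(8:ℕ)*t^(9:ℕ) + (3/4)*d^(8:ℕ)*t^(10:ℕ) + (-1/4)*d^(8:ℕ)*t^(11:ℕ) := by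
  have e0 : (1/2) + (-1/2)*t + 4*t^(2:ℕ) + (-5/2)*t^(3:ℕ) + 11*t^(4:ℕ) + (-5)*t^(5:ℕ) + 14*t^(6:ℕ) + (-5)*t^(7:ℕ) + (17/2)*t^(8:ℕ) + (-5/2)*t^(9:ℕ) + 2*t^(10:ℕ) + (-1/2)*t^(11:ℕ) + (9/8)*d + (-19/8)*d*t + (-29/8)*d*t^(2:ℕ) + (-71/8)*d*t^(3:ℕ) + (77/4)*d*t^(4:ℕ) + (1/4)*d*t^(5:ℕ) + (255/4)*d*t^(6:ℕ) + (-19/4)*d*t^(7:ℕ) + (397/8)*d*t^(8:ℕ) + (-143/8)*d*t^(9:ℕ) + (79/8)*d*t^(10:ℕ) + (-51/8)*d*t^(11:ℕ) + (-15/4)*d^(2:ℕ) + (-109/16)*d^(2:ℕ)*t + (-1813/32)*d^(2:ℕ)*t^(2:ℕ) + (-677/16)*d^(2:ℕ)*t^(3:ℕ) + (-399/8)*d^(2:ℕ)*t^(4:ℕ) + (73/8)*d^(2:ℕ)*t^(5:ℕ) + (1589/16)*d^(2:ℕ)*t^(6:ℕ) + (-27/8)*d^(2:ℕ)*t^(7:ℕ) + (947/8)*d^(2:ℕ)*t^(8:ℕ) + (-1237/16)*d^(2:ℕ)*t^(9:ℕ) + (707/32)*d^(2:ℕ)*t^(10:ℕ)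 + (-469/16)*d^(2:ℕ)*t^(11:ℕ) + (-1)*d^(3:ℕ) + (-1)*d^(3:ℕ)*t + 7*d^(3:ℕ)*t^(2:ℕ) + (-133/4)*d^(3:ℕ)*t^(3:ℕ) + (-195/4)*d^(3:ℕ)*t^(4:ℕ) + (609/16)*d^(3:ℕ)*t^(5:ℕ) + (-375/16)*d^(3:ℕ)*t^(6:ℕ) + (55/2)*d^(3:ℕ)*t^(7:ℕ) + (523/8)*d^(3:ℕ)*t^(8:ℕ) + (-1411/16)*d^(3:ℕ)*t^(9:ℕ) + (513/16)*d^(3:ℕ)*t^(10:ℕ) + (-363/8)*d^(3:ℕ)*t^(11:ℕ) + (207/16)*d^(4:ℕ)*t^(2:ℕ) + (61/4)*d^(4:ℕ)*t^(3:ℕ) + (49/16)*d^(4:ℕ)*t^(4:ℕ) + (-231/16)*d^(4:ℕ)*t^(5:ℕ) + (91/16)*d^(4:ℕ)*t^(6:ℕ) + (-37/8)*d^(4:ℕ)*t^(7:ℕ) + (625/16)*d^(4:ℕ)*t^(8:ℕ) + (-671/16)*d^(4:ℕ)*t^(9:ℕ) + (47/2)*d^(4:ℕ)*t^(10:ℕ) + (-147/4)*d^(4:ℕ)*t^(11:ℕ) + (-6)*d^(5:ℕ)*t^(2:ℕ) + (127/8)*d^(5:ℕ)*t^(3:ℕ) + (1/4)*d^(5:ℕ)*t^(4:ℕ)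 + (-43/8)*d^(5:ℕ)*t^(5:ℕ) + (-45/4)*d^(5:ℕ)*t^(6:ℕ) + (169/8)*d^(5:ℕ)*t^(7:ℕ) + (-1/2)*d^(5:ℕ)*t^(8:ℕ) + (-67/4)*d^(5:ℕ)*t^(9:ℕ) + 17*d^(5:ℕ)*t^(10:ℕ) + (-11)*d^(5:ℕ)*t^(11:ℕ) + (-2)*d^(6:ℕ)*t^(2:ℕ) + (167/64)*d^(6:ℕ)*t^(3:ℕ) + (-3/4)*d^(6:ℕ)*t^(4:ℕ) + (81/32)*d^(6:ℕ)*t^(5:ℕ) + (-375/32)*d^(6:ℕ)*t^(6:ℕ) + (763/64)*d^(6:ℕ)*t^(7:ℕ) + (167/32)*d^(6:ℕ)*t^(8:ℕ) + (-1373/64)*d^(6:ℕ)*t^(9:ℕ) + (291/16)*d^(6:ℕ)*t^(10:ℕ) + (-97/16)*d^(6:ℕ)*t^(11:ℕ) + (5/8)*d^(7:ℕ)*t^(5:ℕ) + (-31/16)*d^(7:ℕ)*t^(6:ℕ) + (1/2)*d^(7:ℕ)*t^(7:ℕ) + (77/16)*d^(7:ℕ)*t^(8:ℕ) + (-143/16)*d^(7:ℕ)*t^(9:ℕ) + (27/4)*d^(7:ℕ)*t^(10:ℕ) + (-9/4)*d^(7:ℕ)*t^(11:ℕ) + (-1/4)*d^(8:ℕ)*t^(7:ℕ) + (3/4)*d^(8:ℕ)*t^(8:ℕ)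 + (-17/16)*d^(8:ℕ)*t^(9:ℕ) + (3/4)*d^(8:ℕ)*t^(10:ℕ) + (-1/4)*d^(8:ℕ)*t^(11:ℕ) = ((1/2) + (-1/2)*t + 4*t^(2:ℕ) + (-5/2)*t^(3:ℕ) + 11*t^(4:ℕ) + (-5)*t^(5:ℕ) + 14*t^(6:ℕ) + (-5)*t^(7:ℕ) + (17/2)*t^(8:ℕ) + (-5/2)*t^(9:ℕ) + 2*t^(10:ℕ) + (-1/2)*t^(11:ℕ)) + d*((9/8) + (-19/8)*t + (-29/8)*t^(2:ℕ) + (-71/8)*t^(3:ℕ) + (77/4)*t^(4:ℕ) + (1/4)*t^(5:ℕ) + (255/4)*t^(6:ℕ) + (-19/4)*t^(7:ℕ) + (397/8)*t^(8:ℕ) + (-143/8)*t^(9:ℕ) + (79/8)*t^(10:ℕ) + (-51/8)*t^(11:ℕ)) + d^(2:ℕ)*((-15/4) + (-109/16)*t + (-1813/32)*t^(2:ℕ) + (-677/16)*t^(3:ℕ) + (-399/8)*t^(4:ℕ) + (73/8)*t^(5:ℕ) + (1589/16)*t^(6:ℕ) + (-27/8)*t^(7:ℕ) + (947/8)*t^(8:ℕ) + (-1237/16)*t^(9:ℕ) + (707/32)*t^(10:ℕ) + (-469/16)*t^(11:ℕ))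 + d^(3:ℕ)*((-1) + (-1)*t + 7*t^(2:ℕ) + (-133/4)*t^(3:ℕ) + (-195/4)*t^(4:ℕ) + (609/16)*t^(5:ℕ) + (-375/16)*t^(6:ℕ) + (55/2)*t^(7:ℕ) + (523/8)*t^(8:ℕ) + (-1411/16)*t^(9:ℕ) + (513/16)*t^(10:ℕ) + (-363/8)*t^(11:ℕ)) + d^(4:ℕ)*((207/16)*t^(2:ℕ) + (61/4)*t^(3:ℕ) + (49/16)*t^(4:ℕ) + (-231/16)*t^(5:ℕ) + (91/16)*t^(6:ℕ) + (-37/8)*t^(7:ℕ) + (625/16)*t^(8:ℕ) + (-671/16)*t^(9:ℕ) + (47/2)*t^(10:ℕ) + (-147/4)*t^(11:ℕ)) + d^(5:ℕ)*((-6)*t^(2:ℕ) + (127/8)*t^(3:ℕ) + (1/4)*t^(4:ℕ) + (-43/8)*t^(5:ℕ) + (-45/4)*t^(6:ℕ) + (169/8)*t^(7:ℕ) + (-1/2)*t^(8:ℕ) + (-67/4)*t^(9:ℕ) + 17*t^(10:ℕ) + (-11)*t^(11:ℕ)) + d^(6:ℕ)*((-2)*t^(2:ℕ) + (167/64)*t^(3:ℕ) + (-3/4)*t^(4:ℕ) + (81/32)*t^(5:ℕ)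 + (-375/32)*t^(6:ℕ) + (763/64)*t^(7:ℕ) + (167/32)*t^(8:ℕ) + (-1373/64)*t^(9:ℕ) + (291/16)*t^(10:ℕ) + (-97/16)*t^(11:ℕ)) + d^(7:ℕ)*((5/8)*t^(5:ℕ) + (-31/16)*t^(6:ℕ) + (1/2)*t^(7:ℕ) + (77/16)*t^(8:ℕ) + (-143/16)*t^(9:ℕ) + (27/4)*t^(10:ℕ) + (-9/4)*t^(11:ℕ)) + d^(8:ℕ)*((-1/4)*t^(7:ℕ) + (3/4)*t^(8:ℕ) + (-17/16)*t^(9:ℕ) + (3/4)*t^(10:ℕ) + (-1/4)*t^(11:ℕ)) := by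
    ring
  rw [e0]
  exact pos_L2e_A_core d _ _ _ _ _ _ _ _ _ h1 h2 (pos_L2e_A_b0 t h3 h4) (pos_L2e_A_b1 t h3 h4) (pos_L2e_A_b2 t h3 h4) (pos_L2e_A_b3 t h3 h4) (pos_L2e_A_b4 t h3 h4) (pos_L2e_A_b5 t h3 h4) (pos_L2e_A_b6 t h3 h4) (pos_L2e_A_b7 t h3 h4) (pos_L2e_A_b8 t h3 h4)

end Vale.Agent.Lib.P100.AB.V1X
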