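import Mathlib

/-!
# P100: polynomial inequalities of the unequal-exponent family, box B1 (Bernstein coefficients).
-/

namespace Vale.Agent.Lib.P100.AB.V1X

lemma pos_r1_B1_b0 (t : ℝ) (h3 : (3/10) ≤ t) (h4 : t ≤ 1) :
    0 ≤ 1*(1 + 1*t^(2:ℕ)) + (1/5)*(2 + (-3)*t^(2:ℕ)) + (1/25)*((-1)*t^(2:ℕ)) - (1289/1000) := by
  have e : 1*(1 + 1*t^(2:ℕ)) + (1/5)*(2 + (-3)*t^(2:ℕ)) + (1/25)*((-1)*t^(2:ℕ)) - (1289/1000) = (717/2450)*(1 - t)^(2:ℕ) + (219/245)*(t - (3/10))*(1 - t) + (471/490)*(t - (3/10))^(2:ℕ) := by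
    ring
  rw [e]
  have a3 : 0 ≤ t - (3/10) := by linarith
  have a4 : 0 ≤ 1 - t := by linarith
  generalize t - (3/10) = t1 at a3 ⊢
  generalize 1 - t = t2 at a4 ⊢
  positivity

lemma pos_r1_B1_b1 (t : ℝ) (h3 : (3/10) ≤ t) (h4 : t ≤ 1) :
    0 ≤ 1*(1 + 1*t^(2:ℕ)) + (1/4)*(2 + (-3)*t^(2:ℕ)) + (3/50)*((-1)*t^(2:ℕ)) - (1289/1000) := by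
  have e : 1*(1 + 1*t^(2:ℕ)) + (1/4)*(2 + (-3)*t^(2:ℕ)) + (3/50)*((-1)*t^(2:ℕ)) - (1289/1000) = (2281/4900)*(1 - t)^(2:ℕ) + (268/245)*(t - (3/10))*(1 - t) + (401/490)*(t - (3/10))^(2:ℕ) := by
    ring
  rw [e]
  have a3 : 0 ≤ t - (3/10) := by linarith
  have a4 : 0 ≤ 1 - t := by linarith
  generalize t - (3/10) = t1 at a3 ⊢
  generalize 1 - t = t2 at a4 ⊢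
  positivity

lemma pos_r1_B1_b2 (t : ℝ) (h3 : (3/10) ≤ t) (h4 : t ≤ 1) :
    0 ≤ 1*(1 + 1*t^(2:ℕ)) + (3/10)*(2 + (-3)*t^(2:ℕ)) + (9/100)*((-1)*t^(2:ℕ)) - (1289/1000) := by
  have e : 1*(1 + 1*t^(2:ℕ)) + (3/10)*(2 + (-3)*t^(2:ℕ)) + (9/100)*((-1)*t^(2:ℕ)) - (1289/1000) = (3119/4900)*(1 - t)^(2:ℕ) + (314/245)*(t - (3/10))*(1 - t) + (321/490)*(t - (3/10))^(2:ℕ) := by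
    ring
  rw [e]
  have a3 : 0 ≤ t - (3/10) := by linarith
  have a4 : 0 ≤ 1 - t := by linarith
  generalize t - (3/10) = t1 at a3 ⊢
  generalize 1 - t = t2 at a4 ⊢
  positivity

lemma pos_r1_B1_id (d : ℝ) (C0 C1 C2 : ℝ) :
    C0 + d*C1 + d^(2:ℕ)*C2 = (1289/1000) + (100*((3/10) - d)^(2:ℕ)*(1*C0 + (1/5)*C1 + (1/25)*C2 - (1289/1000)) + 200*(d - (1/5))*((3/10) - d)*(1*C0 + (1/4)*C1 + (3/50)*C2 - (1289/1000)) + 100*(d - (1/5))^(2:ℕ)*(1*C0 + (3/10)*C1 + (9/100)*C2 - (1289/1000))) := by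
  ring

lemma pos_r1_B1_gen (d1 d2 B0 B1 B2 : ℝ) (a1 : 0 ≤ d1) (a2 : 0 ≤ d2) (b0 : 0 ≤ B0) (b1 : 0 ≤ B1) (b2 : 0 ≤ B2) :
    0 < (1289/1000) + (100*d2^(2:ℕ)*(B0) + 200*d1*d2*(B1) + 100*d1^(2:ℕ)*(B2)) := by
  positivity

lemma pos_r1_B1_core (d C0 C1 C2 : ℝ) (h1 : (1/5) ≤ d) (h2 : d ≤ (3/10))
    (b0 : 0 ≤ 1*C0 + (1/5)*C1 + (1/25)*C2 - (1289/1000))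
    (b1 : 0 ≤ 1*C0 + (1/4)*C1 + (3/50)*C2 - (1289/1000))
    (b2 : 0 ≤ 1*C0 + (3/10)*C1 + (9/100)*C2 - (1289/1000)) :
    0 < C0 + d*C1 + d^(2:ℕ)*C2 := by
  rw [pos_r1_B1_id]
  exact pos_r1_B1_gen _ _ _ _ _ (sub_nonneg.2 h1) (sub_nonneg.2 h2) b0 b1 b2

lemma pos_r1_B1 (d t : ℝ) (h1 : (1/5) ≤ d) (h2 : d ≤ (3/10)) (h3 : (3/10) ≤ t) (h4 : t ≤ 1) :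
    0 < 1 + 1*t^(2:ℕ) + 2*d + (-3)*d*t^(2:ℕ) + (-1)*d^(2:ℕ)*t^(2:ℕ) := by
  have e0 : 1 + 1*t^(2:ℕ) + 2*d + (-3)*d*t^(2:ℕ) + (-1)*d^(2:ℕ)*t^(2:ℕ) = (1 + 1*t^(2:ℕ)) + d*(2 + (-3)*t^(2:ℕ)) + d^(2:ℕ)*((-1)*t^(2:ℕ)) := by
    ring
  rw [e0]
  exact pos_r1_B1_core d _ _ _ h1 h2 (pos_r1_B1_b0 t h3 h4) (pos_r1_B1_b1 t h3 h4) (pos_r1_B1_b2 t h3 h4)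

lemma pos_r6_B1_b0 (t : ℝ) (h3 : (3/10) ≤ t) (h4 : t ≤ 1) :
    0 ≤ 1*(1 + 1*t^(2:ℕ)) + (1/5)*((-3) + 2*t^(2:ℕ)) + (1/25)*((-1)) - (69/500) := by
  have e : 1*(1 + 1*t^(2:ℕ)) + (1/5)*((-3) + 2*t^(2:ℕ)) + (1/25)*((-1)) - (69/500) = (174/245)*(1 - t)^(2:ℕ) + (642/245)*(t - (3/10))*(1 - t) + (811/245)*(t - (3/10))^(2:ℕ) := by
    ring
  rw [e]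
  have a3 : 0 ≤ t - (3/10) := by linarith
  have a4 : 0 ≤ 1 - t := by linarith
  generalize t - (3/10) = t1 at a3 ⊢
  generalize 1 - t = t2 at a4 ⊢
  positivity

lemma pos_r6_B1_b1 (t : ℝ) (h3 : (3/10) ≤ t) (h4 : t ≤ 1) :
    0 ≤ 1*(1 + 1*t^(2:ℕ)) + (1/4)*((-3) + 2*t^(2:ℕ)) + (3/50)*((-1)) - (69/500) := by
  have e : 1*(1 + 1*t^(2:ℕ)) + (1/4)*((-3) + 2*t^(2:ℕ)) + (3/50)*((-1)) - (69/500) = (187/490)*(1 - t)^(2:ℕ) + (502/245)*(t - (3/10))*(1 - t) + (776/245)*(t - (3/10))^(2:ℕ) := by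
    ring
  rw [e]
  have a3 : 0 ≤ t - (3/10) := by linarith
  have a4 : 0 ≤ 1 - t := by linarith
  generalize t - (3/10) = t1 at a3 ⊢
  generalize 1 - t = t2 at a4 ⊢
  positivity

lemma pos_r6_B1_b2 (t : ℝ) (h3 : (3/10) ≤ t) (h4 : t ≤ 1) :
    0 ≤ 1*(1 + 1*t^(2:ℕ)) + (3/10)*((-3) + 2*t^(2:ℕ)) + (9/100)*((-1)) - (69/500) := by
  have e : 1*(1 + 1*t^(2:ℕ)) + (3/10)*((-3) + 2*t^(2:ℕ)) + (9/100)*((-1)) - (69/500) = (8/245)*(1 - t)^(2:ℕ) + (352/245)*(t - (3/10))*(1 - t) + (736/245)*(t - (3/10))^(2:ℕ) := by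
    ring
  rw [e]
  have a3 : 0 ≤ t - (3/10) := by linarith
  have a4 : 0 ≤ 1 - t := by linarith
  generalize t - (3/10) = t1 at a3 ⊢
  generalize 1 - t = t2 at a4 ⊢
  positivity

lemma pos_r6_B1_id (d : ℝ) (C0 C1 C2 : ℝ) :
    C0 + d*C1 + d^(2:ℕ)*C2 = (69/500) + (100*((3/10) - d)^(2:ℕ)*(1*C0 + (1/5)*C1 + (1/25)*C2 - (69/500)) + 200*(d - (1/5))*((3/10) - d)*(1*C0 + (1/4)*C1 + (3/50)*C2 - (69/500)) + 100*(d - (1/5))^(2:ℕ)*(1*C0 + (3/10)*C1 + (9/100)*C2 - (69/500))) := by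
  ring

lemma pos_r6_B1_gen (d1 d2 B0 B1 B2 : ℝ) (a1 : 0 ≤ d1) (a2 : 0 ≤ d2) (b0 : 0 ≤ B0) (b1 : 0 ≤ B1) (b2 : 0 ≤ B2) :
    0 < (69/500) + (100*d2^(2:ℕ)*(B0) + 200*d1*d2*(B1) + 100*d1^(2:ℕ)*(B2)) := by
  positivity

lemma pos_r6_B1_core (d C0 C1 C2 : ℝ) (h1 : (1/5) ≤ d) (h2 : d ≤ (3/10))
    (b0 : 0 ≤ 1*C0 + (1/5)*C1 + (1/25)*C2 - (69/500))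
    (b1 : 0 ≤ 1*C0 + (1/4)*C1 + (3/50)*C2 - (69/500))
    (b2 : 0 ≤ 1*C0 + (3/10)*C1 + (9/100)*C2 - (69/500)) :
    0 < C0 + d*C1 + d^(2:ℕ)*C2 := by
  rw [pos_r6_B1_id]
  exact pos_r6_B1_gen _ _ _ _ _ (sub_nonneg.2 h1) (sub_nonneg.2 h2) b0 b1 b2

lemma pos_r6_B1 (d t : ℝ) (h1 : (1/5) ≤ d) (h2 : d ≤ (3/10)) (h3 : (3/10) ≤ t) (h4 : t ≤ 1) :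
    0 < 1 + 1*t^(2:ℕ) + (-3)*d + 2*d*t^(2:ℕ) + (-1)*d^(2:ℕ) := by
  have e0 : 1 + 1*t^(2:ℕ) + (-3)*d + 2*d*t^(2:ℕ) + (-1)*d^(2:ℕ) = (1 + 1*t^(2:ℕ)) + d*((-3) + 2*t^(2:ℕ)) + d^(2:ℕ)*((-1)) := by
    ring
  rw [e0]
  exact pos_r6_B1_core d _ _ _ h1 h2 (pos_r6_B1_b0 t h3 h4) (pos_r6_B1_b1 t h3 h4) (pos_r6_B1_b2 t h3 h4)

lemma pos_DP_B1_b0 (t : ℝ) (h3 : (3/10) ≤ t) (h4 : t ≤ 1) :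
    0 ≤ 1*(1 + 6*t^(2:ℕ) + 15*t^(4:ℕ) + 20*t^(6:ℕ) + 15*t^(8:ℕ) + 6*t^(10:ℕ) + 1*t^(12:ℕ)) + (1/5)*((-9/16) + (149/8)*t^(2:ℕ) + (-32)*t^(3:ℕ) + (1273/16)*t^(4:ℕ) + (-96)*t^(5:ℕ) + (483/4)*t^(6:ℕ) + (-96)*t^(7:ℕ) + (1273/16)*t^(8:ℕ) + (-32)*t^(9:ℕ) + (149/8)*t^(10:ℕ) + (-9/16)*t^(12:ℕ)) + (1/25)*((-233/16) + 8*t + (-73/2)*t^(2:ℕ) + 12*t^(3:ℕ) + (-623/16)*t^(4:ℕ) + (-4)*t^(5:ℕ) + (-34)*t^(6:ℕ) + (-4)*t^(7:ℕ) + (-623/16)*t^(8:ℕ) + 12*t^(9:ℕ) + (-73/2)*t^(10:ℕ) + 8*t^(11:ℕ) + (-233/16)*t^(12:ℕ)) + (1/125)*((-287/16) + 27*t + (-625/4)*t^(2:ℕ) + 213*t^(3:ℕ) + (-3321/16)*t^(4:ℕ) + 184*t^(5:ℕ) + (-277/2)*t^(6:ℕ) + 184*t^(7:ℕ) + (-3321/16)*t^(8:ℕ) + 213*t^(9:ℕ) + (-625/4)*t^(10:ℕ)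 + 27*t^(11:ℕ) + (-287/16)*t^(12:ℕ)) + (1/625)*(5 + 12*t + (-347/4)*t^(2:ℕ) + 62*t^(3:ℕ) + (419/2)*t^(4:ℕ) + (-378)*t^(5:ℕ) + (885/2)*t^(6:ℕ) + (-378)*t^(7:ℕ) + (419/2)*t^(8:ℕ) + 62*t^(9:ℕ) + (-347/4)*t^(10:ℕ) + 12*t^(11:ℕ) + 5*t^(12:ℕ)) + (1/3125)*((25/4) + (-20)*t + (107/2)*t^(2:ℕ) + (-120)*t^(3:ℕ) + (529/4)*t^(4:ℕ) + 52*t^(5:ℕ) + (-182)*t^(6:ℕ) + 52*t^(7:ℕ) + (529/4)*t^(8:ℕ) + (-120)*t^(9:ℕ) + (107/2)*t^(10:ℕ) + (-20)*t^(11:ℕ) + (25/4)*t^(12:ℕ)) + (1/15625)*((-25)*t^(4:ℕ) + 80*t^(5:ℕ) + (-114)*t^(6:ℕ) + 80*t^(7:ℕ) + (-25)*t^(8:ℕ)) - (3/250) := by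
  have e : 1*(1 + 6*t^(2:ℕ) + 15*t^(4:ℕ) + 20*t^(6:ℕ) + 15*t^(8:ℕ) + 6*t^(10:ℕ) + 1*t^(12:ℕ)) + (1/5)*((-9/16) + (149/8)*t^(2:ℕ) + (-32)*t^(3:ℕ) + (1273/16)*t^(4:ℕ) + (-96)*t^(5:ℕ) + (483/4)*t^(6:ℕ) + (-96)*t^(7:ℕ) + (1273/16)*t^(8:ℕ) + (-32)*t^(9:ℕ) + (149/8)*t^(10:ℕ) + (-9/16)*t^(12:ℕ)) + (1/25)*((-233/16) + 8*t + (-73/2)*t^(2:ℕ) + 12*t^(3:ℕ) + (-623/16)*t^(4:ℕ) + (-4)*t^(5:ℕ) + (-34)*t^(6:ℕ) + (-4)*t^(7:ℕ) + (-623/16)*t^(8:ℕ) + 12*t^(9:ℕ) + (-73/2)*t^(10:ℕ) + 8*t^(11:ℕ) + (-233/16)*t^(12:ℕ)) + (1/125)*((-287/16) + 27*t + (-625/4)*t^(2:ℕ) + 213*t^(3:ℕ) + (-3321/16)*t^(4:ℕ) + 184*t^(5:ℕ) + (-277/2)*t^(6:ℕ) + 184*t^(7:ℕ) + (-3321/16)*t^(8:ℕ) + 213*t^(9:ℕ) + (-625/4)*t^(10:ℕ)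 + 27*t^(11:ℕ) + (-287/16)*t^(12:ℕ)) + (1/625)*(5 + 12*t + (-347/4)*t^(2:ℕ) + 62*t^(3:ℕ) + (419/2)*t^(4:ℕ) + (-378)*t^(5:ℕ) + (885/2)*t^(6:ℕ) + (-378)*t^(7:ℕ) + (419/2)*t^(8:ℕ) + 62*t^(9:ℕ) + (-347/4)*t^(10:ℕ) + 12*t^(11:ℕ) + 5*t^(12:ℕ)) + (1/3125)*((25/4) + (-20)*t + (107/2)*t^(2:ℕ) + (-120)*t^(3:ℕ) + (529/4)*t^(4:ℕ) + 52*t^(5:ℕ) + (-182)*t^(6:ℕ) + 52*t^(7:ℕ) + (529/4)*t^(8:ℕ) + (-120)*t^(9:ℕ) + (107/2)*t^(10:ℕ) + (-20)*t^(11:ℕ) + (25/4)*t^(12:ℕ)) + (1/15625)*((-25)*t^(4:ℕ) + 80*t^(5:ℕ) + (-114)*t^(6:ℕ) + 80*t^(7:ℕ) + (-25)*t^(8:ℕ)) - (3/250) = (2086901547505471/27682574402000)*(1 - t)^(12:ℕ) + (4253380471443613/3460321800250)*(t - (3/10))*(1 - t)^(11:ℕ) + (15892866895010286/1730160900125)*(t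 - (3/10))^(2:ℕ)*(1 - t)^(10:ℕ) + (2885009155307284/69206436005)*(t - (3/10))^(3:ℕ)*(1 - t)^(9:ℕ) + (8878513874777476/69206436005)*(t - (3/10))^(4:ℕ)*(1 - t)^(8:ℕ) + (3913657815693120/13841287201)*(t - (3/10))^(5:ℕ)*(1 - t)^(7:ℕ) + (907036856723328/1977326743)*(t - (3/10))^(6:ℕ)*(1 - t)^(6:ℕ) + (7656949654379520/13841287201)*(t - (3/10))^(7:ℕ)*(1 - t)^(5:ℕ) + (6827637484608000/13841287201)*(t - (3/10))^(8:ℕ)*(1 - t)^(4:ℕ) + (4399689218560000/13841287201)*(t - (3/10))^(9:ℕ)*(1 - t)^(3:ℕ) + (1948790208000000/13841287201)*(t - (3/10))^(10:ℕ)*(1 - t)^(2:ℕ) + (533688499200000/13841287201)*(t - (3/10))^(11:ℕ)*(1 - t) + (68428064000000/13841287201)*(t - (3/10))^(12:ℕ) :=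 by
    ring
  rw [e]
  have a3 : 0 ≤ t - (3/10) := by linarith
  have a4 : 0 ≤ 1 - t := by linarith
  generalize t - (3/10) = t1 at a3 ⊢
  generalize 1 - t = t2 at a4 ⊢
  positivity

lemma pos_DP_B1_b1 (t : ℝ) (h3 : (3/10) ≤ t) (h4 : t ≤ 1) :
    0 ≤ 1*(1 + 6*t^(2:ℕ) + 15*t^(4:ℕ) + 20*t^(6:ℕ) + 15*t^(8:ℕ) + 6*t^(10:ℕ) + 1*t^(12:ℕ)) + (13/60)*((-9/16) + (149/8)*t^(2:ℕ) + (-32)*t^(3:ℕ) + (1273/16)*t^(4:ℕ) + (-96)*t^(5:ℕ) + (483/4)*t^(6:ℕ) + (-96)*t^(7:ℕ) + (1273/16)*t^(8:ℕ) + (-32)*t^(9:ℕ) + (149/8)*t^(10:ℕ) + (-9/16)*t^(12:ℕ)) + (7/150)*((-233/16) + 8*t + (-73/2)*t^(2:ℕ) + 12*t^(3:ℕ) + (-623/16)*t^(4:ℕ) + (-4)*t^(5:ℕ) + (-34)*t^(6:ℕ) + (-4)*t^(7:ℕ) + (-623/16)*t^(8:ℕ)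 + 12*t^(9:ℕ) + (-73/2)*t^(10:ℕ) + 8*t^(11:ℕ) + (-233/16)*t^(12:ℕ)) + (1/100)*((-287/16) + 27*t + (-625/4)*t^(2:ℕ) + 213*t^(3:ℕ) + (-3321/16)*t^(4:ℕ) + 184*t^(5:ℕ) + (-277/2)*t^(6:ℕ) + 184*t^(7:ℕ) + (-3321/16)*t^(8:ℕ) + 213*t^(9:ℕ) + (-625/4)*t^(10:ℕ) + 27*t^(11:ℕ) + (-287/16)*t^(12:ℕ)) + (4/1875)*(5 + 12*t + (-347/4)*t^(2:ℕ) + 62*t^(3:ℕ) + (419/2)*t^(4:ℕ) + (-378)*t^(5:ℕ) + (885/2)*t^(6:ℕ) + (-378)*t^(7:ℕ) + (419/2)*t^(8:ℕ) + 62*t^(9:ℕ) + (-347/4)*t^(10:ℕ) + 12*t^(11:ℕ) + 5*t^(12:ℕ)) + (17/37500)*((25/4) + (-20)*t + (107/2)*t^(2:ℕ) + (-120)*t^(3:ℕ) + (529/4)*t^(4:ℕ) + 52*t^(5:ℕ) + (-182)*t^(6:ℕ) + 52*t^(7:ℕ) + (529/4)*t^(8:ℕ) + (-120)*t^(9:ℕ) + (107/2)*t^(10:ℕ) +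 (-20)*t^(11:ℕ) + (25/4)*t^(12:ℕ)) + (3/31250)*((-25)*t^(4:ℕ) + 80*t^(5:ℕ) + (-114)*t^(6:ℕ) + 80*t^(7:ℕ) + (-25)*t^(8:ℕ)) - (3/250) := by
  have e : 1*(1 + 6*t^(2:ℕ) + 15*t^(4:ℕ) + 20*t^(6:ℕ) + 15*t^(8:ℕ) + 6*t^(10:ℕ) + 1*t^(12:ℕ)) + (13/60)*((-9/16) + (149/8)*t^(2:ℕ) + (-32)*t^(3:ℕ) + (1273/16)*t^(4:ℕ) + (-96)*t^(5:ℕ) + (483/4)*t^(6:ℕ) + (-96)*t^(7:ℕ) + (1273/16)*t^(8:ℕ) + (-32)*t^(9:ℕ) + (149/8)*t^(10:ℕ) + (-9/16)*t^(12:ℕ)) + (7/150)*((-233/16) + 8*t + (-73/2)*t^(2:ℕ) + 12*t^(3:ℕ) + (-623/16)*t^(4:ℕ) + (-4)*t^(5:ℕ) + (-34)*t^(6:ℕ) + (-4)*t^(7:ℕ) + (-623/16)*t^(8:ℕ) + 12*t^(9:ℕ) + (-73/2)*t^(10:ℕ) + 8*t^(11:ℕ) + (-233/16)*t^(12:ℕ)) + (1/100)*((-287/16) + 27*t + (-625/4)*t^(2:ℕ)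 + 213*t^(3:ℕ) + (-3321/16)*t^(4:ℕ) + 184*t^(5:ℕ) + (-277/2)*t^(6:ℕ) + 184*t^(7:ℕ) + (-3321/16)*t^(8:ℕ) + 213*t^(9:ℕ) + (-625/4)*t^(10:ℕ) + 27*t^(11:ℕ) + (-287/16)*t^(12:ℕ)) + (4/1875)*(5 + 12*t + (-347/4)*t^(2:ℕ) + 62*t^(3:ℕ) + (419/2)*t^(4:ℕ) + (-378)*t^(5:ℕ) + (885/2)*t^(6:ℕ) + (-378)*t^(7:ℕ) + (419/2)*t^(8:ℕ) + 62*t^(9:ℕ) + (-347/4)*t^(10:ℕ) + 12*t^(11:ℕ) + 5*t^(12:ℕ)) + (17/37500)*((25/4) + (-20)*t + (107/2)*t^(2:ℕ) + (-120)*t^(3:ℕ) + (529/4)*t^(4:ℕ) + 52*t^(5:ℕ) + (-182)*t^(6:ℕ) + 52*t^(7:ℕ) + (529/4)*t^(8:ℕ) + (-120)*t^(9:ℕ) + (107/2)*t^(10:ℕ) + (-20)*t^(11:ℕ) + (25/4)*t^(12:ℕ)) + (3/31250)*((-25)*t^(4:ℕ) + 80*t^(5:ℕ) + (-114)*t^(6:ℕ) + 80*t^(7:ℕ) + (-25)*t^(8:ℕ))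 - (3/250) = (2747478932069549/41523861603000)*(1 - t)^(12:ℕ) + (4640822961037511/4152386160300)*(t - (3/10))*(1 - t)^(11:ℕ) + (355574120648765659/41523861603000)*(t - (3/10))^(2:ℕ)*(1 - t)^(10:ℕ) + (3286492343898679/83047723206)*(t - (3/10))^(3:ℕ)*(1 - t)^(9:ℕ) + (17086286103734377/138412872010)*(t - (3/10))^(4:ℕ)*(1 - t)^(8:ℕ) + (11413354436425880/41523861603)*(t - (3/10))^(5:ℕ)*(1 - t)^(7:ℕ) + (2665723375595776/5931980229)*(t - (3/10))^(6:ℕ)*(1 - t)^(6:ℕ) + (22635199141547840/41523861603)*(t - (3/10))^(7:ℕ)*(1 - t)^(5:ℕ) + (20271808819628000/41523861603)*(t - (3/10))^(8:ℕ)*(1 - t)^(4:ℕ) + (13104336058720000/41523861603)*(t - (3/10))^(9:ℕ)*(1 - t)^(3:ℕ) + (5816738929600000/41523861603)*(t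 - (3/10))^(10:ℕ)*(1 - t)^(2:ℕ) + (531582540800000/13841287201)*(t - (3/10))^(11:ℕ)*(1 - t) + (204474208000000/41523861603)*(t - (3/10))^(12:ℕ) := by
    ring
  rw [e]
  have a3 : 0 ≤ t - (3/10) := by linarith
  have a4 : 0 ≤ 1 - t := by linarith
  generalize t - (3/10) = t1 at a3 ⊢
  generalize 1 - t = t2 at a4 ⊢
  positivity

lemma pos_DP_B1_b2 (t : ℝ) (h3 : (3/10) ≤ t) (h4 : t ≤ 1) :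
    0 ≤ 1*(1 + 6*t^(2:ℕ) + 15*t^(4:ℕ) + 20*t^(6:ℕ) + 15*t^(8:ℕ) + 6*t^(10:ℕ) + 1*t^(12:ℕ)) + (7/30)*((-9/16) + (149/8)*t^(2:ℕ) + (-32)*t^(3:ℕ) + (1273/16)*t^(4:ℕ) + (-96)*t^(5:ℕ) + (483/4)*t^(6:ℕ) + (-96)*t^(7:ℕ) + (1273/16)*t^(8:ℕ) + (-32)*t^(9:ℕ) + (149/8)*t^(10:ℕ) + (-9/16)*t^(12:ℕ)) + (27/500)*((-233/16) + 8*t + (-73/2)*t^(2:ℕ) + 12*t^(3:ℕ) + (-623/16)*t^(4:ℕ) + (-4)*t^(5:ℕ) + (-34)*t^(6:ℕ) + (-4)*t^(7:ℕ) + (-623/16)*t^(8:ℕ) + 12*t^(9:ℕ) + (-73/2)*t^(10:ℕ) + 8*t^(11:ℕ) + (-233/16)*t^(12:ℕ)) + (31/2500)*((-287/16) + 27*t + (-625/4)*t^(2:ℕ) + 213*t^(3:ℕ) + (-3321/16)*t^(4:ℕ) + 184*t^(5:ℕ) + (-277/2)*t^(6:ℕ) + 184*t^(7:ℕ) + (-3321/16)*t^(8:ℕ) + 213*t^(9:ℕ) + (-625/4)*t^(10:ℕ)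 + 27*t^(11:ℕ) + (-287/16)*t^(12:ℕ)) + (53/18750)*(5 + 12*t + (-347/4)*t^(2:ℕ) + 62*t^(3:ℕ) + (419/2)*t^(4:ℕ) + (-378)*t^(5:ℕ) + (885/2)*t^(6:ℕ) + (-378)*t^(7:ℕ) + (419/2)*t^(8:ℕ) + 62*t^(9:ℕ) + (-347/4)*t^(10:ℕ) + 12*t^(11:ℕ) + 5*t^(12:ℕ)) + (2/3125)*((25/4) + (-20)*t + (107/2)*t^(2:ℕ) + (-120)*t^(3:ℕ) + (529/4)*t^(4:ℕ) + 52*t^(5:ℕ) + (-182)*t^(6:ℕ) + 52*t^(7:ℕ) + (529/4)*t^(8:ℕ) + (-120)*t^(9:ℕ) + (107/2)*t^(10:ℕ) + (-20)*t^(11:ℕ) + (25/4)*t^(12:ℕ)) + (9/62500)*((-25)*t^(4:ℕ) + 80*t^(5:ℕ) + (-114)*t^(6:ℕ) + 80*t^(7:ℕ) + (-25)*t^(8:ℕ)) - (3/250) := by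
  have e : 1*(1 + 6*t^(2:ℕ) + 15*t^(4:ℕ) + 20*t^(6:ℕ) + 15*t^(8:ℕ) + 6*t^(10:ℕ) + 1*t^(12:ℕ)) + (7/30)*((-9/16) + (149/8)*t^(2:ℕ) + (-32)*t^(3:ℕ) + (1273/16)*t^(4:ℕ) + (-96)*t^(5:ℕ) + (483/4)*t^(6:ℕ) + (-96)*t^(7:ℕ) + (1273/16)*t^(8:ℕ) + (-32)*t^(9:ℕ) + (149/8)*t^(10:ℕ) + (-9/16)*t^(12:ℕ)) + (27/500)*((-233/16) + 8*t + (-73/2)*t^(2:ℕ) + 12*t^(3:ℕ) + (-623/16)*t^(4:ℕ) + (-4)*t^(5:ℕ) + (-34)*t^(6:ℕ) + (-4)*t^(7:ℕ) + (-623/16)*t^(8:ℕ) + 12*t^(9:ℕ) + (-73/2)*t^(10:ℕ) + 8*t^(11:ℕ) + (-233/16)*t^(12:ℕ)) + (31/2500)*((-287/16) + 27*t + (-625/4)*t^(2:ℕ) + 213*t^(3:ℕ) + (-3321/16)*t^(4:ℕ) + 184*t^(5:ℕ) + (-277/2)*t^(6:ℕ) + 184*t^(7:ℕ) + (-3321/16)*t^(8:ℕ) + 213*t^(9:ℕ) + (-625/4)*t^(10:ℕ)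 + 27*t^(11:ℕ) + (-287/16)*t^(12:ℕ)) + (53/18750)*(5 + 12*t + (-347/4)*t^(2:ℕ) + 62*t^(3:ℕ) + (419/2)*t^(4:ℕ) + (-378)*t^(5:ℕ) + (885/2)*t^(6:ℕ) + (-378)*t^(7:ℕ) + (419/2)*t^(8:ℕ) + 62*t^(9:ℕ) + (-347/4)*t^(10:ℕ) + 12*t^(11:ℕ) + 5*t^(12:ℕ)) + (2/3125)*((25/4) + (-20)*t + (107/2)*t^(2:ℕ) + (-120)*t^(3:ℕ) + (529/4)*t^(4:ℕ) + 52*t^(5:ℕ) + (-182)*t^(6:ℕ) + 52*t^(7:ℕ) + (529/4)*t^(8:ℕ) + (-120)*t^(9:ℕ) + (107/2)*t^(10:ℕ) + (-20)*t^(11:ℕ) + (25/4)*t^(12:ℕ)) + (9/62500)*((-25)*t^(4:ℕ) + 80*t^(5:ℕ) + (-114)*t^(6:ℕ) + 80*t^(7:ℕ) + (-25)*t^(8:ℕ)) - (3/250) = (46248964809737069/830477232060000)*(1 - t)^(12:ℕ) + (34251875383822321/34603218002500)*(t - (3/10))*(1 - t)^(11:ℕ) +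 (54280560871073641/6920643600500)*(t - (3/10))^(2:ℕ)*(1 - t)^(10:ℕ) + (12839313537121499/346032180025)*(t - (3/10))^(3:ℕ)*(1 - t)^(9:ℕ) + (8146618146061127/69206436005)*(t - (3/10))^(4:ℕ)*(1 - t)^(8:ℕ) + (3673508609606720/13841287201)*(t - (3/10))^(5:ℕ)*(1 - t)^(7:ℕ) + (866055681294528/1977326743)*(t - (3/10))^(6:ℕ)*(1 - t)^(6:ℕ) + (7405594253438720/13841287201)*(t - (3/10))^(7:ℕ)*(1 - t)^(5:ℕ) + (6666967405664000/13841287201)*(t - (3/10))^(8:ℕ)*(1 - t)^(4:ℕ) + (4325958584960000/13841287201)*(t - (3/10))^(9:ℕ)*(1 - t)^(3:ℕ) + (1925043785600000/13841287201)*(t - (3/10))^(10:ℕ)*(1 - t)^(2:ℕ) + (528484339200000/13841287201)*(t - (3/10))^(11:ℕ)*(1 - t) + (67760864000000/13841287201)*(t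 - (3/10))^(12:ℕ) := by
    ring
  rw [e]
  have a3 : 0 ≤ t - (3/10) := by linarith
  have a4 : 0 ≤ 1 - t := by linarith
  generalize t - (3/10) = t1 at a3 ⊢
  generalize 1 - t = t2 at a4 ⊢
  positivity

lemma pos_DP_B1_b3 (t : ℝ) (h3 : (3/10) ≤ t) (h4 : t ≤ 1) :
    0 ≤ 1*(1 + 6*t^(2:ℕ) + 15*t^(4:ℕ) + 20*t^(6:ℕ) + 15*t^(8:ℕ) + 6*t^(10:ℕ) + 1*t^(12:ℕ)) + (1/4)*((-9/16) + (149/8)*t^(2:ℕ) + (-32)*t^(3:ℕ) + (1273/16)*t^(4:ℕ) + (-96)*t^(5:ℕ) + (483/4)*t^(6:ℕ) + (-96)*t^(7:ℕ) + (1273/16)*t^(8:ℕ) + (-32)*t^(9:ℕ) + (149/8)*t^(10:ℕ) + (-9/16)*t^(12:ℕ)) + (31/500)*((-233/16) + 8*t + (-73/2)*t^(2:ℕ) + 12*t^(3:ℕ) + (-623/16)*t^(4:ℕ) + (-4)*t^(5:ℕ) + (-34)*t^(6:ℕ) + (-4)*t^(7:ℕ)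 + (-623/16)*t^(8:ℕ) + 12*t^(9:ℕ) + (-73/2)*t^(10:ℕ) + 8*t^(11:ℕ) + (-233/16)*t^(12:ℕ)) + (61/4000)*((-287/16) + 27*t + (-625/4)*t^(2:ℕ) + 213*t^(3:ℕ) + (-3321/16)*t^(4:ℕ) + 184*t^(5:ℕ) + (-277/2)*t^(6:ℕ) + 184*t^(7:ℕ) + (-3321/16)*t^(8:ℕ) + 213*t^(9:ℕ) + (-625/4)*t^(10:ℕ) + 27*t^(11:ℕ) + (-287/16)*t^(12:ℕ)) + (93/25000)*(5 + 12*t + (-347/4)*t^(2:ℕ) + 62*t^(3:ℕ) + (419/2)*t^(4:ℕ) + (-378)*t^(5:ℕ) + (885/2)*t^(6:ℕ) + (-378)*t^(7:ℕ) + (419/2)*t^(8:ℕ) + 62*t^(9:ℕ) + (-347/4)*t^(10:ℕ) + 12*t^(11:ℕ) + 5*t^(12:ℕ)) + (9/10000)*((25/4) + (-20)*t + (107/2)*t^(2:ℕ) + (-120)*t^(3:ℕ) + (529/4)*t^(4:ℕ) + 52*t^(5:ℕ) + (-182)*t^(6:ℕ) + 52*t^(7:ℕ) + (529/4)*t^(8:ℕ) + (-120)*t^(9:ℕ)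 + (107/2)*t^(10:ℕ) + (-20)*t^(11:ℕ) + (25/4)*t^(12:ℕ)) + (27/125000)*((-25)*t^(4:ℕ) + 80*t^(5:ℕ) + (-114)*t^(6:ℕ) + 80*t^(7:ℕ) + (-25)*t^(8:ℕ)) - (3/250) := by
  have e : 1*(1 + 6*t^(2:ℕ) + 15*t^(4:ℕ) + 20*t^(6:ℕ) + 15*t^(8:ℕ) + 6*t^(10:ℕ) + 1*t^(12:ℕ)) + (1/4)*((-9/16) + (149/8)*t^(2:ℕ) + (-32)*t^(3:ℕ) + (1273/16)*t^(4:ℕ) + (-96)*t^(5:ℕ) + (483/4)*t^(6:ℕ) + (-96)*t^(7:ℕ) + (1273/16)*t^(8:ℕ) + (-32)*t^(9:ℕ) + (149/8)*t^(10:ℕ) + (-9/16)*t^(12:ℕ)) + (31/500)*((-233/16) + 8*t + (-73/2)*t^(2:ℕ) + 12*t^(3:ℕ) + (-623/16)*t^(4:ℕ) + (-4)*t^(5:ℕ) + (-34)*t^(6:ℕ) + (-4)*t^(7:ℕ) + (-623/16)*t^(8:ℕ) + 12*t^(9:ℕ) + (-73/2)*t^(10:ℕ) + 8*t^(11:ℕ) + (-233/16)*t^(12:ℕ)) + (61/4000)*((-287/16)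 + 27*t + (-625/4)*t^(2:ℕ) + 213*t^(3:ℕ) + (-3321/16)*t^(4:ℕ) + 184*t^(5:ℕ) + (-277/2)*t^(6:ℕ) + 184*t^(7:ℕ) + (-3321/16)*t^(8:ℕ) + 213*t^(9:ℕ) + (-625/4)*t^(10:ℕ) + 27*t^(11:ℕ) + (-287/16)*t^(12:ℕ)) + (93/25000)*(5 + 12*t + (-347/4)*t^(2:ℕ) + 62*t^(3:ℕ) + (419/2)*t^(4:ℕ) + (-378)*t^(5:ℕ) + (885/2)*t^(6:ℕ) + (-378)*t^(7:ℕ) + (419/2)*t^(8:ℕ) + 62*t^(9:ℕ) + (-347/4)*t^(10:ℕ) + 12*t^(11:ℕ) + 5*t^(12:ℕ)) + (9/10000)*((25/4) + (-20)*t + (107/2)*t^(2:ℕ) + (-120)*t^(3:ℕ) + (529/4)*t^(4:ℕ) + 52*t^(5:ℕ) + (-182)*t^(6:ℕ) + 52*t^(7:ℕ) + (529/4)*t^(8:ℕ) + (-120)*t^(9:ℕ) + (107/2)*t^(10:ℕ) + (-20)*t^(11:ℕ) + (25/4)*t^(12:ℕ)) + (27/125000)*((-25)*t^(4:ℕ) + 80*t^(5:ℕ) + (-114)*t^(6:ℕ)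 + 80*t^(7:ℕ) + (-25)*t^(8:ℕ)) - (3/250) = (194446368121629353/4429211904320000)*(1 - t)^(12:ℕ) + (467877834095143237/553651488040000)*(t - (3/10))*(1 - t)^(11:ℕ) + (777490858545155591/110730297608000)*(t - (3/10))^(2:ℕ)*(1 - t)^(10:ℕ) + (189692320998568853/5536514880400)*(t - (3/10))^(3:ℕ)*(1 - t)^(9:ℕ) + (24595245916966665/221460595216)*(t - (3/10))^(4:ℕ)*(1 - t)^(8:ℕ) + (3519863961077465/13841287201)*(t - (3/10))^(5:ℕ)*(1 - t)^(7:ℕ) + (839323065492162/1977326743)*(t - (3/10))^(6:ℕ)*(1 - t)^(6:ℕ) + (7237679590256480/13841287201)*(t - (3/10))^(7:ℕ)*(1 - t)^(5:ℕ) + (6556315771217000/13841287201)*(t - (3/10))^(8:ℕ)*(1 - t)^(4:ℕ) + (4273133770840000/13841287201)*(t -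 (3/10))^(9:ℕ)*(1 - t)^(3:ℕ) + (1907193800600000/13841287201)*(t - (3/10))^(10:ℕ)*(1 - t)^(2:ℕ) + (524404720800000/13841287201)*(t - (3/10))^(11:ℕ)*(1 - t) + (67237836000000/13841287201)*(t - (3/10))^(12:ℕ) := by
    ring
  rw [e]
  have a3 : 0 ≤ t - (3/10) := by linarith
  have a4 : 0 ≤ 1 - t := by linarith
  generalize t - (3/10) = t1 at a3 ⊢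
  generalize 1 - t = t2 at a4 ⊢
  positivity

lemma pos_DP_B1_b4 (t : ℝ) (h3 : (3/10) ≤ t) (h4 : t ≤ 1) :
    0 ≤ 1*(1 + 6*t^(2:ℕ) + 15*t^(4:ℕ) + 20*t^(6:ℕ) + 15*t^(8:ℕ) + 6*t^(10:ℕ) + 1*t^(12:ℕ)) + (4/15)*((-9/16) + (149/8)*t^(2:ℕ) + (-32)*t^(3:ℕ) + (1273/16)*t^(4:ℕ) + (-96)*t^(5:ℕ) + (483/4)*t^(6:ℕ) + (-96)*t^(7:ℕ) + (1273/16)*t^(8:ℕ) + (-32)*t^(9:ℕ) + (149/8)*t^(10:ℕ) + (-9/16)*t^(12:ℕ)) + (53/750)*((-233/16) + 8*t + (-73/2)*t^(2:ℕ) + 12*t^(3:ℕ) + (-623/16)*t^(4:ℕ) + (-4)*t^(5:ℕ) + (-34)*t^(6:ℕ) + (-4)*t^(7:ℕ) + (-623/16)*t^(8:ℕ) + 12*t^(9:ℕ) + (-73/2)*t^(10:ℕ) + 8*t^(11:ℕ) + (-233/16)*t^(12:ℕ)) + (93/5000)*((-287/16) + 27*t + (-625/4)*t^(2:ℕ) + 213*t^(3:ℕ) + (-3321/16)*t^(4:ℕ)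 + 184*t^(5:ℕ) + (-277/2)*t^(6:ℕ) + 184*t^(7:ℕ) + (-3321/16)*t^(8:ℕ) + 213*t^(9:ℕ) + (-625/4)*t^(10:ℕ) + 27*t^(11:ℕ) + (-287/16)*t^(12:ℕ)) + (243/50000)*(5 + 12*t + (-347/4)*t^(2:ℕ) + 62*t^(3:ℕ) + (419/2)*t^(4:ℕ) + (-378)*t^(5:ℕ) + (885/2)*t^(6:ℕ) + (-378)*t^(7:ℕ) + (419/2)*t^(8:ℕ) + 62*t^(9:ℕ) + (-347/4)*t^(10:ℕ) + 12*t^(11:ℕ) + 5*t^(12:ℕ)) + (63/50000)*((25/4) + (-20)*t + (107/2)*t^(2:ℕ) + (-120)*t^(3:ℕ) + (529/4)*t^(4:ℕ) + 52*t^(5:ℕ) + (-182)*t^(6:ℕ) + 52*t^(7:ℕ) + (529/4)*t^(8:ℕ) + (-120)*t^(9:ℕ) + (107/2)*t^(10:ℕ) + (-20)*t^(11:ℕ) + (25/4)*t^(12:ℕ)) + (81/250000)*((-25)*t^(4:ℕ) + 80*t^(5:ℕ) + (-114)*t^(6:ℕ) + 80*t^(7:ℕ) + (-25)*t^(8:ℕ)) - (3/250) := by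
  have e : 1*(1 + 6*t^(2:ℕ) + 15*t^(4:ℕ) + 20*t^(6:ℕ) + 15*t^(8:ℕ) + 6*t^(10:ℕ) + 1*t^(12:ℕ)) + (4/15)*((-9/16) + (149/8)*t^(2:ℕ) + (-32)*t^(3:ℕ) + (1273/16)*t^(4:ℕ) + (-96)*t^(5:ℕ) + (483/4)*t^(6:ℕ) + (-96)*t^(7:ℕ) + (1273/16)*t^(8:ℕ) + (-32)*t^(9:ℕ) + (149/8)*t^(10:ℕ) + (-9/16)*t^(12:ℕ)) + (53/750)*((-233/16) + 8*t + (-73/2)*t^(2:ℕ) + 12*t^(3:ℕ) + (-623/16)*t^(4:ℕ) + (-4)*t^(5:ℕ) + (-34)*t^(6:ℕ) + (-4)*t^(7:ℕ) + (-623/16)*t^(8:ℕ) + 12*t^(9:ℕ) + (-73/2)*t^(10:ℕ) + 8*t^(11:ℕ) + (-233/16)*t^(12:ℕ)) + (93/5000)*((-287/16) + 27*t + (-625/4)*t^(2:ℕ) + 213*t^(3:ℕ) + (-3321/16)*t^(4:ℕ) + 184*t^(5:ℕ) + (-277/2)*t^(6:ℕ) + 184*t^(7:ℕ) + (-3321/16)*t^(8:ℕ) + 213*t^(9:ℕ) + (-625/4)*t^(10:ℕ)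 + 27*t^(11:ℕ) + (-287/16)*t^(12:ℕ)) + (243/50000)*(5 + 12*t + (-347/4)*t^(2:ℕ) + 62*t^(3:ℕ) + (419/2)*t^(4:ℕ) + (-378)*t^(5:ℕ) + (885/2)*t^(6:ℕ) + (-378)*t^(7:ℕ) + (419/2)*t^(8:ℕ) + 62*t^(9:ℕ) + (-347/4)*t^(10:ℕ) + 12*t^(11:ℕ) + 5*t^(12:ℕ)) + (63/50000)*((25/4) + (-20)*t + (107/2)*t^(2:ℕ) + (-120)*t^(3:ℕ) + (529/4)*t^(4:ℕ) + 52*t^(5:ℕ) + (-182)*t^(6:ℕ) + 52*t^(7:ℕ) + (529/4)*t^(8:ℕ) + (-120)*t^(9:ℕ) + (107/2)*t^(10:ℕ) + (-20)*t^(11:ℕ) + (25/4)*t^(12:ℕ)) + (81/250000)*((-25)*t^(4:ℕ) + 80*t^(5:ℕ) + (-114)*t^(6:ℕ) + 80*t^(7:ℕ) + (-25)*t^(8:ℕ)) - (3/250) = (2918262875530103/94911683664000)*(1 - t)^(12:ℕ) + (40490685401292781/59319802290000)*(t - (3/10))*(1 - t)^(11:ℕ)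 + (481923345479659/79093069720)*(t - (3/10))^(2:ℕ)*(1 - t)^(10:ℕ) + (1533882791926197/49433168575)*(t - (3/10))^(3:ℕ)*(1 - t)^(9:ℕ) + (3067921114522757/29659901145)*(t - (3/10))^(4:ℕ)*(1 - t)^(8:ℕ) + (68215999595540/282475249)*(t - (3/10))^(5:ℕ)*(1 - t)^(7:ℕ) + (115460980990784/282475249)*(t - (3/10))^(6:ℕ)*(1 - t)^(6:ℕ) + (1005791305872160/1977326743)*(t - (3/10))^(7:ℕ)*(1 - t)^(5:ℕ) + (917852438498000/1977326743)*(t - (3/10))^(8:ℕ)*(1 - t)^(4:ℕ) + (601369770480000/1977326743)*(t - (3/10))^(9:ℕ)*(1 - t)^(3:ℕ) + (808026572800000/5931980229)*(t - (3/10))^(10:ℕ)*(1 - t)^(2:ℕ) + (74194345600000/1977326743)*(t - (3/10))^(11:ℕ)*(1 - t) + (4077008000000/847425747)*(t -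 (3/10))^(12:ℕ) := by
    ring
  rw [e]
  have a3 : 0 ≤ t - (3/10) := by linarith
  have a4 : 0 ≤ 1 - t := by linarith
  generalize t - (3/10) = t1 at a3 ⊢
  generalize 1 - t = t2 at a4 ⊢
  positivity

lemma pos_DP_B1_b5 (t : ℝ) (h3 : (3/10) ≤ t) (h4 : t ≤ 1) :
    0 ≤ 1*(1 + 6*t^(2:ℕ) + 15*t^(4:ℕ) + 20*t^(6:ℕ) + 15*t^(8:ℕ) + 6*t^(10:ℕ) + 1*t^(12:ℕ)) + (17/60)*((-9/16) + (149/8)*t^(2:ℕ) + (-32)*t^(3:ℕ) + (1273/16)*t^(4:ℕ) + (-96)*t^(5:ℕ) + (483/4)*t^(6:ℕ) + (-96)*t^(7:ℕ) + (1273/16)*t^(8:ℕ) + (-32)*t^(9:ℕ) + (149/8)*t^(10:ℕ) + (-9/16)*t^(12:ℕ)) + (2/25)*((-233/16) + 8*t + (-73/2)*t^(2:ℕ) + 12*t^(3:ℕ) + (-623/16)*t^(4:ℕ) + (-4)*t^(5:ℕ) + (-34)*t^(6:ℕ) + (-4)*t^(7:ℕ)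 + (-623/16)*t^(8:ℕ) + 12*t^(9:ℕ) + (-73/2)*t^(10:ℕ) + 8*t^(11:ℕ) + (-233/16)*t^(12:ℕ)) + (9/400)*((-287/16) + 27*t + (-625/4)*t^(2:ℕ) + 213*t^(3:ℕ) + (-3321/16)*t^(4:ℕ) + 184*t^(5:ℕ) + (-277/2)*t^(6:ℕ) + 184*t^(7:ℕ) + (-3321/16)*t^(8:ℕ) + 213*t^(9:ℕ) + (-625/4)*t^(10:ℕ) + 27*t^(11:ℕ) + (-287/16)*t^(12:ℕ)) + (63/10000)*(5 + 12*t + (-347/4)*t^(2:ℕ) + 62*t^(3:ℕ) + (419/2)*t^(4:ℕ) + (-378)*t^(5:ℕ) + (885/2)*t^(6:ℕ) + (-378)*t^(7:ℕ) + (419/2)*t^(8:ℕ) + 62*t^(9:ℕ) + (-347/4)*t^(10:ℕ) + 12*t^(11:ℕ) + 5*t^(12:ℕ)) + (351/200000)*((25/4) + (-20)*t + (107/2)*t^(2:ℕ) + (-120)*t^(3:ℕ) + (529/4)*t^(4:ℕ) + 52*t^(5:ℕ) + (-182)*t^(6:ℕ) + 52*t^(7:ℕ) + (529/4)*t^(8:ℕ) + (-120)*t^(9:ℕ)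 + (107/2)*t^(10:ℕ) + (-20)*t^(11:ℕ) + (25/4)*t^(12:ℕ)) + (243/500000)*((-25)*t^(4:ℕ) + 80*t^(5:ℕ) + (-114)*t^(6:ℕ) + 80*t^(7:ℕ) + (-25)*t^(8:ℕ)) - (3/250) := by
  have e : 1*(1 + 6*t^(2:ℕ) + 15*t^(4:ℕ) + 20*t^(6:ℕ) + 15*t^(8:ℕ) + 6*t^(10:ℕ) + 1*t^(12:ℕ)) + (17/60)*((-9/16) + (149/8)*t^(2:ℕ) + (-32)*t^(3:ℕ) + (1273/16)*t^(4:ℕ) + (-96)*t^(5:ℕ) + (483/4)*t^(6:ℕ) + (-96)*t^(7:ℕ) + (1273/16)*t^(8:ℕ) + (-32)*t^(9:ℕ) + (149/8)*t^(10:ℕ) + (-9/16)*t^(12:ℕ)) + (2/25)*((-233/16) + 8*t + (-73/2)*t^(2:ℕ) + 12*t^(3:ℕ) + (-623/16)*t^(4:ℕ) + (-4)*t^(5:ℕ) + (-34)*t^(6:ℕ) + (-4)*t^(7:ℕ) + (-623/16)*t^(8:ℕ) + 12*t^(9:ℕ) + (-73/2)*t^(10:ℕ) + 8*t^(11:ℕ) + (-233/16)*t^(12:ℕ)) + (9/400)*((-287/16)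 + 27*t + (-625/4)*t^(2:ℕ) + 213*t^(3:ℕ) + (-3321/16)*t^(4:ℕ) + 184*t^(5:ℕ) + (-277/2)*t^(6:ℕ) + 184*t^(7:ℕ) + (-3321/16)*t^(8:ℕ) + 213*t^(9:ℕ) + (-625/4)*t^(10:ℕ) + 27*t^(11:ℕ) + (-287/16)*t^(12:ℕ)) + (63/10000)*(5 + 12*t + (-347/4)*t^(2:ℕ) + 62*t^(3:ℕ) + (419/2)*t^(4:ℕ) + (-378)*t^(5:ℕ) + (885/2)*t^(6:ℕ) + (-378)*t^(7:ℕ) + (419/2)*t^(8:ℕ) + 62*t^(9:ℕ) + (-347/4)*t^(10:ℕ) + 12*t^(11:ℕ) + 5*t^(12:ℕ)) + (351/200000)*((25/4) + (-20)*t + (107/2)*t^(2:ℕ) + (-120)*t^(3:ℕ) + (529/4)*t^(4:ℕ) + 52*t^(5:ℕ) + (-182)*t^(6:ℕ) + 52*t^(7:ℕ) + (529/4)*t^(8:ℕ) + (-120)*t^(9:ℕ) + (107/2)*t^(10:ℕ) + (-20)*t^(11:ℕ) + (25/4)*t^(12:ℕ)) + (243/500000)*((-25)*t^(4:ℕ) + 80*t^(5:ℕ) + (-114)*t^(6:ℕ)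 + 80*t^(7:ℕ) + (-25)*t^(8:ℕ)) - (3/250) = (895742909183571/55365148804000)*(1 - t)^(12:ℕ) + (13887393304901283/27682574402000)*(t - (3/10))*(1 - t)^(11:ℕ) + (839402408072654659/166095446412000)*(t - (3/10))^(2:ℕ)*(1 - t)^(10:ℕ) + (45493462423261427/1660954464120)*(t - (3/10))^(3:ℕ)*(1 - t)^(9:ℕ) + (19683770659188752/207619308015)*(t - (3/10))^(4:ℕ)*(1 - t)^(8:ℕ) + (9422307973180040/41523861603)*(t - (3/10))^(5:ℕ)*(1 - t)^(7:ℕ) + (2317876701921241/5931980229)*(t - (3/10))^(6:ℕ)*(1 - t)^(6:ℕ) + (20440392472501940/41523861603)*(t - (3/10))^(7:ℕ)*(1 - t)^(5:ℕ) + (18817934085097250/41523861603)*(t - (3/10))^(8:ℕ)*(1 - t)^(4:ℕ) + (12405964507570000/41523861603)*(t - (3/10))^(9:ℕ)*(1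 - t)^(3:ℕ) + (5579108594000000/41523861603)*(t - (3/10))^(10:ℕ)*(1 - t)^(2:ℕ) + (513374350800000/13841287201)*(t - (3/10))^(11:ℕ)*(1 - t) + (65823686000000/13841287201)*(t - (3/10))^(12:ℕ) := by
    ring
  rw [e]
  have a3 : 0 ≤ t - (3/10) := by linarith
  have a4 : 0 ≤ 1 - t := by linarith
  generalize t - (3/10) = t1 at a3 ⊢
  generalize 1 - t = t2 at a4 ⊢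
  positivity

lemma pos_DP_B1_b6 (t : ℝ) (h3 : (3/10) ≤ t) (h4 : t ≤ 1) :
    0 ≤ 1*(1 + 6*t^(2:ℕ) + 15*t^(4:ℕ) + 20*t^(6:ℕ) + 15*t^(8:ℕ) + 6*t^(10:ℕ) + 1*t^(12:ℕ)) + (3/10)*((-9/16) + (149/8)*t^(2:ℕ) + (-32)*t^(3:ℕ) + (1273/16)*t^(4:ℕ) + (-96)*t^(5:ℕ) + (483/4)*t^(6:ℕ) + (-96)*t^(7:ℕ) + (1273/16)*t^(8:ℕ) + (-32)*t^(9:ℕ) + (149/8)*t^(10:ℕ) + (-9/16)*t^(12:ℕ)) + (9/100)*((-233/16) + 8*t + (-73/2)*t^(2:ℕ) + 12*t^(3:ℕ) + (-623/16)*t^(4:ℕ) + (-4)*t^(5:ℕ) + (-34)*t^(6:ℕ) + (-4)*t^(7:ℕ) + (-623/16)*t^(8:ℕ) + 12*t^(9:ℕ) + (-73/2)*t^(10:ℕ) + 8*t^(11:ℕ) + (-233/16)*t^(12:ℕ)) + (27/1000)*((-287/16) + 27*t + (-625/4)*t^(2:ℕ) + 213*t^(3:ℕ) + (-3321/16)*t^(4:ℕ) + 184*t^(5:ℕ) +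 (-277/2)*t^(6:ℕ) + 184*t^(7:ℕ) + (-3321/16)*t^(8:ℕ) + 213*t^(9:ℕ) + (-625/4)*t^(10:ℕ) + 27*t^(11:ℕ) + (-287/16)*t^(12:ℕ)) + (81/10000)*(5 + 12*t + (-347/4)*t^(2:ℕ) + 62*t^(3:ℕ) + (419/2)*t^(4:ℕ) + (-378)*t^(5:ℕ) + (885/2)*t^(6:ℕ) + (-378)*t^(7:ℕ) + (419/2)*t^(8:ℕ) + 62*t^(9:ℕ) + (-347/4)*t^(10:ℕ) + 12*t^(11:ℕ) + 5*t^(12:ℕ)) + (243/100000)*((25/4) + (-20)*t + (107/2)*t^(2:ℕ) + (-120)*t^(3:ℕ) + (529/4)*t^(4:ℕ) + 52*t^(5:ℕ) + (-182)*t^(6:ℕ) + 52*t^(7:ℕ) + (529/4)*t^(8:ℕ) + (-120)*t^(9:ℕ) + (107/2)*t^(10:ℕ) + (-20)*t^(11:ℕ) + (25/4)*t^(12:ℕ)) + (729/1000000)*((-25)*t^(4:ℕ) + 80*t^(5:ℕ) + (-114)*t^(6:ℕ) + 80*t^(7:ℕ) + (-25)*t^(8:ℕ)) - (3/250) := by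
  have e : 1*(1 + 6*t^(2:ℕ) + 15*t^(4:ℕ) + 20*t^(6:ℕ) + 15*t^(8:ℕ) + 6*t^(10:ℕ) + 1*t^(12:ℕ)) + (3/10)*((-9/16) + (149/8)*t^(2:ℕ) + (-32)*t^(3:ℕ) + (1273/16)*t^(4:ℕ) + (-96)*t^(5:ℕ) + (483/4)*t^(6:ℕ) + (-96)*t^(7:ℕ) + (1273/16)*t^(8:ℕ) + (-32)*t^(9:ℕ) + (149/8)*t^(10:ℕ) + (-9/16)*t^(12:ℕ)) + (9/100)*((-233/16) + 8*t + (-73/2)*t^(2:ℕ) + 12*t^(3:ℕ) + (-623/16)*t^(4:ℕ) + (-4)*t^(5:ℕ) + (-34)*t^(6:ℕ) + (-4)*t^(7:ℕ) + (-623/16)*t^(8:ℕ) + 12*t^(9:ℕ) + (-73/2)*t^(10:ℕ) + 8*t^(11:ℕ) + (-233/16)*t^(12:ℕ)) + (27/1000)*((-287/16) + 27*t + (-625/4)*t^(2:ℕ) + 213*t^(3:ℕ) + (-3321/16)*t^(4:ℕ) + 184*t^(5:ℕ) + (-277/2)*t^(6:ℕ) + 184*t^(7:ℕ) + (-3321/16)*t^(8:ℕ) + 213*t^(9:ℕ) + (-625/4)*t^(10:ℕ)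 + 27*t^(11:ℕ) + (-287/16)*t^(12:ℕ)) + (81/10000)*(5 + 12*t + (-347/4)*t^(2:ℕ) + 62*t^(3:ℕ) + (419/2)*t^(4:ℕ) + (-378)*t^(5:ℕ) + (885/2)*t^(6:ℕ) + (-378)*t^(7:ℕ) + (419/2)*t^(8:ℕ) + 62*t^(9:ℕ) + (-347/4)*t^(10:ℕ) + 12*t^(11:ℕ) + 5*t^(12:ℕ)) + (243/100000)*((25/4) + (-20)*t + (107/2)*t^(2:ℕ) + (-120)*t^(3:ℕ) + (529/4)*t^(4:ℕ) + 52*t^(5:ℕ) + (-182)*t^(6:ℕ) + 52*t^(7:ℕ) + (529/4)*t^(8:ℕ) + (-120)*t^(9:ℕ) + (107/2)*t^(10:ℕ) + (-20)*t^(11:ℕ) + (25/4)*t^(12:ℕ)) + (729/1000000)*((-25)*t^(4:ℕ) + 80*t^(5:ℕ) + (-114)*t^(6:ℕ) + 80*t^(7:ℕ) + (-25)*t^(8:ℕ)) - (3/250) = (259767969617/1730160900125)*(1 - t)^(12:ℕ) + (521922706906947/1730160900125)*(t - (3/10))*(1 - t)^(11:ℕ) + (13492009161474933/3460321800250)*(t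 - (3/10))^(2:ℕ)*(1 - t)^(10:ℕ) + (1614418895235242/69206436005)*(t - (3/10))^(3:ℕ)*(1 - t)^(9:ℕ) + (5891660671068864/69206436005)*(t - (3/10))^(4:ℕ)*(1 - t)^(8:ℕ) + (2913557014823040/13841287201)*(t - (3/10))^(5:ℕ)*(1 - t)^(7:ℕ) + (732386306855408/1977326743)*(t - (3/10))^(6:ℕ)*(1 - t)^(6:ℕ) + (6555823862358720/13841287201)*(t - (3/10))^(7:ℕ)*(1 - t)^(5:ℕ) + (6099146137164000/13841287201)*(t - (3/10))^(8:ℕ)*(1 - t)^(4:ℕ) + (4050382369760000/13841287201)*(t - (3/10))^(9:ℕ)*(1 - t)^(3:ℕ) + (1830193900800000/13841287201)*(t - (3/10))^(10:ℕ)*(1 - t)^(2:ℕ) + (506475859200000/13841287201)*(t - (3/10))^(11:ℕ)*(1 - t) + (64939264000000/13841287201)*(t - (3/10))^(12:ℕ) :=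 by
    ring
  rw [e]
  have a3 : 0 ≤ t - (3/10) := by linarith
  have a4 : 0 ≤ 1 - t := by linarith
  generalize t - (3/10) = t1 at a3 ⊢
  generalize 1 - t = t2 at a4 ⊢
  positivity

lemma pos_DP_B1_id (d : ℝ) (C0 C1 C2 C3 C4 C5 C6 : ℝ) :
    C0 + d*C1 + d^(2:ℕ)*C2 + d^(3:ℕ)*C3 + d^(4:ℕ)*C4 + d^(5:ℕ)*C5 + d^(6:ℕ)*C6 = (3/250) + (1000000*((3/10) - d)^(6:ℕ)*(1*C0 + (1/5)*C1 + (1/25)*C2 + (1/125)*C3 + (1/625)*C4 + (1/3125)*C5 + (1/15625)*C6 - (3/250)) + 6000000*(d - (1/5))*((3/10) - d)^(5:ℕ)*(1*C0 + (13/60)*C1 + (7/150)*C2 + (1/100)*C3 + (4/1875)*C4 + (17/37500)*C5 + (3/31250)*C6 - (3/250)) + 15000000*(d - (1/5))^(2:ℕ)*((3/10) - d)^(4:ℕ)*(1*C0 + (7/30)*C1 + (27/500)*C2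 + (31/2500)*C3 + (53/18750)*C4 + (2/3125)*C5 + (9/62500)*C6 - (3/250)) + 20000000*(d - (1/5))^(3:ℕ)*((3/10) - d)^(3:ℕ)*(1*C0 + (1/4)*C1 + (31/500)*C2 + (61/4000)*C3 + (93/25000)*C4 + (9/10000)*C5 + (27/125000)*C6 - (3/250)) + 15000000*(d - (1/5))^(4:ℕ)*((3/10) - d)^(2:ℕ)*(1*C0 + (4/15)*C1 + (53/750)*C2 + (93/5000)*C3 + (243/50000)*C4 + (63/50000)*C5 + (81/250000)*C6 - (3/250)) + 6000000*(d - (1/5))^(5:ℕ)*((3/10) - d)*(1*C0 + (17/60)*C1 + (2/25)*C2 + (9/400)*C3 + (63/10000)*C4 + (351/200000)*C5 + (243/500000)*C6 - (3/250)) + 1000000*(d - (1/5))^(6:ℕ)*(1*C0 + (3/10)*C1 + (9/100)*C2 + (27/1000)*C3 + (81/10000)*C4 + (243/100000)*C5 + (729/1000000)*C6 - (3/250))) := by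
  ring

lemma pos_DP_B1_gen (d1 d2 B0 B1 B2 B3 B4 B5 B6 : ℝ) (a1 : 0 ≤ d1) (a2 : 0 ≤ d2) (b0 : 0 ≤ B0) (b1 : 0 ≤ B1) (b2 : 0 ≤ B2) (b3 : 0 ≤ B3) (b4 : 0 ≤ B4) (b5 : 0 ≤ B5) (b6 : 0 ≤ B6) :
    0 < (3/250) + (1000000*d2^(6:ℕ)*(B0) + 6000000*d1*d2^(5:ℕ)*(B1) + 15000000*d1^(2:ℕ)*d2^(4:ℕ)*(B2) + 20000000*d1^(3:ℕ)*d2^(3:ℕ)*(B3) + 15000000*d1^(4:ℕ)*d2^(2:ℕ)*(B4) + 6000000*d1^(5:ℕ)*d2*(B5) + 1000000*d1^(6:ℕ)*(B6)) := by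
  positivity

lemma pos_DP_B1_core (d C0 C1 C2 C3 C4 C5 C6 : ℝ) (h1 : (1/5) ≤ d) (h2 : d ≤ (3/10))
    (b0 : 0 ≤ 1*C0 + (1/5)*C1 + (1/25)*C2 + (1/125)*C3 + (1/625)*C4 + (1/3125)*C5 + (1/15625)*C6 - (3/250))
    (b1 : 0 ≤ 1*C0 + (13/60)*C1 + (7/150)*C2 + (1/100)*C3 + (4/1875)*C4 + (17/37500)*C5 + (3/31250)*C6 - (3/250))
    (b2 : 0 ≤ 1*C0 + (7/30)*C1 + (27/500)*C2 + (31/2500)*C3 + (53/18750)*C4 + (2/3125)*C5 + (9/62500)*C6 - (3/250))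
    (b3 : 0 ≤ 1*C0 + (1/4)*C1 + (31/500)*C2 + (61/4000)*C3 + (93/25000)*C4 + (9/10000)*C5 + (27/125000)*C6 - (3/250))
    (b4 : 0 ≤ 1*C0 + (4/15)*C1 + (53/750)*C2 + (93/5000)*C3 + (243/50000)*C4 + (63/50000)*C5 + (81/250000)*C6 - (3/250))
    (b5 : 0 ≤ 1*C0 + (17/60)*C1 + (2/25)*C2 + (9/400)*C3 + (63/10000)*C4 + (351/200000)*C5 + (243/500000)*C6 - (3/250))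
    (b6 : 0 ≤ 1*C0 + (3/10)*C1 + (9/100)*C2 + (27/1000)*C3 + (81/10000)*C4 + (243/100000)*C5 + (729/1000000)*C6 - (3/250)) :
    0 < C0 + d*C1 + d^(2:ℕ)*C2 + d^(3:ℕ)*C3 + d^(4:ℕ)*C4 + d^(5:ℕ)*C5 + d^(6:ℕ)*C6 := by
  rw [pos_DP_B1_id]
  exact pos_DP_B1_gen _ _ _ _ _ _ _ _ _ (sub_nonneg.2 h1) (sub_nonneg.2 h2) b0 b1 b2 b3 b4 b5 b6

lemma pos_DP_B1 (d t : ℝ) (h1 : (1/5) ≤ d) (h2 : d ≤ (3/10)) (h3 : (3/10) ≤ t) (h4 : t ≤ 1) :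
    0 < 1 + 6*t^(2:ℕ) + 15*t^(4:ℕ) + 20*t^(6:ℕ) + 15*t^(8:ℕ) + 6*t^(10:ℕ) + 1*t^(12:ℕ) + (-9/16)*d + (149/8)*d*t^(2:ℕ) + (-32)*d*t^(3:ℕ) + (1273/16)*d*t^(4:ℕ) + (-96)*d*t^(5:ℕ) + (483/4)*d*t^(6:ℕ) + (-96)*d*t^(7:ℕ) + (1273/16)*d*t^(8:ℕ) + (-32)*d*t^(9:ℕ) + (149/8)*d*t^(10:ℕ) + (-9/16)*d*t^(12:ℕ) + (-233/16)*d^(2:ℕ) + 8*d^(2:ℕ)*t + (-73/2)*d^(2:ℕ)*t^(2:ℕ) + 12*d^(2:ℕ)*t^(3:ℕ) + (-623/16)*d^(2:ℕ)*t^(4:ℕ) + (-4)*d^(2:ℕ)*t^(5:ℕ) + (-34)*d^(2:ℕ)*t^(6:ℕ) + (-4)*d^(2:ℕ)*t^(7:ℕ) + (-623/16)*d^(2:ℕ)*t^(8:ℕ) + 12*d^(2:ℕ)*t^(9:ℕ) + (-73/2)*d^(2:ℕ)*t^(10:ℕ) + 8*d^(2:ℕ)*t^(11:ℕ) + (-233/16)*d^(2:ℕ)*t^(12:ℕ) + (-287/16)*d^(3:ℕ) + 27*d^(3:ℕ)*t + (-625/4)*d^(3:ℕ)*t^(2:ℕ) + 213*d^(3:ℕ)*t^(3:ℕ)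 + (-3321/16)*d^(3:ℕ)*t^(4:ℕ) + 184*d^(3:ℕ)*t^(5:ℕ) + (-277/2)*d^(3:ℕ)*t^(6:ℕ) + 184*d^(3:ℕ)*t^(7:ℕ) + (-3321/16)*d^(3:ℕ)*t^(8:ℕ) + 213*d^(3:ℕ)*t^(9:ℕ) + (-625/4)*d^(3:ℕ)*t^(10:ℕ) + 27*d^(3:ℕ)*t^(11:ℕ) + (-287/16)*d^(3:ℕ)*t^(12:ℕ) + 5*d^(4:ℕ) + 12*d^(4:ℕ)*t + (-347/4)*d^(4:ℕ)*t^(2:ℕ) + 62*d^(4:ℕ)*t^(3:ℕ) + (419/2)*d^(4:ℕ)*t^(4:ℕ) + (-378)*d^(4:ℕ)*t^(5:ℕ) + (885/2)*d^(4:ℕ)*t^(6:ℕ) + (-378)*d^(4:ℕ)*t^(7:ℕ) + (419/2)*d^(4:ℕ)*t^(8:ℕ) + 62*d^(4:ℕ)*t^(9:ℕ) + (-347/4)*d^(4:ℕ)*t^(10:ℕ) + 12*d^(4:ℕ)*t^(11:ℕ) + 5*d^(4:ℕ)*t^(12:ℕ) + (25/4)*d^(5:ℕ) + (-20)*d^(5:ℕ)*t + (107/2)*d^(5:ℕ)*t^(2:ℕ) + (-120)*d^(5:ℕ)*t^(3:ℕ) + (529/4)*d^(5:ℕ)*t^(4:ℕ) + 52*d^(5:ℕ)*t^(5:ℕ) + (-182)*d^(5:ℕ)*t^(6:ℕ)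 + 52*d^(5:ℕ)*t^(7:ℕ) + (529/4)*d^(5:ℕ)*t^(8:ℕ) + (-120)*d^(5:ℕ)*t^(9:ℕ) + (107/2)*d^(5:ℕ)*t^(10:ℕ) + (-20)*d^(5:ℕ)*t^(11:ℕ) + (25/4)*d^(5:ℕ)*t^(12:ℕ) + (-25)*d^(6:ℕ)*t^(4:ℕ) + 80*d^(6:ℕ)*t^(5:ℕ) + (-114)*d^(6:ℕ)*t^(6:ℕ) + 80*d^(6:ℕ)*t^(7:ℕ) + (-25)*d^(6:ℕ)*t^(8:ℕ) := by
  have e0 : 1 + 6*t^(2:ℕ) + 15*t^(4:ℕ) + 20*t^(6:ℕ) + 15*t^(8:ℕ) + 6*t^(10:ℕ) + 1*t^(12:ℕ) + (-9/16)*d + (149/8)*d*t^(2:ℕ) + (-32)*d*t^(3:ℕ) + (1273/16)*d*t^(4:ℕ) + (-96)*d*t^(5:ℕ) + (483/4)*d*t^(6:ℕ) + (-96)*d*t^(7:ℕ) + (1273/16)*d*t^(8:ℕ) + (-32)*d*t^(9:ℕ) + (149/8)*d*t^(10:ℕ) + (-9/16)*d*t^(12:ℕ) + (-233/16)*d^(2:ℕ) + 8*d^(2:ℕ)*t + (-73/2)*d^(2:ℕ)*t^(2:ℕ) + 12*d^(2:ℕ)*t^(3:ℕ) + (-623/16)*d^(2:ℕ)*t^(4:ℕ)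 + (-4)*d^(2:ℕ)*t^(5:ℕ) + (-34)*d^(2:ℕ)*t^(6:ℕ) + (-4)*d^(2:ℕ)*t^(7:ℕ) + (-623/16)*d^(2:ℕ)*t^(8:ℕ) + 12*d^(2:ℕ)*t^(9:ℕ) + (-73/2)*d^(2:ℕ)*t^(10:ℕ) + 8*d^(2:ℕ)*t^(11:ℕ) + (-233/16)*d^(2:ℕ)*t^(12:ℕ) + (-287/16)*d^(3:ℕ) + 27*d^(3:ℕ)*t + (-625/4)*d^(3:ℕ)*t^(2:ℕ) + 213*d^(3:ℕ)*t^(3:ℕ) + (-3321/16)*d^(3:ℕ)*t^(4:ℕ) + 184*d^(3:ℕ)*t^(5:ℕ) + (-277/2)*d^(3:ℕ)*t^(6:ℕ) + 184*d^(3:ℕ)*t^(7:ℕ) + (-3321/16)*d^(3:ℕ)*t^(8:ℕ) + 213*d^(3:ℕ)*t^(9:ℕ) + (-625/4)*d^(3:ℕ)*t^(10:ℕ) + 27*d^(3:ℕ)*t^(11:ℕ) + (-287/16)*d^(3:ℕ)*t^(12:ℕ) + 5*d^(4:ℕ) + 12*d^(4:ℕ)*t + (-347/4)*d^(4:ℕ)*t^(2:ℕ) + 62*d^(4:ℕ)*t^(3:ℕ) + (419/2)*d^(4:ℕ)*t^(4:ℕ) + (-378)*d^(4:ℕ)*t^(5:ℕ) + (885/2)*d^(4:ℕ)*t^(6:ℕ) + (-378)*d^(4:ℕ)*t^(7:ℕ)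 + (419/2)*d^(4:ℕ)*t^(8:ℕ) + 62*d^(4:ℕ)*t^(9:ℕ) + (-347/4)*d^(4:ℕ)*t^(10:ℕ) + 12*d^(4:ℕ)*t^(11:ℕ) + 5*d^(4:ℕ)*t^(12:ℕ) + (25/4)*d^(5:ℕ) + (-20)*d^(5:ℕ)*t + (107/2)*d^(5:ℕ)*t^(2:ℕ) + (-120)*d^(5:ℕ)*t^(3:ℕ) + (529/4)*d^(5:ℕ)*t^(4:ℕ) + 52*d^(5:ℕ)*t^(5:ℕ) + (-182)*d^(5:ℕ)*t^(6:ℕ) + 52*d^(5:ℕ)*t^(7:ℕ) + (529/4)*d^(5:ℕ)*t^(8:ℕ) + (-120)*d^(5:ℕ)*t^(9:ℕ) + (107/2)*d^(5:ℕ)*t^(10:ℕ) + (-20)*d^(5:ℕ)*t^(11:ℕ) + (25/4)*d^(5:ℕ)*t^(12:ℕ) + (-25)*d^(6:ℕ)*t^(4:ℕ) + 80*d^(6:ℕ)*t^(5:ℕ) + (-114)*d^(6:ℕ)*t^(6:ℕ) + 80*d^(6:ℕ)*t^(7:ℕ) + (-25)*d^(6:ℕ)*t^(8:ℕ) = (1 + 6*t^(2:ℕ) + 15*t^(4:ℕ) + 20*t^(6:ℕ) + 15*t^(8:ℕ) + 6*t^(10:ℕ) + 1*t^(12:ℕ)) + d*((-9/16) + (149/8)*t^(2:ℕ) + (-32)*t^(3:ℕ) +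 (1273/16)*t^(4:ℕ) + (-96)*t^(5:ℕ) + (483/4)*t^(6:ℕ) + (-96)*t^(7:ℕ) + (1273/16)*t^(8:ℕ) + (-32)*t^(9:ℕ) + (149/8)*t^(10:ℕ) + (-9/16)*t^(12:ℕ)) + d^(2:ℕ)*((-233/16) + 8*t + (-73/2)*t^(2:ℕ) + 12*t^(3:ℕ) + (-623/16)*t^(4:ℕ) + (-4)*t^(5:ℕ) + (-34)*t^(6:ℕ) + (-4)*t^(7:ℕ) + (-623/16)*t^(8:ℕ) + 12*t^(9:ℕ) + (-73/2)*t^(10:ℕ) + 8*t^(11:ℕ) + (-233/16)*t^(12:ℕ)) + d^(3:ℕ)*((-287/16) + 27*t + (-625/4)*t^(2:ℕ) + 213*t^(3:ℕ) + (-3321/16)*t^(4:ℕ) + 184*t^(5:ℕ) + (-277/2)*t^(6:ℕ) + 184*t^(7:ℕ) + (-3321/16)*t^(8:ℕ) + 213*t^(9:ℕ) + (-625/4)*t^(10:ℕ) + 27*t^(11:ℕ) + (-287/16)*t^(12:ℕ)) + d^(4:ℕ)*(5 + 12*t + (-347/4)*t^(2:ℕ) + 62*t^(3:ℕ) + (419/2)*t^(4:ℕ) + (-378)*t^(5:ℕ) + (885/2)*t^(6:ℕ)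 + (-378)*t^(7:ℕ) + (419/2)*t^(8:ℕ) + 62*t^(9:ℕ) + (-347/4)*t^(10:ℕ) + 12*t^(11:ℕ) + 5*t^(12:ℕ)) + d^(5:ℕ)*((25/4) + (-20)*t + (107/2)*t^(2:ℕ) + (-120)*t^(3:ℕ) + (529/4)*t^(4:ℕ) + 52*t^(5:ℕ) + (-182)*t^(6:ℕ) + 52*t^(7:ℕ) + (529/4)*t^(8:ℕ) + (-120)*t^(9:ℕ) + (107/2)*t^(10:ℕ) + (-20)*t^(11:ℕ) + (25/4)*t^(12:ℕ)) + d^(6:ℕ)*((-25)*t^(4:ℕ) + 80*t^(5:ℕ) + (-114)*t^(6:ℕ) + 80*t^(7:ℕ) + (-25)*t^(8:ℕ)) := by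
    ring
  rw [e0]
  exact pos_DP_B1_core d _ _ _ _ _ _ _ h1 h2 (pos_DP_B1_b0 t h3 h4) (pos_DP_B1_b1 t h3 h4) (pos_DP_B1_b2 t h3 h4) (pos_DP_B1_b3 t h3 h4) (pos_DP_B1_b4 t h3 h4) (pos_DP_B1_b5 t h3 h4) (pos_DP_B1_b6 t h3 h4)

lemma pos_L10_B1_b0 (t : ℝ) (h3 : (3/10) ≤ t) (h4 : t ≤ 1) :
    0 ≤ 1*(2 + 2*t + 10*t^(2:ℕ) + 10*t^(3:ℕ) + 20*t^(4:ℕ) + 20*t^(5:ℕ) + 20*t^(6:ℕ) + 20*t^(7:ℕ) + 10*t^(8:ℕ) + 10*t^(9:ℕ) + 2*t^(10:ℕ) + 2*t^(11:ℕ)) + (1/5)*(4 + 4*t + 28*t^(2:ℕ) + 28*t^(3:ℕ) + 64*t^(4:ℕ) + 64*t^(5:ℕ) + 64*t^(6:ℕ) + 64*t^(7:ℕ) + 28*t^(8:ℕ) + 28*t^(9:ℕ) + 4*t^(10:ℕ) + 4*t^(11:ℕ)) + (1/25)*(33*t^(2:ℕ) + 35*t^(3:ℕ) + 103*t^(4:ℕ) + 60*t^(5:ℕ) + 82*t^(6:ℕ) + (-3)*t^(7:ℕ)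 + 3*t^(8:ℕ) + (-46)*t^(9:ℕ) + (-9)*t^(10:ℕ) + (-18)*t^(11:ℕ)) + (1/125)*(2*t^(2:ℕ) + 19*t^(3:ℕ) + 69*t^(4:ℕ) + (-41)*t^(5:ℕ) + 56*t^(6:ℕ) + (-125)*t^(7:ℕ) + (-3)*t^(8:ℕ) + (-73)*t^(9:ℕ) + 8*t^(10:ℕ) + (-8)*t^(11:ℕ)) + (1/625)*(8*t^(2:ℕ) + (-48)*t^(3:ℕ) + 102*t^(4:ℕ) + (-124)*t^(5:ℕ) + 96*t^(6:ℕ) + (-40)*t^(7:ℕ) + (-26)*t^(8:ℕ) + 44*t^(9:ℕ) + (-28)*t^(10:ℕ) + 8*t^(11:ℕ)) + (1/3125)*((15/4)*t^(4:ℕ) + (-35/2)*t^(5:ℕ) + (101/4)*t^(6:ℕ) + (-35/2)*t^(7:ℕ) + (15/4)*t^(8:ℕ) + 32*t^(9:ℕ) + (-48)*t^(10:ℕ) + 32*t^(11:ℕ)) + (1/15625)*((-14)*t^(4:ℕ) + 43*t^(5:ℕ) + (-61)*t^(6:ℕ) + 43*t^(7:ℕ) + (-14)*t^(8:ℕ)) + (1/78125)*((-4)*t^(4:ℕ) + 12*t^(5:ℕ) + (-17)*t^(6:ℕ) + 12*t^(7:ℕ) +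 (-4)*t^(8:ℕ)) - (1089/200) := by
  have e : 1*(2 + 2*t + 10*t^(2:ℕ) + 10*t^(3:ℕ) + 20*t^(4:ℕ) + 20*t^(5:ℕ) + 20*t^(6:ℕ) + 20*t^(7:ℕ) + 10*t^(8:ℕ) + 10*t^(9:ℕ) + 2*t^(10:ℕ) + 2*t^(11:ℕ)) + (1/5)*(4 + 4*t + 28*t^(2:ℕ) + 28*t^(3:ℕ) + 64*t^(4:ℕ) + 64*t^(5:ℕ) + 64*t^(6:ℕ) + 64*t^(7:ℕ) + 28*t^(8:ℕ) + 28*t^(9:ℕ) + 4*t^(10:ℕ) + 4*t^(11:ℕ)) + (1/25)*(33*t^(2:ℕ) + 35*t^(3:ℕ) + 103*t^(4:ℕ) + 60*t^(5:ℕ) + 82*t^(6:ℕ) + (-3)*t^(7:ℕ) + 3*t^(8:ℕ) + (-46)*t^(9:ℕ) + (-9)*t^(10:ℕ) + (-18)*t^(11:ℕ)) + (1/125)*(2*t^(2:ℕ) + 19*t^(3:ℕ) + 69*t^(4:ℕ) + (-41)*t^(5:ℕ) + 56*t^(6:ℕ) + (-125)*t^(7:ℕ) + (-3)*t^(8:ℕ) + (-73)*t^(9:ℕ) + 8*t^(10:ℕ) + (-8)*t^(11:ℕ)) + (1/625)*(8*t^(2:ℕ) + (-48)*t^(3:ℕ)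 + 102*t^(4:ℕ) + (-124)*t^(5:ℕ) + 96*t^(6:ℕ) + (-40)*t^(7:ℕ) + (-26)*t^(8:ℕ) + 44*t^(9:ℕ) + (-28)*t^(10:ℕ) + 8*t^(11:ℕ)) + (1/3125)*((15/4)*t^(4:ℕ) + (-35/2)*t^(5:ℕ) + (101/4)*t^(6:ℕ) + (-35/2)*t^(7:ℕ) + (15/4)*t^(8:ℕ) + 32*t^(9:ℕ) + (-48)*t^(10:ℕ) + 32*t^(11:ℕ)) + (1/15625)*((-14)*t^(4:ℕ) + 43*t^(5:ℕ) + (-61)*t^(6:ℕ) + 43*t^(7:ℕ) + (-14)*t^(8:ℕ)) + (1/78125)*((-4)*t^(4:ℕ) + 12*t^(5:ℕ) + (-17)*t^(6:ℕ) + 12*t^(7:ℕ) + (-4)*t^(8:ℕ)) - (1089/200) = (189213607887704/6179146071875)*(1 - t)^(11:ℕ) + (1456663027000956/1235829214375)*(t - (3/10))*(1 - t)^(10:ℕ) + (14583234846802094/1235829214375)*(t - (3/10))^(2:ℕ)*(1 - t)^(9:ℕ) + (74628210650224558/1235829214375)*(t - (3/10))^(3:ℕ)*(1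 - t)^(8:ℕ) + (9483172427244144/49433168575)*(t - (3/10))^(4:ℕ)*(1 - t)^(7:ℕ) + (581303162126664/1412376245)*(t - (3/10))^(5:ℕ)*(1 - t)^(6:ℕ) + (875177698899488/1412376245)*(t - (3/10))^(6:ℕ)*(1 - t)^(5:ℕ) + (1308515200537088/1977326743)*(t - (3/10))^(7:ℕ)*(1 - t)^(4:ℕ) + (978415901990400/1977326743)*(t - (3/10))^(8:ℕ)*(1 - t)^(3:ℕ) + (490367443715200/1977326743)*(t - (3/10))^(9:ℕ)*(1 - t)^(2:ℕ) + (148871375136000/1977326743)*(t - (3/10))^(10:ℕ)*(1 - t) + (20817839520000/1977326743)*(t - (3/10))^(11:ℕ) := by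
    ring
  rw [e]
  have a3 : 0 ≤ t - (3/10) := by linarith
  have a4 : 0 ≤ 1 - t := by linarith
  generalize t - (3/10) = t1 at a3 ⊢
  generalize 1 - t = t2 at a4 ⊢
  positivity

lemma pos_L10_B1_b1 (t : ℝ) (h3 : (3/10) ≤ t) (h4 : t ≤ 1) :
    0 ≤ 1*(2 + 2*t + 10*t^(2:ℕ) + 10*t^(3:ℕ) + 20*t^(4:ℕ) + 20*t^(5:ℕ) + 20*t^(6:ℕ) + 20*t^(7:ℕ) + 10*t^(8:ℕ) + 10*t^(9:ℕ) + 2*t^(10:ℕ) + 2*t^(11:ℕ)) + (3/14)*(4 + 4*t + 28*t^(2:ℕ) + 28*t^(3:ℕ) + 64*t^(4:ℕ) + 64*t^(5:ℕ) + 64*t^(6:ℕ) + 64*t^(7:ℕ) + 28*t^(8:ℕ) + 28*t^(9:ℕ) + 4*t^(10:ℕ) + 4*t^(11:ℕ)) + (8/175)*(33*t^(2:ℕ) + 35*t^(3:ℕ) + 103*t^(4:ℕ) + 60*t^(5:ℕ) + 82*t^(6:ℕ) + (-3)*t^(7:ℕ) + 3*t^(8:ℕ) + (-46)*t^(9:ℕ) + (-9)*t^(10:ℕ)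 + (-18)*t^(11:ℕ)) + (17/1750)*(2*t^(2:ℕ) + 19*t^(3:ℕ) + 69*t^(4:ℕ) + (-41)*t^(5:ℕ) + 56*t^(6:ℕ) + (-125)*t^(7:ℕ) + (-3)*t^(8:ℕ) + (-73)*t^(9:ℕ) + 8*t^(10:ℕ) + (-8)*t^(11:ℕ)) + (9/4375)*(8*t^(2:ℕ) + (-48)*t^(3:ℕ) + 102*t^(4:ℕ) + (-124)*t^(5:ℕ) + 96*t^(6:ℕ) + (-40)*t^(7:ℕ) + (-26)*t^(8:ℕ) + 44*t^(9:ℕ) + (-28)*t^(10:ℕ) + 8*t^(11:ℕ)) + (19/43750)*((15/4)*t^(4:ℕ) + (-35/2)*t^(5:ℕ) + (101/4)*t^(6:ℕ) + (-35/2)*t^(7:ℕ) + (15/4)*t^(8:ℕ) + 32*t^(9:ℕ) + (-48)*t^(10:ℕ) + 32*t^(11:ℕ)) + (2/21875)*((-14)*t^(4:ℕ) + 43*t^(5:ℕ) + (-61)*t^(6:ℕ) + 43*t^(7:ℕ) + (-14)*t^(8:ℕ)) + (3/156250)*((-4)*t^(4:ℕ) + 12*t^(5:ℕ) + (-17)*t^(6:ℕ) + 12*t^(7:ℕ) + (-4)*t^(8:ℕ)) - (1089/200) := by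
  have e : 1*(2 + 2*t + 10*t^(2:ℕ) + 10*t^(3:ℕ) + 20*t^(4:ℕ) + 20*t^(5:ℕ) + 20*t^(6:ℕ) + 20*t^(7:ℕ) + 10*t^(8:ℕ) + 10*t^(9:ℕ) + 2*t^(10:ℕ) + 2*t^(11:ℕ)) + (3/14)*(4 + 4*t + 28*t^(2:ℕ) + 28*t^(3:ℕ) + 64*t^(4:ℕ) + 64*t^(5:ℕ) + 64*t^(6:ℕ) + 64*t^(7:ℕ) + 28*t^(8:ℕ) + 28*t^(9:ℕ) + 4*t^(10:ℕ) + 4*t^(11:ℕ)) + (8/175)*(33*t^(2:ℕ) + 35*t^(3:ℕ) + 103*t^(4:ℕ) + 60*t^(5:ℕ) + 82*t^(6:ℕ) + (-3)*t^(7:ℕ) + 3*t^(8:ℕ) + (-46)*t^(9:ℕ) + (-9)*t^(10:ℕ) + (-18)*t^(11:ℕ)) + (17/1750)*(2*t^(2:ℕ) + 19*t^(3:ℕ) + 69*t^(4:ℕ) + (-41)*t^(5:ℕ) + 56*t^(6:ℕ) + (-125)*t^(7:ℕ) + (-3)*t^(8:ℕ) + (-73)*t^(9:ℕ) + 8*t^(10:ℕ) + (-8)*t^(11:ℕ)) + (9/4375)*(8*t^(2:ℕ) + (-48)*t^(3:ℕ) + 102*t^(4:ℕ) + (-124)*t^(5:ℕ)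 + 96*t^(6:ℕ) + (-40)*t^(7:ℕ) + (-26)*t^(8:ℕ) + 44*t^(9:ℕ) + (-28)*t^(10:ℕ) + 8*t^(11:ℕ)) + (19/43750)*((15/4)*t^(4:ℕ) + (-35/2)*t^(5:ℕ) + (101/4)*t^(6:ℕ) + (-35/2)*t^(7:ℕ) + (15/4)*t^(8:ℕ) + 32*t^(9:ℕ) + (-48)*t^(10:ℕ) + 32*t^(11:ℕ)) + (2/21875)*((-14)*t^(4:ℕ) + 43*t^(5:ℕ) + (-61)*t^(6:ℕ) + 43*t^(7:ℕ) + (-14)*t^(8:ℕ)) + (3/156250)*((-4)*t^(4:ℕ) + 12*t^(5:ℕ) + (-17)*t^(6:ℕ) + 12*t^(7:ℕ) + (-4)*t^(8:ℕ)) - (1089/200) = (1678691699609263/43254022503125)*(1 - t)^(11:ℕ) + (11230548806402871/8650804500625)*(t - (3/10))*(1 - t)^(10:ℕ) + (109078259497112757/8650804500625)*(t - (3/10))^(2:ℕ)*(1 - t)^(9:ℕ) + (551225294144524189/8650804500625)*(t - (3/10))^(3:ℕ)*(1 - t)^(8:ℕ)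 + (69587490654011656/346032180025)*(t - (3/10))^(4:ℕ)*(1 - t)^(7:ℕ) + (4249016390960636/9886633715)*(t - (3/10))^(5:ℕ)*(1 - t)^(6:ℕ) + (6380645695080784/9886633715)*(t - (3/10))^(6:ℕ)*(1 - t)^(5:ℕ) + (9521739757053504/13841287201)*(t - (3/10))^(7:ℕ)*(1 - t)^(4:ℕ) + (7108042985043200/13841287201)*(t - (3/10))^(8:ℕ)*(1 - t)^(3:ℕ) + (3556698606593600/13841287201)*(t - (3/10))^(9:ℕ)*(1 - t)^(2:ℕ) + (1077862331808000/13841287201)*(t - (3/10))^(10:ℕ)*(1 - t) + (150408154560000/13841287201)*(t - (3/10))^(11:ℕ) := by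
    ring
  rw [e]
  have a3 : 0 ≤ t - (3/10) := by linarith
  have a4 : 0 ≤ 1 - t := by linarith
  generalize t - (3/10) = t1 at a3 ⊢
  generalize 1 - t = t2 at a4 ⊢
  positivity

lemma pos_L10_B1_b2 (t : ℝ) (h3 : (3/10) ≤ t) (h4 : t ≤ 1) :
    0 ≤ 1*(2 + 2*t + 10*t^(2:ℕ) + 10*t^(3:ℕ) + 20*t^(4:ℕ) + 20*t^(5:ℕ) + 20*t^(6:ℕ) + 20*t^(7:ℕ) + 10*t^(8:ℕ) + 10*t^(9:ℕ) + 2*t^(10:ℕ) + 2*t^(11:ℕ)) + (8/35)*(4 + 4*t + 28*t^(2:ℕ) + 28*t^(3:ℕ) + 64*t^(4:ℕ) + 64*t^(5:ℕ) + 64*t^(6:ℕ) + 64*t^(7:ℕ) + 28*t^(8:ℕ) + 28*t^(9:ℕ) + 4*t^(10:ℕ) + 4*t^(11:ℕ)) + (109/2100)*(33*t^(2:ℕ) + 35*t^(3:ℕ) + 103*t^(4:ℕ) + 60*t^(5:ℕ) + 82*t^(6:ℕ) + (-3)*t^(7:ℕ) + 3*t^(8:ℕ) + (-46)*t^(9:ℕ) + (-9)*t^(10:ℕ)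 + (-18)*t^(11:ℕ)) + (41/3500)*(2*t^(2:ℕ) + 19*t^(3:ℕ) + 69*t^(4:ℕ) + (-41)*t^(5:ℕ) + 56*t^(6:ℕ) + (-125)*t^(7:ℕ) + (-3)*t^(8:ℕ) + (-73)*t^(9:ℕ) + 8*t^(10:ℕ) + (-8)*t^(11:ℕ)) + (23/8750)*(8*t^(2:ℕ) + (-48)*t^(3:ℕ) + 102*t^(4:ℕ) + (-124)*t^(5:ℕ) + 96*t^(6:ℕ) + (-40)*t^(7:ℕ) + (-26)*t^(8:ℕ) + 44*t^(9:ℕ) + (-28)*t^(10:ℕ) + 8*t^(11:ℕ)) + (11/18750)*((15/4)*t^(4:ℕ) + (-35/2)*t^(5:ℕ) + (101/4)*t^(6:ℕ) + (-35/2)*t^(7:ℕ) + (15/4)*t^(8:ℕ) + 32*t^(9:ℕ) + (-48)*t^(10:ℕ) + 32*t^(11:ℕ)) + (57/437500)*((-14)*t^(4:ℕ) + 43*t^(5:ℕ) + (-61)*t^(6:ℕ) + 43*t^(7:ℕ) + (-14)*t^(8:ℕ)) + (9/312500)*((-4)*t^(4:ℕ) + 12*t^(5:ℕ) + (-17)*t^(6:ℕ) + 12*t^(7:ℕ) + (-4)*t^(8:ℕ)) - (1089/200) := by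
  have e : 1*(2 + 2*t + 10*t^(2:ℕ) + 10*t^(3:ℕ) + 20*t^(4:ℕ) + 20*t^(5:ℕ) + 20*t^(6:ℕ) + 20*t^(7:ℕ) + 10*t^(8:ℕ) + 10*t^(9:ℕ) + 2*t^(10:ℕ) + 2*t^(11:ℕ)) + (8/35)*(4 + 4*t + 28*t^(2:ℕ) + 28*t^(3:ℕ) + 64*t^(4:ℕ) + 64*t^(5:ℕ) + 64*t^(6:ℕ) + 64*t^(7:ℕ) + 28*t^(8:ℕ) + 28*t^(9:ℕ) + 4*t^(10:ℕ) + 4*t^(11:ℕ)) + (109/2100)*(33*t^(2:ℕ) + 35*t^(3:ℕ) + 103*t^(4:ℕ) + 60*t^(5:ℕ) + 82*t^(6:ℕ) + (-3)*t^(7:ℕ) + 3*t^(8:ℕ) + (-46)*t^(9:ℕ) + (-9)*t^(10:ℕ) + (-18)*t^(11:ℕ)) + (41/3500)*(2*t^(2:ℕ) + 19*t^(3:ℕ) + 69*t^(4:ℕ) + (-41)*t^(5:ℕ) + 56*t^(6:ℕ) + (-125)*t^(7:ℕ) + (-3)*t^(8:ℕ) + (-73)*t^(9:ℕ) + 8*t^(10:ℕ) + (-8)*t^(11:ℕ)) + (23/8750)*(8*t^(2:ℕ) + (-48)*t^(3:ℕ) + 102*t^(4:ℕ) + (-124)*t^(5:ℕ)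 + 96*t^(6:ℕ) + (-40)*t^(7:ℕ) + (-26)*t^(8:ℕ) + 44*t^(9:ℕ) + (-28)*t^(10:ℕ) + 8*t^(11:ℕ)) + (11/18750)*((15/4)*t^(4:ℕ) + (-35/2)*t^(5:ℕ) + (101/4)*t^(6:ℕ) + (-35/2)*t^(7:ℕ) + (15/4)*t^(8:ℕ) + 32*t^(9:ℕ) + (-48)*t^(10:ℕ) + 32*t^(11:ℕ)) + (57/437500)*((-14)*t^(4:ℕ) + 43*t^(5:ℕ) + (-61)*t^(6:ℕ) + 43*t^(7:ℕ) + (-14)*t^(8:ℕ)) + (9/312500)*((-4)*t^(4:ℕ) + 12*t^(5:ℕ) + (-17)*t^(6:ℕ) + 12*t^(7:ℕ) + (-4)*t^(8:ℕ)) - (1089/200) = (2038776885173928/43254022503125)*(1 - t)^(11:ℕ) + (24569715707186109/17301609001250)*(t - (3/10))*(1 - t)^(10:ℕ) + (116230647117678788/8650804500625)*(t - (3/10))^(2:ℕ)*(1 - t)^(9:ℕ) + (1742282395311495923/25952413501875)*(t - (3/10))^(3:ℕ)*(1 - t)^(8:ℕ)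 + (43725819398085796/207619308015)*(t - (3/10))^(4:ℕ)*(1 - t)^(7:ℕ) + (2660254900117036/5931980229)*(t - (3/10))^(5:ℕ)*(1 - t)^(6:ℕ) + (6641940430125216/9886633715)*(t - (3/10))^(6:ℕ)*(1 - t)^(5:ℕ) + (9893452908188576/13841287201)*(t - (3/10))^(7:ℕ)*(1 - t)^(4:ℕ) + (22120899622030400/41523861603)*(t - (3/10))^(8:ℕ)*(1 - t)^(3:ℕ) + (11050798582139200/41523861603)*(t - (3/10))^(9:ℕ)*(1 - t)^(2:ℕ) + (3342858937696000/41523861603)*(t - (3/10))^(10:ℕ)*(1 - t) + (465455798720000/41523861603)*(t - (3/10))^(11:ℕ) := by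
    ring
  rw [e]
  have a3 : 0 ≤ t - (3/10) := by linarith
  have a4 : 0 ≤ 1 - t := by linarith
  generalize t - (3/10) = t1 at a3 ⊢
  generalize 1 - t = t2 at a4 ⊢
  positivity

lemma pos_L10_B1_b3 (t : ℝ) (h3 : (3/10) ≤ t) (h4 : t ≤ 1) :
    0 ≤ 1*(2 + 2*t + 10*t^(2:ℕ) + 10*t^(3:ℕ) + 20*t^(4:ℕ) + 20*t^(5:ℕ) + 20*t^(6:ℕ) + 20*t^(7:ℕ) + 10*t^(8:ℕ) + 10*t^(9:ℕ) + 2*t^(10:ℕ) + 2*t^(11:ℕ)) + (17/70)*(4 + 4*t + 28*t^(2:ℕ) + 28*t^(3:ℕ) + 64*t^(4:ℕ) + 64*t^(5:ℕ) + 64*t^(6:ℕ) + 64*t^(7:ℕ) + 28*t^(8:ℕ) + 28*t^(9:ℕ) + 4*t^(10:ℕ) + 4*t^(11:ℕ)) + (41/700)*(33*t^(2:ℕ) + 35*t^(3:ℕ) + 103*t^(4:ℕ) + 60*t^(5:ℕ) + 82*t^(6:ℕ) + (-3)*t^(7:ℕ) + 3*t^(8:ℕ) + (-46)*t^(9:ℕ) + (-9)*t^(10:ℕ)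 + (-18)*t^(11:ℕ)) + (491/35000)*(2*t^(2:ℕ) + 19*t^(3:ℕ) + 69*t^(4:ℕ) + (-41)*t^(5:ℕ) + 56*t^(6:ℕ) + (-125)*t^(7:ℕ) + (-3)*t^(8:ℕ) + (-73)*t^(9:ℕ) + 8*t^(10:ℕ) + (-8)*t^(11:ℕ)) + (73/21875)*(8*t^(2:ℕ) + (-48)*t^(3:ℕ) + 102*t^(4:ℕ) + (-124)*t^(5:ℕ) + 96*t^(6:ℕ) + (-40)*t^(7:ℕ) + (-26)*t^(8:ℕ) + 44*t^(9:ℕ) + (-28)*t^(10:ℕ) + 8*t^(11:ℕ)) + (69/87500)*((15/4)*t^(4:ℕ) + (-35/2)*t^(5:ℕ) + (101/4)*t^(6:ℕ) + (-35/2)*t^(7:ℕ) + (15/4)*t^(8:ℕ) + 32*t^(9:ℕ) + (-48)*t^(10:ℕ) + 32*t^(11:ℕ)) + (81/437500)*((-14)*t^(4:ℕ) + 43*t^(5:ℕ) + (-61)*t^(6:ℕ) + 43*t^(7:ℕ) + (-14)*t^(8:ℕ)) + (27/625000)*((-4)*t^(4:ℕ) + 12*t^(5:ℕ) + (-17)*t^(6:ℕ) + 12*t^(7:ℕ) + (-4)*t^(8:ℕ)) - (1089/200) := by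
  have e : 1*(2 + 2*t + 10*t^(2:ℕ) + 10*t^(3:ℕ) + 20*t^(4:ℕ) + 20*t^(5:ℕ) + 20*t^(6:ℕ) + 20*t^(7:ℕ) + 10*t^(8:ℕ) + 10*t^(9:ℕ) + 2*t^(10:ℕ) + 2*t^(11:ℕ)) + (17/70)*(4 + 4*t + 28*t^(2:ℕ) + 28*t^(3:ℕ) + 64*t^(4:ℕ) + 64*t^(5:ℕ) + 64*t^(6:ℕ) + 64*t^(7:ℕ) + 28*t^(8:ℕ) + 28*t^(9:ℕ) + 4*t^(10:ℕ) + 4*t^(11:ℕ)) + (41/700)*(33*t^(2:ℕ) + 35*t^(3:ℕ) + 103*t^(4:ℕ) + 60*t^(5:ℕ) + 82*t^(6:ℕ) + (-3)*t^(7:ℕ) + 3*t^(8:ℕ) + (-46)*t^(9:ℕ) + (-9)*t^(10:ℕ) + (-18)*t^(11:ℕ)) + (491/35000)*(2*t^(2:ℕ) + 19*t^(3:ℕ) + 69*t^(4:ℕ) + (-41)*t^(5:ℕ) + 56*t^(6:ℕ) + (-125)*t^(7:ℕ) + (-3)*t^(8:ℕ) + (-73)*t^(9:ℕ) + 8*t^(10:ℕ) + (-8)*t^(11:ℕ)) + (73/21875)*(8*t^(2:ℕ) + (-48)*t^(3:ℕ) + 102*t^(4:ℕ) + (-124)*t^(5:ℕ)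 + 96*t^(6:ℕ) + (-40)*t^(7:ℕ) + (-26)*t^(8:ℕ) + 44*t^(9:ℕ) + (-28)*t^(10:ℕ) + 8*t^(11:ℕ)) + (69/87500)*((15/4)*t^(4:ℕ) + (-35/2)*t^(5:ℕ) + (101/4)*t^(6:ℕ) + (-35/2)*t^(7:ℕ) + (15/4)*t^(8:ℕ) + 32*t^(9:ℕ) + (-48)*t^(10:ℕ) + 32*t^(11:ℕ)) + (81/437500)*((-14)*t^(4:ℕ) + 43*t^(5:ℕ) + (-61)*t^(6:ℕ) + 43*t^(7:ℕ) + (-14)*t^(8:ℕ)) + (27/625000)*((-4)*t^(4:ℕ) + 12*t^(5:ℕ) + (-17)*t^(6:ℕ) + 12*t^(7:ℕ) + (-4)*t^(8:ℕ)) - (1089/200) = (2404823609497247/43254022503125)*(1 - t)^(11:ℕ) + (13359827989534794/8650804500625)*(t - (3/10))*(1 - t)^(10:ℕ) + (123541855729545677/8650804500625)*(t - (3/10))^(2:ℕ)*(1 - t)^(9:ℕ) + (1222026770007431083/17301609001250)*(t - (3/10))^(3:ℕ)*(1 - t)^(8:ℕ)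 + (76249936312704874/346032180025)*(t - (3/10))^(4:ℕ)*(1 - t)^(7:ℕ) + (4623409001017714/9886633715)*(t - (3/10))^(5:ℕ)*(1 - t)^(6:ℕ) + (6910207638430584/9886633715)*(t - (3/10))^(6:ℕ)*(1 - t)^(5:ℕ) + (10274836709295744/13841287201)*(t - (3/10))^(7:ℕ)*(1 - t)^(4:ℕ) + (7645721330427200/13841287201)*(t - (3/10))^(8:ℕ)*(1 - t)^(3:ℕ) + (3813276214653600/13841287201)*(t - (3/10))^(9:ℕ)*(1 - t)^(2:ℕ) + (1151365238528000/13841287201)*(t - (3/10))^(10:ℕ)*(1 - t) + (159954262960000/13841287201)*(t - (3/10))^(11:ℕ) := by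
    ring
  rw [e]
  have a3 : 0 ≤ t - (3/10) := by linarith
  have a4 : 0 ≤ 1 - t := by linarith
  generalize t - (3/10) = t1 at a3 ⊢
  generalize 1 - t = t2 at a4 ⊢
  positivity

lemma pos_L10_B1_b4 (t : ℝ) (h3 : (3/10) ≤ t) (h4 : t ≤ 1) :
    0 ≤ 1*(2 + 2*t + 10*t^(2:ℕ) + 10*t^(3:ℕ) + 20*t^(4:ℕ) + 20*t^(5:ℕ) + 20*t^(6:ℕ) + 20*t^(7:ℕ) + 10*t^(8:ℕ) + 10*t^(9:ℕ) + 2*t^(10:ℕ) + 2*t^(11:ℕ)) + (9/35)*(4 + 4*t + 28*t^(2:ℕ) + 28*t^(3:ℕ) + 64*t^(4:ℕ) + 64*t^(5:ℕ) + 64*t^(6:ℕ) + 64*t^(7:ℕ) + 28*t^(8:ℕ) + 28*t^(9:ℕ) + 4*t^(10:ℕ) + 4*t^(11:ℕ)) + (23/350)*(33*t^(2:ℕ) + 35*t^(3:ℕ) + 103*t^(4:ℕ) + 60*t^(5:ℕ) + 82*t^(6:ℕ) + (-3)*t^(7:ℕ) + 3*t^(8:ℕ) + (-46)*t^(9:ℕ) + (-9)*t^(10:ℕ)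 + (-18)*t^(11:ℕ)) + (73/4375)*(2*t^(2:ℕ) + 19*t^(3:ℕ) + 69*t^(4:ℕ) + (-41)*t^(5:ℕ) + 56*t^(6:ℕ) + (-125)*t^(7:ℕ) + (-3)*t^(8:ℕ) + (-73)*t^(9:ℕ) + 8*t^(10:ℕ) + (-8)*t^(11:ℕ)) + (1473/350000)*(8*t^(2:ℕ) + (-48)*t^(3:ℕ) + 102*t^(4:ℕ) + (-124)*t^(5:ℕ) + 96*t^(6:ℕ) + (-40)*t^(7:ℕ) + (-26)*t^(8:ℕ) + 44*t^(9:ℕ) + (-28)*t^(10:ℕ) + 8*t^(11:ℕ)) + (369/350000)*((15/4)*t^(4:ℕ) + (-35/2)*t^(5:ℕ) + (101/4)*t^(6:ℕ) + (-35/2)*t^(7:ℕ) + (15/4)*t^(8:ℕ) + 32*t^(9:ℕ) + (-48)*t^(10:ℕ) + 32*t^(11:ℕ)) + (459/1750000)*((-14)*t^(4:ℕ) + 43*t^(5:ℕ) + (-61)*t^(6:ℕ) + 43*t^(7:ℕ) + (-14)*t^(8:ℕ)) + (81/1250000)*((-4)*t^(4:ℕ) + 12*t^(5:ℕ) + (-17)*t^(6:ℕ) + 12*t^(7:ℕ) + (-4)*t^(8:ℕ)) - (1089/200)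 := by
  have e : 1*(2 + 2*t + 10*t^(2:ℕ) + 10*t^(3:ℕ) + 20*t^(4:ℕ) + 20*t^(5:ℕ) + 20*t^(6:ℕ) + 20*t^(7:ℕ) + 10*t^(8:ℕ) + 10*t^(9:ℕ) + 2*t^(10:ℕ) + 2*t^(11:ℕ)) + (9/35)*(4 + 4*t + 28*t^(2:ℕ) + 28*t^(3:ℕ) + 64*t^(4:ℕ) + 64*t^(5:ℕ) + 64*t^(6:ℕ) + 64*t^(7:ℕ) + 28*t^(8:ℕ) + 28*t^(9:ℕ) + 4*t^(10:ℕ) + 4*t^(11:ℕ)) + (23/350)*(33*t^(2:ℕ) + 35*t^(3:ℕ) + 103*t^(4:ℕ) + 60*t^(5:ℕ) + 82*t^(6:ℕ) + (-3)*t^(7:ℕ) + 3*t^(8:ℕ) + (-46)*t^(9:ℕ) + (-9)*t^(10:ℕ) + (-18)*t^(11:ℕ)) + (73/4375)*(2*t^(2:ℕ) + 19*t^(3:ℕ) + 69*t^(4:ℕ) + (-41)*t^(5:ℕ) + 56*t^(6:ℕ) + (-125)*t^(7:ℕ) + (-3)*t^(8:ℕ) + (-73)*t^(9:ℕ) + 8*t^(10:ℕ) + (-8)*t^(11:ℕ)) + (1473/350000)*(8*t^(2:ℕ) + (-48)*t^(3:ℕ) + 102*t^(4:ℕ)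 + (-124)*t^(5:ℕ) + 96*t^(6:ℕ) + (-40)*t^(7:ℕ) + (-26)*t^(8:ℕ) + 44*t^(9:ℕ) + (-28)*t^(10:ℕ) + 8*t^(11:ℕ)) + (369/350000)*((15/4)*t^(4:ℕ) + (-35/2)*t^(5:ℕ) + (101/4)*t^(6:ℕ) + (-35/2)*t^(7:ℕ) + (15/4)*t^(8:ℕ) + 32*t^(9:ℕ) + (-48)*t^(10:ℕ) + 32*t^(11:ℕ)) + (459/1750000)*((-14)*t^(4:ℕ) + 43*t^(5:ℕ) + (-61)*t^(6:ℕ) + 43*t^(7:ℕ) + (-14)*t^(8:ℕ)) + (81/1250000)*((-4)*t^(4:ℕ) + 12*t^(5:ℕ) + (-17)*t^(6:ℕ) + 12*t^(7:ℕ) + (-4)*t^(8:ℕ)) - (1089/200) = (22215236438959187/346032180025000)*(1 - t)^(11:ℕ) + (115645739717479893/69206436005000)*(t - (3/10))*(1 - t)^(10:ℕ) + (1048111344511811549/69206436005000)*(t - (3/10))^(2:ℕ)*(1 - t)^(9:ℕ) + (5135938921764327983/69206436005000)*(t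 - (3/10))^(3:ℕ)*(1 - t)^(8:ℕ) + (79709296260093737/346032180025)*(t - (3/10))^(4:ℕ)*(1 - t)^(7:ℕ) + (9636059653588609/19773267430)*(t - (3/10))^(5:ℕ)*(1 - t)^(6:ℕ) + (7185526040463566/9886633715)*(t - (3/10))^(6:ℕ)*(1 - t)^(5:ℕ) + (10665980933678936/13841287201)*(t - (3/10))^(7:ℕ)*(1 - t)^(4:ℕ) + (7924346019474800/13841287201)*(t - (3/10))^(8:ℕ)*(1 - t)^(3:ℕ) + (3945729750801400/13841287201)*(t - (3/10))^(9:ℕ)*(1 - t)^(2:ℕ) + (1189092740312000/13841287201)*(t - (3/10))^(10:ℕ)*(1 - t) + (164813203340000/13841287201)*(t - (3/10))^(11:ℕ) := by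
    ring
  rw [e]
  have a3 : 0 ≤ t - (3/10) := by linarith
  have a4 : 0 ≤ 1 - t := by linarith
  generalize t - (3/10) = t1 at a3 ⊢
  generalize 1 - t = t2 at a4 ⊢
  positivity

lemma pos_L10_B1_b5 (t : ℝ) (h3 : (3/10) ≤ t) (h4 : t ≤ 1) :
    0 ≤ 1*(2 + 2*t + 10*t^(2:ℕ) + 10*t^(3:ℕ) + 20*t^(4:ℕ) + 20*t^(5:ℕ) + 20*t^(6:ℕ) + 20*t^(7:ℕ) + 10*t^(8:ℕ) + 10*t^(9:ℕ) + 2*t^(10:ℕ) + 2*t^(11:ℕ)) + (19/70)*(4 + 4*t + 28*t^(2:ℕ) + 28*t^(3:ℕ) + 64*t^(4:ℕ) + 64*t^(5:ℕ) + 64*t^(6:ℕ) + 64*t^(7:ℕ) + 28*t^(8:ℕ) + 28*t^(9:ℕ) + 4*t^(10:ℕ) + 4*t^(11:ℕ)) + (11/150)*(33*t^(2:ℕ) + 35*t^(3:ℕ) + 103*t^(4:ℕ) + 60*t^(5:ℕ) + 82*t^(6:ℕ) + (-3)*t^(7:ℕ) + 3*t^(8:ℕ) + (-46)*t^(9:ℕ) + (-9)*t^(10:ℕ)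 + (-18)*t^(11:ℕ)) + (69/3500)*(2*t^(2:ℕ) + 19*t^(3:ℕ) + 69*t^(4:ℕ) + (-41)*t^(5:ℕ) + 56*t^(6:ℕ) + (-125)*t^(7:ℕ) + (-3)*t^(8:ℕ) + (-73)*t^(9:ℕ) + 8*t^(10:ℕ) + (-8)*t^(11:ℕ)) + (369/70000)*(8*t^(2:ℕ) + (-48)*t^(3:ℕ) + 102*t^(4:ℕ) + (-124)*t^(5:ℕ) + 96*t^(6:ℕ) + (-40)*t^(7:ℕ) + (-26)*t^(8:ℕ) + 44*t^(9:ℕ) + (-28)*t^(10:ℕ) + 8*t^(11:ℕ)) + (981/700000)*((15/4)*t^(4:ℕ) + (-35/2)*t^(5:ℕ) + (101/4)*t^(6:ℕ) + (-35/2)*t^(7:ℕ) + (15/4)*t^(8:ℕ) + 32*t^(9:ℕ) + (-48)*t^(10:ℕ) + 32*t^(11:ℕ)) + (81/218750)*((-14)*t^(4:ℕ) + 43*t^(5:ℕ) + (-61)*t^(6:ℕ) + 43*t^(7:ℕ) + (-14)*t^(8:ℕ)) + (243/2500000)*((-4)*t^(4:ℕ) + 12*t^(5:ℕ) + (-17)*t^(6:ℕ) + 12*t^(7:ℕ) + (-4)*t^(8:ℕ)) - (1089/200) :=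 by
  have e : 1*(2 + 2*t + 10*t^(2:ℕ) + 10*t^(3:ℕ) + 20*t^(4:ℕ) + 20*t^(5:ℕ) + 20*t^(6:ℕ) + 20*t^(7:ℕ) + 10*t^(8:ℕ) + 10*t^(9:ℕ) + 2*t^(10:ℕ) + 2*t^(11:ℕ)) + (19/70)*(4 + 4*t + 28*t^(2:ℕ) + 28*t^(3:ℕ) + 64*t^(4:ℕ) + 64*t^(5:ℕ) + 64*t^(6:ℕ) + 64*t^(7:ℕ) + 28*t^(8:ℕ) + 28*t^(9:ℕ) + 4*t^(10:ℕ) + 4*t^(11:ℕ)) + (11/150)*(33*t^(2:ℕ) + 35*t^(3:ℕ) + 103*t^(4:ℕ) + 60*t^(5:ℕ) + 82*t^(6:ℕ) + (-3)*t^(7:ℕ) + 3*t^(8:ℕ) + (-46)*t^(9:ℕ) + (-9)*t^(10:ℕ) + (-18)*t^(11:ℕ)) + (69/3500)*(2*t^(2:ℕ) + 19*t^(3:ℕ) + 69*t^(4:ℕ) + (-41)*t^(5:ℕ) + 56*t^(6:ℕ) + (-125)*t^(7:ℕ) + (-3)*t^(8:ℕ) + (-73)*t^(9:ℕ) + 8*t^(10:ℕ) + (-8)*t^(11:ℕ)) + (369/70000)*(8*t^(2:ℕ) + (-48)*t^(3:ℕ) + 102*t^(4:ℕ) +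 (-124)*t^(5:ℕ) + 96*t^(6:ℕ) + (-40)*t^(7:ℕ) + (-26)*t^(8:ℕ) + 44*t^(9:ℕ) + (-28)*t^(10:ℕ) + 8*t^(11:ℕ)) + (981/700000)*((15/4)*t^(4:ℕ) + (-35/2)*t^(5:ℕ) + (101/4)*t^(6:ℕ) + (-35/2)*t^(7:ℕ) + (15/4)*t^(8:ℕ) + 32*t^(9:ℕ) + (-48)*t^(10:ℕ) + 32*t^(11:ℕ)) + (81/218750)*((-14)*t^(4:ℕ) + 43*t^(5:ℕ) + (-61)*t^(6:ℕ) + 43*t^(7:ℕ) + (-14)*t^(8:ℕ)) + (243/2500000)*((-4)*t^(4:ℕ) + 12*t^(5:ℕ) + (-17)*t^(6:ℕ) + 12*t^(7:ℕ) + (-4)*t^(8:ℕ)) - (1089/200) = (50481475580198367/692064360050000)*(1 - t)^(11:ℕ) + (249164526073419933/138412872010000)*(t - (3/10))*(1 - t)^(10:ℕ) + (2218381579054321897/138412872010000)*(t - (3/10))^(2:ℕ)*(1 - t)^(9:ℕ) + (32337933853065667937/415238616030000)*(t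 - (3/10))^(3:ℕ)*(1 - t)^(8:ℕ) + (249766582439564186/1038096540075)*(t - (3/10))^(4:ℕ)*(1 - t)^(7:ℕ) + (20070723657598013/39546534860)*(t - (3/10))^(5:ℕ)*(1 - t)^(6:ℕ) + (22403920380705877/29659901145)*(t - (3/10))^(6:ℕ)*(1 - t)^(5:ℕ) + (11066974184884984/13841287201)*(t - (3/10))^(7:ℕ)*(1 - t)^(4:ℕ) + (24628635630811600/41523861603)*(t - (3/10))^(8:ℕ)*(1 - t)^(3:ℕ) + (12242882844743300/41523861603)*(t - (3/10))^(9:ℕ)*(1 - t)^(2:ℕ) + (3682387245044000/41523861603)*(t - (3/10))^(10:ℕ)*(1 - t) + (169726823110000/13841287201)*(t - (3/10))^(11:ℕ) := by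
    ring
  rw [e]
  have a3 : 0 ≤ t - (3/10) := by linarith
  have a4 : 0 ≤ 1 - t := by linarith
  generalize t - (3/10) = t1 at a3 ⊢
  generalize 1 - t = t2 at a4 ⊢
  positivity

lemma pos_L10_B1_b6 (t : ℝ) (h3 : (3/10) ≤ t) (h4 : t ≤ 1) :
    0 ≤ 1*(2 + 2*t + 10*t^(2:ℕ) + 10*t^(3:ℕ) + 20*t^(4:ℕ) + 20*t^(5:ℕ) + 20*t^(6:ℕ) + 20*t^(7:ℕ) + 10*t^(8:ℕ) + 10*t^(9:ℕ) + 2*t^(10:ℕ) + 2*t^(11:ℕ)) + (2/7)*(4 + 4*t + 28*t^(2:ℕ) + 28*t^(3:ℕ) + 64*t^(4:ℕ) + 64*t^(5:ℕ) + 64*t^(6:ℕ) + 64*t^(7:ℕ) + 28*t^(8:ℕ) + 28*t^(9:ℕ) + 4*t^(10:ℕ) + 4*t^(11:ℕ)) + (57/700)*(33*t^(2:ℕ) + 35*t^(3:ℕ) + 103*t^(4:ℕ) + 60*t^(5:ℕ) + 82*t^(6:ℕ) + (-3)*t^(7:ℕ) + 3*t^(8:ℕ) + (-46)*t^(9:ℕ) + (-9)*t^(10:ℕ)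 + (-18)*t^(11:ℕ)) + (81/3500)*(2*t^(2:ℕ) + 19*t^(3:ℕ) + 69*t^(4:ℕ) + (-41)*t^(5:ℕ) + 56*t^(6:ℕ) + (-125)*t^(7:ℕ) + (-3)*t^(8:ℕ) + (-73)*t^(9:ℕ) + 8*t^(10:ℕ) + (-8)*t^(11:ℕ)) + (459/70000)*(8*t^(2:ℕ) + (-48)*t^(3:ℕ) + 102*t^(4:ℕ) + (-124)*t^(5:ℕ) + 96*t^(6:ℕ) + (-40)*t^(7:ℕ) + (-26)*t^(8:ℕ) + 44*t^(9:ℕ) + (-28)*t^(10:ℕ) + 8*t^(11:ℕ)) + (81/43750)*((15/4)*t^(4:ℕ) + (-35/2)*t^(5:ℕ) + (101/4)*t^(6:ℕ) + (-35/2)*t^(7:ℕ) + (15/4)*t^(8:ℕ) + 32*t^(9:ℕ) + (-48)*t^(10:ℕ) + 32*t^(11:ℕ)) + (729/1400000)*((-14)*t^(4:ℕ) + 43*t^(5:ℕ) + (-61)*t^(6:ℕ) + 43*t^(7:ℕ) + (-14)*t^(8:ℕ)) + (729/5000000)*((-4)*t^(4:ℕ) + 12*t^(5:ℕ) + (-17)*t^(6:ℕ) + 12*t^(7:ℕ) + (-4)*t^(8:ℕ)) - (1089/200) :=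 by
  have e : 1*(2 + 2*t + 10*t^(2:ℕ) + 10*t^(3:ℕ) + 20*t^(4:ℕ) + 20*t^(5:ℕ) + 20*t^(6:ℕ) + 20*t^(7:ℕ) + 10*t^(8:ℕ) + 10*t^(9:ℕ) + 2*t^(10:ℕ) + 2*t^(11:ℕ)) + (2/7)*(4 + 4*t + 28*t^(2:ℕ) + 28*t^(3:ℕ) + 64*t^(4:ℕ) + 64*t^(5:ℕ) + 64*t^(6:ℕ) + 64*t^(7:ℕ) + 28*t^(8:ℕ) + 28*t^(9:ℕ) + 4*t^(10:ℕ) + 4*t^(11:ℕ)) + (57/700)*(33*t^(2:ℕ) + 35*t^(3:ℕ) + 103*t^(4:ℕ) + 60*t^(5:ℕ) + 82*t^(6:ℕ) + (-3)*t^(7:ℕ) + 3*t^(8:ℕ) + (-46)*t^(9:ℕ) + (-9)*t^(10:ℕ) + (-18)*t^(11:ℕ)) + (81/3500)*(2*t^(2:ℕ) + 19*t^(3:ℕ) + 69*t^(4:ℕ) + (-41)*t^(5:ℕ) + 56*t^(6:ℕ) + (-125)*t^(7:ℕ) + (-3)*t^(8:ℕ) + (-73)*t^(9:ℕ) + 8*t^(10:ℕ) + (-8)*t^(11:ℕ)) + (459/70000)*(8*t^(2:ℕ) + (-48)*t^(3:ℕ) + 102*t^(4:ℕ) + (-124)*t^(5:ℕ)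 + 96*t^(6:ℕ) + (-40)*t^(7:ℕ) + (-26)*t^(8:ℕ) + 44*t^(9:ℕ) + (-28)*t^(10:ℕ) + 8*t^(11:ℕ)) + (81/43750)*((15/4)*t^(4:ℕ) + (-35/2)*t^(5:ℕ) + (101/4)*t^(6:ℕ) + (-35/2)*t^(7:ℕ) + (15/4)*t^(8:ℕ) + 32*t^(9:ℕ) + (-48)*t^(10:ℕ) + 32*t^(11:ℕ)) + (729/1400000)*((-14)*t^(4:ℕ) + 43*t^(5:ℕ) + (-61)*t^(6:ℕ) + 43*t^(7:ℕ) + (-14)*t^(8:ℕ)) + (729/5000000)*((-4)*t^(4:ℕ) + 12*t^(5:ℕ) + (-17)*t^(6:ℕ) + 12*t^(7:ℕ) + (-4)*t^(8:ℕ)) - (1089/200) = (3539458854468302/43254022503125)*(1 - t)^(11:ℕ) + (66845115483749691/34603218002500)*(t - (3/10))*(1 - t)^(10:ℕ) + (585794565981603047/34603218002500)*(t - (3/10))^(2:ℕ)*(1 - t)^(9:ℕ) + (2824665058403676219/34603218002500)*(t - (3/10))^(3:ℕ)*(1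 - t)^(8:ℕ) + (347558795688667621/1384128720100)*(t - (3/10))^(4:ℕ)*(1 - t)^(7:ℕ) + (10444843593593663/19773267430)*(t - (3/10))^(5:ℕ)*(1 - t)^(6:ℕ) + (7757626727707466/9886633715)*(t - (3/10))^(6:ℕ)*(1 - t)^(5:ℕ) + (11477903776244396/13841287201)*(t - (3/10))^(7:ℕ)*(1 - t)^(4:ℕ) + (8501356043679300/13841287201)*(t - (3/10))^(8:ℕ)*(1 - t)^(3:ℕ) + (4218970333531400/13841287201)*(t - (3/10))^(9:ℕ)*(1 - t)^(2:ℕ) + (1266467829392000/13841287201)*(t - (3/10))^(10:ℕ)*(1 - t) + (174693204440000/13841287201)*(t - (3/10))^(11:ℕ) := by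
    ring
  rw [e]
  have a3 : 0 ≤ t - (3/10) := by linarith
  have a4 : 0 ≤ 1 - t := by linarith
  generalize t - (3/10) = t1 at a3 ⊢
  generalize 1 - t = t2 at a4 ⊢
  positivity

lemma pos_L10_B1_b7 (t : ℝ) (h3 : (3/10) ≤ t) (h4 : t ≤ 1) :
    0 ≤ 1*(2 + 2*t + 10*t^(2:ℕ) + 10*t^(3:ℕ) + 20*t^(4:ℕ) + 20*t^(5:ℕ) + 20*t^(6:ℕ) + 20*t^(7:ℕ) + 10*t^(8:ℕ) + 10*t^(9:ℕ) + 2*t^(10:ℕ) + 2*t^(11:ℕ)) + (3/10)*(4 + 4*t + 28*t^(2:ℕ) + 28*t^(3:ℕ) + 64*t^(4:ℕ) + 64*t^(5:ℕ) + 64*t^(6:ℕ) + 64*t^(7:ℕ) + 28*t^(8:ℕ) + 28*t^(9:ℕ) + 4*t^(10:ℕ) + 4*t^(11:ℕ)) + (9/100)*(33*t^(2:ℕ) + 35*t^(3:ℕ) + 103*t^(4:ℕ) + 60*t^(5:ℕ) + 82*t^(6:ℕ) + (-3)*t^(7:ℕ) + 3*t^(8:ℕ) + (-46)*t^(9:ℕ) + (-9)*t^(10:ℕ)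 + (-18)*t^(11:ℕ)) + (27/1000)*(2*t^(2:ℕ) + 19*t^(3:ℕ) + 69*t^(4:ℕ) + (-41)*t^(5:ℕ) + 56*t^(6:ℕ) + (-125)*t^(7:ℕ) + (-3)*t^(8:ℕ) + (-73)*t^(9:ℕ) + 8*t^(10:ℕ) + (-8)*t^(11:ℕ)) + (81/10000)*(8*t^(2:ℕ) + (-48)*t^(3:ℕ) + 102*t^(4:ℕ) + (-124)*t^(5:ℕ) + 96*t^(6:ℕ) + (-40)*t^(7:ℕ) + (-26)*t^(8:ℕ) + 44*t^(9:ℕ) + (-28)*t^(10:ℕ) + 8*t^(11:ℕ)) + (243/100000)*((15/4)*t^(4:ℕ) + (-35/2)*t^(5:ℕ) + (101/4)*t^(6:ℕ) + (-35/2)*t^(7:ℕ) + (15/4)*t^(8:ℕ) + 32*t^(9:ℕ) + (-48)*t^(10:ℕ) + 32*t^(11:ℕ)) + (729/1000000)*((-14)*t^(4:ℕ) + 43*t^(5:ℕ) + (-61)*t^(6:ℕ) + 43*t^(7:ℕ) + (-14)*t^(8:ℕ)) + (2187/10000000)*((-4)*t^(4:ℕ) + 12*t^(5:ℕ) + (-17)*t^(6:ℕ) + 12*t^(7:ℕ) + (-4)*t^(8:ℕ)) - (1089/200)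 := by
  have e : 1*(2 + 2*t + 10*t^(2:ℕ) + 10*t^(3:ℕ) + 20*t^(4:ℕ) + 20*t^(5:ℕ) + 20*t^(6:ℕ) + 20*t^(7:ℕ) + 10*t^(8:ℕ) + 10*t^(9:ℕ) + 2*t^(10:ℕ) + 2*t^(11:ℕ)) + (3/10)*(4 + 4*t + 28*t^(2:ℕ) + 28*t^(3:ℕ) + 64*t^(4:ℕ) + 64*t^(5:ℕ) + 64*t^(6:ℕ) + 64*t^(7:ℕ) + 28*t^(8:ℕ) + 28*t^(9:ℕ) + 4*t^(10:ℕ) + 4*t^(11:ℕ)) + (9/100)*(33*t^(2:ℕ) + 35*t^(3:ℕ) + 103*t^(4:ℕ) + 60*t^(5:ℕ) + 82*t^(6:ℕ) + (-3)*t^(7:ℕ) + 3*t^(8:ℕ) + (-46)*t^(9:ℕ) + (-9)*t^(10:ℕ) + (-18)*t^(11:ℕ)) + (27/1000)*(2*t^(2:ℕ) + 19*t^(3:ℕ) + 69*t^(4:ℕ) + (-41)*t^(5:ℕ) + 56*t^(6:ℕ) + (-125)*t^(7:ℕ) + (-3)*t^(8:ℕ) + (-73)*t^(9:ℕ) + 8*t^(10:ℕ) + (-8)*t^(11:ℕ)) + (81/10000)*(8*t^(2:ℕ) + (-48)*t^(3:ℕ) + 102*t^(4:ℕ) +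 (-124)*t^(5:ℕ) + 96*t^(6:ℕ) + (-40)*t^(7:ℕ) + (-26)*t^(8:ℕ) + 44*t^(9:ℕ) + (-28)*t^(10:ℕ) + 8*t^(11:ℕ)) + (243/100000)*((15/4)*t^(4:ℕ) + (-35/2)*t^(5:ℕ) + (101/4)*t^(6:ℕ) + (-35/2)*t^(7:ℕ) + (15/4)*t^(8:ℕ) + 32*t^(9:ℕ) + (-48)*t^(10:ℕ) + 32*t^(11:ℕ)) + (729/1000000)*((-14)*t^(4:ℕ) + 43*t^(5:ℕ) + (-61)*t^(6:ℕ) + 43*t^(7:ℕ) + (-14)*t^(8:ℕ)) + (2187/10000000)*((-4)*t^(4:ℕ) + 12*t^(5:ℕ) + (-17)*t^(6:ℕ) + 12*t^(7:ℕ) + (-4)*t^(8:ℕ)) - (1089/200) = (8983031574877921/98866337150000)*(1 - t)^(11:ℕ) + (40849046204418639/19773267430000)*(t - (3/10))*(1 - t)^(10:ℕ) + (352949180568508031/19773267430000)*(t - (3/10))^(2:ℕ)*(1 - t)^(9:ℕ) + (1690009786099814317/19773267430000)*(t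 - (3/10))^(3:ℕ)*(1 - t)^(8:ℕ) + (5177877990784867/19773267430)*(t - (3/10))^(4:ℕ)*(1 - t)^(7:ℕ) + (310417781554147/564950498)*(t - (3/10))^(5:ℕ)*(1 - t)^(6:ℕ) + (1150651650884987/1412376245)*(t - (3/10))^(6:ℕ)*(1 - t)^(5:ℕ) + (1699836510899057/1977326743)*(t - (3/10))^(7:ℕ)*(1 - t)^(4:ℕ) + (1257116396622600/1977326743)*(t - (3/10))^(8:ℕ)*(1 - t)^(3:ℕ) + (622822588564800/1977326743)*(t - (3/10))^(9:ℕ)*(1 - t)^(2:ℕ) + (186586074224000/1977326743)*(t - (3/10))^(10:ℕ)*(1 - t) + (25672920680000/1977326743)*(t - (3/10))^(11:ℕ) := by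
    ring
  rw [e]
  have a3 : 0 ≤ t - (3/10) := by linarith
  have a4 : 0 ≤ 1 - t := by linarith
  generalize t - (3/10) = t1 at a3 ⊢
  generalize 1 - t = t2 at a4 ⊢
  positivity

lemma pos_L10_B1_id (d : ℝ) (C0 C1 C2 C3 C4 C5 C6 C7 : ℝ) :
    C0 + d*C1 + d^(2:ℕ)*C2 + d^(3:ℕ)*C3 + d^(4:ℕ)*C4 + d^(5:ℕ)*C5 + d^(6:ℕ)*C6 + d^(7:ℕ)*C7 = (1089/200) + (10000000*((3/10) - d)^(7:ℕ)*(1*C0 + (1/5)*C1 + (1/25)*C2 + (1/125)*C3 + (1/625)*C4 + (1/3125)*C5 + (1/15625)*C6 + (1/78125)*C7 - (1089/200)) + 70000000*(d - (1/5))*((3/10) - d)^(6:ℕ)*(1*C0 + (3/14)*C1 + (8/175)*C2 + (17/1750)*C3 + (9/4375)*C4 + (19/43750)*C5 + (2/21875)*C6 + (3/156250)*C7 - (1089/200)) + 210000000*(d - (1/5))^(2:ℕ)*((3/10)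 - d)^(5:ℕ)*(1*C0 + (8/35)*C1 + (109/2100)*C2 + (41/3500)*C3 + (23/8750)*C4 + (11/18750)*C5 + (57/437500)*C6 + (9/312500)*C7 - (1089/200)) + 350000000*(d - (1/5))^(3:ℕ)*((3/10) - d)^(4:ℕ)*(1*C0 + (17/70)*C1 + (41/700)*C2 + (491/35000)*C3 + (73/21875)*C4 + (69/87500)*C5 + (81/437500)*C6 + (27/625000)*C7 - (1089/200)) + 350000000*(d - (1/5))^(4:ℕ)*((3/10) - d)^(3:ℕ)*(1*C0 + (9/35)*C1 + (23/350)*C2 + (73/4375)*C3 + (1473/350000)*C4 + (369/350000)*C5 + (459/1750000)*C6 + (81/1250000)*C7 - (1089/200)) + 210000000*(d - (1/5))^(5:ℕ)*((3/10) - d)^(2:ℕ)*(1*C0 + (19/70)*C1 + (11/150)*C2 + (69/3500)*C3 + (369/70000)*C4 + (981/700000)*C5 + (81/218750)*C6 + (243/2500000)*C7 - (1089/200))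 + 70000000*(d - (1/5))^(6:ℕ)*((3/10) - d)*(1*C0 + (2/7)*C1 + (57/700)*C2 + (81/3500)*C3 + (459/70000)*C4 + (81/43750)*C5 + (729/1400000)*C6 + (729/5000000)*C7 - (1089/200)) + 10000000*(d - (1/5))^(7:ℕ)*(1*C0 + (3/10)*C1 + (9/100)*C2 + (27/1000)*C3 + (81/10000)*C4 + (243/100000)*C5 + (729/1000000)*C6 + (2187/10000000)*C7 - (1089/200))) := by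
  ring

lemma pos_L10_B1_gen (d1 d2 B0 B1 B2 B3 B4 B5 B6 B7 : ℝ) (a1 : 0 ≤ d1) (a2 : 0 ≤ d2) (b0 : 0 ≤ B0) (b1 : 0 ≤ B1) (b2 : 0 ≤ B2) (b3 : 0 ≤ B3) (b4 : 0 ≤ B4) (b5 : 0 ≤ B5) (b6 : 0 ≤ B6) (b7 : 0 ≤ B7) :
    0 < (1089/200) + (10000000*d2^(7:ℕ)*(B0) + 70000000*d1*d2^(6:ℕ)*(B1) + 210000000*d1^(2:ℕ)*d2^(5:ℕ)*(B2) + 350000000*d1^(3:ℕ)*d2^(4:ℕ)*(B3) + 350000000*d1^(4:ℕ)*d2^(3:ℕ)*(B4) + 210000000*d1^(5:ℕ)*d2^(2:ℕ)*(B5) + 70000000*d1^(6:ℕ)*d2*(B6) + 10000000*d1^(7:ℕ)*(B7)) := by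
  positivity

lemma pos_L10_B1_core (d C0 C1 C2 C3 C4 C5 C6 C7 : ℝ) (h1 : (1/5) ≤ d) (h2 : d ≤ (3/10))
    (b0 : 0 ≤ 1*C0 + (1/5)*C1 + (1/25)*C2 + (1/125)*C3 + (1/625)*C4 + (1/3125)*C5 + (1/15625)*C6 + (1/78125)*C7 - (1089/200))
    (b1 : 0 ≤ 1*C0 + (3/14)*C1 + (8/175)*C2 + (17/1750)*C3 + (9/4375)*C4 + (19/43750)*C5 + (2/21875)*C6 + (3/156250)*C7 - (1089/200))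
    (b2 : 0 ≤ 1*C0 + (8/35)*C1 + (109/2100)*C2 + (41/3500)*C3 + (23/8750)*C4 + (11/18750)*C5 + (57/437500)*C6 + (9/312500)*C7 - (1089/200))
    (b3 : 0 ≤ 1*C0 + (17/70)*C1 + (41/700)*C2 + (491/35000)*C3 + (73/21875)*C4 + (69/87500)*C5 + (81/437500)*C6 + (27/625000)*C7 - (1089/200))
    (b4 : 0 ≤ 1*C0 + (9/35)*C1 + (23/350)*C2 + (73/4375)*C3 + (1473/350000)*C4 + (369/350000)*C5 + (459/1750000)*C6 + (81/1250000)*C7 - (1089/200))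
    (b5 : 0 ≤ 1*C0 + (19/70)*C1 + (11/150)*C2 + (69/3500)*C3 + (369/70000)*C4 + (981/700000)*C5 + (81/218750)*C6 + (243/2500000)*C7 - (1089/200))
    (b6 : 0 ≤ 1*C0 + (2/7)*C1 + (57/700)*C2 + (81/3500)*C3 + (459/70000)*C4 + (81/43750)*C5 + (729/1400000)*C6 + (729/5000000)*C7 - (1089/200))
    (b7 : 0 ≤ 1*C0 + (3/10)*C1 + (9/100)*C2 + (27/1000)*C3 + (81/10000)*C4 + (243/100000)*C5 + (729/1000000)*C6 + (2187/10000000)*C7 - (1089/200)) :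
    0 < C0 + d*C1 + d^(2:ℕ)*C2 + d^(3:ℕ)*C3 + d^(4:ℕ)*C4 + d^(5:ℕ)*C5 + d^(6:ℕ)*C6 + d^(7:ℕ)*C7 := by
  rw [pos_L10_B1_id]
  exact pos_L10_B1_gen _ _ _ _ _ _ _ _ _ _ (sub_nonneg.2 h1) (sub_nonneg.2 h2) b0 b1 b2 b3 b4 b5 b6 b7

lemma pos_L10_B1 (d t : ℝ) (h1 : (1/5) ≤ d) (h2 : d ≤ (3/10)) (h3 : (3/10) ≤ t) (h4 : t ≤ 1) :
    0 < 2 + 2*t + 10*t^(2:ℕ) + 10*t^(3:ℕ) + 20*t^(4:ℕ) + 20*t^(5:ℕ) + 20*t^(6:ℕ) + 20*t^(7:ℕ) + 10*t^(8:ℕ) + 10*t^(9:ℕ) + 2*t^(10:ℕ) + 2*t^(11:ℕ) + 4*d + 4*d*t + 28*d*t^(2:ℕ) + 28*d*t^(3:ℕ) + 64*d*t^(4:ℕ) + 64*d*t^(5:ℕ) + 64*d*t^(6:ℕ) + 64*d*t^(7:ℕ) + 28*d*t^(8:ℕ) + 28*d*t^(9:ℕ) + 4*d*t^(10:ℕ) + 4*d*t^(11:ℕ) + 33*d^(2:ℕ)*t^(2:ℕ) + 35*d^(2:ℕ)*t^(3:ℕ)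 + 103*d^(2:ℕ)*t^(4:ℕ) + 60*d^(2:ℕ)*t^(5:ℕ) + 82*d^(2:ℕ)*t^(6:ℕ) + (-3)*d^(2:ℕ)*t^(7:ℕ) + 3*d^(2:ℕ)*t^(8:ℕ) + (-46)*d^(2:ℕ)*t^(9:ℕ) + (-9)*d^(2:ℕ)*t^(10:ℕ) + (-18)*d^(2:ℕ)*t^(11:ℕ) + 2*d^(3:ℕ)*t^(2:ℕ) + 19*d^(3:ℕ)*t^(3:ℕ) + 69*d^(3:ℕ)*t^(4:ℕ) + (-41)*d^(3:ℕ)*t^(5:ℕ) + 56*d^(3:ℕ)*t^(6:ℕ) + (-125)*d^(3:ℕ)*t^(7:ℕ) + (-3)*d^(3:ℕ)*t^(8:ℕ) + (-73)*d^(3:ℕ)*t^(9:ℕ) + 8*d^(3:ℕ)*t^(10:ℕ) + (-8)*d^(3:ℕ)*t^(11:ℕ) + 8*d^(4:ℕ)*t^(2:ℕ) + (-48)*d^(4:ℕ)*t^(3:ℕ) + 102*d^(4:ℕ)*t^(4:ℕ) + (-124)*d^(4:ℕ)*t^(5:ℕ) + 96*d^(4:ℕ)*t^(6:ℕ) + (-40)*d^(4:ℕ)*t^(7:ℕ) + (-26)*d^(4:ℕ)*t^(8:ℕ) + 44*d^(4:ℕ)*t^(9:ℕ) + (-28)*d^(4:ℕ)*t^(10:ℕ) + 8*d^(4:ℕ)*t^(11:ℕ) + (15/4)*d^(5:ℕ)*t^(4:ℕ) + (-35/2)*d^(5:ℕ)*t^(5:ℕ)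 + (101/4)*d^(5:ℕ)*t^(6:ℕ) + (-35/2)*d^(5:ℕ)*t^(7:ℕ) + (15/4)*d^(5:ℕ)*t^(8:ℕ) + 32*d^(5:ℕ)*t^(9:ℕ) + (-48)*d^(5:ℕ)*t^(10:ℕ) + 32*d^(5:ℕ)*t^(11:ℕ) + (-14)*d^(6:ℕ)*t^(4:ℕ) + 43*d^(6:ℕ)*t^(5:ℕ) + (-61)*d^(6:ℕ)*t^(6:ℕ) + 43*d^(6:ℕ)*t^(7:ℕ) + (-14)*d^(6:ℕ)*t^(8:ℕ) + (-4)*d^(7:ℕ)*t^(4:ℕ) + 12*d^(7:ℕ)*t^(5:ℕ) + (-17)*d^(7:ℕ)*t^(6:ℕ) + 12*d^(7:ℕ)*t^(7:ℕ) + (-4)*d^(7:ℕ)*t^(8:ℕ) := by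
  have e0 : 2 + 2*t + 10*t^(2:ℕ) + 10*t^(3:ℕ) + 20*t^(4:ℕ) + 20*t^(5:ℕ) + 20*t^(6:ℕ) + 20*t^(7:ℕ) + 10*t^(8:ℕ) + 10*t^(9:ℕ) + 2*t^(10:ℕ) + 2*t^(11:ℕ) + 4*d + 4*d*t + 28*d*t^(2:ℕ) + 28*d*t^(3:ℕ) + 64*d*t^(4:ℕ) + 64*d*t^(5:ℕ) + 64*d*t^(6:ℕ) + 64*d*t^(7:ℕ) + 28*d*t^(8:ℕ) + 28*d*t^(9:ℕ) + 4*d*t^(10:ℕ) + 4*d*t^(11:ℕ) + 33*d^(2:ℕ)*t^(2:ℕ) + 35*d^(2:ℕ)*t^(3:ℕ) + 103*d^(2:ℕ)*t^(4:ℕ) + 60*d^(2:ℕ)*t^(5:ℕ) + 82*d^(2:ℕ)*t^(6:ℕ) + (-3)*d^(2:ℕ)*t^(7:ℕ) + 3*d^(2:ℕ)*t^(8:ℕ) + (-46)*d^(2:ℕ)*t^(9:ℕ) + (-9)*d^(2:ℕ)*t^(10:ℕ) + (-18)*d^(2:ℕ)*t^(11:ℕ) + 2*d^(3:ℕ)*t^(2:ℕ) + 19*d^(3:ℕ)*t^(3:ℕ) + 69*d^(3:ℕ)*t^(4:ℕ) + (-41)*d^(3:ℕ)*t^(5:ℕ) + 56*d^(3:ℕ)*t^(6:ℕ) + (-125)*d^(3:ℕ)*t^(7:ℕ) + (-3)*d^(3:ℕ)*t^(8:ℕ)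 + (-73)*d^(3:ℕ)*t^(9:ℕ) + 8*d^(3:ℕ)*t^(10:ℕ) + (-8)*d^(3:ℕ)*t^(11:ℕ) + 8*d^(4:ℕ)*t^(2:ℕ) + (-48)*d^(4:ℕ)*t^(3:ℕ) + 102*d^(4:ℕ)*t^(4:ℕ) + (-124)*d^(4:ℕ)*t^(5:ℕ) + 96*d^(4:ℕ)*t^(6:ℕ) + (-40)*d^(4:ℕ)*t^(7:ℕ) + (-26)*d^(4:ℕ)*t^(8:ℕ) + 44*d^(4:ℕ)*t^(9:ℕ) + (-28)*d^(4:ℕ)*t^(10:ℕ) + 8*d^(4:ℕ)*t^(11:ℕ) + (15/4)*d^(5:ℕ)*t^(4:ℕ) + (-35/2)*d^(5:ℕ)*t^(5:ℕ) + (101/4)*d^(5:ℕ)*t^(6:ℕ) + (-35/2)*d^(5:ℕ)*t^(7:ℕ) + (15/4)*d^(5:ℕ)*t^(8:ℕ) + 32*d^(5:ℕ)*t^(9:ℕ) + (-48)*d^(5:ℕ)*t^(10:ℕ) + 32*d^(5:ℕ)*t^(11:ℕ) + (-14)*d^(6:ℕ)*t^(4:ℕ) + 43*d^(6:ℕ)*t^(5:ℕ) + (-61)*d^(6:ℕ)*t^(6:ℕ) + 43*d^(6:ℕ)*t^(7:ℕ) + (-14)*d^(6:ℕ)*t^(8:ℕ) + (-4)*d^(7:ℕ)*t^(4:ℕ) + 12*d^(7:ℕ)*t^(5:ℕ) + (-17)*d^(7:ℕ)*t^(6:ℕ)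 + 12*d^(7:ℕ)*t^(7:ℕ) + (-4)*d^(7:ℕ)*t^(8:ℕ) = (2 + 2*t + 10*t^(2:ℕ) + 10*t^(3:ℕ) + 20*t^(4:ℕ) + 20*t^(5:ℕ) + 20*t^(6:ℕ) + 20*t^(7:ℕ) + 10*t^(8:ℕ) + 10*t^(9:ℕ) + 2*t^(10:ℕ) + 2*t^(11:ℕ)) + d*(4 + 4*t + 28*t^(2:ℕ) + 28*t^(3:ℕ) + 64*t^(4:ℕ) + 64*t^(5:ℕ) + 64*t^(6:ℕ) + 64*t^(7:ℕ) + 28*t^(8:ℕ) + 28*t^(9:ℕ) + 4*t^(10:ℕ) + 4*t^(11:ℕ)) + d^(2:ℕ)*(33*t^(2:ℕ) + 35*t^(3:ℕ) + 103*t^(4:ℕ) + 60*t^(5:ℕ) + 82*t^(6:ℕ) + (-3)*t^(7:ℕ) + 3*t^(8:ℕ) + (-46)*t^(9:ℕ) + (-9)*t^(10:ℕ) + (-18)*t^(11:ℕ)) + d^(3:ℕ)*(2*t^(2:ℕ) + 19*t^(3:ℕ) + 69*t^(4:ℕ) + (-41)*t^(5:ℕ) + 56*t^(6:ℕ) + (-125)*t^(7:ℕ) + (-3)*t^(8:ℕ) + (-73)*t^(9:ℕ) + 8*t^(10:ℕ) + (-8)*t^(11:ℕ)) + d^(4:ℕ)*(8*t^(2:ℕ) + (-48)*t^(3:ℕ)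 + 102*t^(4:ℕ) + (-124)*t^(5:ℕ) + 96*t^(6:ℕ) + (-40)*t^(7:ℕ) + (-26)*t^(8:ℕ) + 44*t^(9:ℕ) + (-28)*t^(10:ℕ) + 8*t^(11:ℕ)) + d^(5:ℕ)*((15/4)*t^(4:ℕ) + (-35/2)*t^(5:ℕ) + (101/4)*t^(6:ℕ) + (-35/2)*t^(7:ℕ) + (15/4)*t^(8:ℕ) + 32*t^(9:ℕ) + (-48)*t^(10:ℕ) + 32*t^(11:ℕ)) + d^(6:ℕ)*((-14)*t^(4:ℕ) + 43*t^(5:ℕ) + (-61)*t^(6:ℕ) + 43*t^(7:ℕ) + (-14)*t^(8:ℕ)) + d^(7:ℕ)*((-4)*t^(4:ℕ) + 12*t^(5:ℕ) + (-17)*t^(6:ℕ) + 12*t^(7:ℕ) + (-4)*t^(8:ℕ)) := by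
    ring
  rw [e0]
  exact pos_L10_B1_core d _ _ _ _ _ _ _ _ h1 h2 (pos_L10_B1_b0 t h3 h4) (pos_L10_B1_b1 t h3 h4) (pos_L10_B1_b2 t h3 h4) (pos_L10_B1_b3 t h3 h4) (pos_L10_B1_b4 t h3 h4) (pos_L10_B1_b5 t h3 h4) (pos_L10_B1_b6 t h3 h4) (pos_L10_B1_b7 t h3 h4)

lemma pos_L20_B1_b0 (t : ℝ) (h3 : (3/10) ≤ t) (h4 : t ≤ 1) :
    0 ≤ 1*(2 + 2*t + 10*t^(2:ℕ) + 10*t^(3:ℕ) + 20*t^(4:ℕ) + 20*t^(5:ℕ) + 20*t^(6:ℕ) + 20*t^(7:ℕ) + 10*t^(8:ℕ) + 10*t^(9:ℕ) + 2*t^(10:ℕ) + 2*t^(11:ℕ)) + (1/5)*(4 + 3*t + (59/2)*t^(2:ℕ) + 23*t^(3:ℕ) + 70*t^(4:ℕ) + 54*t^(5:ℕ) + 73*t^(6:ℕ) + 54*t^(7:ℕ) + 34*t^(8:ℕ) + 23*t^(9:ℕ) + (11/2)*t^(10:ℕ) + 3*t^(11:ℕ)) + (1/25)*((-16) + (-16)*t + (-32)*t^(2:ℕ) +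 (-28)*t^(3:ℕ) + 36*t^(4:ℕ) + 25*t^(5:ℕ) + 113*t^(6:ℕ) + 48*t^(7:ℕ) + 70*t^(8:ℕ) + 5*t^(9:ℕ) + 9*t^(10:ℕ) + (-6)*t^(11:ℕ)) + (1/125)*((-41)*t^(2:ℕ) + (-48)*t^(3:ℕ) + (-55)*t^(4:ℕ) + (-31)*t^(5:ℕ) + 51*t^(6:ℕ) + (-14)*t^(7:ℕ) + 81*t^(8:ℕ) + (-43)*t^(9:ℕ) + 16*t^(10:ℕ) + (-12)*t^(11:ℕ)) + (1/625)*(32*t^(2:ℕ) + (-16)*t^(3:ℕ) + 4*t^(4:ℕ) + 22*t^(5:ℕ) + (-24)*t^(6:ℕ) + 28*t^(7:ℕ) + 12*t^(8:ℕ) + (-18)*t^(9:ℕ) + 8*t^(10:ℕ) + (-8)*t^(11:ℕ)) + (1/3125)*((-32)*t^(2:ℕ) + (167/4)*t^(3:ℕ) + (-12)*t^(4:ℕ) + (-79/2)*t^(5:ℕ) + (121/2)*t^(6:ℕ) + (-261/4)*t^(7:ℕ) + (87/2)*t^(8:ℕ) + (-61/4)*t^(9:ℕ) + 3*t^(10:ℕ) + (-1)*t^(11:ℕ)) + (1/15625)*(10*t^(5:ℕ) + (-31)*t^(6:ℕ) + 40*t^(7:ℕ) + (-19)*t^(8:ℕ)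 + (-7)*t^(9:ℕ) + 12*t^(10:ℕ) + (-4)*t^(11:ℕ)) + (1/78125)*((-4)*t^(7:ℕ) + 12*t^(8:ℕ) + (-17)*t^(9:ℕ) + 12*t^(10:ℕ) + (-4)*t^(11:ℕ)) - (3953/1000) := by
  have e : 1*(2 + 2*t + 10*t^(2:ℕ) + 10*t^(3:ℕ) + 20*t^(4:ℕ) + 20*t^(5:ℕ) + 20*t^(6:ℕ) + 20*t^(7:ℕ) + 10*t^(8:ℕ) + 10*t^(9:ℕ) + 2*t^(10:ℕ) + 2*t^(11:ℕ)) + (1/5)*(4 + 3*t + (59/2)*t^(2:ℕ) + 23*t^(3:ℕ) + 70*t^(4:ℕ) + 54*t^(5:ℕ) + 73*t^(6:ℕ) + 54*t^(7:ℕ) + 34*t^(8:ℕ) + 23*t^(9:ℕ) + (11/2)*t^(10:ℕ) + 3*t^(11:ℕ)) + (1/25)*((-16) + (-16)*t + (-32)*t^(2:ℕ) + (-28)*t^(3:ℕ) + 36*t^(4:ℕ) + 25*t^(5:ℕ) + 113*t^(6:ℕ) + 48*t^(7:ℕ) + 70*t^(8:ℕ) + 5*t^(9:ℕ) + 9*t^(10:ℕ) + (-6)*t^(11:ℕ)) + (1/125)*((-41)*t^(2:ℕ) + (-48)*t^(3:ℕ) + (-55)*t^(4:ℕ)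 + (-31)*t^(5:ℕ) + 51*t^(6:ℕ) + (-14)*t^(7:ℕ) + 81*t^(8:ℕ) + (-43)*t^(9:ℕ) + 16*t^(10:ℕ) + (-12)*t^(11:ℕ)) + (1/625)*(32*t^(2:ℕ) + (-16)*t^(3:ℕ) + 4*t^(4:ℕ) + 22*t^(5:ℕ) + (-24)*t^(6:ℕ) + 28*t^(7:ℕ) + 12*t^(8:ℕ) + (-18)*t^(9:ℕ) + 8*t^(10:ℕ) + (-8)*t^(11:ℕ)) + (1/3125)*((-32)*t^(2:ℕ) + (167/4)*t^(3:ℕ) + (-12)*t^(4:ℕ) + (-79/2)*t^(5:ℕ) + (121/2)*t^(6:ℕ) + (-261/4)*t^(7:ℕ) + (87/2)*t^(8:ℕ) + (-61/4)*t^(9:ℕ) + 3*t^(10:ℕ) + (-1)*t^(11:ℕ)) + (1/15625)*(10*t^(5:ℕ) + (-31)*t^(6:ℕ) + 40*t^(7:ℕ) + (-19)*t^(8:ℕ) + (-7)*t^(9:ℕ) + 12*t^(10:ℕ) + (-4)*t^(11:ℕ)) + (1/78125)*((-4)*t^(7:ℕ) + 12*t^(8:ℕ) + (-17)*t^(9:ℕ) + 12*t^(10:ℕ) + (-4)*t^(11:ℕ)) - (3953/1000) = (933095785024586/22068378828125)*(1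 - t)^(11:ℕ) + (5168257853777517/4413675765625)*(t - (3/10))*(1 - t)^(10:ℕ) + (9608040167488923/882735153125)*(t - (3/10))^(2:ℕ)*(1 - t)^(9:ℕ) + (9584216004731626/176547030625)*(t - (3/10))^(3:ℕ)*(1 - t)^(8:ℕ) + (172758682224308/1008840175)*(t - (3/10))^(4:ℕ)*(1 - t)^(7:ℕ) + (371662692077304/1008840175)*(t - (3/10))^(5:ℕ)*(1 - t)^(6:ℕ) + (112924676511376/201768035)*(t - (3/10))^(6:ℕ)*(1 - t)^(5:ℕ) + (171139952248352/282475249)*(t - (3/10))^(7:ℕ)*(1 - t)^(4:ℕ) + (130162526302720/282475249)*(t - (3/10))^(8:ℕ)*(1 - t)^(3:ℕ) + (66536110464000/282475249)*(t - (3/10))^(9:ℕ)*(1 - t)^(2:ℕ) + (20645586112000/282475249)*(t - (3/10))^(10:ℕ)*(1 - t) + (422158880000/40353607)*(t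 - (3/10))^(11:ℕ) := by
    ring
  rw [e]
  have a3 : 0 ≤ t - (3/10) := by linarith
  have a4 : 0 ≤ 1 - t := by linarith
  generalize t - (3/10) = t1 at a3 ⊢
  generalize 1 - t = t2 at a4 ⊢
  positivity

lemma pos_L20_B1_b1 (t : ℝ) (h3 : (3/10) ≤ t) (h4 : t ≤ 1) :
    0 ≤ 1*(2 + 2*t + 10*t^(2:ℕ) + 10*t^(3:ℕ) + 20*t^(4:ℕ) + 20*t^(5:ℕ) + 20*t^(6:ℕ) + 20*t^(7:ℕ) + 10*t^(8:ℕ) + 10*t^(9:ℕ) + 2*t^(10:ℕ) + 2*t^(11:ℕ)) + (3/14)*(4 + 3*t + (59/2)*t^(2:ℕ) + 23*t^(3:ℕ) + 70*t^(4:ℕ) + 54*t^(5:ℕ) + 73*t^(6:ℕ) + 54*t^(7:ℕ) + 34*t^(8:ℕ) + 23*t^(9:ℕ) + (11/2)*t^(10:ℕ) + 3*t^(11:ℕ)) + (8/175)*((-16) + (-16)*t + (-32)*t^(2:ℕ) + (-28)*t^(3:ℕ) + 36*t^(4:ℕ) + 25*t^(5:ℕ) + 113*t^(6:ℕ) +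 48*t^(7:ℕ) + 70*t^(8:ℕ) + 5*t^(9:ℕ) + 9*t^(10:ℕ) + (-6)*t^(11:ℕ)) + (17/1750)*((-41)*t^(2:ℕ) + (-48)*t^(3:ℕ) + (-55)*t^(4:ℕ) + (-31)*t^(5:ℕ) + 51*t^(6:ℕ) + (-14)*t^(7:ℕ) + 81*t^(8:ℕ) + (-43)*t^(9:ℕ) + 16*t^(10:ℕ) + (-12)*t^(11:ℕ)) + (9/4375)*(32*t^(2:ℕ) + (-16)*t^(3:ℕ) + 4*t^(4:ℕ) + 22*t^(5:ℕ) + (-24)*t^(6:ℕ) + 28*t^(7:ℕ) + 12*t^(8:ℕ) + (-18)*t^(9:ℕ) + 8*t^(10:ℕ) + (-8)*t^(11:ℕ)) + (19/43750)*((-32)*t^(2:ℕ) + (167/4)*t^(3:ℕ) + (-12)*t^(4:ℕ) + (-79/2)*t^(5:ℕ) + (121/2)*t^(6:ℕ) + (-261/4)*t^(7:ℕ) + (87/2)*t^(8:ℕ) + (-61/4)*t^(9:ℕ) + 3*t^(10:ℕ) + (-1)*t^(11:ℕ)) + (2/21875)*(10*t^(5:ℕ) + (-31)*t^(6:ℕ) + 40*t^(7:ℕ) + (-19)*t^(8:ℕ) + (-7)*t^(9:ℕ) + 12*t^(10:ℕ) + (-4)*t^(11:ℕ))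 + (3/156250)*((-4)*t^(7:ℕ) + 12*t^(8:ℕ) + (-17)*t^(9:ℕ) + 12*t^(10:ℕ) + (-4)*t^(11:ℕ)) - (3953/1000) := by
  have e : 1*(2 + 2*t + 10*t^(2:ℕ) + 10*t^(3:ℕ) + 20*t^(4:ℕ) + 20*t^(5:ℕ) + 20*t^(6:ℕ) + 20*t^(7:ℕ) + 10*t^(8:ℕ) + 10*t^(9:ℕ) + 2*t^(10:ℕ) + 2*t^(11:ℕ)) + (3/14)*(4 + 3*t + (59/2)*t^(2:ℕ) + 23*t^(3:ℕ) + 70*t^(4:ℕ) + 54*t^(5:ℕ) + 73*t^(6:ℕ) + 54*t^(7:ℕ) + 34*t^(8:ℕ) + 23*t^(9:ℕ) + (11/2)*t^(10:ℕ) + 3*t^(11:ℕ)) + (8/175)*((-16) + (-16)*t + (-32)*t^(2:ℕ) + (-28)*t^(3:ℕ) + 36*t^(4:ℕ) + 25*t^(5:ℕ) + 113*t^(6:ℕ) + 48*t^(7:ℕ) + 70*t^(8:ℕ) + 5*t^(9:ℕ) + 9*t^(10:ℕ) + (-6)*t^(11:ℕ)) + (17/1750)*((-41)*t^(2:ℕ) + (-48)*t^(3:ℕ) + (-55)*t^(4:ℕ) + (-31)*t^(5:ℕ) + 51*t^(6:ℕ)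 + (-14)*t^(7:ℕ) + 81*t^(8:ℕ) + (-43)*t^(9:ℕ) + 16*t^(10:ℕ) + (-12)*t^(11:ℕ)) + (9/4375)*(32*t^(2:ℕ) + (-16)*t^(3:ℕ) + 4*t^(4:ℕ) + 22*t^(5:ℕ) + (-24)*t^(6:ℕ) + 28*t^(7:ℕ) + 12*t^(8:ℕ) + (-18)*t^(9:ℕ) + 8*t^(10:ℕ) + (-8)*t^(11:ℕ)) + (19/43750)*((-32)*t^(2:ℕ) + (167/4)*t^(3:ℕ) + (-12)*t^(4:ℕ) + (-79/2)*t^(5:ℕ) + (121/2)*t^(6:ℕ) + (-261/4)*t^(7:ℕ) + (87/2)*t^(8:ℕ) + (-61/4)*t^(9:ℕ) + 3*t^(10:ℕ) + (-1)*t^(11:ℕ)) + (2/21875)*(10*t^(5:ℕ) + (-31)*t^(6:ℕ) + 40*t^(7:ℕ) + (-19)*t^(8:ℕ) + (-7)*t^(9:ℕ) + 12*t^(10:ℕ) + (-4)*t^(11:ℕ)) + (3/156250)*((-4)*t^(7:ℕ) + 12*t^(8:ℕ) + (-17)*t^(9:ℕ) + 12*t^(10:ℕ) + (-4)*t^(11:ℕ)) - (3953/1000) = (44750454704625266/1081350562578125)*(1 - t)^(11:ℕ)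 + (506348054372341579/432540225031250)*(t - (3/10))*(1 - t)^(10:ℕ) + (948538415013944551/86508045006250)*(t - (3/10))^(2:ℕ)*(1 - t)^(9:ℕ) + (475268457416269201/8650804500625)*(t - (3/10))^(3:ℕ)*(1 - t)^(8:ℕ) + (12035388946891606/69206436005)*(t - (3/10))^(4:ℕ)*(1 - t)^(7:ℕ) + (18549322561153484/49433168575)*(t - (3/10))^(5:ℕ)*(1 - t)^(6:ℕ) + (5651018133679176/9886633715)*(t - (3/10))^(6:ℕ)*(1 - t)^(5:ℕ) + (8585210761492112/13841287201)*(t - (3/10))^(7:ℕ)*(1 - t)^(4:ℕ) + (6544112116398720/13841287201)*(t - (3/10))^(8:ℕ)*(1 - t)^(3:ℕ) + (3351768541456000/13841287201)*(t - (3/10))^(9:ℕ)*(1 - t)^(2:ℕ) + (1041725924432000/13841287201)*(t - (3/10))^(10:ℕ)*(1 - t) + (149288810560000/13841287201)*(t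 - (3/10))^(11:ℕ) := by
    ring
  rw [e]
  have a3 : 0 ≤ t - (3/10) := by linarith
  have a4 : 0 ≤ 1 - t := by linarith
  generalize t - (3/10) = t1 at a3 ⊢
  generalize 1 - t = t2 at a4 ⊢
  positivity

lemma pos_L20_B1_b2 (t : ℝ) (h3 : (3/10) ≤ t) (h4 : t ≤ 1) :
    0 ≤ 1*(2 + 2*t + 10*t^(2:ℕ) + 10*t^(3:ℕ) + 20*t^(4:ℕ) + 20*t^(5:ℕ) + 20*t^(6:ℕ) + 20*t^(7:ℕ) + 10*t^(8:ℕ) + 10*t^(9:ℕ) + 2*t^(10:ℕ) + 2*t^(11:ℕ)) + (8/35)*(4 + 3*t + (59/2)*t^(2:ℕ) + 23*t^(3:ℕ) + 70*t^(4:ℕ) + 54*t^(5:ℕ) + 73*t^(6:ℕ) + 54*t^(7:ℕ) + 34*t^(8:ℕ) + 23*t^(9:ℕ) + (11/2)*t^(10:ℕ) + 3*t^(11:ℕ)) + (109/2100)*((-16) + (-16)*t + (-32)*t^(2:ℕ) + (-28)*t^(3:ℕ) + 36*t^(4:ℕ) + 25*t^(5:ℕ) + 113*t^(6:ℕ)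 + 48*t^(7:ℕ) + 70*t^(8:ℕ) + 5*t^(9:ℕ) + 9*t^(10:ℕ) + (-6)*t^(11:ℕ)) + (41/3500)*((-41)*t^(2:ℕ) + (-48)*t^(3:ℕ) + (-55)*t^(4:ℕ) + (-31)*t^(5:ℕ) + 51*t^(6:ℕ) + (-14)*t^(7:ℕ) + 81*t^(8:ℕ) + (-43)*t^(9:ℕ) + 16*t^(10:ℕ) + (-12)*t^(11:ℕ)) + (23/8750)*(32*t^(2:ℕ) + (-16)*t^(3:ℕ) + 4*t^(4:ℕ) + 22*t^(5:ℕ) + (-24)*t^(6:ℕ) + 28*t^(7:ℕ) + 12*t^(8:ℕ) + (-18)*t^(9:ℕ) + 8*t^(10:ℕ) + (-8)*t^(11:ℕ)) + (11/18750)*((-32)*t^(2:ℕ) + (167/4)*t^(3:ℕ) + (-12)*t^(4:ℕ) + (-79/2)*t^(5:ℕ) + (121/2)*t^(6:ℕ) + (-261/4)*t^(7:ℕ) + (87/2)*t^(8:ℕ) + (-61/4)*t^(9:ℕ) + 3*t^(10:ℕ) + (-1)*t^(11:ℕ)) + (57/437500)*(10*t^(5:ℕ) + (-31)*t^(6:ℕ) + 40*t^(7:ℕ) + (-19)*t^(8:ℕ) + (-7)*t^(9:ℕ) + 12*t^(10:ℕ) + (-4)*t^(11:ℕ))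 + (9/312500)*((-4)*t^(7:ℕ) + 12*t^(8:ℕ) + (-17)*t^(9:ℕ) + 12*t^(10:ℕ) + (-4)*t^(11:ℕ)) - (3953/1000) := by
  have e : 1*(2 + 2*t + 10*t^(2:ℕ) + 10*t^(3:ℕ) + 20*t^(4:ℕ) + 20*t^(5:ℕ) + 20*t^(6:ℕ) + 20*t^(7:ℕ) + 10*t^(8:ℕ) + 10*t^(9:ℕ) + 2*t^(10:ℕ) + 2*t^(11:ℕ)) + (8/35)*(4 + 3*t + (59/2)*t^(2:ℕ) + 23*t^(3:ℕ) + 70*t^(4:ℕ) + 54*t^(5:ℕ) + 73*t^(6:ℕ) + 54*t^(7:ℕ) + 34*t^(8:ℕ) + 23*t^(9:ℕ) + (11/2)*t^(10:ℕ) + 3*t^(11:ℕ)) + (109/2100)*((-16) + (-16)*t + (-32)*t^(2:ℕ) + (-28)*t^(3:ℕ) + 36*t^(4:ℕ) + 25*t^(5:ℕ) + 113*t^(6:ℕ) + 48*t^(7:ℕ) + 70*t^(8:ℕ) + 5*t^(9:ℕ) + 9*t^(10:ℕ) + (-6)*t^(11:ℕ)) + (41/3500)*((-41)*t^(2:ℕ) + (-48)*t^(3:ℕ) + (-55)*t^(4:ℕ) + (-31)*t^(5:ℕ) + 51*t^(6:ℕ)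 + (-14)*t^(7:ℕ) + 81*t^(8:ℕ) + (-43)*t^(9:ℕ) + 16*t^(10:ℕ) + (-12)*t^(11:ℕ)) + (23/8750)*(32*t^(2:ℕ) + (-16)*t^(3:ℕ) + 4*t^(4:ℕ) + 22*t^(5:ℕ) + (-24)*t^(6:ℕ) + 28*t^(7:ℕ) + 12*t^(8:ℕ) + (-18)*t^(9:ℕ) + 8*t^(10:ℕ) + (-8)*t^(11:ℕ)) + (11/18750)*((-32)*t^(2:ℕ) + (167/4)*t^(3:ℕ) + (-12)*t^(4:ℕ) + (-79/2)*t^(5:ℕ) + (121/2)*t^(6:ℕ) + (-261/4)*t^(7:ℕ) + (87/2)*t^(8:ℕ) + (-61/4)*t^(9:ℕ) + 3*t^(10:ℕ) + (-1)*t^(11:ℕ)) + (57/437500)*(10*t^(5:ℕ) + (-31)*t^(6:ℕ) + 40*t^(7:ℕ) + (-19)*t^(8:ℕ) + (-7)*t^(9:ℕ) + 12*t^(10:ℕ) + (-4)*t^(11:ℕ)) + (9/312500)*((-4)*t^(7:ℕ) + 12*t^(8:ℕ) + (-17)*t^(9:ℕ) + 12*t^(10:ℕ) + (-4)*t^(11:ℕ)) - (3953/1000) = (18463254359502991/463435955390625)*(1 -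 t)^(11:ℕ) + (71814680976890743/61791460718750)*(t - (3/10))*(1 - t)^(10:ℕ) + (407774706628145551/37074876431250)*(t - (3/10))^(2:ℕ)*(1 - t)^(9:ℕ) + (68504758707318307/1235829214375)*(t - (3/10))^(3:ℕ)*(1 - t)^(8:ℕ) + (8710441038588938/49433168575)*(t - (3/10))^(4:ℕ)*(1 - t)^(7:ℕ) + (2694239264462348/7061881225)*(t - (3/10))^(5:ℕ)*(1 - t)^(6:ℕ) + (823276352268632/1412376245)*(t - (3/10))^(6:ℕ)*(1 - t)^(5:ℕ) + (1254143196734704/1977326743)*(t - (3/10))^(7:ℕ)*(1 - t)^(4:ℕ) + (2874908640709120/5931980229)*(t - (3/10))^(8:ℕ)*(1 - t)^(3:ℕ) + (1475609846048000/5931980229)*(t - (3/10))^(9:ℕ)*(1 - t)^(2:ℕ) + (153142993264000/1977326743)*(t - (3/10))^(10:ℕ)*(1 - t) + (21975718720000/1977326743)*(t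 - (3/10))^(11:ℕ) := by
    ring
  rw [e]
  have a3 : 0 ≤ t - (3/10) := by linarith
  have a4 : 0 ≤ 1 - t := by linarith
  generalize t - (3/10) = t1 at a3 ⊢
  generalize 1 - t = t2 at a4 ⊢
  positivity

lemma pos_L20_B1_b3 (t : ℝ) (h3 : (3/10) ≤ t) (h4 : t ≤ 1) :
    0 ≤ 1*(2 + 2*t + 10*t^(2:ℕ) + 10*t^(3:ℕ) + 20*t^(4:ℕ) + 20*t^(5:ℕ) + 20*t^(6:ℕ) + 20*t^(7:ℕ) + 10*t^(8:ℕ) + 10*t^(9:ℕ) + 2*t^(10:ℕ) + 2*t^(11:ℕ)) + (17/70)*(4 + 3*t + (59/2)*t^(2:ℕ) + 23*t^(3:ℕ) + 70*t^(4:ℕ) + 54*t^(5:ℕ) + 73*t^(6:ℕ) + 54*t^(7:ℕ) + 34*t^(8:ℕ) + 23*t^(9:ℕ) + (11/2)*t^(10:ℕ) + 3*t^(11:ℕ)) + (41/700)*((-16) + (-16)*t + (-32)*t^(2:ℕ) + (-28)*t^(3:ℕ) + 36*t^(4:ℕ) + 25*t^(5:ℕ) + 113*t^(6:ℕ)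 + 48*t^(7:ℕ) + 70*t^(8:ℕ) + 5*t^(9:ℕ) + 9*t^(10:ℕ) + (-6)*t^(11:ℕ)) + (491/35000)*((-41)*t^(2:ℕ) + (-48)*t^(3:ℕ) + (-55)*t^(4:ℕ) + (-31)*t^(5:ℕ) + 51*t^(6:ℕ) + (-14)*t^(7:ℕ) + 81*t^(8:ℕ) + (-43)*t^(9:ℕ) + 16*t^(10:ℕ) + (-12)*t^(11:ℕ)) + (73/21875)*(32*t^(2:ℕ) + (-16)*t^(3:ℕ) + 4*t^(4:ℕ) + 22*t^(5:ℕ) + (-24)*t^(6:ℕ) + 28*t^(7:ℕ) + 12*t^(8:ℕ) + (-18)*t^(9:ℕ) + 8*t^(10:ℕ) + (-8)*t^(11:ℕ)) + (69/87500)*((-32)*t^(2:ℕ) + (167/4)*t^(3:ℕ) + (-12)*t^(4:ℕ) + (-79/2)*t^(5:ℕ) + (121/2)*t^(6:ℕ) + (-261/4)*t^(7:ℕ) + (87/2)*t^(8:ℕ) + (-61/4)*t^(9:ℕ) + 3*t^(10:ℕ) + (-1)*t^(11:ℕ)) + (81/437500)*(10*t^(5:ℕ) + (-31)*t^(6:ℕ) + 40*t^(7:ℕ) + (-19)*t^(8:ℕ) + (-7)*t^(9:ℕ) + 12*t^(10:ℕ) +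 (-4)*t^(11:ℕ)) + (27/625000)*((-4)*t^(7:ℕ) + 12*t^(8:ℕ) + (-17)*t^(9:ℕ) + 12*t^(10:ℕ) + (-4)*t^(11:ℕ)) - (3953/1000) := by
  have e : 1*(2 + 2*t + 10*t^(2:ℕ) + 10*t^(3:ℕ) + 20*t^(4:ℕ) + 20*t^(5:ℕ) + 20*t^(6:ℕ) + 20*t^(7:ℕ) + 10*t^(8:ℕ) + 10*t^(9:ℕ) + 2*t^(10:ℕ) + 2*t^(11:ℕ)) + (17/70)*(4 + 3*t + (59/2)*t^(2:ℕ) + 23*t^(3:ℕ) + 70*t^(4:ℕ) + 54*t^(5:ℕ) + 73*t^(6:ℕ) + 54*t^(7:ℕ) + 34*t^(8:ℕ) + 23*t^(9:ℕ) + (11/2)*t^(10:ℕ) + 3*t^(11:ℕ)) + (41/700)*((-16) + (-16)*t + (-32)*t^(2:ℕ) + (-28)*t^(3:ℕ) + 36*t^(4:ℕ) + 25*t^(5:ℕ) + 113*t^(6:ℕ) + 48*t^(7:ℕ) + 70*t^(8:ℕ) + 5*t^(9:ℕ) + 9*t^(10:ℕ) + (-6)*t^(11:ℕ)) + (491/35000)*((-41)*t^(2:ℕ) + (-48)*t^(3:ℕ) + (-55)*t^(4:ℕ) + (-31)*t^(5:ℕ)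 + 51*t^(6:ℕ) + (-14)*t^(7:ℕ) + 81*t^(8:ℕ) + (-43)*t^(9:ℕ) + 16*t^(10:ℕ) + (-12)*t^(11:ℕ)) + (73/21875)*(32*t^(2:ℕ) + (-16)*t^(3:ℕ) + 4*t^(4:ℕ) + 22*t^(5:ℕ) + (-24)*t^(6:ℕ) + 28*t^(7:ℕ) + 12*t^(8:ℕ) + (-18)*t^(9:ℕ) + 8*t^(10:ℕ) + (-8)*t^(11:ℕ)) + (69/87500)*((-32)*t^(2:ℕ) + (167/4)*t^(3:ℕ) + (-12)*t^(4:ℕ) + (-79/2)*t^(5:ℕ) + (121/2)*t^(6:ℕ) + (-261/4)*t^(7:ℕ) + (87/2)*t^(8:ℕ) + (-61/4)*t^(9:ℕ) + 3*t^(10:ℕ) + (-1)*t^(11:ℕ)) + (81/437500)*(10*t^(5:ℕ) + (-31)*t^(6:ℕ) + 40*t^(7:ℕ) + (-19)*t^(8:ℕ) + (-7)*t^(9:ℕ) + 12*t^(10:ℕ) + (-4)*t^(11:ℕ)) + (27/625000)*((-4)*t^(7:ℕ) + 12*t^(8:ℕ) + (-17)*t^(9:ℕ) + 12*t^(10:ℕ) + (-4)*t^(11:ℕ)) - (3953/1000) = (40706525836896726/1081350562578125)*(1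 - t)^(11:ℕ) + (247754513791747497/216270112515625)*(t - (3/10))*(1 - t)^(10:ℕ) + (1900659618977801897/173016090012500)*(t - (3/10))^(2:ℕ)*(1 - t)^(9:ℕ) + (964785427645489427/17301609001250)*(t - (3/10))^(3:ℕ)*(1 - t)^(8:ℕ) + (61641472091707273/346032180025)*(t - (3/10))^(4:ℕ)*(1 - t)^(7:ℕ) + (19141662258601094/49433168575)*(t - (3/10))^(5:ℕ)*(1 - t)^(6:ℕ) + (5868829236260276/9886633715)*(t - (3/10))^(6:ℕ)*(1 - t)^(5:ℕ) + (8966940310708232/13841287201)*(t - (3/10))^(7:ℕ)*(1 - t)^(4:ℕ) + (6869809005286720/13841287201)*(t - (3/10))^(8:ℕ)*(1 - t)^(3:ℕ) + (3534163384520000/13841287201)*(t - (3/10))^(9:ℕ)*(1 - t)^(2:ℕ) + (1102443695672000/13841287201)*(t - (3/10))^(10:ℕ)*(1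 - t) + (158422749360000/13841287201)*(t - (3/10))^(11:ℕ) := by
    ring
  rw [e]
  have a3 : 0 ≤ t - (3/10) := by linarith
  have a4 : 0 ≤ 1 - t := by linarith
  generalize t - (3/10) = t1 at a3 ⊢
  generalize 1 - t = t2 at a4 ⊢
  positivity

lemma pos_L20_B1_b4 (t : ℝ) (h3 : (3/10) ≤ t) (h4 : t ≤ 1) :
    0 ≤ 1*(2 + 2*t + 10*t^(2:ℕ) + 10*t^(3:ℕ) + 20*t^(4:ℕ) + 20*t^(5:ℕ) + 20*t^(6:ℕ) + 20*t^(7:ℕ) + 10*t^(8:ℕ) + 10*t^(9:ℕ) + 2*t^(10:ℕ) + 2*t^(11:ℕ)) + (9/35)*(4 + 3*t + (59/2)*t^(2:ℕ) + 23*t^(3:ℕ) + 70*t^(4:ℕ) + 54*t^(5:ℕ) + 73*t^(6:ℕ) + 54*t^(7:ℕ) + 34*t^(8:ℕ) + 23*t^(9:ℕ) + (11/2)*t^(10:ℕ) + 3*t^(11:ℕ)) + (23/350)*((-16) + (-16)*t + (-32)*t^(2:ℕ) + (-28)*t^(3:ℕ)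 + 36*t^(4:ℕ) + 25*t^(5:ℕ) + 113*t^(6:ℕ) + 48*t^(7:ℕ) + 70*t^(8:ℕ) + 5*t^(9:ℕ) + 9*t^(10:ℕ) + (-6)*t^(11:ℕ)) + (73/4375)*((-41)*t^(2:ℕ) + (-48)*t^(3:ℕ) + (-55)*t^(4:ℕ) + (-31)*t^(5:ℕ) + 51*t^(6:ℕ) + (-14)*t^(7:ℕ) + 81*t^(8:ℕ) + (-43)*t^(9:ℕ) + 16*t^(10:ℕ) + (-12)*t^(11:ℕ)) + (1473/350000)*(32*t^(2:ℕ) + (-16)*t^(3:ℕ) + 4*t^(4:ℕ) + 22*t^(5:ℕ) + (-24)*t^(6:ℕ) + 28*t^(7:ℕ) + 12*t^(8:ℕ) + (-18)*t^(9:ℕ) + 8*t^(10:ℕ) + (-8)*t^(11:ℕ)) + (369/350000)*((-32)*t^(2:ℕ) + (167/4)*t^(3:ℕ) + (-12)*t^(4:ℕ) + (-79/2)*t^(5:ℕ) + (121/2)*t^(6:ℕ) + (-261/4)*t^(7:ℕ) + (87/2)*t^(8:ℕ) + (-61/4)*t^(9:ℕ) + 3*t^(10:ℕ) + (-1)*t^(11:ℕ)) + (459/1750000)*(10*t^(5:ℕ) + (-31)*t^(6:ℕ) + 40*t^(7:ℕ) +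 (-19)*t^(8:ℕ) + (-7)*t^(9:ℕ) + 12*t^(10:ℕ) + (-4)*t^(11:ℕ)) + (81/1250000)*((-4)*t^(7:ℕ) + 12*t^(8:ℕ) + (-17)*t^(9:ℕ) + 12*t^(10:ℕ) + (-4)*t^(11:ℕ)) - (3953/1000) := by
  have e : 1*(2 + 2*t + 10*t^(2:ℕ) + 10*t^(3:ℕ) + 20*t^(4:ℕ) + 20*t^(5:ℕ) + 20*t^(6:ℕ) + 20*t^(7:ℕ) + 10*t^(8:ℕ) + 10*t^(9:ℕ) + 2*t^(10:ℕ) + 2*t^(11:ℕ)) + (9/35)*(4 + 3*t + (59/2)*t^(2:ℕ) + 23*t^(3:ℕ) + 70*t^(4:ℕ) + 54*t^(5:ℕ) + 73*t^(6:ℕ) + 54*t^(7:ℕ) + 34*t^(8:ℕ) + 23*t^(9:ℕ) + (11/2)*t^(10:ℕ) + 3*t^(11:ℕ)) + (23/350)*((-16) + (-16)*t + (-32)*t^(2:ℕ) + (-28)*t^(3:ℕ) + 36*t^(4:ℕ) + 25*t^(5:ℕ) + 113*t^(6:ℕ) + 48*t^(7:ℕ) + 70*t^(8:ℕ) + 5*t^(9:ℕ) + 9*t^(10:ℕ) + (-6)*t^(11:ℕ)) + (73/4375)*((-41)*t^(2:ℕ)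 + (-48)*t^(3:ℕ) + (-55)*t^(4:ℕ) + (-31)*t^(5:ℕ) + 51*t^(6:ℕ) + (-14)*t^(7:ℕ) + 81*t^(8:ℕ) + (-43)*t^(9:ℕ) + 16*t^(10:ℕ) + (-12)*t^(11:ℕ)) + (1473/350000)*(32*t^(2:ℕ) + (-16)*t^(3:ℕ) + 4*t^(4:ℕ) + 22*t^(5:ℕ) + (-24)*t^(6:ℕ) + 28*t^(7:ℕ) + 12*t^(8:ℕ) + (-18)*t^(9:ℕ) + 8*t^(10:ℕ) + (-8)*t^(11:ℕ)) + (369/350000)*((-32)*t^(2:ℕ) + (167/4)*t^(3:ℕ) + (-12)*t^(4:ℕ) + (-79/2)*t^(5:ℕ) + (121/2)*t^(6:ℕ) + (-261/4)*t^(7:ℕ) + (87/2)*t^(8:ℕ) + (-61/4)*t^(9:ℕ) + 3*t^(10:ℕ) + (-1)*t^(11:ℕ)) + (459/1750000)*(10*t^(5:ℕ) + (-31)*t^(6:ℕ) + 40*t^(7:ℕ) + (-19)*t^(8:ℕ) + (-7)*t^(9:ℕ) + 12*t^(10:ℕ) + (-4)*t^(11:ℕ)) + (81/1250000)*((-4)*t^(7:ℕ) + 12*t^(8:ℕ) + (-17)*t^(9:ℕ) + 12*t^(10:ℕ) +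 (-4)*t^(11:ℕ)) - (3953/1000) = (150483054917079901/4325402250312500)*(1 - t)^(11:ℕ) + (969446273391927047/865080450062500)*(t - (3/10))*(1 - t)^(10:ℕ) + (7560320918211265797/692064360050000)*(t - (3/10))^(2:ℕ)*(1 - t)^(9:ℕ) + (3870549586476556317/69206436005000)*(t - (3/10))^(3:ℕ)*(1 - t)^(8:ℕ) + (248715873719694517/1384128720100)*(t - (3/10))^(4:ℕ)*(1 - t)^(7:ℕ) + (38788865690410977/98866337150)*(t - (3/10))^(5:ℕ)*(1 - t)^(6:ℕ) + (5968477491570599/9886633715)*(t - (3/10))^(6:ℕ)*(1 - t)^(5:ℕ) + (9148737685633558/13841287201)*(t - (3/10))^(7:ℕ)*(1 - t)^(4:ℕ) + (7029003306767280/13841287201)*(t - (3/10))^(8:ℕ)*(1 - t)^(3:ℕ) + (3624922055438000/13841287201)*(t - (3/10))^(9:ℕ)*(1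 - t)^(2:ℕ) + (1133039472258000/13841287201)*(t - (3/10))^(10:ℕ)*(1 - t) + (163065605740000/13841287201)*(t - (3/10))^(11:ℕ) := by
    ring
  rw [e]
  have a3 : 0 ≤ t - (3/10) := by linarith
  have a4 : 0 ≤ 1 - t := by linarith
  generalize t - (3/10) = t1 at a3 ⊢
  generalize 1 - t = t2 at a4 ⊢
  positivity

lemma pos_L20_B1_b5 (t : ℝ) (h3 : (3/10) ≤ t) (h4 : t ≤ 1) :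
    0 ≤ 1*(2 + 2*t + 10*t^(2:ℕ) + 10*t^(3:ℕ) + 20*t^(4:ℕ) + 20*t^(5:ℕ) + 20*t^(6:ℕ) + 20*t^(7:ℕ) + 10*t^(8:ℕ) + 10*t^(9:ℕ) + 2*t^(10:ℕ) + 2*t^(11:ℕ)) + (19/70)*(4 + 3*t + (59/2)*t^(2:ℕ) + 23*t^(3:ℕ) + 70*t^(4:ℕ) + 54*t^(5:ℕ) + 73*t^(6:ℕ) + 54*t^(7:ℕ) + 34*t^(8:ℕ) + 23*t^(9:ℕ) + (11/2)*t^(10:ℕ) + 3*t^(11:ℕ)) + (11/150)*((-16) + (-16)*t + (-32)*t^(2:ℕ) + (-28)*t^(3:ℕ) + 36*t^(4:ℕ) + 25*t^(5:ℕ) + 113*t^(6:ℕ) + 48*t^(7:ℕ) + 70*t^(8:ℕ) + 5*t^(9:ℕ) + 9*t^(10:ℕ) + (-6)*t^(11:ℕ)) + (69/3500)*((-41)*t^(2:ℕ) + (-48)*t^(3:ℕ) + (-55)*t^(4:ℕ) + (-31)*t^(5:ℕ) + 51*t^(6:ℕ) + (-14)*t^(7:ℕ) + 81*t^(8:ℕ) + (-43)*t^(9:ℕ) + 16*t^(10:ℕ) + (-12)*t^(11:ℕ)) + (369/70000)*(32*t^(2:ℕ) + (-16)*t^(3:ℕ)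 + 4*t^(4:ℕ) + 22*t^(5:ℕ) + (-24)*t^(6:ℕ) + 28*t^(7:ℕ) + 12*t^(8:ℕ) + (-18)*t^(9:ℕ) + 8*t^(10:ℕ) + (-8)*t^(11:ℕ)) + (981/700000)*((-32)*t^(2:ℕ) + (167/4)*t^(3:ℕ) + (-12)*t^(4:ℕ) + (-79/2)*t^(5:ℕ) + (121/2)*t^(6:ℕ) + (-261/4)*t^(7:ℕ) + (87/2)*t^(8:ℕ) + (-61/4)*t^(9:ℕ) + 3*t^(10:ℕ) + (-1)*t^(11:ℕ)) + (81/218750)*(10*t^(5:ℕ) + (-31)*t^(6:ℕ) + 40*t^(7:ℕ) + (-19)*t^(8:ℕ) + (-7)*t^(9:ℕ) + 12*t^(10:ℕ) + (-4)*t^(11:ℕ)) + (243/2500000)*((-4)*t^(7:ℕ) + 12*t^(8:ℕ) + (-17)*t^(9:ℕ) + 12*t^(10:ℕ) + (-4)*t^(11:ℕ)) - (3953/1000) := by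
  have e : 1*(2 + 2*t + 10*t^(2:ℕ) + 10*t^(3:ℕ) + 20*t^(4:ℕ) + 20*t^(5:ℕ) + 20*t^(6:ℕ) + 20*t^(7:ℕ) + 10*t^(8:ℕ) + 10*t^(9:ℕ) + 2*t^(10:ℕ) + 2*t^(11:ℕ)) + (19/70)*(4 + 3*t + (59/2)*t^(2:ℕ) + 23*t^(3:ℕ) + 70*t^(4:ℕ) + 54*t^(5:ℕ) + 73*t^(6:ℕ) + 54*t^(7:ℕ) + 34*t^(8:ℕ) + 23*t^(9:ℕ) + (11/2)*t^(10:ℕ) + 3*t^(11:ℕ)) + (11/150)*((-16) + (-16)*t + (-32)*t^(2:ℕ) + (-28)*t^(3:ℕ) + 36*t^(4:ℕ) + 25*t^(5:ℕ) + 113*t^(6:ℕ) + 48*t^(7:ℕ) + 70*t^(8:ℕ) + 5*t^(9:ℕ) + 9*t^(10:ℕ) + (-6)*t^(11:ℕ)) + (69/3500)*((-41)*t^(2:ℕ) + (-48)*t^(3:ℕ) + (-55)*t^(4:ℕ) + (-31)*t^(5:ℕ) + 51*t^(6:ℕ) + (-14)*t^(7:ℕ) + 81*t^(8:ℕ) + (-43)*t^(9:ℕ) + 16*t^(10:ℕ) + (-12)*t^(11:ℕ)) + (369/70000)*(32*t^(2:ℕ) +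 (-16)*t^(3:ℕ) + 4*t^(4:ℕ) + 22*t^(5:ℕ) + (-24)*t^(6:ℕ) + 28*t^(7:ℕ) + 12*t^(8:ℕ) + (-18)*t^(9:ℕ) + 8*t^(10:ℕ) + (-8)*t^(11:ℕ)) + (981/700000)*((-32)*t^(2:ℕ) + (167/4)*t^(3:ℕ) + (-12)*t^(4:ℕ) + (-79/2)*t^(5:ℕ) + (121/2)*t^(6:ℕ) + (-261/4)*t^(7:ℕ) + (87/2)*t^(8:ℕ) + (-61/4)*t^(9:ℕ) + 3*t^(10:ℕ) + (-1)*t^(11:ℕ)) + (81/218750)*(10*t^(5:ℕ) + (-31)*t^(6:ℕ) + 40*t^(7:ℕ) + (-19)*t^(8:ℕ) + (-7)*t^(9:ℕ) + 12*t^(10:ℕ) + (-4)*t^(11:ℕ)) + (243/2500000)*((-4)*t^(7:ℕ) + 12*t^(8:ℕ) + (-17)*t^(9:ℕ) + 12*t^(10:ℕ) + (-4)*t^(11:ℕ)) - (3953/1000) = (811612777314134339/25952413501875000)*(1 - t)^(11:ℕ) + (1881207129586037861/1730160900125000)*(t - (3/10))*(1 - t)^(10:ℕ) + (44905973946028745783/4152386160300000)*(t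 - (3/10))^(2:ℕ)*(1 - t)^(9:ℕ) + (23221613937871534523/415238616030000)*(t - (3/10))^(3:ℕ)*(1 - t)^(8:ℕ) + (1501979646902471699/8304772320600)*(t - (3/10))^(4:ℕ)*(1 - t)^(7:ℕ) + (78468584878714641/197732674300)*(t - (3/10))^(5:ℕ)*(1 - t)^(6:ℕ) + (12123315055064027/19773267430)*(t - (3/10))^(6:ℕ)*(1 - t)^(5:ℕ) + (9324112120381427/13841287201)*(t - (3/10))^(7:ℕ)*(1 - t)^(4:ℕ) + (7185530819131720/13841287201)*(t - (3/10))^(8:ℕ)*(1 - t)^(3:ℕ) + (11145898057547000/41523861603)*(t - (3/10))^(9:ℕ)*(1 - t)^(2:ℕ) + (1163773983737000/13841287201)*(t - (3/10))^(10:ℕ)*(1 - t) + (503271849730000/41523861603)*(t - (3/10))^(11:ℕ) := by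
    ring
  rw [e]
  have a3 : 0 ≤ t - (3/10) := by linarith
  have a4 : 0 ≤ 1 - t := by linarith
  generalize t - (3/10) = t1 at a3 ⊢
  generalize 1 - t = t2 at a4 ⊢
  positivity

lemma pos_L20_B1_b6 (t : ℝ) (h3 : (3/10) ≤ t) (h4 : t ≤ 1) :
    0 ≤ 1*(2 + 2*t + 10*t^(2:ℕ) + 10*t^(3:ℕ) + 20*t^(4:ℕ) + 20*t^(5:ℕ) + 20*t^(6:ℕ) + 20*t^(7:ℕ) + 10*t^(8:ℕ) + 10*t^(9:ℕ) + 2*t^(10:ℕ) + 2*t^(11:ℕ)) + (2/7)*(4 + 3*t + (59/2)*t^(2:ℕ) + 23*t^(3:ℕ) + 70*t^(4:ℕ) + 54*t^(5:ℕ) + 73*t^(6:ℕ) + 54*t^(7:ℕ) + 34*t^(8:ℕ) + 23*t^(9:ℕ) + (11/2)*t^(10:ℕ) + 3*t^(11:ℕ)) + (57/700)*((-16) + (-16)*t + (-32)*t^(2:ℕ) + (-28)*t^(3:ℕ) + 36*t^(4:ℕ) + 25*t^(5:ℕ) + 113*t^(6:ℕ) + 48*t^(7:ℕ) + 70*t^(8:ℕ)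 + 5*t^(9:ℕ) + 9*t^(10:ℕ) + (-6)*t^(11:ℕ)) + (81/3500)*((-41)*t^(2:ℕ) + (-48)*t^(3:ℕ) + (-55)*t^(4:ℕ) + (-31)*t^(5:ℕ) + 51*t^(6:ℕ) + (-14)*t^(7:ℕ) + 81*t^(8:ℕ) + (-43)*t^(9:ℕ) + 16*t^(10:ℕ) + (-12)*t^(11:ℕ)) + (459/70000)*(32*t^(2:ℕ) + (-16)*t^(3:ℕ) + 4*t^(4:ℕ) + 22*t^(5:ℕ) + (-24)*t^(6:ℕ) + 28*t^(7:ℕ) + 12*t^(8:ℕ) + (-18)*t^(9:ℕ) + 8*t^(10:ℕ) + (-8)*t^(11:ℕ)) + (81/43750)*((-32)*t^(2:ℕ) + (167/4)*t^(3:ℕ) + (-12)*t^(4:ℕ) + (-79/2)*t^(5:ℕ) + (121/2)*t^(6:ℕ) + (-261/4)*t^(7:ℕ) + (87/2)*t^(8:ℕ) + (-61/4)*t^(9:ℕ) + 3*t^(10:ℕ) + (-1)*t^(11:ℕ)) + (729/1400000)*(10*t^(5:ℕ) + (-31)*t^(6:ℕ) + 40*t^(7:ℕ) + (-19)*t^(8:ℕ) + (-7)*t^(9:ℕ) + 12*t^(10:ℕ) + (-4)*t^(11:ℕ)) + (729/5000000)*((-4)*t^(7:ℕ)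 + 12*t^(8:ℕ) + (-17)*t^(9:ℕ) + 12*t^(10:ℕ) + (-4)*t^(11:ℕ)) - (3953/1000) := by
  have e : 1*(2 + 2*t + 10*t^(2:ℕ) + 10*t^(3:ℕ) + 20*t^(4:ℕ) + 20*t^(5:ℕ) + 20*t^(6:ℕ) + 20*t^(7:ℕ) + 10*t^(8:ℕ) + 10*t^(9:ℕ) + 2*t^(10:ℕ) + 2*t^(11:ℕ)) + (2/7)*(4 + 3*t + (59/2)*t^(2:ℕ) + 23*t^(3:ℕ) + 70*t^(4:ℕ) + 54*t^(5:ℕ) + 73*t^(6:ℕ) + 54*t^(7:ℕ) + 34*t^(8:ℕ) + 23*t^(9:ℕ) + (11/2)*t^(10:ℕ) + 3*t^(11:ℕ)) + (57/700)*((-16) + (-16)*t + (-32)*t^(2:ℕ) + (-28)*t^(3:ℕ) + 36*t^(4:ℕ) + 25*t^(5:ℕ) + 113*t^(6:ℕ) + 48*t^(7:ℕ) + 70*t^(8:ℕ) + 5*t^(9:ℕ) + 9*t^(10:ℕ) + (-6)*t^(11:ℕ)) + (81/3500)*((-41)*t^(2:ℕ) + (-48)*t^(3:ℕ) + (-55)*t^(4:ℕ) + (-31)*t^(5:ℕ) + 51*t^(6:ℕ) + (-14)*t^(7:ℕ) + 81*t^(8:ℕ)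 + (-43)*t^(9:ℕ) + 16*t^(10:ℕ) + (-12)*t^(11:ℕ)) + (459/70000)*(32*t^(2:ℕ) + (-16)*t^(3:ℕ) + 4*t^(4:ℕ) + 22*t^(5:ℕ) + (-24)*t^(6:ℕ) + 28*t^(7:ℕ) + 12*t^(8:ℕ) + (-18)*t^(9:ℕ) + 8*t^(10:ℕ) + (-8)*t^(11:ℕ)) + (81/43750)*((-32)*t^(2:ℕ) + (167/4)*t^(3:ℕ) + (-12)*t^(4:ℕ) + (-79/2)*t^(5:ℕ) + (121/2)*t^(6:ℕ) + (-261/4)*t^(7:ℕ) + (87/2)*t^(8:ℕ) + (-61/4)*t^(9:ℕ) + 3*t^(10:ℕ) + (-1)*t^(11:ℕ)) + (729/1400000)*(10*t^(5:ℕ) + (-31)*t^(6:ℕ) + 40*t^(7:ℕ) + (-19)*t^(8:ℕ) + (-7)*t^(9:ℕ) + 12*t^(10:ℕ) + (-4)*t^(11:ℕ)) + (729/5000000)*((-4)*t^(7:ℕ) + 12*t^(8:ℕ) + (-17)*t^(9:ℕ) + 12*t^(10:ℕ) + (-4)*t^(11:ℕ)) - (3953/1000) = (29289387373757209/1081350562578125)*(1 - t)^(11:ℕ) + (1808807000561749659/1730160900125000)*(t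 - (3/10))*(1 - t)^(10:ℕ) + (1843538068001293973/173016090012500)*(t - (3/10))^(2:ℕ)*(1 - t)^(9:ℕ) + (3858080323942135267/69206436005000)*(t - (3/10))^(3:ℕ)*(1 - t)^(8:ℕ) + (5027916681354379/27682574402)*(t - (3/10))^(4:ℕ)*(1 - t)^(7:ℕ) + (39617941027340107/98866337150)*(t - (3/10))^(5:ℕ)*(1 - t)^(6:ℕ) + (6148150185579574/9886633715)*(t - (3/10))^(6:ℕ)*(1 - t)^(5:ℕ) + (9492784908433838/13841287201)*(t - (3/10))^(7:ℕ)*(1 - t)^(4:ℕ) + (7339221906546280/13841287201)*(t - (3/10))^(8:ℕ)*(1 - t)^(3:ℕ) + (3805230199159000/13841287201)*(t - (3/10))^(9:ℕ)*(1 - t)^(2:ℕ) + (1194633266468000/13841287201)*(t - (3/10))^(10:ℕ)*(1 - t) + (172496502440000/13841287201)*(t - (3/10))^(11:ℕ)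 := by
    ring
  rw [e]
  have a3 : 0 ≤ t - (3/10) := by linarith
  have a4 : 0 ≤ 1 - t := by linarith
  generalize t - (3/10) = t1 at a3 ⊢
  generalize 1 - t = t2 at a4 ⊢
  positivity

lemma pos_L20_B1_b7 (t : ℝ) (h3 : (3/10) ≤ t) (h4 : t ≤ 1) :
    0 ≤ 1*(2 + 2*t + 10*t^(2:ℕ) + 10*t^(3:ℕ) + 20*t^(4:ℕ) + 20*t^(5:ℕ) + 20*t^(6:ℕ) + 20*t^(7:ℕ) + 10*t^(8:ℕ) + 10*t^(9:ℕ) + 2*t^(10:ℕ) + 2*t^(11:ℕ)) + (3/10)*(4 + 3*t + (59/2)*t^(2:ℕ) + 23*t^(3:ℕ) + 70*t^(4:ℕ) + 54*t^(5:ℕ) + 73*t^(6:ℕ) + 54*t^(7:ℕ) + 34*t^(8:ℕ) + 23*t^(9:ℕ) + (11/2)*t^(10:ℕ) + 3*t^(11:ℕ)) + (9/100)*((-16) + (-16)*t + (-32)*t^(2:ℕ) + (-28)*t^(3:ℕ) + 36*t^(4:ℕ) + 25*t^(5:ℕ) + 113*t^(6:ℕ) + 48*t^(7:ℕ) + 70*t^(8:ℕ)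 + 5*t^(9:ℕ) + 9*t^(10:ℕ) + (-6)*t^(11:ℕ)) + (27/1000)*((-41)*t^(2:ℕ) + (-48)*t^(3:ℕ) + (-55)*t^(4:ℕ) + (-31)*t^(5:ℕ) + 51*t^(6:ℕ) + (-14)*t^(7:ℕ) + 81*t^(8:ℕ) + (-43)*t^(9:ℕ) + 16*t^(10:ℕ) + (-12)*t^(11:ℕ)) + (81/10000)*(32*t^(2:ℕ) + (-16)*t^(3:ℕ) + 4*t^(4:ℕ) + 22*t^(5:ℕ) + (-24)*t^(6:ℕ) + 28*t^(7:ℕ) + 12*t^(8:ℕ) + (-18)*t^(9:ℕ) + 8*t^(10:ℕ) + (-8)*t^(11:ℕ)) + (243/100000)*((-32)*t^(2:ℕ) + (167/4)*t^(3:ℕ) + (-12)*t^(4:ℕ) + (-79/2)*t^(5:ℕ) + (121/2)*t^(6:ℕ) + (-261/4)*t^(7:ℕ) + (87/2)*t^(8:ℕ) + (-61/4)*t^(9:ℕ) + 3*t^(10:ℕ) + (-1)*t^(11:ℕ)) + (729/1000000)*(10*t^(5:ℕ) + (-31)*t^(6:ℕ) + 40*t^(7:ℕ) + (-19)*t^(8:ℕ) + (-7)*t^(9:ℕ) + 12*t^(10:ℕ) + (-4)*t^(11:ℕ)) + (2187/10000000)*((-4)*t^(7:ℕ)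 + 12*t^(8:ℕ) + (-17)*t^(9:ℕ) + 12*t^(10:ℕ) + (-4)*t^(11:ℕ)) - (3953/1000) := by
  have e : 1*(2 + 2*t + 10*t^(2:ℕ) + 10*t^(3:ℕ) + 20*t^(4:ℕ) + 20*t^(5:ℕ) + 20*t^(6:ℕ) + 20*t^(7:ℕ) + 10*t^(8:ℕ) + 10*t^(9:ℕ) + 2*t^(10:ℕ) + 2*t^(11:ℕ)) + (3/10)*(4 + 3*t + (59/2)*t^(2:ℕ) + 23*t^(3:ℕ) + 70*t^(4:ℕ) + 54*t^(5:ℕ) + 73*t^(6:ℕ) + 54*t^(7:ℕ) + 34*t^(8:ℕ) + 23*t^(9:ℕ) + (11/2)*t^(10:ℕ) + 3*t^(11:ℕ)) + (9/100)*((-16) + (-16)*t + (-32)*t^(2:ℕ) + (-28)*t^(3:ℕ) + 36*t^(4:ℕ) + 25*t^(5:ℕ) + 113*t^(6:ℕ) + 48*t^(7:ℕ) + 70*t^(8:ℕ) + 5*t^(9:ℕ) + 9*t^(10:ℕ) + (-6)*t^(11:ℕ)) + (27/1000)*((-41)*t^(2:ℕ) + (-48)*t^(3:ℕ) + (-55)*t^(4:ℕ) + (-31)*t^(5:ℕ) + 51*t^(6:ℕ) + (-14)*t^(7:ℕ) + 81*t^(8:ℕ)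 + (-43)*t^(9:ℕ) + 16*t^(10:ℕ) + (-12)*t^(11:ℕ)) + (81/10000)*(32*t^(2:ℕ) + (-16)*t^(3:ℕ) + 4*t^(4:ℕ) + 22*t^(5:ℕ) + (-24)*t^(6:ℕ) + 28*t^(7:ℕ) + 12*t^(8:ℕ) + (-18)*t^(9:ℕ) + 8*t^(10:ℕ) + (-8)*t^(11:ℕ)) + (243/100000)*((-32)*t^(2:ℕ) + (167/4)*t^(3:ℕ) + (-12)*t^(4:ℕ) + (-79/2)*t^(5:ℕ) + (121/2)*t^(6:ℕ) + (-261/4)*t^(7:ℕ) + (87/2)*t^(8:ℕ) + (-61/4)*t^(9:ℕ) + 3*t^(10:ℕ) + (-1)*t^(11:ℕ)) + (729/1000000)*(10*t^(5:ℕ) + (-31)*t^(6:ℕ) + 40*t^(7:ℕ) + (-19)*t^(8:ℕ) + (-7)*t^(9:ℕ) + 12*t^(10:ℕ) + (-4)*t^(11:ℕ)) + (2187/10000000)*((-4)*t^(7:ℕ) + 12*t^(8:ℕ) + (-17)*t^(9:ℕ) + 12*t^(10:ℕ) + (-4)*t^(11:ℕ)) - (3953/1000) = (27463807825155999/1235829214375000)*(1 - t)^(11:ℕ) + (122965609211321489/123582921437500)*(t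 - (3/10))*(1 - t)^(10:ℕ) + (258188565065921991/24716584287500)*(t - (3/10))^(2:ℕ)*(1 - t)^(9:ℕ) + (68460079276353193/1235829214375)*(t - (3/10))^(3:ℕ)*(1 - t)^(8:ℕ) + (71971814795382251/395465348600)*(t - (3/10))^(4:ℕ)*(1 - t)^(7:ℕ) + (11410902497928533/28247524900)*(t - (3/10))^(5:ℕ)*(1 - t)^(6:ℕ) + (1779353757946111/2824752490)*(t - (3/10))^(6:ℕ)*(1 - t)^(5:ℕ) + (1379211457397321/1977326743)*(t - (3/10))^(7:ℕ)*(1 - t)^(4:ℕ) + (1069987009056960/1977326743)*(t - (3/10))^(8:ℕ)*(1 - t)^(3:ℕ) + (556378650214000/1977326743)*(t - (3/10))^(9:ℕ)*(1 - t)^(2:ℕ) + (175086235036000/1977326743)*(t - (3/10))^(10:ℕ)*(1 - t) + (25326002280000/1977326743)*(t - (3/10))^(11:ℕ) := by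
    ring
  rw [e]
  have a3 : 0 ≤ t - (3/10) := by linarith
  have a4 : 0 ≤ 1 - t := by linarith
  generalize t - (3/10) = t1 at a3 ⊢
  generalize 1 - t = t2 at a4 ⊢
  positivity

lemma pos_L20_B1_id (d : ℝ) (C0 C1 C2 C3 C4 C5 C6 C7 : ℝ) :
    C0 + d*C1 + d^(2:ℕ)*C2 + d^(3:ℕ)*C3 + d^(4:ℕ)*C4 + d^(5:ℕ)*C5 + d^(6:ℕ)*C6 + d^(7:ℕ)*C7 = (3953/1000) + (10000000*((3/10) - d)^(7:ℕ)*(1*C0 + (1/5)*C1 + (1/25)*C2 + (1/125)*C3 + (1/625)*C4 + (1/3125)*C5 + (1/15625)*C6 + (1/78125)*C7 - (3953/1000)) + 70000000*(d - (1/5))*((3/10) - d)^(6:ℕ)*(1*C0 + (3/14)*C1 + (8/175)*C2 + (17/1750)*C3 + (9/4375)*C4 + (19/43750)*C5 + (2/21875)*C6 + (3/156250)*C7 - (3953/1000)) + 210000000*(d -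 (1/5))^(2:ℕ)*((3/10) - d)^(5:ℕ)*(1*C0 + (8/35)*C1 + (109/2100)*C2 + (41/3500)*C3 + (23/8750)*C4 + (11/18750)*C5 + (57/437500)*C6 + (9/312500)*C7 - (3953/1000)) + 350000000*(d - (1/5))^(3:ℕ)*((3/10) - d)^(4:ℕ)*(1*C0 + (17/70)*C1 + (41/700)*C2 + (491/35000)*C3 + (73/21875)*C4 + (69/87500)*C5 + (81/437500)*C6 + (27/625000)*C7 - (3953/1000)) + 350000000*(d - (1/5))^(4:ℕ)*((3/10) - d)^(3:ℕ)*(1*C0 + (9/35)*C1 + (23/350)*C2 + (73/4375)*C3 + (1473/350000)*C4 + (369/350000)*C5 + (459/1750000)*C6 + (81/1250000)*C7 - (3953/1000)) + 210000000*(d - (1/5))^(5:ℕ)*((3/10) - d)^(2:ℕ)*(1*C0 + (19/70)*C1 + (11/150)*C2 + (69/3500)*C3 + (369/70000)*C4 + (981/700000)*C5 + (81/218750)*C6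 + (243/2500000)*C7 - (3953/1000)) + 70000000*(d - (1/5))^(6:ℕ)*((3/10) - d)*(1*C0 + (2/7)*C1 + (57/700)*C2 + (81/3500)*C3 + (459/70000)*C4 + (81/43750)*C5 + (729/1400000)*C6 + (729/5000000)*C7 - (3953/1000)) + 10000000*(d - (1/5))^(7:ℕ)*(1*C0 + (3/10)*C1 + (9/100)*C2 + (27/1000)*C3 + (81/10000)*C4 + (243/100000)*C5 + (729/1000000)*C6 + (2187/10000000)*C7 - (3953/1000))) := by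
  ring

lemma pos_L20_B1_gen (d1 d2 B0 B1 B2 B3 B4 B5 B6 B7 : ℝ) (a1 : 0 ≤ d1) (a2 : 0 ≤ d2) (b0 : 0 ≤ B0) (b1 : 0 ≤ B1) (b2 : 0 ≤ B2) (b3 : 0 ≤ B3) (b4 : 0 ≤ B4) (b5 : 0 ≤ B5) (b6 : 0 ≤ B6) (b7 : 0 ≤ B7) :
    0 < (3953/1000) + (10000000*d2^(7:ℕ)*(B0) + 70000000*d1*d2^(6:ℕ)*(B1) + 210000000*d1^(2:ℕ)*d2^(5:ℕ)*(B2) + 350000000*d1^(3:ℕ)*d2^(4:ℕ)*(B3) + 350000000*d1^(4:ℕ)*d2^(3:ℕ)*(B4) + 210000000*d1^(5:ℕ)*d2^(2:ℕ)*(B5) + 70000000*d1^(6:ℕ)*d2*(B6) + 10000000*d1^(7:ℕ)*(B7)) := by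
  positivity

lemma pos_L20_B1_core (d C0 C1 C2 C3 C4 C5 C6 C7 : ℝ) (h1 : (1/5) ≤ d) (h2 : d ≤ (3/10))
    (b0 : 0 ≤ 1*C0 + (1/5)*C1 + (1/25)*C2 + (1/125)*C3 + (1/625)*C4 + (1/3125)*C5 + (1/15625)*C6 + (1/78125)*C7 - (3953/1000))
    (b1 : 0 ≤ 1*C0 + (3/14)*C1 + (8/175)*C2 + (17/1750)*C3 + (9/4375)*C4 + (19/43750)*C5 + (2/21875)*C6 + (3/156250)*C7 - (3953/1000))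
    (b2 : 0 ≤ 1*C0 + (8/35)*C1 + (109/2100)*C2 + (41/3500)*C3 + (23/8750)*C4 + (11/18750)*C5 + (57/437500)*C6 + (9/312500)*C7 - (3953/1000))
    (b3 : 0 ≤ 1*C0 + (17/70)*C1 + (41/700)*C2 + (491/35000)*C3 + (73/21875)*C4 + (69/87500)*C5 + (81/437500)*C6 + (27/625000)*C7 - (3953/1000))
    (b4 : 0 ≤ 1*C0 + (9/35)*C1 + (23/350)*C2 + (73/4375)*C3 + (1473/350000)*C4 + (369/350000)*C5 + (459/1750000)*C6 + (81/1250000)*C7 - (3953/1000))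
    (b5 : 0 ≤ 1*C0 + (19/70)*C1 + (11/150)*C2 + (69/3500)*C3 + (369/70000)*C4 + (981/700000)*C5 + (81/218750)*C6 + (243/2500000)*C7 - (3953/1000))
    (b6 : 0 ≤ 1*C0 + (2/7)*C1 + (57/700)*C2 + (81/3500)*C3 + (459/70000)*C4 + (81/43750)*C5 + (729/1400000)*C6 + (729/5000000)*C7 - (3953/1000))
    (b7 : 0 ≤ 1*C0 + (3/10)*C1 + (9/100)*C2 + (27/1000)*C3 + (81/10000)*C4 + (243/100000)*C5 + (729/1000000)*C6 + (2187/10000000)*C7 - (3953/1000)) :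
    0 < C0 + d*C1 + d^(2:ℕ)*C2 + d^(3:ℕ)*C3 + d^(4:ℕ)*C4 + d^(5:ℕ)*C5 + d^(6:ℕ)*C6 + d^(7:ℕ)*C7 := by
  rw [pos_L20_B1_id]
  exact pos_L20_B1_gen _ _ _ _ _ _ _ _ _ _ (sub_nonneg.2 h1) (sub_nonneg.2 h2) b0 b1 b2 b3 b4 b5 b6 b7

lemma pos_L20_B1 (d t : ℝ) (h1 : (1/5) ≤ d) (h2 : d ≤ (3/10)) (h3 : (3/10) ≤ t) (h4 : t ≤ 1) :
    0 < 2 + 2*t + 10*t^(2:ℕ) + 10*t^(3:ℕ) + 20*t^(4:ℕ) + 20*t^(5:ℕ) + 20*t^(6:ℕ) + 20*t^(7:ℕ) + 10*t^(8:ℕ) + 10*t^(9:ℕ) + 2*t^(10:ℕ) + 2*t^(11:ℕ) + 4*d + 3*d*t + (59/2)*d*t^(2:ℕ) + 23*d*t^(3:ℕ) + 70*d*t^(4:ℕ) + 54*d*t^(5:ℕ) + 73*d*t^(6:ℕ) + 54*d*t^(7:ℕ) + 34*d*t^(8:ℕ) + 23*d*t^(9:ℕ) + (11/2)*d*t^(10:ℕ) + 3*d*t^(11:ℕ) + (-16)*d^(2:ℕ) + (-16)*d^(2:ℕ)*t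 + (-32)*d^(2:ℕ)*t^(2:ℕ) + (-28)*d^(2:ℕ)*t^(3:ℕ) + 36*d^(2:ℕ)*t^(4:ℕ) + 25*d^(2:ℕ)*t^(5:ℕ) + 113*d^(2:ℕ)*t^(6:ℕ) + 48*d^(2:ℕ)*t^(7:ℕ) + 70*d^(2:ℕ)*t^(8:ℕ) + 5*d^(2:ℕ)*t^(9:ℕ) + 9*d^(2:ℕ)*t^(10:ℕ) + (-6)*d^(2:ℕ)*t^(11:ℕ) + (-41)*d^(3:ℕ)*t^(2:ℕ) + (-48)*d^(3:ℕ)*t^(3:ℕ) + (-55)*d^(3:ℕ)*t^(4:ℕ) + (-31)*d^(3:ℕ)*t^(5:ℕ) + 51*d^(3:ℕ)*t^(6:ℕ) + (-14)*d^(3:ℕ)*t^(7:ℕ) + 81*d^(3:ℕ)*t^(8:ℕ) + (-43)*d^(3:ℕ)*t^(9:ℕ) + 16*d^(3:ℕ)*t^(10:ℕ) + (-12)*d^(3:ℕ)*t^(11:ℕ) + 32*d^(4:ℕ)*t^(2:ℕ) + (-16)*d^(4:ℕ)*t^(3:ℕ) + 4*d^(4:ℕ)*t^(4:ℕ) + 22*d^(4:ℕ)*t^(5:ℕ) + (-24)*d^(4:ℕ)*t^(6:ℕ) + 28*d^(4:ℕ)*t^(7:ℕ) + 12*d^(4:ℕ)*t^(8:ℕ) + (-18)*d^(4:ℕ)*t^(9:ℕ) + 8*d^(4:ℕ)*t^(10:ℕ) + (-8)*d^(4:ℕ)*t^(11:ℕ)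 + (-32)*d^(5:ℕ)*t^(2:ℕ) + (167/4)*d^(5:ℕ)*t^(3:ℕ) + (-12)*d^(5:ℕ)*t^(4:ℕ) + (-79/2)*d^(5:ℕ)*t^(5:ℕ) + (121/2)*d^(5:ℕ)*t^(6:ℕ) + (-261/4)*d^(5:ℕ)*t^(7:ℕ) + (87/2)*d^(5:ℕ)*t^(8:ℕ) + (-61/4)*d^(5:ℕ)*t^(9:ℕ) + 3*d^(5:ℕ)*t^(10:ℕ) + (-1)*d^(5:ℕ)*t^(11:ℕ) + 10*d^(6:ℕ)*t^(5:ℕ) + (-31)*d^(6:ℕ)*t^(6:ℕ) + 40*d^(6:ℕ)*t^(7:ℕ) + (-19)*d^(6:ℕ)*t^(8:ℕ) + (-7)*d^(6:ℕ)*t^(9:ℕ) + 12*d^(6:ℕ)*t^(10:ℕ) + (-4)*d^(6:ℕ)*t^(11:ℕ) + (-4)*d^(7:ℕ)*t^(7:ℕ) + 12*d^(7:ℕ)*t^(8:ℕ) + (-17)*d^(7:ℕ)*t^(9:ℕ) + 12*d^(7:ℕ)*t^(10:ℕ) + (-4)*d^(7:ℕ)*t^(11:ℕ) := by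
  have e0 : 2 + 2*t + 10*t^(2:ℕ) + 10*t^(3:ℕ) + 20*t^(4:ℕ) + 20*t^(5:ℕ) + 20*t^(6:ℕ) + 20*t^(7:ℕ) + 10*t^(8:ℕ) + 10*t^(9:ℕ) + 2*t^(10:ℕ) + 2*t^(11:ℕ) + 4*d + 3*d*t + (59/2)*d*t^(2:ℕ) + 23*d*t^(3:ℕ) + 70*d*t^(4:ℕ) + 54*d*t^(5:ℕ) + 73*d*t^(6:ℕ) + 54*d*t^(7:ℕ) + 34*d*t^(8:ℕ) + 23*d*t^(9:ℕ) + (11/2)*d*t^(10:ℕ) + 3*d*t^(11:ℕ) + (-16)*d^(2:ℕ) + (-16)*d^(2:ℕ)*t + (-32)*d^(2:ℕ)*t^(2:ℕ) + (-28)*d^(2:ℕ)*t^(3:ℕ) + 36*d^(2:ℕ)*t^(4:ℕ) + 25*d^(2:ℕ)*t^(5:ℕ) + 113*d^(2:ℕ)*t^(6:ℕ) + 48*d^(2:ℕ)*t^(7:ℕ) + 70*d^(2:ℕ)*t^(8:ℕ) + 5*d^(2:ℕ)*t^(9:ℕ) + 9*d^(2:ℕ)*t^(10:ℕ) + (-6)*d^(2:ℕ)*t^(11:ℕ) + (-41)*d^(3:ℕ)*t^(2:ℕ) + (-48)*d^(3:ℕ)*t^(3:ℕ) + (-55)*d^(3:ℕ)*t^(4:ℕ) + (-31)*d^(3:ℕ)*t^(5:ℕ)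 + 51*d^(3:ℕ)*t^(6:ℕ) + (-14)*d^(3:ℕ)*t^(7:ℕ) + 81*d^(3:ℕ)*t^(8:ℕ) + (-43)*d^(3:ℕ)*t^(9:ℕ) + 16*d^(3:ℕ)*t^(10:ℕ) + (-12)*d^(3:ℕ)*t^(11:ℕ) + 32*d^(4:ℕ)*t^(2:ℕ) + (-16)*d^(4:ℕ)*t^(3:ℕ) + 4*d^(4:ℕ)*t^(4:ℕ) + 22*d^(4:ℕ)*t^(5:ℕ) + (-24)*d^(4:ℕ)*t^(6:ℕ) + 28*d^(4:ℕ)*t^(7:ℕ) + 12*d^(4:ℕ)*t^(8:ℕ) + (-18)*d^(4:ℕ)*t^(9:ℕ) + 8*d^(4:ℕ)*t^(10:ℕ) + (-8)*d^(4:ℕ)*t^(11:ℕ) + (-32)*d^(5:ℕ)*t^(2:ℕ) + (167/4)*d^(5:ℕ)*t^(3:ℕ) + (-12)*d^(5:ℕ)*t^(4:ℕ) + (-79/2)*d^(5:ℕ)*t^(5:ℕ) + (121/2)*d^(5:ℕ)*t^(6:ℕ) + (-261/4)*d^(5:ℕ)*t^(7:ℕ) + (87/2)*d^(5:ℕ)*t^(8:ℕ) + (-61/4)*d^(5:ℕ)*t^(9:ℕ) + 3*d^(5:ℕ)*t^(10:ℕ) + (-1)*d^(5:ℕ)*t^(11:ℕ) + 10*d^(6:ℕ)*t^(5:ℕ) + (-31)*d^(6:ℕ)*t^(6:ℕ) + 40*d^(6:ℕ)*t^(7:ℕ)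 + (-19)*d^(6:ℕ)*t^(8:ℕ) + (-7)*d^(6:ℕ)*t^(9:ℕ) + 12*d^(6:ℕ)*t^(10:ℕ) + (-4)*d^(6:ℕ)*t^(11:ℕ) + (-4)*d^(7:ℕ)*t^(7:ℕ) + 12*d^(7:ℕ)*t^(8:ℕ) + (-17)*d^(7:ℕ)*t^(9:ℕ) + 12*d^(7:ℕ)*t^(10:ℕ) + (-4)*d^(7:ℕ)*t^(11:ℕ) = (2 + 2*t + 10*t^(2:ℕ) + 10*t^(3:ℕ) + 20*t^(4:ℕ) + 20*t^(5:ℕ) + 20*t^(6:ℕ) + 20*t^(7:ℕ) + 10*t^(8:ℕ) + 10*t^(9:ℕ) + 2*t^(10:ℕ) + 2*t^(11:ℕ)) + d*(4 + 3*t + (59/2)*t^(2:ℕ) + 23*t^(3:ℕ) + 70*t^(4:ℕ) + 54*t^(5:ℕ) + 73*t^(6:ℕ) + 54*t^(7:ℕ) + 34*t^(8:ℕ) + 23*t^(9:ℕ) + (11/2)*t^(10:ℕ) + 3*t^(11:ℕ)) + d^(2:ℕ)*((-16) + (-16)*t + (-32)*t^(2:ℕ) + (-28)*t^(3:ℕ) + 36*t^(4:ℕ) + 25*t^(5:ℕ) + 113*t^(6:ℕ) + 48*t^(7:ℕ) + 70*t^(8:ℕ) + 5*t^(9:ℕ) + 9*t^(10:ℕ) + (-6)*t^(11:ℕ)) + d^(3:ℕ)*((-41)*t^(2:ℕ)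 + (-48)*t^(3:ℕ) + (-55)*t^(4:ℕ) + (-31)*t^(5:ℕ) + 51*t^(6:ℕ) + (-14)*t^(7:ℕ) + 81*t^(8:ℕ) + (-43)*t^(9:ℕ) + 16*t^(10:ℕ) + (-12)*t^(11:ℕ)) + d^(4:ℕ)*(32*t^(2:ℕ) + (-16)*t^(3:ℕ) + 4*t^(4:ℕ) + 22*t^(5:ℕ) + (-24)*t^(6:ℕ) + 28*t^(7:ℕ) + 12*t^(8:ℕ) + (-18)*t^(9:ℕ) + 8*t^(10:ℕ) + (-8)*t^(11:ℕ)) + d^(5:ℕ)*((-32)*t^(2:ℕ) + (167/4)*t^(3:ℕ) + (-12)*t^(4:ℕ) + (-79/2)*t^(5:ℕ) + (121/2)*t^(6:ℕ) + (-261/4)*t^(7:ℕ) + (87/2)*t^(8:ℕ) + (-61/4)*t^(9:ℕ) + 3*t^(10:ℕ) + (-1)*t^(11:ℕ)) + d^(6:ℕ)*(10*t^(5:ℕ) + (-31)*t^(6:ℕ) + 40*t^(7:ℕ) + (-19)*t^(8:ℕ) + (-7)*t^(9:ℕ) + 12*t^(10:ℕ) + (-4)*t^(11:ℕ)) + d^(7:ℕ)*((-4)*t^(7:ℕ) + 12*t^(8:ℕ) + (-17)*t^(9:ℕ) + 12*t^(10:ℕ) + (-4)*t^(11:ℕ)) := by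
    ring
  rw [e0]
  exact pos_L20_B1_core d _ _ _ _ _ _ _ _ h1 h2 (pos_L20_B1_b0 t h3 h4) (pos_L20_B1_b1 t h3 h4) (pos_L20_B1_b2 t h3 h4) (pos_L20_B1_b3 t h3 h4) (pos_L20_B1_b4 t h3 h4) (pos_L20_B1_b5 t h3 h4) (pos_L20_B1_b6 t h3 h4) (pos_L20_B1_b7 t h3 h4)

lemma pos_L1e_B1_b0 (t : ℝ) (h3 : (3/10) ≤ t) (h4 : t ≤ 1) :
    0 ≤ 1*(1 + 1*t + 5*t^(2:ℕ) + 5*t^(3:ℕ) + 10*t^(4:ℕ) + 10*t^(5:ℕ) + 10*t^(6:ℕ) + 10*t^(7:ℕ) + 5*t^(8:ℕ) + 5*t^(9:ℕ) + 1*t^(10:ℕ) + 1*t^(11:ℕ)) + (1/5)*((9/2) + (5/2)*t + (67/2)*t^(2:ℕ) + (53/2)*t^(3:ℕ) + 93*t^(4:ℕ) + 40*t^(5:ℕ) + 94*t^(6:ℕ) + 13*t^(7:ℕ) + (73/2)*t^(8:ℕ) + (-1/2)*t^(9:ℕ) + (13/2)*t^(10:ℕ) + (5/2)*t^(11:ℕ)) + (1/25)*(1 + (-1)*t + 47*t^(2:ℕ)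 + (113/2)*t^(3:ℕ) + (429/2)*t^(4:ℕ) + (81/2)*t^(5:ℕ) + (387/2)*t^(6:ℕ) + (-157/2)*t^(7:ℕ) + (53/2)*t^(8:ℕ) + (-139/2)*t^(9:ℕ) + (3/2)*t^(10:ℕ) + (-8)*t^(11:ℕ)) + (1/125)*((181/4)*t^(2:ℕ) + (-81/4)*t^(3:ℕ) + (987/4)*t^(4:ℕ) + (-121)*t^(5:ℕ) + (387/2)*t^(6:ℕ) + (-447/4)*t^(7:ℕ) + (-113/4)*t^(8:ℕ) + (-39/2)*t^(9:ℕ) + (-81/4)*t^(10:ℕ) + (-17/2)*t^(11:ℕ)) + (1/625)*((83/2)*t^(2:ℕ) + (-237/4)*t^(3:ℕ) + 137*t^(4:ℕ) + (-531/4)*t^(5:ℕ) + (329/4)*t^(6:ℕ) + (-155/4)*t^(7:ℕ) + (-39)*t^(8:ℕ) + (147/4)*t^(9:ℕ) + (-56)*t^(10:ℕ) + 2*t^(11:ℕ)) + (1/3125)*(14*t^(2:ℕ) + (-18)*t^(3:ℕ) + (69/4)*t^(4:ℕ) + (5/2)*t^(5:ℕ) + (-143/4)*t^(6:ℕ) + (67/2)*t^(7:ℕ) + (-91/4)*t^(8:ℕ) + 31*t^(9:ℕ)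 + (-47)*t^(10:ℕ) + 18*t^(11:ℕ)) + (1/15625)*((-273/16)*t^(4:ℕ) + (405/8)*t^(5:ℕ) + (-1147/16)*t^(6:ℕ) + (405/8)*t^(7:ℕ) + (-273/16)*t^(8:ℕ) + 8*t^(9:ℕ) + (-12)*t^(10:ℕ) + 8*t^(11:ℕ)) + (1/78125)*((-15/2)*t^(4:ℕ) + (91/4)*t^(5:ℕ) + (-129/4)*t^(6:ℕ) + (91/4)*t^(7:ℕ) + (-15/2)*t^(8:ℕ)) + (1/390625)*((-1)*t^(4:ℕ) + 3*t^(5:ℕ) + (-17/4)*t^(6:ℕ) + 3*t^(7:ℕ) + (-1)*t^(8:ℕ)) - (3929/1000) := by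
  have e : 1*(1 + 1*t + 5*t^(2:ℕ) + 5*t^(3:ℕ) + 10*t^(4:ℕ) + 10*t^(5:ℕ) + 10*t^(6:ℕ) + 10*t^(7:ℕ) + 5*t^(8:ℕ) + 5*t^(9:ℕ) + 1*t^(10:ℕ) + 1*t^(11:ℕ)) + (1/5)*((9/2) + (5/2)*t + (67/2)*t^(2:ℕ) + (53/2)*t^(3:ℕ) + 93*t^(4:ℕ) + 40*t^(5:ℕ) + 94*t^(6:ℕ) + 13*t^(7:ℕ) + (73/2)*t^(8:ℕ) + (-1/2)*t^(9:ℕ) + (13/2)*t^(10:ℕ) + (5/2)*t^(11:ℕ)) + (1/25)*(1 + (-1)*t + 47*t^(2:ℕ) + (113/2)*t^(3:ℕ) + (429/2)*t^(4:ℕ) + (81/2)*t^(5:ℕ) + (387/2)*t^(6:ℕ) + (-157/2)*t^(7:ℕ) + (53/2)*t^(8:ℕ) + (-139/2)*t^(9:ℕ) + (3/2)*t^(10:ℕ) + (-8)*t^(11:ℕ)) + (1/125)*((181/4)*t^(2:ℕ) + (-81/4)*t^(3:ℕ) + (987/4)*t^(4:ℕ) + (-121)*t^(5:ℕ) + (387/2)*t^(6:ℕ) + (-447/4)*t^(7:ℕ) + (-113/4)*t^(8:ℕ) + (-39/2)*t^(9:ℕ)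 + (-81/4)*t^(10:ℕ) + (-17/2)*t^(11:ℕ)) + (1/625)*((83/2)*t^(2:ℕ) + (-237/4)*t^(3:ℕ) + 137*t^(4:ℕ) + (-531/4)*t^(5:ℕ) + (329/4)*t^(6:ℕ) + (-155/4)*t^(7:ℕ) + (-39)*t^(8:ℕ) + (147/4)*t^(9:ℕ) + (-56)*t^(10:ℕ) + 2*t^(11:ℕ)) + (1/3125)*(14*t^(2:ℕ) + (-18)*t^(3:ℕ) + (69/4)*t^(4:ℕ) + (5/2)*t^(5:ℕ) + (-143/4)*t^(6:ℕ) + (67/2)*t^(7:ℕ) + (-91/4)*t^(8:ℕ) + 31*t^(9:ℕ) + (-47)*t^(10:ℕ) + 18*t^(11:ℕ)) + (1/15625)*((-273/16)*t^(4:ℕ) + (405/8)*t^(5:ℕ) + (-1147/16)*t^(6:ℕ) + (405/8)*t^(7:ℕ) + (-273/16)*t^(8:ℕ) + 8*t^(9:ℕ) + (-12)*t^(10:ℕ) + 8*t^(11:ℕ)) + (1/78125)*((-15/2)*t^(4:ℕ) + (91/4)*t^(5:ℕ) + (-129/4)*t^(6:ℕ) + (91/4)*t^(7:ℕ) + (-15/2)*t^(8:ℕ)) + (1/390625)*((-1)*t^(4:ℕ) + 3*t^(5:ℕ)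 + (-17/4)*t^(6:ℕ) + 3*t^(7:ℕ) + (-1)*t^(8:ℕ)) - (3929/1000) = (13921916884989/630525109375)*(1 - t)^(11:ℕ) + (802297540810882/882735153125)*(t - (3/10))*(1 - t)^(10:ℕ) + (16382194600469141/1765470306250)*(t - (3/10))^(2:ℕ)*(1 - t)^(9:ℕ) + (84763041027107537/1765470306250)*(t - (3/10))^(3:ℕ)*(1 - t)^(8:ℕ) + (5418580919082108/35309406125)*(t - (3/10))^(4:ℕ)*(1 - t)^(7:ℕ) + (332679804889998/1008840175)*(t - (3/10))^(5:ℕ)*(1 - t)^(6:ℕ) + (499191079292216/1008840175)*(t - (3/10))^(6:ℕ)*(1 - t)^(5:ℕ) + (105674252127488/201768035)*(t - (3/10))^(7:ℕ)*(1 - t)^(4:ℕ) + (108950682730560/282475249)*(t - (3/10))^(8:ℕ)*(1 - t)^(3:ℕ) + (53410726085280/282475249)*(t - (3/10))^(9:ℕ)*(1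 - t)^(2:ℕ) + (15746660710400/282475249)*(t - (3/10))^(10:ℕ)*(1 - t) + (2123351728000/282475249)*(t - (3/10))^(11:ℕ) := by
    ring
  rw [e]
  have a3 : 0 ≤ t - (3/10) := by linarith
  have a4 : 0 ≤ 1 - t := by linarith
  generalize t - (3/10) = t1 at a3 ⊢
  generalize 1 - t = t2 at a4 ⊢
  positivity

lemma pos_L1e_B1_b1 (t : ℝ) (h3 : (3/10) ≤ t) (h4 : t ≤ 1) :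
    0 ≤ 1*(1 + 1*t + 5*t^(2:ℕ) + 5*t^(3:ℕ) + 10*t^(4:ℕ) + 10*t^(5:ℕ) + 10*t^(6:ℕ) + 10*t^(7:ℕ) + 5*t^(8:ℕ) + 5*t^(9:ℕ) + 1*t^(10:ℕ) + 1*t^(11:ℕ)) + (17/80)*((9/2) + (5/2)*t + (67/2)*t^(2:ℕ) + (53/2)*t^(3:ℕ) + 93*t^(4:ℕ) + 40*t^(5:ℕ) + 94*t^(6:ℕ) + 13*t^(7:ℕ) + (73/2)*t^(8:ℕ) + (-1/2)*t^(9:ℕ) + (13/2)*t^(10:ℕ) + (5/2)*t^(11:ℕ)) + (9/200)*(1 + (-1)*t + 47*t^(2:ℕ) + (113/2)*t^(3:ℕ) + (429/2)*t^(4:ℕ) + (81/2)*t^(5:ℕ) + (387/2)*t^(6:ℕ) + (-157/2)*t^(7:ℕ) + (53/2)*t^(8:ℕ) + (-139/2)*t^(9:ℕ) + (3/2)*t^(10:ℕ) + (-8)*t^(11:ℕ)) + (19/2000)*((181/4)*t^(2:ℕ) + (-81/4)*t^(3:ℕ) + (987/4)*t^(4:ℕ) + (-121)*t^(5:ℕ) + (387/2)*t^(6:ℕ) + (-447/4)*t^(7:ℕ) + (-113/4)*t^(8:ℕ) + (-39/2)*t^(9:ℕ)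 + (-81/4)*t^(10:ℕ) + (-17/2)*t^(11:ℕ)) + (1/500)*((83/2)*t^(2:ℕ) + (-237/4)*t^(3:ℕ) + 137*t^(4:ℕ) + (-531/4)*t^(5:ℕ) + (329/4)*t^(6:ℕ) + (-155/4)*t^(7:ℕ) + (-39)*t^(8:ℕ) + (147/4)*t^(9:ℕ) + (-56)*t^(10:ℕ) + 2*t^(11:ℕ)) + (21/50000)*(14*t^(2:ℕ) + (-18)*t^(3:ℕ) + (69/4)*t^(4:ℕ) + (5/2)*t^(5:ℕ) + (-143/4)*t^(6:ℕ) + (67/2)*t^(7:ℕ) + (-91/4)*t^(8:ℕ) + 31*t^(9:ℕ) + (-47)*t^(10:ℕ) + 18*t^(11:ℕ)) + (11/125000)*((-273/16)*t^(4:ℕ) + (405/8)*t^(5:ℕ) + (-1147/16)*t^(6:ℕ) + (405/8)*t^(7:ℕ) + (-273/16)*t^(8:ℕ) + 8*t^(9:ℕ) + (-12)*t^(10:ℕ) + 8*t^(11:ℕ)) + (23/1250000)*((-15/2)*t^(4:ℕ) + (91/4)*t^(5:ℕ) + (-129/4)*t^(6:ℕ) + (91/4)*t^(7:ℕ) + (-15/2)*t^(8:ℕ)) + (3/781250)*((-1)*t^(4:ℕ)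 + 3*t^(5:ℕ) + (-17/4)*t^(6:ℕ) + 3*t^(7:ℕ) + (-1)*t^(8:ℕ)) - (3929/1000) := by
  have e : 1*(1 + 1*t + 5*t^(2:ℕ) + 5*t^(3:ℕ) + 10*t^(4:ℕ) + 10*t^(5:ℕ) + 10*t^(6:ℕ) + 10*t^(7:ℕ) + 5*t^(8:ℕ) + 5*t^(9:ℕ) + 1*t^(10:ℕ) + 1*t^(11:ℕ)) + (17/80)*((9/2) + (5/2)*t + (67/2)*t^(2:ℕ) + (53/2)*t^(3:ℕ) + 93*t^(4:ℕ) + 40*t^(5:ℕ) + 94*t^(6:ℕ) + 13*t^(7:ℕ) + (73/2)*t^(8:ℕ) + (-1/2)*t^(9:ℕ) + (13/2)*t^(10:ℕ) + (5/2)*t^(11:ℕ)) + (9/200)*(1 + (-1)*t + 47*t^(2:ℕ) + (113/2)*t^(3:ℕ) + (429/2)*t^(4:ℕ) + (81/2)*t^(5:ℕ) + (387/2)*t^(6:ℕ) + (-157/2)*t^(7:ℕ) + (53/2)*t^(8:ℕ) + (-139/2)*t^(9:ℕ) + (3/2)*t^(10:ℕ) + (-8)*t^(11:ℕ)) + (19/2000)*((181/4)*t^(2:ℕ) + (-81/4)*t^(3:ℕ) + (987/4)*t^(4:ℕ) +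 (-121)*t^(5:ℕ) + (387/2)*t^(6:ℕ) + (-447/4)*t^(7:ℕ) + (-113/4)*t^(8:ℕ) + (-39/2)*t^(9:ℕ) + (-81/4)*t^(10:ℕ) + (-17/2)*t^(11:ℕ)) + (1/500)*((83/2)*t^(2:ℕ) + (-237/4)*t^(3:ℕ) + 137*t^(4:ℕ) + (-531/4)*t^(5:ℕ) + (329/4)*t^(6:ℕ) + (-155/4)*t^(7:ℕ) + (-39)*t^(8:ℕ) + (147/4)*t^(9:ℕ) + (-56)*t^(10:ℕ) + 2*t^(11:ℕ)) + (21/50000)*(14*t^(2:ℕ) + (-18)*t^(3:ℕ) + (69/4)*t^(4:ℕ) + (5/2)*t^(5:ℕ) + (-143/4)*t^(6:ℕ) + (67/2)*t^(7:ℕ) + (-91/4)*t^(8:ℕ) + 31*t^(9:ℕ) + (-47)*t^(10:ℕ) + 18*t^(11:ℕ)) + (11/125000)*((-273/16)*t^(4:ℕ) + (405/8)*t^(5:ℕ) + (-1147/16)*t^(6:ℕ) + (405/8)*t^(7:ℕ) + (-273/16)*t^(8:ℕ) + 8*t^(9:ℕ) + (-12)*t^(10:ℕ) + 8*t^(11:ℕ)) + (23/1250000)*((-15/2)*t^(4:ℕ) + (91/4)*t^(5:ℕ)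 + (-129/4)*t^(6:ℕ) + (91/4)*t^(7:ℕ) + (-15/2)*t^(8:ℕ)) + (3/781250)*((-1)*t^(4:ℕ) + 3*t^(5:ℕ) + (-17/4)*t^(6:ℕ) + 3*t^(7:ℕ) + (-1)*t^(8:ℕ)) - (3929/1000) = (30588675592804939/988663371500000)*(1 - t)^(11:ℕ) + (41143140970798581/39546534860000)*(t - (3/10))*(1 - t)^(10:ℕ) + (1006807411493678559/98866337150000)*(t - (3/10))^(2:ℕ)*(1 - t)^(9:ℕ) + (5120196380787382383/98866337150000)*(t - (3/10))^(3:ℕ)*(1 - t)^(8:ℕ) + (81099993960955217/494331685750)*(t - (3/10))^(4:ℕ)*(1 - t)^(7:ℕ) + (9905643138777279/28247524900)*(t - (3/10))^(5:ℕ)*(1 - t)^(6:ℕ) + (3702710068676258/7061881225)*(t - (3/10))^(6:ℕ)*(1 - t)^(5:ℕ) + (5471970569393618/9886633715)*(t - (3/10))^(7:ℕ)*(1 - t)^(4:ℕ)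 + (804019798835380/1977326743)*(t - (3/10))^(8:ℕ)*(1 - t)^(3:ℕ) + (393195620554140/1977326743)*(t - (3/10))^(9:ℕ)*(1 - t)^(2:ℕ) + (115605476031200/1977326743)*(t - (3/10))^(10:ℕ)*(1 - t) + (15537737234000/1977326743)*(t - (3/10))^(11:ℕ) := by
    ring
  rw [e]
  have a3 : 0 ≤ t - (3/10) := by linarith
  have a4 : 0 ≤ 1 - t := by linarith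
  generalize t - (3/10) = t1 at a3 ⊢
  generalize 1 - t = t2 at a4 ⊢
  positivity

lemma pos_L1e_B1_b2 (t : ℝ) (h3 : (3/10) ≤ t) (h4 : t ≤ 1) :
    0 ≤ 1*(1 + 1*t + 5*t^(2:ℕ) + 5*t^(3:ℕ) + 10*t^(4:ℕ) + 10*t^(5:ℕ) + 10*t^(6:ℕ) + 10*t^(7:ℕ) + 5*t^(8:ℕ) + 5*t^(9:ℕ) + 1*t^(10:ℕ) + 1*t^(11:ℕ)) + (9/40)*((9/2) + (5/2)*t + (67/2)*t^(2:ℕ) + (53/2)*t^(3:ℕ) + 93*t^(4:ℕ) + 40*t^(5:ℕ) + 94*t^(6:ℕ) + 13*t^(7:ℕ) + (73/2)*t^(8:ℕ) + (-1/2)*t^(9:ℕ) + (13/2)*t^(10:ℕ) + (5/2)*t^(11:ℕ)) + (141/2800)*(1 + (-1)*t + 47*t^(2:ℕ) + (113/2)*t^(3:ℕ) + (429/2)*t^(4:ℕ) + (81/2)*t^(5:ℕ) + (387/2)*t^(6:ℕ) + (-157/2)*t^(7:ℕ) + (53/2)*t^(8:ℕ) + (-139/2)*t^(9:ℕ) + (3/2)*t^(10:ℕ) + (-8)*t^(11:ℕ)) +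 (157/14000)*((181/4)*t^(2:ℕ) + (-81/4)*t^(3:ℕ) + (987/4)*t^(4:ℕ) + (-121)*t^(5:ℕ) + (387/2)*t^(6:ℕ) + (-447/4)*t^(7:ℕ) + (-113/4)*t^(8:ℕ) + (-39/2)*t^(9:ℕ) + (-81/4)*t^(10:ℕ) + (-17/2)*t^(11:ℕ)) + (87/35000)*((83/2)*t^(2:ℕ) + (-237/4)*t^(3:ℕ) + 137*t^(4:ℕ) + (-531/4)*t^(5:ℕ) + (329/4)*t^(6:ℕ) + (-155/4)*t^(7:ℕ) + (-39)*t^(8:ℕ) + (147/4)*t^(9:ℕ) + (-56)*t^(10:ℕ) + 2*t^(11:ℕ)) + (12/21875)*(14*t^(2:ℕ) + (-18)*t^(3:ℕ) + (69/4)*t^(4:ℕ) + (5/2)*t^(5:ℕ) + (-143/4)*t^(6:ℕ) + (67/2)*t^(7:ℕ) + (-91/4)*t^(8:ℕ) + 31*t^(9:ℕ) + (-47)*t^(10:ℕ) + 18*t^(11:ℕ)) + (211/1750000)*((-273/16)*t^(4:ℕ) + (405/8)*t^(5:ℕ) + (-1147/16)*t^(6:ℕ) + (405/8)*t^(7:ℕ) + (-273/16)*t^(8:ℕ) + 8*t^(9:ℕ)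 + (-12)*t^(10:ℕ) + 8*t^(11:ℕ)) + (33/1250000)*((-15/2)*t^(4:ℕ) + (91/4)*t^(5:ℕ) + (-129/4)*t^(6:ℕ) + (91/4)*t^(7:ℕ) + (-15/2)*t^(8:ℕ)) + (9/1562500)*((-1)*t^(4:ℕ) + 3*t^(5:ℕ) + (-17/4)*t^(6:ℕ) + 3*t^(7:ℕ) + (-1)*t^(8:ℕ)) - (3929/1000) := by
  have e : 1*(1 + 1*t + 5*t^(2:ℕ) + 5*t^(3:ℕ) + 10*t^(4:ℕ) + 10*t^(5:ℕ) + 10*t^(6:ℕ) + 10*t^(7:ℕ) + 5*t^(8:ℕ) + 5*t^(9:ℕ) + 1*t^(10:ℕ) + 1*t^(11:ℕ)) + (9/40)*((9/2) + (5/2)*t + (67/2)*t^(2:ℕ) + (53/2)*t^(3:ℕ) + 93*t^(4:ℕ) + 40*t^(5:ℕ) + 94*t^(6:ℕ) + 13*t^(7:ℕ) + (73/2)*t^(8:ℕ) + (-1/2)*t^(9:ℕ) + (13/2)*t^(10:ℕ) + (5/2)*t^(11:ℕ)) + (141/2800)*(1 + (-1)*t + 47*t^(2:ℕ) + (113/2)*t^(3:ℕ) + (429/2)*t^(4:ℕ) + (81/2)*t^(5:ℕ) + (387/2)*t^(6:ℕ)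 + (-157/2)*t^(7:ℕ) + (53/2)*t^(8:ℕ) + (-139/2)*t^(9:ℕ) + (3/2)*t^(10:ℕ) + (-8)*t^(11:ℕ)) + (157/14000)*((181/4)*t^(2:ℕ) + (-81/4)*t^(3:ℕ) + (987/4)*t^(4:ℕ) + (-121)*t^(5:ℕ) + (387/2)*t^(6:ℕ) + (-447/4)*t^(7:ℕ) + (-113/4)*t^(8:ℕ) + (-39/2)*t^(9:ℕ) + (-81/4)*t^(10:ℕ) + (-17/2)*t^(11:ℕ)) + (87/35000)*((83/2)*t^(2:ℕ) + (-237/4)*t^(3:ℕ) + 137*t^(4:ℕ) + (-531/4)*t^(5:ℕ) + (329/4)*t^(6:ℕ) + (-155/4)*t^(7:ℕ) + (-39)*t^(8:ℕ) + (147/4)*t^(9:ℕ) + (-56)*t^(10:ℕ) + 2*t^(11:ℕ)) + (12/21875)*(14*t^(2:ℕ) + (-18)*t^(3:ℕ) + (69/4)*t^(4:ℕ) + (5/2)*t^(5:ℕ) + (-143/4)*t^(6:ℕ) + (67/2)*t^(7:ℕ) + (-91/4)*t^(8:ℕ) + 31*t^(9:ℕ) + (-47)*t^(10:ℕ) + 18*t^(11:ℕ)) + (211/1750000)*((-273/16)*t^(4:ℕ)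 + (405/8)*t^(5:ℕ) + (-1147/16)*t^(6:ℕ) + (405/8)*t^(7:ℕ) + (-273/16)*t^(8:ℕ) + 8*t^(9:ℕ) + (-12)*t^(10:ℕ) + 8*t^(11:ℕ)) + (33/1250000)*((-15/2)*t^(4:ℕ) + (91/4)*t^(5:ℕ) + (-129/4)*t^(6:ℕ) + (91/4)*t^(7:ℕ) + (-15/2)*t^(8:ℕ)) + (9/1562500)*((-1)*t^(4:ℕ) + 3*t^(5:ℕ) + (-17/4)*t^(6:ℕ) + 3*t^(7:ℕ) + (-1)*t^(8:ℕ)) - (3929/1000) = (276985256504387197/6920643600500000)*(1 - t)^(11:ℕ) + (162721529320077569/138412872010000)*(t - (3/10))*(1 - t)^(10:ℕ) + (15386044539603147139/1384128720100000)*(t - (3/10))^(2:ℕ)*(1 - t)^(9:ℕ) + (77085171899785539293/1384128720100000)*(t - (3/10))^(3:ℕ)*(1 - t)^(8:ℕ) + (605652031481148923/3460321800250)*(t - (3/10))^(4:ℕ)*(1 - t)^(7:ℕ) + (147241875817739827/395465348600)*(t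 - (3/10))^(5:ℕ)*(1 - t)^(6:ℕ) + (54860030144811083/98866337150)*(t - (3/10))^(6:ℕ)*(1 - t)^(5:ℕ) + (40434873178380364/69206436005)*(t - (3/10))^(7:ℕ)*(1 - t)^(4:ℕ) + (5927810747264340/13841287201)*(t - (3/10))^(8:ℕ)*(1 - t)^(3:ℕ) + (2892130740104570/13841287201)*(t - (3/10))^(9:ℕ)*(1 - t)^(2:ℕ) + (848054201723600/13841287201)*(t - (3/10))^(10:ℕ)*(1 - t) + (113611760177000/13841287201)*(t - (3/10))^(11:ℕ) := by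
    ring
  rw [e]
  have a3 : 0 ≤ t - (3/10) := by linarith
  have a4 : 0 ≤ 1 - t := by linarith
  generalize t - (3/10) = t1 at a3 ⊢
  generalize 1 - t = t2 at a4 ⊢
  positivity

lemma pos_L1e_B1_b3 (t : ℝ) (h3 : (3/10) ≤ t) (h4 : t ≤ 1) :
    0 ≤ 1*(1 + 1*t + 5*t^(2:ℕ) + 5*t^(3:ℕ) + 10*t^(4:ℕ) + 10*t^(5:ℕ) + 10*t^(6:ℕ) + 10*t^(7:ℕ) + 5*t^(8:ℕ) + 5*t^(9:ℕ) + 1*t^(10:ℕ) + 1*t^(11:ℕ)) + (19/80)*((9/2) + (5/2)*t + (67/2)*t^(2:ℕ) + (53/2)*t^(3:ℕ) + 93*t^(4:ℕ) + 40*t^(5:ℕ) + 94*t^(6:ℕ) + 13*t^(7:ℕ) + (73/2)*t^(8:ℕ) + (-1/2)*t^(9:ℕ) + (13/2)*t^(10:ℕ) + (5/2)*t^(11:ℕ)) + (157/2800)*(1 + (-1)*t + 47*t^(2:ℕ) + (113/2)*t^(3:ℕ) + (429/2)*t^(4:ℕ) + (81/2)*t^(5:ℕ) + (387/2)*t^(6:ℕ)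 + (-157/2)*t^(7:ℕ) + (53/2)*t^(8:ℕ) + (-139/2)*t^(9:ℕ) + (3/2)*t^(10:ℕ) + (-8)*t^(11:ℕ)) + (737/56000)*((181/4)*t^(2:ℕ) + (-81/4)*t^(3:ℕ) + (987/4)*t^(4:ℕ) + (-121)*t^(5:ℕ) + (387/2)*t^(6:ℕ) + (-447/4)*t^(7:ℕ) + (-113/4)*t^(8:ℕ) + (-39/2)*t^(9:ℕ) + (-81/4)*t^(10:ℕ) + (-17/2)*t^(11:ℕ)) + (43/14000)*((83/2)*t^(2:ℕ) + (-237/4)*t^(3:ℕ) + 137*t^(4:ℕ) + (-531/4)*t^(5:ℕ) + (329/4)*t^(6:ℕ) + (-155/4)*t^(7:ℕ) + (-39)*t^(8:ℕ) + (147/4)*t^(9:ℕ) + (-56)*t^(10:ℕ) + 2*t^(11:ℕ)) + (499/700000)*(14*t^(2:ℕ) + (-18)*t^(3:ℕ) + (69/4)*t^(4:ℕ) + (5/2)*t^(5:ℕ) + (-143/4)*t^(6:ℕ) + (67/2)*t^(7:ℕ) + (-91/4)*t^(8:ℕ) + 31*t^(9:ℕ) + (-47)*t^(10:ℕ) + 18*t^(11:ℕ)) + (18/109375)*((-273/16)*t^(4:ℕ)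 + (405/8)*t^(5:ℕ) + (-1147/16)*t^(6:ℕ) + (405/8)*t^(7:ℕ) + (-273/16)*t^(8:ℕ) + 8*t^(9:ℕ) + (-12)*t^(10:ℕ) + 8*t^(11:ℕ)) + (189/5000000)*((-15/2)*t^(4:ℕ) + (91/4)*t^(5:ℕ) + (-129/4)*t^(6:ℕ) + (91/4)*t^(7:ℕ) + (-15/2)*t^(8:ℕ)) + (27/3125000)*((-1)*t^(4:ℕ) + 3*t^(5:ℕ) + (-17/4)*t^(6:ℕ) + 3*t^(7:ℕ) + (-1)*t^(8:ℕ)) - (3929/1000) := by
  have e : 1*(1 + 1*t + 5*t^(2:ℕ) + 5*t^(3:ℕ) + 10*t^(4:ℕ) + 10*t^(5:ℕ) + 10*t^(6:ℕ) + 10*t^(7:ℕ) + 5*t^(8:ℕ) + 5*t^(9:ℕ) + 1*t^(10:ℕ) + 1*t^(11:ℕ)) + (19/80)*((9/2) + (5/2)*t + (67/2)*t^(2:ℕ) + (53/2)*t^(3:ℕ) + 93*t^(4:ℕ) + 40*t^(5:ℕ) + 94*t^(6:ℕ) + 13*t^(7:ℕ) + (73/2)*t^(8:ℕ) + (-1/2)*t^(9:ℕ) + (13/2)*t^(10:ℕ) + (5/2)*t^(11:ℕ)) + (157/2800)*(1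 + (-1)*t + 47*t^(2:ℕ) + (113/2)*t^(3:ℕ) + (429/2)*t^(4:ℕ) + (81/2)*t^(5:ℕ) + (387/2)*t^(6:ℕ) + (-157/2)*t^(7:ℕ) + (53/2)*t^(8:ℕ) + (-139/2)*t^(9:ℕ) + (3/2)*t^(10:ℕ) + (-8)*t^(11:ℕ)) + (737/56000)*((181/4)*t^(2:ℕ) + (-81/4)*t^(3:ℕ) + (987/4)*t^(4:ℕ) + (-121)*t^(5:ℕ) + (387/2)*t^(6:ℕ) + (-447/4)*t^(7:ℕ) + (-113/4)*t^(8:ℕ) + (-39/2)*t^(9:ℕ) + (-81/4)*t^(10:ℕ) + (-17/2)*t^(11:ℕ)) + (43/14000)*((83/2)*t^(2:ℕ) + (-237/4)*t^(3:ℕ) + 137*t^(4:ℕ) + (-531/4)*t^(5:ℕ) + (329/4)*t^(6:ℕ) + (-155/4)*t^(7:ℕ) + (-39)*t^(8:ℕ) + (147/4)*t^(9:ℕ) + (-56)*t^(10:ℕ) + 2*t^(11:ℕ)) + (499/700000)*(14*t^(2:ℕ) + (-18)*t^(3:ℕ) + (69/4)*t^(4:ℕ) + (5/2)*t^(5:ℕ) + (-143/4)*t^(6:ℕ) + (67/2)*t^(7:ℕ)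 + (-91/4)*t^(8:ℕ) + 31*t^(9:ℕ) + (-47)*t^(10:ℕ) + 18*t^(11:ℕ)) + (18/109375)*((-273/16)*t^(4:ℕ) + (405/8)*t^(5:ℕ) + (-1147/16)*t^(6:ℕ) + (405/8)*t^(7:ℕ) + (-273/16)*t^(8:ℕ) + 8*t^(9:ℕ) + (-12)*t^(10:ℕ) + 8*t^(11:ℕ)) + (189/5000000)*((-15/2)*t^(4:ℕ) + (91/4)*t^(5:ℕ) + (-129/4)*t^(6:ℕ) + (91/4)*t^(7:ℕ) + (-15/2)*t^(8:ℕ)) + (27/3125000)*((-1)*t^(4:ℕ) + 3*t^(5:ℕ) + (-17/4)*t^(6:ℕ) + 3*t^(7:ℕ) + (-1)*t^(8:ℕ)) - (3929/1000) = (341450987779111701/6920643600500000)*(1 - t)^(11:ℕ) + (7279138796572070021/5536514880400000)*(t - (3/10))*(1 - t)^(10:ℕ) + (16717074793516989861/1384128720100000)*(t - (3/10))^(2:ℕ)*(1 - t)^(9:ℕ) + (41333347087163630701/692064360050000)*(t - (3/10))^(3:ℕ)*(1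 - t)^(8:ℕ) + (257965507136121411/1384128720100)*(t - (3/10))^(4:ℕ)*(1 - t)^(7:ℕ) + (31221443330504947/79093069720)*(t - (3/10))^(5:ℕ)*(1 - t)^(6:ℕ) + (115979510533561869/197732674300)*(t - (3/10))^(6:ℕ)*(1 - t)^(5:ℕ) + (85282685896650717/138412872010)*(t - (3/10))^(7:ℕ)*(1 - t)^(4:ℕ) + (6237836351010685/13841287201)*(t - (3/10))^(8:ℕ)*(1 - t)^(3:ℕ) + (3036505944801880/13841287201)*(t - (3/10))^(9:ℕ)*(1 - t)^(2:ℕ) + (888055195314400/13841287201)*(t - (3/10))^(10:ℕ)*(1 - t) + (118588682133000/13841287201)*(t - (3/10))^(11:ℕ) := by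
    ring
  rw [e]
  have a3 : 0 ≤ t - (3/10) := by linarith
  have a4 : 0 ≤ 1 - t := by linarith
  generalize t - (3/10) = t1 at a3 ⊢
  generalize 1 - t = t2 at a4 ⊢
  positivity

lemma pos_L1e_B1_b4 (t : ℝ) (h3 : (3/10) ≤ t) (h4 : t ≤ 1) :
    0 ≤ 1*(1 + 1*t + 5*t^(2:ℕ) + 5*t^(3:ℕ) + 10*t^(4:ℕ) + 10*t^(5:ℕ) + 10*t^(6:ℕ) + 10*t^(7:ℕ) + 5*t^(8:ℕ) + 5*t^(9:ℕ) + 1*t^(10:ℕ) + 1*t^(11:ℕ)) + (1/4)*((9/2) + (5/2)*t + (67/2)*t^(2:ℕ) + (53/2)*t^(3:ℕ) + 93*t^(4:ℕ) + 40*t^(5:ℕ) + 94*t^(6:ℕ) + 13*t^(7:ℕ) + (73/2)*t^(8:ℕ) + (-1/2)*t^(9:ℕ) + (13/2)*t^(10:ℕ) + (5/2)*t^(11:ℕ)) + (87/1400)*(1 + (-1)*t + 47*t^(2:ℕ) + (113/2)*t^(3:ℕ) + (429/2)*t^(4:ℕ) + (81/2)*t^(5:ℕ) + (387/2)*t^(6:ℕ)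 + (-157/2)*t^(7:ℕ) + (53/2)*t^(8:ℕ) + (-139/2)*t^(9:ℕ) + (3/2)*t^(10:ℕ) + (-8)*t^(11:ℕ)) + (43/2800)*((181/4)*t^(2:ℕ) + (-81/4)*t^(3:ℕ) + (987/4)*t^(4:ℕ) + (-121)*t^(5:ℕ) + (387/2)*t^(6:ℕ) + (-447/4)*t^(7:ℕ) + (-113/4)*t^(8:ℕ) + (-39/2)*t^(9:ℕ) + (-81/4)*t^(10:ℕ) + (-17/2)*t^(11:ℕ)) + (2641/700000)*((83/2)*t^(2:ℕ) + (-237/4)*t^(3:ℕ) + 137*t^(4:ℕ) + (-531/4)*t^(5:ℕ) + (329/4)*t^(6:ℕ) + (-155/4)*t^(7:ℕ) + (-39)*t^(8:ℕ) + (147/4)*t^(9:ℕ) + (-56)*t^(10:ℕ) + 2*t^(11:ℕ)) + (129/140000)*(14*t^(2:ℕ) + (-18)*t^(3:ℕ) + (69/4)*t^(4:ℕ) + (5/2)*t^(5:ℕ) + (-143/4)*t^(6:ℕ) + (67/2)*t^(7:ℕ) + (-91/4)*t^(8:ℕ) + 31*t^(9:ℕ) + (-47)*t^(10:ℕ) + 18*t^(11:ℕ)) + (783/3500000)*((-273/16)*t^(4:ℕ)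 + (405/8)*t^(5:ℕ) + (-1147/16)*t^(6:ℕ) + (405/8)*t^(7:ℕ) + (-273/16)*t^(8:ℕ) + 8*t^(9:ℕ) + (-12)*t^(10:ℕ) + 8*t^(11:ℕ)) + (27/500000)*((-15/2)*t^(4:ℕ) + (91/4)*t^(5:ℕ) + (-129/4)*t^(6:ℕ) + (91/4)*t^(7:ℕ) + (-15/2)*t^(8:ℕ)) + (81/6250000)*((-1)*t^(4:ℕ) + 3*t^(5:ℕ) + (-17/4)*t^(6:ℕ) + 3*t^(7:ℕ) + (-1)*t^(8:ℕ)) - (3929/1000) := by
  have e : 1*(1 + 1*t + 5*t^(2:ℕ) + 5*t^(3:ℕ) + 10*t^(4:ℕ) + 10*t^(5:ℕ) + 10*t^(6:ℕ) + 10*t^(7:ℕ) + 5*t^(8:ℕ) + 5*t^(9:ℕ) + 1*t^(10:ℕ) + 1*t^(11:ℕ)) + (1/4)*((9/2) + (5/2)*t + (67/2)*t^(2:ℕ) + (53/2)*t^(3:ℕ) + 93*t^(4:ℕ) + 40*t^(5:ℕ) + 94*t^(6:ℕ) + 13*t^(7:ℕ) + (73/2)*t^(8:ℕ) + (-1/2)*t^(9:ℕ) + (13/2)*t^(10:ℕ) + (5/2)*t^(11:ℕ)) + (87/1400)*(1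 + (-1)*t + 47*t^(2:ℕ) + (113/2)*t^(3:ℕ) + (429/2)*t^(4:ℕ) + (81/2)*t^(5:ℕ) + (387/2)*t^(6:ℕ) + (-157/2)*t^(7:ℕ) + (53/2)*t^(8:ℕ) + (-139/2)*t^(9:ℕ) + (3/2)*t^(10:ℕ) + (-8)*t^(11:ℕ)) + (43/2800)*((181/4)*t^(2:ℕ) + (-81/4)*t^(3:ℕ) + (987/4)*t^(4:ℕ) + (-121)*t^(5:ℕ) + (387/2)*t^(6:ℕ) + (-447/4)*t^(7:ℕ) + (-113/4)*t^(8:ℕ) + (-39/2)*t^(9:ℕ) + (-81/4)*t^(10:ℕ) + (-17/2)*t^(11:ℕ)) + (2641/700000)*((83/2)*t^(2:ℕ) + (-237/4)*t^(3:ℕ) + 137*t^(4:ℕ) + (-531/4)*t^(5:ℕ) + (329/4)*t^(6:ℕ) + (-155/4)*t^(7:ℕ) + (-39)*t^(8:ℕ) + (147/4)*t^(9:ℕ) + (-56)*t^(10:ℕ) + 2*t^(11:ℕ)) + (129/140000)*(14*t^(2:ℕ) + (-18)*t^(3:ℕ) + (69/4)*t^(4:ℕ) + (5/2)*t^(5:ℕ) + (-143/4)*t^(6:ℕ) + (67/2)*t^(7:ℕ)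 + (-91/4)*t^(8:ℕ) + 31*t^(9:ℕ) + (-47)*t^(10:ℕ) + 18*t^(11:ℕ)) + (783/3500000)*((-273/16)*t^(4:ℕ) + (405/8)*t^(5:ℕ) + (-1147/16)*t^(6:ℕ) + (405/8)*t^(7:ℕ) + (-273/16)*t^(8:ℕ) + 8*t^(9:ℕ) + (-12)*t^(10:ℕ) + 8*t^(11:ℕ)) + (27/500000)*((-15/2)*t^(4:ℕ) + (91/4)*t^(5:ℕ) + (-129/4)*t^(6:ℕ) + (91/4)*t^(7:ℕ) + (-15/2)*t^(8:ℕ)) + (81/6250000)*((-1)*t^(4:ℕ) + 3*t^(5:ℕ) + (-17/4)*t^(6:ℕ) + 3*t^(7:ℕ) + (-1)*t^(8:ℕ)) - (3929/1000) = (815140567878363431/13841287201000000)*(1 - t)^(11:ℕ) + (4035780237660990501/2768257440200000)*(t - (3/10))*(1 - t)^(10:ℕ) + (36179292118145773673/2768257440200000)*(t - (3/10))^(2:ℕ)*(1 - t)^(9:ℕ) + (176865347317783601481/2768257440200000)*(t - (3/10))^(3:ℕ)*(1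 - t)^(8:ℕ) + (342761384728833996/1730160900125)*(t - (3/10))^(4:ℕ)*(1 - t)^(7:ℕ) + (330566678534307391/790930697200)*(t - (3/10))^(5:ℕ)*(1 - t)^(6:ℕ) + (122459873627821921/197732674300)*(t - (3/10))^(6:ℕ)*(1 - t)^(5:ℕ) + (44925073653904819/69206436005)*(t - (3/10))^(7:ℕ)*(1 - t)^(4:ℕ) + (6558455340747890/13841287201)*(t - (3/10))^(8:ℕ)*(1 - t)^(3:ℕ) + (3185592121618545/13841287201)*(t - (3/10))^(9:ℕ)*(1 - t)^(2:ℕ) + (929262568842600/13841287201)*(t - (3/10))^(10:ℕ)*(1 - t) + (123696540994500/13841287201)*(t - (3/10))^(11:ℕ) := by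
    ring
  rw [e]
  have a3 : 0 ≤ t - (3/10) := by linarith
  have a4 : 0 ≤ 1 - t := by linarith
  generalize t - (3/10) = t1 at a3 ⊢
  generalize 1 - t = t2 at a4 ⊢
  positivity

lemma pos_L1e_B1_b5 (t : ℝ) (h3 : (3/10) ≤ t) (h4 : t ≤ 1) :
    0 ≤ 1*(1 + 1*t + 5*t^(2:ℕ) + 5*t^(3:ℕ) + 10*t^(4:ℕ) + 10*t^(5:ℕ) + 10*t^(6:ℕ) + 10*t^(7:ℕ) + 5*t^(8:ℕ) + 5*t^(9:ℕ) + 1*t^(10:ℕ) + 1*t^(11:ℕ)) + (21/80)*((9/2) + (5/2)*t + (67/2)*t^(2:ℕ) + (53/2)*t^(3:ℕ) + 93*t^(4:ℕ) + 40*t^(5:ℕ) + 94*t^(6:ℕ) + 13*t^(7:ℕ) + (73/2)*t^(8:ℕ) + (-1/2)*t^(9:ℕ) + (13/2)*t^(10:ℕ) + (5/2)*t^(11:ℕ)) + (12/175)*(1 + (-1)*t + 47*t^(2:ℕ) + (113/2)*t^(3:ℕ) + (429/2)*t^(4:ℕ) + (81/2)*t^(5:ℕ) + (387/2)*t^(6:ℕ)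 + (-157/2)*t^(7:ℕ) + (53/2)*t^(8:ℕ) + (-139/2)*t^(9:ℕ) + (3/2)*t^(10:ℕ) + (-8)*t^(11:ℕ)) + (499/28000)*((181/4)*t^(2:ℕ) + (-81/4)*t^(3:ℕ) + (987/4)*t^(4:ℕ) + (-121)*t^(5:ℕ) + (387/2)*t^(6:ℕ) + (-447/4)*t^(7:ℕ) + (-113/4)*t^(8:ℕ) + (-39/2)*t^(9:ℕ) + (-81/4)*t^(10:ℕ) + (-17/2)*t^(11:ℕ)) + (129/28000)*((83/2)*t^(2:ℕ) + (-237/4)*t^(3:ℕ) + 137*t^(4:ℕ) + (-531/4)*t^(5:ℕ) + (329/4)*t^(6:ℕ) + (-155/4)*t^(7:ℕ) + (-39)*t^(8:ℕ) + (147/4)*t^(9:ℕ) + (-56)*t^(10:ℕ) + 2*t^(11:ℕ)) + (6633/5600000)*(14*t^(2:ℕ) + (-18)*t^(3:ℕ) + (69/4)*t^(4:ℕ) + (5/2)*t^(5:ℕ) + (-143/4)*t^(6:ℕ) + (67/2)*t^(7:ℕ) + (-91/4)*t^(8:ℕ) + 31*t^(9:ℕ) + (-47)*t^(10:ℕ) + 18*t^(11:ℕ)) + (4239/14000000)*((-273/16)*t^(4:ℕ)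 + (405/8)*t^(5:ℕ) + (-1147/16)*t^(6:ℕ) + (405/8)*t^(7:ℕ) + (-273/16)*t^(8:ℕ) + 8*t^(9:ℕ) + (-12)*t^(10:ℕ) + 8*t^(11:ℕ)) + (1539/20000000)*((-15/2)*t^(4:ℕ) + (91/4)*t^(5:ℕ) + (-129/4)*t^(6:ℕ) + (91/4)*t^(7:ℕ) + (-15/2)*t^(8:ℕ)) + (243/12500000)*((-1)*t^(4:ℕ) + 3*t^(5:ℕ) + (-17/4)*t^(6:ℕ) + 3*t^(7:ℕ) + (-1)*t^(8:ℕ)) - (3929/1000) := by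
  have e : 1*(1 + 1*t + 5*t^(2:ℕ) + 5*t^(3:ℕ) + 10*t^(4:ℕ) + 10*t^(5:ℕ) + 10*t^(6:ℕ) + 10*t^(7:ℕ) + 5*t^(8:ℕ) + 5*t^(9:ℕ) + 1*t^(10:ℕ) + 1*t^(11:ℕ)) + (21/80)*((9/2) + (5/2)*t + (67/2)*t^(2:ℕ) + (53/2)*t^(3:ℕ) + 93*t^(4:ℕ) + 40*t^(5:ℕ) + 94*t^(6:ℕ) + 13*t^(7:ℕ) + (73/2)*t^(8:ℕ) + (-1/2)*t^(9:ℕ) + (13/2)*t^(10:ℕ) + (5/2)*t^(11:ℕ)) + (12/175)*(1 + (-1)*t + 47*t^(2:ℕ) + (113/2)*t^(3:ℕ) + (429/2)*t^(4:ℕ) + (81/2)*t^(5:ℕ) + (387/2)*t^(6:ℕ) + (-157/2)*t^(7:ℕ) + (53/2)*t^(8:ℕ) + (-139/2)*t^(9:ℕ) + (3/2)*t^(10:ℕ) + (-8)*t^(11:ℕ)) + (499/28000)*((181/4)*t^(2:ℕ) + (-81/4)*t^(3:ℕ) + (987/4)*t^(4:ℕ) + (-121)*t^(5:ℕ) + (387/2)*t^(6:ℕ) + (-447/4)*t^(7:ℕ) + (-113/4)*t^(8:ℕ) + (-39/2)*t^(9:ℕ)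 + (-81/4)*t^(10:ℕ) + (-17/2)*t^(11:ℕ)) + (129/28000)*((83/2)*t^(2:ℕ) + (-237/4)*t^(3:ℕ) + 137*t^(4:ℕ) + (-531/4)*t^(5:ℕ) + (329/4)*t^(6:ℕ) + (-155/4)*t^(7:ℕ) + (-39)*t^(8:ℕ) + (147/4)*t^(9:ℕ) + (-56)*t^(10:ℕ) + 2*t^(11:ℕ)) + (6633/5600000)*(14*t^(2:ℕ) + (-18)*t^(3:ℕ) + (69/4)*t^(4:ℕ) + (5/2)*t^(5:ℕ) + (-143/4)*t^(6:ℕ) + (67/2)*t^(7:ℕ) + (-91/4)*t^(8:ℕ) + 31*t^(9:ℕ) + (-47)*t^(10:ℕ) + 18*t^(11:ℕ)) + (4239/14000000)*((-273/16)*t^(4:ℕ) + (405/8)*t^(5:ℕ) + (-1147/16)*t^(6:ℕ) + (405/8)*t^(7:ℕ) + (-273/16)*t^(8:ℕ) + 8*t^(9:ℕ) + (-12)*t^(10:ℕ) + 8*t^(11:ℕ)) + (1539/20000000)*((-15/2)*t^(4:ℕ) + (91/4)*t^(5:ℕ) + (-129/4)*t^(6:ℕ) + (91/4)*t^(7:ℕ) + (-15/2)*t^(8:ℕ)) + (243/12500000)*((-1)*t^(4:ℕ)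 + 3*t^(5:ℕ) + (-17/4)*t^(6:ℕ) + 3*t^(7:ℕ) + (-1)*t^(8:ℕ)) - (3929/1000) = (3803179771941697883/55365148804000000)*(1 - t)^(11:ℕ) + (17773676452196533027/11073029760800000)*(t - (3/10))*(1 - t)^(10:ℕ) + (156040403596597929273/11073029760800000)*(t - (3/10))^(2:ℕ)*(1 - t)^(9:ℕ) + (755109011380400755111/11073029760800000)*(t - (3/10))^(3:ℕ)*(1 - t)^(8:ℕ) + (23280564625339937767/110730297608000)*(t - (3/10))^(4:ℕ)*(1 - t)^(7:ℕ) + (1398230041686302877/3163722788800)*(t - (3/10))^(5:ℕ)*(1 - t)^(6:ℕ) + (516667637558963981/790930697200)*(t - (3/10))^(6:ℕ)*(1 - t)^(5:ℕ) + (378303756199331203/553651488040)*(t - (3/10))^(7:ℕ)*(1 - t)^(4:ℕ) + (27559644752170115/55365148804)*(t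 - (3/10))^(8:ℕ)*(1 - t)^(3:ℕ) + (13357949673560995/55365148804)*(t - (3/10))^(9:ℕ)*(1 - t)^(2:ℕ) + (971697617161650/13841287201)*(t - (3/10))^(10:ℕ)*(1 - t) + (128936915706125/13841287201)*(t - (3/10))^(11:ℕ) := by
    ring
  rw [e]
  have a3 : 0 ≤ t - (3/10) := by linarith
  have a4 : 0 ≤ 1 - t := by linarith
  generalize t - (3/10) = t1 at a3 ⊢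
  generalize 1 - t = t2 at a4 ⊢
  positivity

lemma pos_L1e_B1_b6 (t : ℝ) (h3 : (3/10) ≤ t) (h4 : t ≤ 1) :
    0 ≤ 1*(1 + 1*t + 5*t^(2:ℕ) + 5*t^(3:ℕ) + 10*t^(4:ℕ) + 10*t^(5:ℕ) + 10*t^(6:ℕ) + 10*t^(7:ℕ) + 5*t^(8:ℕ) + 5*t^(9:ℕ) + 1*t^(10:ℕ) + 1*t^(11:ℕ)) + (11/40)*((9/2) + (5/2)*t + (67/2)*t^(2:ℕ) + (53/2)*t^(3:ℕ) + 93*t^(4:ℕ) + 40*t^(5:ℕ) + 94*t^(6:ℕ) + 13*t^(7:ℕ) + (73/2)*t^(8:ℕ) + (-1/2)*t^(9:ℕ) + (13/2)*t^(10:ℕ) + (5/2)*t^(11:ℕ)) + (211/2800)*(1 + (-1)*t + 47*t^(2:ℕ) + (113/2)*t^(3:ℕ) + (429/2)*t^(4:ℕ) + (81/2)*t^(5:ℕ) + (387/2)*t^(6:ℕ) + (-157/2)*t^(7:ℕ) + (53/2)*t^(8:ℕ) + (-139/2)*t^(9:ℕ) + (3/2)*t^(10:ℕ) + (-8)*t^(11:ℕ)) + (18/875)*((181/4)*t^(2:ℕ) + (-81/4)*t^(3:ℕ)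 + (987/4)*t^(4:ℕ) + (-121)*t^(5:ℕ) + (387/2)*t^(6:ℕ) + (-447/4)*t^(7:ℕ) + (-113/4)*t^(8:ℕ) + (-39/2)*t^(9:ℕ) + (-81/4)*t^(10:ℕ) + (-17/2)*t^(11:ℕ)) + (783/140000)*((83/2)*t^(2:ℕ) + (-237/4)*t^(3:ℕ) + 137*t^(4:ℕ) + (-531/4)*t^(5:ℕ) + (329/4)*t^(6:ℕ) + (-155/4)*t^(7:ℕ) + (-39)*t^(8:ℕ) + (147/4)*t^(9:ℕ) + (-56)*t^(10:ℕ) + 2*t^(11:ℕ)) + (4239/2800000)*(14*t^(2:ℕ) + (-18)*t^(3:ℕ) + (69/4)*t^(4:ℕ) + (5/2)*t^(5:ℕ) + (-143/4)*t^(6:ℕ) + (67/2)*t^(7:ℕ) + (-91/4)*t^(8:ℕ) + 31*t^(9:ℕ) + (-47)*t^(10:ℕ) + 18*t^(11:ℕ)) + (11421/28000000)*((-273/16)*t^(4:ℕ) + (405/8)*t^(5:ℕ) + (-1147/16)*t^(6:ℕ) + (405/8)*t^(7:ℕ) + (-273/16)*t^(8:ℕ) + 8*t^(9:ℕ) + (-12)*t^(10:ℕ) + 8*t^(11:ℕ)) + (2187/20000000)*((-15/2)*t^(4:ℕ)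 + (91/4)*t^(5:ℕ) + (-129/4)*t^(6:ℕ) + (91/4)*t^(7:ℕ) + (-15/2)*t^(8:ℕ)) + (729/25000000)*((-1)*t^(4:ℕ) + 3*t^(5:ℕ) + (-17/4)*t^(6:ℕ) + 3*t^(7:ℕ) + (-1)*t^(8:ℕ)) - (3929/1000) := by
  have e : 1*(1 + 1*t + 5*t^(2:ℕ) + 5*t^(3:ℕ) + 10*t^(4:ℕ) + 10*t^(5:ℕ) + 10*t^(6:ℕ) + 10*t^(7:ℕ) + 5*t^(8:ℕ) + 5*t^(9:ℕ) + 1*t^(10:ℕ) + 1*t^(11:ℕ)) + (11/40)*((9/2) + (5/2)*t + (67/2)*t^(2:ℕ) + (53/2)*t^(3:ℕ) + 93*t^(4:ℕ) + 40*t^(5:ℕ) + 94*t^(6:ℕ) + 13*t^(7:ℕ) + (73/2)*t^(8:ℕ) + (-1/2)*t^(9:ℕ) + (13/2)*t^(10:ℕ) + (5/2)*t^(11:ℕ)) + (211/2800)*(1 + (-1)*t + 47*t^(2:ℕ) + (113/2)*t^(3:ℕ) + (429/2)*t^(4:ℕ) + (81/2)*t^(5:ℕ) + (387/2)*t^(6:ℕ) + (-157/2)*t^(7:ℕ) + (53/2)*t^(8:ℕ) + (-139/2)*t^(9:ℕ)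 + (3/2)*t^(10:ℕ) + (-8)*t^(11:ℕ)) + (18/875)*((181/4)*t^(2:ℕ) + (-81/4)*t^(3:ℕ) + (987/4)*t^(4:ℕ) + (-121)*t^(5:ℕ) + (387/2)*t^(6:ℕ) + (-447/4)*t^(7:ℕ) + (-113/4)*t^(8:ℕ) + (-39/2)*t^(9:ℕ) + (-81/4)*t^(10:ℕ) + (-17/2)*t^(11:ℕ)) + (783/140000)*((83/2)*t^(2:ℕ) + (-237/4)*t^(3:ℕ) + 137*t^(4:ℕ) + (-531/4)*t^(5:ℕ) + (329/4)*t^(6:ℕ) + (-155/4)*t^(7:ℕ) + (-39)*t^(8:ℕ) + (147/4)*t^(9:ℕ) + (-56)*t^(10:ℕ) + 2*t^(11:ℕ)) + (4239/2800000)*(14*t^(2:ℕ) + (-18)*t^(3:ℕ) + (69/4)*t^(4:ℕ) + (5/2)*t^(5:ℕ) + (-143/4)*t^(6:ℕ) + (67/2)*t^(7:ℕ) + (-91/4)*t^(8:ℕ) + 31*t^(9:ℕ) + (-47)*t^(10:ℕ) + 18*t^(11:ℕ)) + (11421/28000000)*((-273/16)*t^(4:ℕ) + (405/8)*t^(5:ℕ) + (-1147/16)*t^(6:ℕ) + (405/8)*t^(7:ℕ)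 + (-273/16)*t^(8:ℕ) + 8*t^(9:ℕ) + (-12)*t^(10:ℕ) + 8*t^(11:ℕ)) + (2187/20000000)*((-15/2)*t^(4:ℕ) + (91/4)*t^(5:ℕ) + (-129/4)*t^(6:ℕ) + (91/4)*t^(7:ℕ) + (-15/2)*t^(8:ℕ)) + (729/25000000)*((-1)*t^(4:ℕ) + 3*t^(5:ℕ) + (-17/4)*t^(6:ℕ) + 3*t^(7:ℕ) + (-1)*t^(8:ℕ)) - (3929/1000) = (8719822269769721727/110730297608000000)*(1 - t)^(11:ℕ) + (311222681220493177/177168476172800)*(t - (3/10))*(1 - t)^(10:ℕ) + (335433944826874154209/22146059521600000)*(t - (3/10))^(2:ℕ)*(1 - t)^(9:ℕ) + (1608643684903285424483/22146059521600000)*(t - (3/10))^(3:ℕ)*(1 - t)^(8:ℕ) + (24670016804760153637/110730297608000)*(t - (3/10))^(4:ℕ)*(1 - t)^(7:ℕ) + (2953634846976652569/6327445577600)*(t - (3/10))^(5:ℕ)*(1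 - t)^(6:ℕ) + (1088851984626516683/1581861394400)*(t - (3/10))^(6:ℕ)*(1 - t)^(5:ℕ) + (49731969011053999/69206436005)*(t - (3/10))^(7:ℕ)*(1 - t)^(4:ℕ) + (28929803672747735/55365148804)*(t - (3/10))^(8:ℕ)*(1 - t)^(3:ℕ) + (27986327698932035/110730297608)*(t - (3/10))^(9:ℕ)*(1 - t)^(2:ℕ) + (1015381668425975/13841287201)*(t - (3/10))^(10:ℕ)*(1 - t) + (268622696795875/27682574402)*(t - (3/10))^(11:ℕ) := by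
    ring
  rw [e]
  have a3 : 0 ≤ t - (3/10) := by linarith
  have a4 : 0 ≤ 1 - t := by linarith
  generalize t - (3/10) = t1 at a3 ⊢
  generalize 1 - t = t2 at a4 ⊢
  positivity

lemma pos_L1e_B1_b7 (t : ℝ) (h3 : (3/10) ≤ t) (h4 : t ≤ 1) :
    0 ≤ 1*(1 + 1*t + 5*t^(2:ℕ) + 5*t^(3:ℕ) + 10*t^(4:ℕ) + 10*t^(5:ℕ) + 10*t^(6:ℕ) + 10*t^(7:ℕ) + 5*t^(8:ℕ) + 5*t^(9:ℕ) + 1*t^(10:ℕ) + 1*t^(11:ℕ)) + (23/80)*((9/2) + (5/2)*t + (67/2)*t^(2:ℕ) + (53/2)*t^(3:ℕ) + 93*t^(4:ℕ) + 40*t^(5:ℕ) + 94*t^(6:ℕ) + 13*t^(7:ℕ) + (73/2)*t^(8:ℕ) + (-1/2)*t^(9:ℕ) + (13/2)*t^(10:ℕ) + (5/2)*t^(11:ℕ)) + (33/400)*(1 + (-1)*t + 47*t^(2:ℕ) + (113/2)*t^(3:ℕ) + (429/2)*t^(4:ℕ) + (81/2)*t^(5:ℕ) + (387/2)*t^(6:ℕ)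 + (-157/2)*t^(7:ℕ) + (53/2)*t^(8:ℕ) + (-139/2)*t^(9:ℕ) + (3/2)*t^(10:ℕ) + (-8)*t^(11:ℕ)) + (189/8000)*((181/4)*t^(2:ℕ) + (-81/4)*t^(3:ℕ) + (987/4)*t^(4:ℕ) + (-121)*t^(5:ℕ) + (387/2)*t^(6:ℕ) + (-447/4)*t^(7:ℕ) + (-113/4)*t^(8:ℕ) + (-39/2)*t^(9:ℕ) + (-81/4)*t^(10:ℕ) + (-17/2)*t^(11:ℕ)) + (27/4000)*((83/2)*t^(2:ℕ) + (-237/4)*t^(3:ℕ) + 137*t^(4:ℕ) + (-531/4)*t^(5:ℕ) + (329/4)*t^(6:ℕ) + (-155/4)*t^(7:ℕ) + (-39)*t^(8:ℕ) + (147/4)*t^(9:ℕ) + (-56)*t^(10:ℕ) + 2*t^(11:ℕ)) + (1539/800000)*(14*t^(2:ℕ) + (-18)*t^(3:ℕ) + (69/4)*t^(4:ℕ) + (5/2)*t^(5:ℕ) + (-143/4)*t^(6:ℕ) + (67/2)*t^(7:ℕ) + (-91/4)*t^(8:ℕ) + 31*t^(9:ℕ) + (-47)*t^(10:ℕ) + 18*t^(11:ℕ)) + (2187/4000000)*((-273/16)*t^(4:ℕ)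 + (405/8)*t^(5:ℕ) + (-1147/16)*t^(6:ℕ) + (405/8)*t^(7:ℕ) + (-273/16)*t^(8:ℕ) + 8*t^(9:ℕ) + (-12)*t^(10:ℕ) + 8*t^(11:ℕ)) + (12393/80000000)*((-15/2)*t^(4:ℕ) + (91/4)*t^(5:ℕ) + (-129/4)*t^(6:ℕ) + (91/4)*t^(7:ℕ) + (-15/2)*t^(8:ℕ)) + (2187/50000000)*((-1)*t^(4:ℕ) + 3*t^(5:ℕ) + (-17/4)*t^(6:ℕ) + 3*t^(7:ℕ) + (-1)*t^(8:ℕ)) - (3929/1000) := by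
  have e : 1*(1 + 1*t + 5*t^(2:ℕ) + 5*t^(3:ℕ) + 10*t^(4:ℕ) + 10*t^(5:ℕ) + 10*t^(6:ℕ) + 10*t^(7:ℕ) + 5*t^(8:ℕ) + 5*t^(9:ℕ) + 1*t^(10:ℕ) + 1*t^(11:ℕ)) + (23/80)*((9/2) + (5/2)*t + (67/2)*t^(2:ℕ) + (53/2)*t^(3:ℕ) + 93*t^(4:ℕ) + 40*t^(5:ℕ) + 94*t^(6:ℕ) + 13*t^(7:ℕ) + (73/2)*t^(8:ℕ) + (-1/2)*t^(9:ℕ) + (13/2)*t^(10:ℕ) + (5/2)*t^(11:ℕ)) + (33/400)*(1 + (-1)*t + 47*t^(2:ℕ) + (113/2)*t^(3:ℕ) + (429/2)*t^(4:ℕ) + (81/2)*t^(5:ℕ) + (387/2)*t^(6:ℕ) + (-157/2)*t^(7:ℕ) + (53/2)*t^(8:ℕ) + (-139/2)*t^(9:ℕ) + (3/2)*t^(10:ℕ) + (-8)*t^(11:ℕ)) + (189/8000)*((181/4)*t^(2:ℕ) + (-81/4)*t^(3:ℕ) + (987/4)*t^(4:ℕ) + (-121)*t^(5:ℕ) + (387/2)*t^(6:ℕ) + (-447/4)*t^(7:ℕ) + (-113/4)*t^(8:ℕ) + (-39/2)*t^(9:ℕ)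 + (-81/4)*t^(10:ℕ) + (-17/2)*t^(11:ℕ)) + (27/4000)*((83/2)*t^(2:ℕ) + (-237/4)*t^(3:ℕ) + 137*t^(4:ℕ) + (-531/4)*t^(5:ℕ) + (329/4)*t^(6:ℕ) + (-155/4)*t^(7:ℕ) + (-39)*t^(8:ℕ) + (147/4)*t^(9:ℕ) + (-56)*t^(10:ℕ) + 2*t^(11:ℕ)) + (1539/800000)*(14*t^(2:ℕ) + (-18)*t^(3:ℕ) + (69/4)*t^(4:ℕ) + (5/2)*t^(5:ℕ) + (-143/4)*t^(6:ℕ) + (67/2)*t^(7:ℕ) + (-91/4)*t^(8:ℕ) + 31*t^(9:ℕ) + (-47)*t^(10:ℕ) + 18*t^(11:ℕ)) + (2187/4000000)*((-273/16)*t^(4:ℕ) + (405/8)*t^(5:ℕ) + (-1147/16)*t^(6:ℕ) + (405/8)*t^(7:ℕ) + (-273/16)*t^(8:ℕ) + 8*t^(9:ℕ) + (-12)*t^(10:ℕ) + 8*t^(11:ℕ)) + (12393/80000000)*((-15/2)*t^(4:ℕ) + (91/4)*t^(5:ℕ) + (-129/4)*t^(6:ℕ) + (91/4)*t^(7:ℕ) + (-15/2)*t^(8:ℕ)) + (2187/50000000)*((-1)*t^(4:ℕ)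 + 3*t^(5:ℕ) + (-17/4)*t^(6:ℕ) + 3*t^(7:ℕ) + (-1)*t^(8:ℕ)) - (3929/1000) = (1408921027254143749/15818613944000000)*(1 - t)^(11:ℕ) + (1210163905908968937/632744557760000)*(t - (3/10))*(1 - t)^(10:ℕ) + (51359394933543936293/3163722788800000)*(t - (3/10))^(2:ℕ)*(1 - t)^(9:ℕ) + (244327606761221952291/3163722788800000)*(t - (3/10))^(3:ℕ)*(1 - t)^(8:ℕ) + (14917935254602208243/63274455776000)*(t - (3/10))^(4:ℕ)*(1 - t)^(7:ℕ) + (445171487314851579/903920796800)*(t - (3/10))^(5:ℕ)*(1 - t)^(6:ℕ) + (81876938175606023/112990099600)*(t - (3/10))^(6:ℕ)*(1 - t)^(5:ℕ) + (238898491742179511/316372278880)*(t - (3/10))^(7:ℕ)*(1 - t)^(4:ℕ) + (17340171706879955/31637227888)*(t - (3/10))^(8:ℕ)*(1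 - t)^(3:ℕ) + (4185260402005295/15818613944)*(t - (3/10))^(9:ℕ)*(1 - t)^(2:ℕ) + (151476582488950/1977326743)*(t - (3/10))^(10:ℕ)*(1 - t) + (19974477573375/1977326743)*(t - (3/10))^(11:ℕ) := by
    ring
  rw [e]
  have a3 : 0 ≤ t - (3/10) := by linarith
  have a4 : 0 ≤ 1 - t := by linarith
  generalize t - (3/10) = t1 at a3 ⊢
  generalize 1 - t = t2 at a4 ⊢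
  positivity

lemma pos_L1e_B1_b8 (t : ℝ) (h3 : (3/10) ≤ t) (h4 : t ≤ 1) :
    0 ≤ 1*(1 + 1*t + 5*t^(2:ℕ) + 5*t^(3:ℕ) + 10*t^(4:ℕ) + 10*t^(5:ℕ) + 10*t^(6:ℕ) + 10*t^(7:ℕ) + 5*t^(8:ℕ) + 5*t^(9:ℕ) + 1*t^(10:ℕ) + 1*t^(11:ℕ)) + (3/10)*((9/2) + (5/2)*t + (67/2)*t^(2:ℕ) + (53/2)*t^(3:ℕ) + 93*t^(4:ℕ) + 40*t^(5:ℕ) + 94*t^(6:ℕ) + 13*t^(7:ℕ) + (73/2)*t^(8:ℕ) + (-1/2)*t^(9:ℕ) + (13/2)*t^(10:ℕ) + (5/2)*t^(11:ℕ)) + (9/100)*(1 + (-1)*t + 47*t^(2:ℕ) + (113/2)*t^(3:ℕ) + (429/2)*t^(4:ℕ) + (81/2)*t^(5:ℕ) + (387/2)*t^(6:ℕ) + (-157/2)*t^(7:ℕ) + (53/2)*t^(8:ℕ) + (-139/2)*t^(9:ℕ) + (3/2)*t^(10:ℕ) + (-8)*t^(11:ℕ)) + (27/1000)*((181/4)*t^(2:ℕ) + (-81/4)*t^(3:ℕ) + (987/4)*t^(4:ℕ) + (-121)*t^(5:ℕ)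 + (387/2)*t^(6:ℕ) + (-447/4)*t^(7:ℕ) + (-113/4)*t^(8:ℕ) + (-39/2)*t^(9:ℕ) + (-81/4)*t^(10:ℕ) + (-17/2)*t^(11:ℕ)) + (81/10000)*((83/2)*t^(2:ℕ) + (-237/4)*t^(3:ℕ) + 137*t^(4:ℕ) + (-531/4)*t^(5:ℕ) + (329/4)*t^(6:ℕ) + (-155/4)*t^(7:ℕ) + (-39)*t^(8:ℕ) + (147/4)*t^(9:ℕ) + (-56)*t^(10:ℕ) + 2*t^(11:ℕ)) + (243/100000)*(14*t^(2:ℕ) + (-18)*t^(3:ℕ) + (69/4)*t^(4:ℕ) + (5/2)*t^(5:ℕ) + (-143/4)*t^(6:ℕ) + (67/2)*t^(7:ℕ) + (-91/4)*t^(8:ℕ) + 31*t^(9:ℕ) + (-47)*t^(10:ℕ) + 18*t^(11:ℕ)) + (729/1000000)*((-273/16)*t^(4:ℕ) + (405/8)*t^(5:ℕ) + (-1147/16)*t^(6:ℕ) + (405/8)*t^(7:ℕ) + (-273/16)*t^(8:ℕ) + 8*t^(9:ℕ) + (-12)*t^(10:ℕ) + 8*t^(11:ℕ)) + (2187/10000000)*((-15/2)*t^(4:ℕ) + (91/4)*t^(5:ℕ)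 + (-129/4)*t^(6:ℕ) + (91/4)*t^(7:ℕ) + (-15/2)*t^(8:ℕ)) + (6561/100000000)*((-1)*t^(4:ℕ) + 3*t^(5:ℕ) + (-17/4)*t^(6:ℕ) + 3*t^(7:ℕ) + (-1)*t^(8:ℕ)) - (3929/1000) := by
  have e : 1*(1 + 1*t + 5*t^(2:ℕ) + 5*t^(3:ℕ) + 10*t^(4:ℕ) + 10*t^(5:ℕ) + 10*t^(6:ℕ) + 10*t^(7:ℕ) + 5*t^(8:ℕ) + 5*t^(9:ℕ) + 1*t^(10:ℕ) + 1*t^(11:ℕ)) + (3/10)*((9/2) + (5/2)*t + (67/2)*t^(2:ℕ) + (53/2)*t^(3:ℕ) + 93*t^(4:ℕ) + 40*t^(5:ℕ) + 94*t^(6:ℕ) + 13*t^(7:ℕ) + (73/2)*t^(8:ℕ) + (-1/2)*t^(9:ℕ) + (13/2)*t^(10:ℕ) + (5/2)*t^(11:ℕ)) + (9/100)*(1 + (-1)*t + 47*t^(2:ℕ) + (113/2)*t^(3:ℕ) + (429/2)*t^(4:ℕ) + (81/2)*t^(5:ℕ) + (387/2)*t^(6:ℕ) + (-157/2)*t^(7:ℕ) + (53/2)*t^(8:ℕ) + (-139/2)*t^(9:ℕ) + (3/2)*t^(10:ℕ)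 + (-8)*t^(11:ℕ)) + (27/1000)*((181/4)*t^(2:ℕ) + (-81/4)*t^(3:ℕ) + (987/4)*t^(4:ℕ) + (-121)*t^(5:ℕ) + (387/2)*t^(6:ℕ) + (-447/4)*t^(7:ℕ) + (-113/4)*t^(8:ℕ) + (-39/2)*t^(9:ℕ) + (-81/4)*t^(10:ℕ) + (-17/2)*t^(11:ℕ)) + (81/10000)*((83/2)*t^(2:ℕ) + (-237/4)*t^(3:ℕ) + 137*t^(4:ℕ) + (-531/4)*t^(5:ℕ) + (329/4)*t^(6:ℕ) + (-155/4)*t^(7:ℕ) + (-39)*t^(8:ℕ) + (147/4)*t^(9:ℕ) + (-56)*t^(10:ℕ) + 2*t^(11:ℕ)) + (243/100000)*(14*t^(2:ℕ) + (-18)*t^(3:ℕ) + (69/4)*t^(4:ℕ) + (5/2)*t^(5:ℕ) + (-143/4)*t^(6:ℕ) + (67/2)*t^(7:ℕ) + (-91/4)*t^(8:ℕ) + 31*t^(9:ℕ) + (-47)*t^(10:ℕ) + 18*t^(11:ℕ)) + (729/1000000)*((-273/16)*t^(4:ℕ) + (405/8)*t^(5:ℕ) + (-1147/16)*t^(6:ℕ) + (405/8)*t^(7:ℕ) + (-273/16)*t^(8:ℕ)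 + 8*t^(9:ℕ) + (-12)*t^(10:ℕ) + 8*t^(11:ℕ)) + (2187/10000000)*((-15/2)*t^(4:ℕ) + (91/4)*t^(5:ℕ) + (-129/4)*t^(6:ℕ) + (91/4)*t^(7:ℕ) + (-15/2)*t^(8:ℕ)) + (6561/100000000)*((-1)*t^(4:ℕ) + 3*t^(5:ℕ) + (-17/4)*t^(6:ℕ) + 3*t^(7:ℕ) + (-1)*t^(8:ℕ)) - (3929/1000) = (394114376059939483/3954653486000000)*(1 - t)^(11:ℕ) + (1639614602195364437/790930697200000)*(t - (3/10))*(1 - t)^(10:ℕ) + (13726748976975524933/790930697200000)*(t - (3/10))^(2:ℕ)*(1 - t)^(9:ℕ) + (64830816956371103231/790930697200000)*(t - (3/10))^(3:ℕ)*(1 - t)^(8:ℕ) + (197078640308298401/790930697200)*(t - (3/10))^(4:ℕ)*(1 - t)^(7:ℕ) + (11729652809406641/22598019920)*(t - (3/10))^(5:ℕ)*(1 - t)^(6:ℕ) + (43059275929778041/56495049800)*(t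 - (3/10))^(6:ℕ)*(1 - t)^(5:ℕ) + (62709949004107051/79093069720)*(t - (3/10))^(7:ℕ)*(1 - t)^(4:ℕ) + (1135969708139295/1977326743)*(t - (3/10))^(8:ℕ)*(1 - t)^(3:ℕ) + (547289163303160/1977326743)*(t - (3/10))^(9:ℕ)*(1 - t)^(2:ℕ) + (158083173970800/1977326743)*(t - (3/10))^(10:ℕ)*(1 - t) + (20781194831000/1977326743)*(t - (3/10))^(11:ℕ) := by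
    ring
  rw [e]
  have a3 : 0 ≤ t - (3/10) := by linarith
  have a4 : 0 ≤ 1 - t := by linarith
  generalize t - (3/10) = t1 at a3 ⊢
  generalize 1 - t = t2 at a4 ⊢
  positivity

lemma pos_L1e_B1_id (d : ℝ) (C0 C1 C2 C3 C4 C5 C6 C7 C8 : ℝ) :
    C0 + d*C1 + d^(2:ℕ)*C2 + d^(3:ℕ)*C3 + d^(4:ℕ)*C4 + d^(5:ℕ)*C5 + d^(6:ℕ)*C6 + d^(7:ℕ)*C7 + d^(8:ℕ)*C8 = (3929/1000) + (100000000*((3/10) - d)^(8:ℕ)*(1*C0 + (1/5)*C1 + (1/25)*C2 + (1/125)*C3 + (1/625)*C4 + (1/3125)*C5 + (1/15625)*C6 + (1/78125)*C7 + (1/390625)*C8 - (3929/1000)) + 800000000*(d - (1/5))*((3/10) - d)^(7:ℕ)*(1*C0 + (17/80)*C1 + (9/200)*C2 + (19/2000)*C3 + (1/500)*C4 + (21/50000)*C5 + (11/125000)*C6 + (23/1250000)*C7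 + (3/781250)*C8 - (3929/1000)) + 2800000000*(d - (1/5))^(2:ℕ)*((3/10) - d)^(6:ℕ)*(1*C0 + (9/40)*C1 + (141/2800)*C2 + (157/14000)*C3 + (87/35000)*C4 + (12/21875)*C5 + (211/1750000)*C6 + (33/1250000)*C7 + (9/1562500)*C8 - (3929/1000)) + 5600000000*(d - (1/5))^(3:ℕ)*((3/10) - d)^(5:ℕ)*(1*C0 + (19/80)*C1 + (157/2800)*C2 + (737/56000)*C3 + (43/14000)*C4 + (499/700000)*C5 + (18/109375)*C6 + (189/5000000)*C7 + (27/3125000)*C8 - (3929/1000)) + 7000000000*(d - (1/5))^(4:ℕ)*((3/10) - d)^(4:ℕ)*(1*C0 + (1/4)*C1 + (87/1400)*C2 + (43/2800)*C3 + (2641/700000)*C4 + (129/140000)*C5 + (783/3500000)*C6 + (27/500000)*C7 + (81/6250000)*C8 - (3929/1000)) + 5600000000*(d - (1/5))^(5:ℕ)*((3/10)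 - d)^(3:ℕ)*(1*C0 + (21/80)*C1 + (12/175)*C2 + (499/28000)*C3 + (129/28000)*C4 + (6633/5600000)*C5 + (4239/14000000)*C6 + (1539/20000000)*C7 + (243/12500000)*C8 - (3929/1000)) + 2800000000*(d - (1/5))^(6:ℕ)*((3/10) - d)^(2:ℕ)*(1*C0 + (11/40)*C1 + (211/2800)*C2 + (18/875)*C3 + (783/140000)*C4 + (4239/2800000)*C5 + (11421/28000000)*C6 + (2187/20000000)*C7 + (729/25000000)*C8 - (3929/1000)) + 800000000*(d - (1/5))^(7:ℕ)*((3/10) - d)*(1*C0 + (23/80)*C1 + (33/400)*C2 + (189/8000)*C3 + (27/4000)*C4 + (1539/800000)*C5 + (2187/4000000)*C6 + (12393/80000000)*C7 + (2187/50000000)*C8 - (3929/1000)) + 100000000*(d - (1/5))^(8:ℕ)*(1*C0 + (3/10)*C1 + (9/100)*C2 + (27/1000)*C3 +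 (81/10000)*C4 + (243/100000)*C5 + (729/1000000)*C6 + (2187/10000000)*C7 + (6561/100000000)*C8 - (3929/1000))) := by
  ring

lemma pos_L1e_B1_gen (d1 d2 B0 B1 B2 B3 B4 B5 B6 B7 B8 : ℝ) (a1 : 0 ≤ d1) (a2 : 0 ≤ d2) (b0 : 0 ≤ B0) (b1 : 0 ≤ B1) (b2 : 0 ≤ B2) (b3 : 0 ≤ B3) (b4 : 0 ≤ B4) (b5 : 0 ≤ B5) (b6 : 0 ≤ B6) (b7 : 0 ≤ B7) (b8 : 0 ≤ B8) :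
    0 < (3929/1000) + (100000000*d2^(8:ℕ)*(B0) + 800000000*d1*d2^(7:ℕ)*(B1) + 2800000000*d1^(2:ℕ)*d2^(6:ℕ)*(B2) + 5600000000*d1^(3:ℕ)*d2^(5:ℕ)*(B3) + 7000000000*d1^(4:ℕ)*d2^(4:ℕ)*(B4) + 5600000000*d1^(5:ℕ)*d2^(3:ℕ)*(B5) + 2800000000*d1^(6:ℕ)*d2^(2:ℕ)*(B6) + 800000000*d1^(7:ℕ)*d2*(B7) + 100000000*d1^(8:ℕ)*(B8)) := by
  positivity

lemma pos_L1e_B1_core (d C0 C1 C2 C3 C4 C5 C6 C7 C8 : ℝ) (h1 : (1/5) ≤ d) (h2 : d ≤ (3/10))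
    (b0 : 0 ≤ 1*C0 + (1/5)*C1 + (1/25)*C2 + (1/125)*C3 + (1/625)*C4 + (1/3125)*C5 + (1/15625)*C6 + (1/78125)*C7 + (1/390625)*C8 - (3929/1000))
    (b1 : 0 ≤ 1*C0 + (17/80)*C1 + (9/200)*C2 + (19/2000)*C3 + (1/500)*C4 + (21/50000)*C5 + (11/125000)*C6 + (23/1250000)*C7 + (3/781250)*C8 - (3929/1000))
    (b2 : 0 ≤ 1*C0 + (9/40)*C1 + (141/2800)*C2 + (157/14000)*C3 + (87/35000)*C4 + (12/21875)*C5 + (211/1750000)*C6 + (33/1250000)*C7 + (9/1562500)*C8 - (3929/1000))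
    (b3 : 0 ≤ 1*C0 + (19/80)*C1 + (157/2800)*C2 + (737/56000)*C3 + (43/14000)*C4 + (499/700000)*C5 + (18/109375)*C6 + (189/5000000)*C7 + (27/3125000)*C8 - (3929/1000))
    (b4 : 0 ≤ 1*C0 + (1/4)*C1 + (87/1400)*C2 + (43/2800)*C3 + (2641/700000)*C4 + (129/140000)*C5 + (783/3500000)*C6 + (27/500000)*C7 + (81/6250000)*C8 - (3929/1000))
    (b5 : 0 ≤ 1*C0 + (21/80)*C1 + (12/175)*C2 + (499/28000)*C3 + (129/28000)*C4 + (6633/5600000)*C5 + (4239/14000000)*C6 + (1539/20000000)*C7 + (243/12500000)*C8 - (3929/1000))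
    (b6 : 0 ≤ 1*C0 + (11/40)*C1 + (211/2800)*C2 + (18/875)*C3 + (783/140000)*C4 + (4239/2800000)*C5 + (11421/28000000)*C6 + (2187/20000000)*C7 + (729/25000000)*C8 - (3929/1000))
    (b7 : 0 ≤ 1*C0 + (23/80)*C1 + (33/400)*C2 + (189/8000)*C3 + (27/4000)*C4 + (1539/800000)*C5 + (2187/4000000)*C6 + (12393/80000000)*C7 + (2187/50000000)*C8 - (3929/1000))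
    (b8 : 0 ≤ 1*C0 + (3/10)*C1 + (9/100)*C2 + (27/1000)*C3 + (81/10000)*C4 + (243/100000)*C5 + (729/1000000)*C6 + (2187/10000000)*C7 + (6561/100000000)*C8 - (3929/1000)) :
    0 < C0 + d*C1 + d^(2:ℕ)*C2 + d^(3:ℕ)*C3 + d^(4:ℕ)*C4 + d^(5:ℕ)*C5 + d^(6:ℕ)*C6 + d^(7:ℕ)*C7 + d^(8:ℕ)*C8 := by
  rw [pos_L1e_B1_id]
  exact pos_L1e_B1_gen _ _ _ _ _ _ _ _ _ _ _ (sub_nonneg.2 h1) (sub_nonneg.2 h2) b0 b1 b2 b3 b4 b5 b6 b7 b8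

lemma pos_L1e_B1 (d t : ℝ) (h1 : (1/5) ≤ d) (h2 : d ≤ (3/10)) (h3 : (3/10) ≤ t) (h4 : t ≤ 1) :
    0 < 1 + 1*t + 5*t^(2:ℕ) + 5*t^(3:ℕ) + 10*t^(4:ℕ) + 10*t^(5:ℕ) + 10*t^(6:ℕ) + 10*t^(7:ℕ) + 5*t^(8:ℕ) + 5*t^(9:ℕ) + 1*t^(10:ℕ) + 1*t^(11:ℕ) + (9/2)*d + (5/2)*d*t + (67/2)*d*t^(2:ℕ) + (53/2)*d*t^(3:ℕ) + 93*d*t^(4:ℕ) + 40*d*t^(5:ℕ) + 94*d*t^(6:ℕ) + 13*d*t^(7:ℕ) + (73/2)*d*t^(8:ℕ) + (-1/2)*d*t^(9:ℕ) + (13/2)*d*t^(10:ℕ) + (5/2)*d*t^(11:ℕ) + 1*d^(2:ℕ) + (-1)*d^(2:ℕ)*t + 47*d^(2:ℕ)*t^(2:ℕ) + (113/2)*d^(2:ℕ)*t^(3:ℕ) + (429/2)*d^(2:ℕ)*t^(4:ℕ) + (81/2)*d^(2:ℕ)*t^(5:ℕ) + (387/2)*d^(2:ℕ)*t^(6:ℕ) + (-157/2)*d^(2:ℕ)*t^(7:ℕ) + (53/2)*d^(2:ℕ)*t^(8:ℕ) + (-139/2)*d^(2:ℕ)*t^(9:ℕ) + (3/2)*d^(2:ℕ)*t^(10:ℕ)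 + (-8)*d^(2:ℕ)*t^(11:ℕ) + (181/4)*d^(3:ℕ)*t^(2:ℕ) + (-81/4)*d^(3:ℕ)*t^(3:ℕ) + (987/4)*d^(3:ℕ)*t^(4:ℕ) + (-121)*d^(3:ℕ)*t^(5:ℕ) + (387/2)*d^(3:ℕ)*t^(6:ℕ) + (-447/4)*d^(3:ℕ)*t^(7:ℕ) + (-113/4)*d^(3:ℕ)*t^(8:ℕ) + (-39/2)*d^(3:ℕ)*t^(9:ℕ) + (-81/4)*d^(3:ℕ)*t^(10:ℕ) + (-17/2)*d^(3:ℕ)*t^(11:ℕ) + (83/2)*d^(4:ℕ)*t^(2:ℕ) + (-237/4)*d^(4:ℕ)*t^(3:ℕ) + 137*d^(4:ℕ)*t^(4:ℕ) + (-531/4)*d^(4:ℕ)*t^(5:ℕ) + (329/4)*d^(4:ℕ)*t^(6:ℕ) + (-155/4)*d^(4:ℕ)*t^(7:ℕ) + (-39)*d^(4:ℕ)*t^(8:ℕ) + (147/4)*d^(4:ℕ)*t^(9:ℕ) + (-56)*d^(4:ℕ)*t^(10:ℕ) + 2*d^(4:ℕ)*t^(11:ℕ) + 14*d^(5:ℕ)*t^(2:ℕ) + (-18)*d^(5:ℕ)*t^(3:ℕ) + (69/4)*d^(5:ℕ)*t^(4:ℕ) + (5/2)*d^(5:ℕ)*t^(5:ℕ) + (-143/4)*d^(5:ℕ)*t^(6:ℕ) + (67/2)*d^(5:ℕ)*t^(7:ℕ)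 + (-91/4)*d^(5:ℕ)*t^(8:ℕ) + 31*d^(5:ℕ)*t^(9:ℕ) + (-47)*d^(5:ℕ)*t^(10:ℕ) + 18*d^(5:ℕ)*t^(11:ℕ) + (-273/16)*d^(6:ℕ)*t^(4:ℕ) + (405/8)*d^(6:ℕ)*t^(5:ℕ) + (-1147/16)*d^(6:ℕ)*t^(6:ℕ) + (405/8)*d^(6:ℕ)*t^(7:ℕ) + (-273/16)*d^(6:ℕ)*t^(8:ℕ) + 8*d^(6:ℕ)*t^(9:ℕ) + (-12)*d^(6:ℕ)*t^(10:ℕ) + 8*d^(6:ℕ)*t^(11:ℕ) + (-15/2)*d^(7:ℕ)*t^(4:ℕ) + (91/4)*d^(7:ℕ)*t^(5:ℕ) + (-129/4)*d^(7:ℕ)*t^(6:ℕ) + (91/4)*d^(7:ℕ)*t^(7:ℕ) + (-15/2)*d^(7:ℕ)*t^(8:ℕ) + (-1)*d^(8:ℕ)*t^(4:ℕ) + 3*d^(8:ℕ)*t^(5:ℕ) + (-17/4)*d^(8:ℕ)*t^(6:ℕ) + 3*d^(8:ℕ)*t^(7:ℕ) + (-1)*d^(8:ℕ)*t^(8:ℕ) := by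
  have e0 : 1 + 1*t + 5*t^(2:ℕ) + 5*t^(3:ℕ) + 10*t^(4:ℕ) + 10*t^(5:ℕ) + 10*t^(6:ℕ) + 10*t^(7:ℕ) + 5*t^(8:ℕ) + 5*t^(9:ℕ) + 1*t^(10:ℕ) + 1*t^(11:ℕ) + (9/2)*d + (5/2)*d*t + (67/2)*d*t^(2:ℕ) + (53/2)*d*t^(3:ℕ) + 93*d*t^(4:ℕ) + 40*d*t^(5:ℕ) + 94*d*t^(6:ℕ) + 13*d*t^(7:ℕ) + (73/2)*d*t^(8:ℕ) + (-1/2)*d*t^(9:ℕ) + (13/2)*d*t^(10:ℕ) + (5/2)*d*t^(11:ℕ) + 1*d^(2:ℕ) + (-1)*d^(2:ℕ)*t + 47*d^(2:ℕ)*t^(2:ℕ) + (113/2)*d^(2:ℕ)*t^(3:ℕ) + (429/2)*d^(2:ℕ)*t^(4:ℕ) + (81/2)*d^(2:ℕ)*t^(5:ℕ) + (387/2)*d^(2:ℕ)*t^(6:ℕ) + (-157/2)*d^(2:ℕ)*t^(7:ℕ) + (53/2)*d^(2:ℕ)*t^(8:ℕ) + (-139/2)*d^(2:ℕ)*t^(9:ℕ) + (3/2)*d^(2:ℕ)*t^(10:ℕ) + (-8)*d^(2:ℕ)*t^(11:ℕ) + (181/4)*d^(3:ℕ)*t^(2:ℕ) + (-81/4)*d^(3:ℕ)*t^(3:ℕ)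 + (987/4)*d^(3:ℕ)*t^(4:ℕ) + (-121)*d^(3:ℕ)*t^(5:ℕ) + (387/2)*d^(3:ℕ)*t^(6:ℕ) + (-447/4)*d^(3:ℕ)*t^(7:ℕ) + (-113/4)*d^(3:ℕ)*t^(8:ℕ) + (-39/2)*d^(3:ℕ)*t^(9:ℕ) + (-81/4)*d^(3:ℕ)*t^(10:ℕ) + (-17/2)*d^(3:ℕ)*t^(11:ℕ) + (83/2)*d^(4:ℕ)*t^(2:ℕ) + (-237/4)*d^(4:ℕ)*t^(3:ℕ) + 137*d^(4:ℕ)*t^(4:ℕ) + (-531/4)*d^(4:ℕ)*t^(5:ℕ) + (329/4)*d^(4:ℕ)*t^(6:ℕ) + (-155/4)*d^(4:ℕ)*t^(7:ℕ) + (-39)*d^(4:ℕ)*t^(8:ℕ) + (147/4)*d^(4:ℕ)*t^(9:ℕ) + (-56)*d^(4:ℕ)*t^(10:ℕ) + 2*d^(4:ℕ)*t^(11:ℕ) + 14*d^(5:ℕ)*t^(2:ℕ) + (-18)*d^(5:ℕ)*t^(3:ℕ) + (69/4)*d^(5:ℕ)*t^(4:ℕ) + (5/2)*d^(5:ℕ)*t^(5:ℕ) + (-143/4)*d^(5:ℕ)*t^(6:ℕ) + (67/2)*d^(5:ℕ)*t^(7:ℕ) + (-91/4)*d^(5:ℕ)*t^(8:ℕ) + 31*d^(5:ℕ)*t^(9:ℕ) + (-47)*d^(5:ℕ)*t^(10:ℕ)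 + 18*d^(5:ℕ)*t^(11:ℕ) + (-273/16)*d^(6:ℕ)*t^(4:ℕ) + (405/8)*d^(6:ℕ)*t^(5:ℕ) + (-1147/16)*d^(6:ℕ)*t^(6:ℕ) + (405/8)*d^(6:ℕ)*t^(7:ℕ) + (-273/16)*d^(6:ℕ)*t^(8:ℕ) + 8*d^(6:ℕ)*t^(9:ℕ) + (-12)*d^(6:ℕ)*t^(10:ℕ) + 8*d^(6:ℕ)*t^(11:ℕ) + (-15/2)*d^(7:ℕ)*t^(4:ℕ) + (91/4)*d^(7:ℕ)*t^(5:ℕ) + (-129/4)*d^(7:ℕ)*t^(6:ℕ) + (91/4)*d^(7:ℕ)*t^(7:ℕ) + (-15/2)*d^(7:ℕ)*t^(8:ℕ) + (-1)*d^(8:ℕ)*t^(4:ℕ) + 3*d^(8:ℕ)*t^(5:ℕ) + (-17/4)*d^(8:ℕ)*t^(6:ℕ) + 3*d^(8:ℕ)*t^(7:ℕ) + (-1)*d^(8:ℕ)*t^(8:ℕ) = (1 + 1*t + 5*t^(2:ℕ) + 5*t^(3:ℕ) + 10*t^(4:ℕ) + 10*t^(5:ℕ) + 10*t^(6:ℕ) + 10*t^(7:ℕ) + 5*t^(8:ℕ) + 5*t^(9:ℕ) + 1*t^(10:ℕ) + 1*t^(11:ℕ)) + d*((9/2) + (5/2)*t + (67/2)*t^(2:ℕ) + (53/2)*t^(3:ℕ) + 93*t^(4:ℕ)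 + 40*t^(5:ℕ) + 94*t^(6:ℕ) + 13*t^(7:ℕ) + (73/2)*t^(8:ℕ) + (-1/2)*t^(9:ℕ) + (13/2)*t^(10:ℕ) + (5/2)*t^(11:ℕ)) + d^(2:ℕ)*(1 + (-1)*t + 47*t^(2:ℕ) + (113/2)*t^(3:ℕ) + (429/2)*t^(4:ℕ) + (81/2)*t^(5:ℕ) + (387/2)*t^(6:ℕ) + (-157/2)*t^(7:ℕ) + (53/2)*t^(8:ℕ) + (-139/2)*t^(9:ℕ) + (3/2)*t^(10:ℕ) + (-8)*t^(11:ℕ)) + d^(3:ℕ)*((181/4)*t^(2:ℕ) + (-81/4)*t^(3:ℕ) + (987/4)*t^(4:ℕ) + (-121)*t^(5:ℕ) + (387/2)*t^(6:ℕ) + (-447/4)*t^(7:ℕ) + (-113/4)*t^(8:ℕ) + (-39/2)*t^(9:ℕ) + (-81/4)*t^(10:ℕ) + (-17/2)*t^(11:ℕ)) + d^(4:ℕ)*((83/2)*t^(2:ℕ) + (-237/4)*t^(3:ℕ) + 137*t^(4:ℕ) + (-531/4)*t^(5:ℕ) + (329/4)*t^(6:ℕ) + (-155/4)*t^(7:ℕ) + (-39)*t^(8:ℕ) + (147/4)*t^(9:ℕ) + (-56)*t^(10:ℕ) + 2*t^(11:ℕ))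 + d^(5:ℕ)*(14*t^(2:ℕ) + (-18)*t^(3:ℕ) + (69/4)*t^(4:ℕ) + (5/2)*t^(5:ℕ) + (-143/4)*t^(6:ℕ) + (67/2)*t^(7:ℕ) + (-91/4)*t^(8:ℕ) + 31*t^(9:ℕ) + (-47)*t^(10:ℕ) + 18*t^(11:ℕ)) + d^(6:ℕ)*((-273/16)*t^(4:ℕ) + (405/8)*t^(5:ℕ) + (-1147/16)*t^(6:ℕ) + (405/8)*t^(7:ℕ) + (-273/16)*t^(8:ℕ) + 8*t^(9:ℕ) + (-12)*t^(10:ℕ) + 8*t^(11:ℕ)) + d^(7:ℕ)*((-15/2)*t^(4:ℕ) + (91/4)*t^(5:ℕ) + (-129/4)*t^(6:ℕ) + (91/4)*t^(7:ℕ) + (-15/2)*t^(8:ℕ)) + d^(8:ℕ)*((-1)*t^(4:ℕ) + 3*t^(5:ℕ) + (-17/4)*t^(6:ℕ) + 3*t^(7:ℕ) + (-1)*t^(8:ℕ)) := by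
    ring
  rw [e0]
  exact pos_L1e_B1_core d _ _ _ _ _ _ _ _ _ h1 h2 (pos_L1e_B1_b0 t h3 h4) (pos_L1e_B1_b1 t h3 h4) (pos_L1e_B1_b2 t h3 h4) (pos_L1e_B1_b3 t h3 h4) (pos_L1e_B1_b4 t h3 h4) (pos_L1e_B1_b5 t h3 h4) (pos_L1e_B1_b6 t h3 h4) (pos_L1e_B1_b7 t h3 h4) (pos_L1e_B1_b8 t h3 h4)

lemma pos_L2e_B1_b0 (t : ℝ) (h3 : (3/10) ≤ t) (h4 : t ≤ 1) :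
    0 ≤ 1*(1 + (13/2)*t^(2:ℕ) + 16*t^(4:ℕ) + 19*t^(6:ℕ) + 11*t^(8:ℕ) + (5/2)*t^(10:ℕ)) + (1/5)*((5/2) + (-1/2)*t + 8*t^(2:ℕ) + (5/2)*t^(3:ℕ) + 50*t^(4:ℕ) + 25*t^(5:ℕ) + 100*t^(6:ℕ) + 20*t^(7:ℕ) + (139/2)*t^(8:ℕ) + (-13/2)*t^(9:ℕ) + 14*t^(10:ℕ) + (-9/2)*t^(11:ℕ)) + (1/25)*((-7) + (-37/4)*t + (-469/8)*t^(2:ℕ) + (-159/4)*t^(3:ℕ) + (-14)*t^(4:ℕ) + 40*t^(5:ℕ) + (691/4)*t^(6:ℕ) + 32*t^(7:ℕ) + 166*t^(8:ℕ) + (-275/4)*t^(9:ℕ) + (247/8)*t^(10:ℕ) + (-121/4)*t^(11:ℕ)) + (1/125)*((-4) + (-4)*t + (-20)*t^(2:ℕ) + (-56)*t^(3:ℕ) + (-67)*t^(4:ℕ) + (165/4)*t^(5:ℕ) + (125/4)*t^(6:ℕ) + 35*t^(7:ℕ) + (251/2)*t^(8:ℕ) + (-455/4)*t^(9:ℕ) + (173/4)*t^(10:ℕ) + (-111/2)*t^(11:ℕ)) + (1/625)*((83/4)*t^(2:ℕ)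 + (-5/4)*t^(3:ℕ) + (-51/4)*t^(4:ℕ) + (-21/4)*t^(5:ℕ) + (-27/4)*t^(6:ℕ) + (25/4)*t^(7:ℕ) + (243/4)*t^(8:ℕ) + (-70)*t^(9:ℕ) + 34*t^(10:ℕ) + (-50)*t^(11:ℕ)) + (1/3125)*((-8)*t^(2:ℕ) + (119/4)*t^(3:ℕ) + 1*t^(4:ℕ) + (-18)*t^(5:ℕ) + (11/2)*t^(6:ℕ) + (23/4)*t^(7:ℕ) + (39/2)*t^(8:ℕ) + (-115/4)*t^(9:ℕ) + 23*t^(10:ℕ) + (-19)*t^(11:ℕ)) + (1/15625)*((-8)*t^(2:ℕ) + (167/16)*t^(3:ℕ) + (-3)*t^(4:ℕ) + (1/8)*t^(5:ℕ) + (-127/8)*t^(6:ℕ) + (315/16)*t^(7:ℕ) + (31/8)*t^(8:ℕ) + (-445/16)*t^(9:ℕ) + (99/4)*t^(10:ℕ) + (-33/4)*t^(11:ℕ)) + (1/78125)*((5/2)*t^(5:ℕ) + (-31/4)*t^(6:ℕ) + 6*t^(7:ℕ) + (29/4)*t^(8:ℕ) + (-75/4)*t^(9:ℕ) + 15*t^(10:ℕ) + (-5)*t^(11:ℕ)) + (1/390625)*((-1)*t^(7:ℕ) + 3*t^(8:ℕ)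 + (-17/4)*t^(9:ℕ) + 3*t^(10:ℕ) + (-1)*t^(11:ℕ)) - (1051/1000) := by
  have e : 1*(1 + (13/2)*t^(2:ℕ) + 16*t^(4:ℕ) + 19*t^(6:ℕ) + 11*t^(8:ℕ) + (5/2)*t^(10:ℕ)) + (1/5)*((5/2) + (-1/2)*t + 8*t^(2:ℕ) + (5/2)*t^(3:ℕ) + 50*t^(4:ℕ) + 25*t^(5:ℕ) + 100*t^(6:ℕ) + 20*t^(7:ℕ) + (139/2)*t^(8:ℕ) + (-13/2)*t^(9:ℕ) + 14*t^(10:ℕ) + (-9/2)*t^(11:ℕ)) + (1/25)*((-7) + (-37/4)*t + (-469/8)*t^(2:ℕ) + (-159/4)*t^(3:ℕ) + (-14)*t^(4:ℕ) + 40*t^(5:ℕ) + (691/4)*t^(6:ℕ) + 32*t^(7:ℕ) + 166*t^(8:ℕ) + (-275/4)*t^(9:ℕ) + (247/8)*t^(10:ℕ) + (-121/4)*t^(11:ℕ)) + (1/125)*((-4) + (-4)*t + (-20)*t^(2:ℕ) + (-56)*t^(3:ℕ) + (-67)*t^(4:ℕ) + (165/4)*t^(5:ℕ) + (125/4)*t^(6:ℕ) + 35*t^(7:ℕ) + (251/2)*t^(8:ℕ)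 + (-455/4)*t^(9:ℕ) + (173/4)*t^(10:ℕ) + (-111/2)*t^(11:ℕ)) + (1/625)*((83/4)*t^(2:ℕ) + (-5/4)*t^(3:ℕ) + (-51/4)*t^(4:ℕ) + (-21/4)*t^(5:ℕ) + (-27/4)*t^(6:ℕ) + (25/4)*t^(7:ℕ) + (243/4)*t^(8:ℕ) + (-70)*t^(9:ℕ) + 34*t^(10:ℕ) + (-50)*t^(11:ℕ)) + (1/3125)*((-8)*t^(2:ℕ) + (119/4)*t^(3:ℕ) + 1*t^(4:ℕ) + (-18)*t^(5:ℕ) + (11/2)*t^(6:ℕ) + (23/4)*t^(7:ℕ) + (39/2)*t^(8:ℕ) + (-115/4)*t^(9:ℕ) + 23*t^(10:ℕ) + (-19)*t^(11:ℕ)) + (1/15625)*((-8)*t^(2:ℕ) + (167/16)*t^(3:ℕ) + (-3)*t^(4:ℕ) + (1/8)*t^(5:ℕ) + (-127/8)*t^(6:ℕ) + (315/16)*t^(7:ℕ) + (31/8)*t^(8:ℕ) + (-445/16)*t^(9:ℕ) + (99/4)*t^(10:ℕ) + (-33/4)*t^(11:ℕ)) + (1/78125)*((5/2)*t^(5:ℕ) + (-31/4)*t^(6:ℕ) + 6*t^(7:ℕ) + (29/4)*t^(8:ℕ)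 + (-75/4)*t^(9:ℕ) + 15*t^(10:ℕ) + (-5)*t^(11:ℕ)) + (1/390625)*((-1)*t^(7:ℕ) + 3*t^(8:ℕ) + (-17/4)*t^(9:ℕ) + 3*t^(10:ℕ) + (-1)*t^(11:ℕ)) - (1051/1000) = (55207872530817421/1544786517968750)*(1 - t)^(11:ℕ) + (378193627286595399/617914607187500)*(t - (3/10))*(1 - t)^(10:ℕ) + (593368442191880781/123582921437500)*(t - (3/10))^(2:ℕ)*(1 - t)^(9:ℕ) + (280539194442636611/12358292143750)*(t - (3/10))^(3:ℕ)*(1 - t)^(8:ℕ) + (17764174412513933/247165842875)*(t - (3/10))^(4:ℕ)*(1 - t)^(7:ℕ) + (5650988862661122/35309406125)*(t - (3/10))^(5:ℕ)*(1 - t)^(6:ℕ) + (1806057152043868/7061881225)*(t - (3/10))^(6:ℕ)*(1 - t)^(5:ℕ) + (2898332051868536/9886633715)*(t - (3/10))^(7:ℕ)*(1 - t)^(4:ℕ)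 + (466758159296192/1977326743)*(t - (3/10))^(8:ℕ)*(1 - t)^(3:ℕ) + (251188892510400/1977326743)*(t - (3/10))^(9:ℕ)*(1 - t)^(2:ℕ) + (81192410043200/1977326743)*(t - (3/10))^(10:ℕ)*(1 - t) + (11912136976000/1977326743)*(t - (3/10))^(11:ℕ) := by
    ring
  rw [e]
  have a3 : 0 ≤ t - (3/10) := by linarith
  have a4 : 0 ≤ 1 - t := by linarith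
  generalize t - (3/10) = t1 at a3 ⊢
  generalize 1 - t = t2 at a4 ⊢
  positivity

lemma pos_L2e_B1_b1 (t : ℝ) (h3 : (3/10) ≤ t) (h4 : t ≤ 1) :
    0 ≤ 1*(1 + (13/2)*t^(2:ℕ) + 16*t^(4:ℕ) + 19*t^(6:ℕ) + 11*t^(8:ℕ) + (5/2)*t^(10:ℕ)) + (17/80)*((5/2) + (-1/2)*t + 8*t^(2:ℕ) + (5/2)*t^(3:ℕ) + 50*t^(4:ℕ) + 25*t^(5:ℕ) + 100*t^(6:ℕ) + 20*t^(7:ℕ) + (139/2)*t^(8:ℕ) + (-13/2)*t^(9:ℕ) + 14*t^(10:ℕ) + (-9/2)*t^(11:ℕ)) + (9/200)*((-7) + (-37/4)*t + (-469/8)*t^(2:ℕ) + (-159/4)*t^(3:ℕ) + (-14)*t^(4:ℕ) + 40*t^(5:ℕ) + (691/4)*t^(6:ℕ) + 32*t^(7:ℕ) + 166*t^(8:ℕ) + (-275/4)*t^(9:ℕ) + (247/8)*t^(10:ℕ) + (-121/4)*t^(11:ℕ)) + (19/2000)*((-4) + (-4)*t + (-20)*t^(2:ℕ) + (-56)*t^(3:ℕ) + (-67)*t^(4:ℕ)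 + (165/4)*t^(5:ℕ) + (125/4)*t^(6:ℕ) + 35*t^(7:ℕ) + (251/2)*t^(8:ℕ) + (-455/4)*t^(9:ℕ) + (173/4)*t^(10:ℕ) + (-111/2)*t^(11:ℕ)) + (1/500)*((83/4)*t^(2:ℕ) + (-5/4)*t^(3:ℕ) + (-51/4)*t^(4:ℕ) + (-21/4)*t^(5:ℕ) + (-27/4)*t^(6:ℕ) + (25/4)*t^(7:ℕ) + (243/4)*t^(8:ℕ) + (-70)*t^(9:ℕ) + 34*t^(10:ℕ) + (-50)*t^(11:ℕ)) + (21/50000)*((-8)*t^(2:ℕ) + (119/4)*t^(3:ℕ) + 1*t^(4:ℕ) + (-18)*t^(5:ℕ) + (11/2)*t^(6:ℕ) + (23/4)*t^(7:ℕ) + (39/2)*t^(8:ℕ) + (-115/4)*t^(9:ℕ) + 23*t^(10:ℕ) + (-19)*t^(11:ℕ)) + (11/125000)*((-8)*t^(2:ℕ) + (167/16)*t^(3:ℕ) + (-3)*t^(4:ℕ) + (1/8)*t^(5:ℕ) + (-127/8)*t^(6:ℕ) + (315/16)*t^(7:ℕ) + (31/8)*t^(8:ℕ) + (-445/16)*t^(9:ℕ) + (99/4)*t^(10:ℕ) + (-33/4)*t^(11:ℕ))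 + (23/1250000)*((5/2)*t^(5:ℕ) + (-31/4)*t^(6:ℕ) + 6*t^(7:ℕ) + (29/4)*t^(8:ℕ) + (-75/4)*t^(9:ℕ) + 15*t^(10:ℕ) + (-5)*t^(11:ℕ)) + (3/781250)*((-1)*t^(7:ℕ) + 3*t^(8:ℕ) + (-17/4)*t^(9:ℕ) + 3*t^(10:ℕ) + (-1)*t^(11:ℕ)) - (1051/1000) := by
  have e : 1*(1 + (13/2)*t^(2:ℕ) + 16*t^(4:ℕ) + 19*t^(6:ℕ) + 11*t^(8:ℕ) + (5/2)*t^(10:ℕ)) + (17/80)*((5/2) + (-1/2)*t + 8*t^(2:ℕ) + (5/2)*t^(3:ℕ) + 50*t^(4:ℕ) + 25*t^(5:ℕ) + 100*t^(6:ℕ) + 20*t^(7:ℕ) + (139/2)*t^(8:ℕ) + (-13/2)*t^(9:ℕ) + 14*t^(10:ℕ) + (-9/2)*t^(11:ℕ)) + (9/200)*((-7) + (-37/4)*t + (-469/8)*t^(2:ℕ) + (-159/4)*t^(3:ℕ) + (-14)*t^(4:ℕ) + 40*t^(5:ℕ) + (691/4)*t^(6:ℕ) + 32*t^(7:ℕ) + 166*t^(8:ℕ) + (-275/4)*t^(9:ℕ) + (247/8)*t^(10:ℕ)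 + (-121/4)*t^(11:ℕ)) + (19/2000)*((-4) + (-4)*t + (-20)*t^(2:ℕ) + (-56)*t^(3:ℕ) + (-67)*t^(4:ℕ) + (165/4)*t^(5:ℕ) + (125/4)*t^(6:ℕ) + 35*t^(7:ℕ) + (251/2)*t^(8:ℕ) + (-455/4)*t^(9:ℕ) + (173/4)*t^(10:ℕ) + (-111/2)*t^(11:ℕ)) + (1/500)*((83/4)*t^(2:ℕ) + (-5/4)*t^(3:ℕ) + (-51/4)*t^(4:ℕ) + (-21/4)*t^(5:ℕ) + (-27/4)*t^(6:ℕ) + (25/4)*t^(7:ℕ) + (243/4)*t^(8:ℕ) + (-70)*t^(9:ℕ) + 34*t^(10:ℕ) + (-50)*t^(11:ℕ)) + (21/50000)*((-8)*t^(2:ℕ) + (119/4)*t^(3:ℕ) + 1*t^(4:ℕ) + (-18)*t^(5:ℕ) + (11/2)*t^(6:ℕ) + (23/4)*t^(7:ℕ) + (39/2)*t^(8:ℕ) + (-115/4)*t^(9:ℕ) + 23*t^(10:ℕ) + (-19)*t^(11:ℕ)) + (11/125000)*((-8)*t^(2:ℕ) + (167/16)*t^(3:ℕ) + (-3)*t^(4:ℕ) + (1/8)*t^(5:ℕ) + (-127/8)*t^(6:ℕ)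 + (315/16)*t^(7:ℕ) + (31/8)*t^(8:ℕ) + (-445/16)*t^(9:ℕ) + (99/4)*t^(10:ℕ) + (-33/4)*t^(11:ℕ)) + (23/1250000)*((5/2)*t^(5:ℕ) + (-31/4)*t^(6:ℕ) + 6*t^(7:ℕ) + (29/4)*t^(8:ℕ) + (-75/4)*t^(9:ℕ) + 15*t^(10:ℕ) + (-5)*t^(11:ℕ)) + (3/781250)*((-1)*t^(7:ℕ) + 3*t^(8:ℕ) + (-17/4)*t^(9:ℕ) + 3*t^(10:ℕ) + (-1)*t^(11:ℕ)) - (1051/1000) = (825046502631198979/24716584287500000)*(1 - t)^(11:ℕ) + (89739780769977759/154478651796875)*(t - (3/10))*(1 - t)^(10:ℕ) + (4574221001686965297/988663371500000)*(t - (3/10))^(2:ℕ)*(1 - t)^(9:ℕ) + (2192881016639110067/98866337150000)*(t - (3/10))^(3:ℕ)*(1 - t)^(8:ℕ) + (140607294627217377/1977326743000)*(t - (3/10))^(4:ℕ)*(1 - t)^(7:ℕ) + (22614172440435777/141237624500)*(t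 - (3/10))^(5:ℕ)*(1 - t)^(6:ℕ) + (3648780536275249/14123762450)*(t - (3/10))^(6:ℕ)*(1 - t)^(5:ℕ) + (2951840758741429/9886633715)*(t - (3/10))^(7:ℕ)*(1 - t)^(4:ℕ) + (478606357345728/1977326743)*(t - (3/10))^(8:ℕ)*(1 - t)^(3:ℕ) + (258957524218800/1977326743)*(t - (3/10))^(9:ℕ)*(1 - t)^(2:ℕ) + (84040511295800/1977326743)*(t - (3/10))^(10:ℕ)*(1 - t) + (12361664274000/1977326743)*(t - (3/10))^(11:ℕ) := by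
    ring
  rw [e]
  have a3 : 0 ≤ t - (3/10) := by linarith
  have a4 : 0 ≤ 1 - t := by linarith
  generalize t - (3/10) = t1 at a3 ⊢
  generalize 1 - t = t2 at a4 ⊢
  positivity

lemma pos_L2e_B1_b2 (t : ℝ) (h3 : (3/10) ≤ t) (h4 : t ≤ 1) :
    0 ≤ 1*(1 + (13/2)*t^(2:ℕ) + 16*t^(4:ℕ) + 19*t^(6:ℕ) + 11*t^(8:ℕ) + (5/2)*t^(10:ℕ)) + (9/40)*((5/2) + (-1/2)*t + 8*t^(2:ℕ) + (5/2)*t^(3:ℕ) + 50*t^(4:ℕ) + 25*t^(5:ℕ) + 100*t^(6:ℕ) + 20*t^(7:ℕ) + (139/2)*t^(8:ℕ) + (-13/2)*t^(9:ℕ) + 14*t^(10:ℕ) + (-9/2)*t^(11:ℕ)) + (141/2800)*((-7) + (-37/4)*t + (-469/8)*t^(2:ℕ) + (-159/4)*t^(3:ℕ) + (-14)*t^(4:ℕ) + 40*t^(5:ℕ) + (691/4)*t^(6:ℕ) + 32*t^(7:ℕ) + 166*t^(8:ℕ) + (-275/4)*t^(9:ℕ) + (247/8)*t^(10:ℕ)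 + (-121/4)*t^(11:ℕ)) + (157/14000)*((-4) + (-4)*t + (-20)*t^(2:ℕ) + (-56)*t^(3:ℕ) + (-67)*t^(4:ℕ) + (165/4)*t^(5:ℕ) + (125/4)*t^(6:ℕ) + 35*t^(7:ℕ) + (251/2)*t^(8:ℕ) + (-455/4)*t^(9:ℕ) + (173/4)*t^(10:ℕ) + (-111/2)*t^(11:ℕ)) + (87/35000)*((83/4)*t^(2:ℕ) + (-5/4)*t^(3:ℕ) + (-51/4)*t^(4:ℕ) + (-21/4)*t^(5:ℕ) + (-27/4)*t^(6:ℕ) + (25/4)*t^(7:ℕ) + (243/4)*t^(8:ℕ) + (-70)*t^(9:ℕ) + 34*t^(10:ℕ) + (-50)*t^(11:ℕ)) + (12/21875)*((-8)*t^(2:ℕ) + (119/4)*t^(3:ℕ) + 1*t^(4:ℕ) + (-18)*t^(5:ℕ) + (11/2)*t^(6:ℕ) + (23/4)*t^(7:ℕ) + (39/2)*t^(8:ℕ) + (-115/4)*t^(9:ℕ) + 23*t^(10:ℕ) + (-19)*t^(11:ℕ)) + (211/1750000)*((-8)*t^(2:ℕ) + (167/16)*t^(3:ℕ) + (-3)*t^(4:ℕ) + (1/8)*t^(5:ℕ) + (-127/8)*t^(6:ℕ)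 + (315/16)*t^(7:ℕ) + (31/8)*t^(8:ℕ) + (-445/16)*t^(9:ℕ) + (99/4)*t^(10:ℕ) + (-33/4)*t^(11:ℕ)) + (33/1250000)*((5/2)*t^(5:ℕ) + (-31/4)*t^(6:ℕ) + 6*t^(7:ℕ) + (29/4)*t^(8:ℕ) + (-75/4)*t^(9:ℕ) + 15*t^(10:ℕ) + (-5)*t^(11:ℕ)) + (9/1562500)*((-1)*t^(7:ℕ) + 3*t^(8:ℕ) + (-17/4)*t^(9:ℕ) + 3*t^(10:ℕ) + (-1)*t^(11:ℕ)) - (1051/1000) := by
  have e : 1*(1 + (13/2)*t^(2:ℕ) + 16*t^(4:ℕ) + 19*t^(6:ℕ) + 11*t^(8:ℕ) + (5/2)*t^(10:ℕ)) + (9/40)*((5/2) + (-1/2)*t + 8*t^(2:ℕ) + (5/2)*t^(3:ℕ) + 50*t^(4:ℕ) + 25*t^(5:ℕ) + 100*t^(6:ℕ) + 20*t^(7:ℕ) + (139/2)*t^(8:ℕ) + (-13/2)*t^(9:ℕ) + 14*t^(10:ℕ) + (-9/2)*t^(11:ℕ)) + (141/2800)*((-7) + (-37/4)*t + (-469/8)*t^(2:ℕ) + (-159/4)*t^(3:ℕ) + (-14)*t^(4:ℕ)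 + 40*t^(5:ℕ) + (691/4)*t^(6:ℕ) + 32*t^(7:ℕ) + 166*t^(8:ℕ) + (-275/4)*t^(9:ℕ) + (247/8)*t^(10:ℕ) + (-121/4)*t^(11:ℕ)) + (157/14000)*((-4) + (-4)*t + (-20)*t^(2:ℕ) + (-56)*t^(3:ℕ) + (-67)*t^(4:ℕ) + (165/4)*t^(5:ℕ) + (125/4)*t^(6:ℕ) + 35*t^(7:ℕ) + (251/2)*t^(8:ℕ) + (-455/4)*t^(9:ℕ) + (173/4)*t^(10:ℕ) + (-111/2)*t^(11:ℕ)) + (87/35000)*((83/4)*t^(2:ℕ) + (-5/4)*t^(3:ℕ) + (-51/4)*t^(4:ℕ) + (-21/4)*t^(5:ℕ) + (-27/4)*t^(6:ℕ) + (25/4)*t^(7:ℕ) + (243/4)*t^(8:ℕ) + (-70)*t^(9:ℕ) + 34*t^(10:ℕ) + (-50)*t^(11:ℕ)) + (12/21875)*((-8)*t^(2:ℕ) + (119/4)*t^(3:ℕ) + 1*t^(4:ℕ) + (-18)*t^(5:ℕ) + (11/2)*t^(6:ℕ) + (23/4)*t^(7:ℕ) + (39/2)*t^(8:ℕ) + (-115/4)*t^(9:ℕ) + 23*t^(10:ℕ) + (-19)*t^(11:ℕ))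 + (211/1750000)*((-8)*t^(2:ℕ) + (167/16)*t^(3:ℕ) + (-3)*t^(4:ℕ) + (1/8)*t^(5:ℕ) + (-127/8)*t^(6:ℕ) + (315/16)*t^(7:ℕ) + (31/8)*t^(8:ℕ) + (-445/16)*t^(9:ℕ) + (99/4)*t^(10:ℕ) + (-33/4)*t^(11:ℕ)) + (33/1250000)*((5/2)*t^(5:ℕ) + (-31/4)*t^(6:ℕ) + 6*t^(7:ℕ) + (29/4)*t^(8:ℕ) + (-75/4)*t^(9:ℕ) + 15*t^(10:ℕ) + (-5)*t^(11:ℕ)) + (9/1562500)*((-1)*t^(7:ℕ) + 3*t^(8:ℕ) + (-17/4)*t^(9:ℕ) + 3*t^(10:ℕ) + (-1)*t^(11:ℕ)) - (1051/1000) = (23669286343042033/772393258984375)*(1 - t)^(11:ℕ) + (769369150682353227/1412376245000000)*(t - (3/10))*(1 - t)^(10:ℕ) + (8742104764102763041/1977326743000000)*(t - (3/10))^(2:ℕ)*(1 - t)^(9:ℕ) + (4260842685551207431/197732674300000)*(t - (3/10))^(3:ℕ)*(1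 - t)^(8:ℕ) + (277158238625470529/3954653486000)*(t - (3/10))^(4:ℕ)*(1 - t)^(7:ℕ) + (45129602717538041/282475249000)*(t - (3/10))^(5:ℕ)*(1 - t)^(6:ℕ) + (7358134912325207/28247524900)*(t - (3/10))^(6:ℕ)*(1 - t)^(5:ℕ) + (6004659395772687/19773267430)*(t - (3/10))^(7:ℕ)*(1 - t)^(4:ℕ) + (70034900578436/282475249)*(t - (3/10))^(8:ℕ)*(1 - t)^(3:ℕ) + (266729842513500/1977326743)*(t - (3/10))^(9:ℕ)*(1 - t)^(2:ℕ) + (86917203557700/1977326743)*(t - (3/10))^(10:ℕ)*(1 - t) + (12817710751000/1977326743)*(t - (3/10))^(11:ℕ) := by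
    ring
  rw [e]
  have a3 : 0 ≤ t - (3/10) := by linarith
  have a4 : 0 ≤ 1 - t := by linarith
  generalize t - (3/10) = t1 at a3 ⊢
  generalize 1 - t = t2 at a4 ⊢
  positivity

lemma pos_L2e_B1_b3 (t : ℝ) (h3 : (3/10) ≤ t) (h4 : t ≤ 1) :
    0 ≤ 1*(1 + (13/2)*t^(2:ℕ) + 16*t^(4:ℕ) + 19*t^(6:ℕ) + 11*t^(8:ℕ) + (5/2)*t^(10:ℕ)) + (19/80)*((5/2) + (-1/2)*t + 8*t^(2:ℕ) + (5/2)*t^(3:ℕ) + 50*t^(4:ℕ) + 25*t^(5:ℕ) + 100*t^(6:ℕ) + 20*t^(7:ℕ) + (139/2)*t^(8:ℕ) + (-13/2)*t^(9:ℕ) + 14*t^(10:ℕ) + (-9/2)*t^(11:ℕ)) + (157/2800)*((-7) + (-37/4)*t + (-469/8)*t^(2:ℕ) + (-159/4)*t^(3:ℕ) + (-14)*t^(4:ℕ) + 40*t^(5:ℕ) + (691/4)*t^(6:ℕ) + 32*t^(7:ℕ) + 166*t^(8:ℕ) + (-275/4)*t^(9:ℕ) + (247/8)*t^(10:ℕ)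 + (-121/4)*t^(11:ℕ)) + (737/56000)*((-4) + (-4)*t + (-20)*t^(2:ℕ) + (-56)*t^(3:ℕ) + (-67)*t^(4:ℕ) + (165/4)*t^(5:ℕ) + (125/4)*t^(6:ℕ) + 35*t^(7:ℕ) + (251/2)*t^(8:ℕ) + (-455/4)*t^(9:ℕ) + (173/4)*t^(10:ℕ) + (-111/2)*t^(11:ℕ)) + (43/14000)*((83/4)*t^(2:ℕ) + (-5/4)*t^(3:ℕ) + (-51/4)*t^(4:ℕ) + (-21/4)*t^(5:ℕ) + (-27/4)*t^(6:ℕ) + (25/4)*t^(7:ℕ) + (243/4)*t^(8:ℕ) + (-70)*t^(9:ℕ) + 34*t^(10:ℕ) + (-50)*t^(11:ℕ)) + (499/700000)*((-8)*t^(2:ℕ) + (119/4)*t^(3:ℕ) + 1*t^(4:ℕ) + (-18)*t^(5:ℕ) + (11/2)*t^(6:ℕ) + (23/4)*t^(7:ℕ) + (39/2)*t^(8:ℕ) + (-115/4)*t^(9:ℕ) + 23*t^(10:ℕ) + (-19)*t^(11:ℕ)) + (18/109375)*((-8)*t^(2:ℕ) + (167/16)*t^(3:ℕ) + (-3)*t^(4:ℕ) + (1/8)*t^(5:ℕ) + (-127/8)*t^(6:ℕ)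 + (315/16)*t^(7:ℕ) + (31/8)*t^(8:ℕ) + (-445/16)*t^(9:ℕ) + (99/4)*t^(10:ℕ) + (-33/4)*t^(11:ℕ)) + (189/5000000)*((5/2)*t^(5:ℕ) + (-31/4)*t^(6:ℕ) + 6*t^(7:ℕ) + (29/4)*t^(8:ℕ) + (-75/4)*t^(9:ℕ) + 15*t^(10:ℕ) + (-5)*t^(11:ℕ)) + (27/3125000)*((-1)*t^(7:ℕ) + 3*t^(8:ℕ) + (-17/4)*t^(9:ℕ) + 3*t^(10:ℕ) + (-1)*t^(11:ℕ)) - (1051/1000) := by
  have e : 1*(1 + (13/2)*t^(2:ℕ) + 16*t^(4:ℕ) + 19*t^(6:ℕ) + 11*t^(8:ℕ) + (5/2)*t^(10:ℕ)) + (19/80)*((5/2) + (-1/2)*t + 8*t^(2:ℕ) + (5/2)*t^(3:ℕ) + 50*t^(4:ℕ) + 25*t^(5:ℕ) + 100*t^(6:ℕ) + 20*t^(7:ℕ) + (139/2)*t^(8:ℕ) + (-13/2)*t^(9:ℕ) + 14*t^(10:ℕ) + (-9/2)*t^(11:ℕ)) + (157/2800)*((-7) + (-37/4)*t + (-469/8)*t^(2:ℕ) + (-159/4)*t^(3:ℕ) + (-14)*t^(4:ℕ)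 + 40*t^(5:ℕ) + (691/4)*t^(6:ℕ) + 32*t^(7:ℕ) + 166*t^(8:ℕ) + (-275/4)*t^(9:ℕ) + (247/8)*t^(10:ℕ) + (-121/4)*t^(11:ℕ)) + (737/56000)*((-4) + (-4)*t + (-20)*t^(2:ℕ) + (-56)*t^(3:ℕ) + (-67)*t^(4:ℕ) + (165/4)*t^(5:ℕ) + (125/4)*t^(6:ℕ) + 35*t^(7:ℕ) + (251/2)*t^(8:ℕ) + (-455/4)*t^(9:ℕ) + (173/4)*t^(10:ℕ) + (-111/2)*t^(11:ℕ)) + (43/14000)*((83/4)*t^(2:ℕ) + (-5/4)*t^(3:ℕ) + (-51/4)*t^(4:ℕ) + (-21/4)*t^(5:ℕ) + (-27/4)*t^(6:ℕ) + (25/4)*t^(7:ℕ) + (243/4)*t^(8:ℕ) + (-70)*t^(9:ℕ) + 34*t^(10:ℕ) + (-50)*t^(11:ℕ)) + (499/700000)*((-8)*t^(2:ℕ) + (119/4)*t^(3:ℕ) + 1*t^(4:ℕ) + (-18)*t^(5:ℕ) + (11/2)*t^(6:ℕ) + (23/4)*t^(7:ℕ) + (39/2)*t^(8:ℕ) + (-115/4)*t^(9:ℕ) + 23*t^(10:ℕ) + (-19)*t^(11:ℕ))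 + (18/109375)*((-8)*t^(2:ℕ) + (167/16)*t^(3:ℕ) + (-3)*t^(4:ℕ) + (1/8)*t^(5:ℕ) + (-127/8)*t^(6:ℕ) + (315/16)*t^(7:ℕ) + (31/8)*t^(8:ℕ) + (-445/16)*t^(9:ℕ) + (99/4)*t^(10:ℕ) + (-33/4)*t^(11:ℕ)) + (189/5000000)*((5/2)*t^(5:ℕ) + (-31/4)*t^(6:ℕ) + 6*t^(7:ℕ) + (29/4)*t^(8:ℕ) + (-75/4)*t^(9:ℕ) + 15*t^(10:ℕ) + (-5)*t^(11:ℕ)) + (27/3125000)*((-1)*t^(7:ℕ) + 3*t^(8:ℕ) + (-17/4)*t^(9:ℕ) + 3*t^(10:ℕ) + (-1)*t^(11:ℕ)) - (1051/1000) = (9523756830712312851/346032180025000000)*(1 - t)^(11:ℕ) + (69676582924492636569/138412872010000000)*(t - (3/10))*(1 - t)^(10:ℕ) + (28958085956991708659/6920643600500000)*(t - (3/10))^(2:ℕ)*(1 - t)^(9:ℕ) + (7198507977346034707/346032180025000)*(t - (3/10))^(3:ℕ)*(1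 - t)^(8:ℕ) + (952124539049011493/13841287201000)*(t - (3/10))^(4:ℕ)*(1 - t)^(7:ℕ) + (39295293318078131/247165842875)*(t - (3/10))^(5:ℕ)*(1 - t)^(6:ℕ) + (51839283160777641/197732674300)*(t - (3/10))^(6:ℕ)*(1 - t)^(5:ℕ) + (42695809776569301/138412872010)*(t - (3/10))^(7:ℕ)*(1 - t)^(4:ℕ) + (3511629545182526/13841287201)*(t - (3/10))^(8:ℕ)*(1 - t)^(3:ℕ) + (1921516104727650/13841287201)*(t - (3/10))^(9:ℕ)*(1 - t)^(2:ℕ) + (628752359799100/13841287201)*(t - (3/10))^(10:ℕ)*(1 - t) + (92961187393000/13841287201)*(t - (3/10))^(11:ℕ) := by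
    ring
  rw [e]
  have a3 : 0 ≤ t - (3/10) := by linarith
  have a4 : 0 ≤ 1 - t := by linarith
  generalize t - (3/10) = t1 at a3 ⊢
  generalize 1 - t = t2 at a4 ⊢
  positivity

lemma pos_L2e_B1_b4 (t : ℝ) (h3 : (3/10) ≤ t) (h4 : t ≤ 1) :
    0 ≤ 1*(1 + (13/2)*t^(2:ℕ) + 16*t^(4:ℕ) + 19*t^(6:ℕ) + 11*t^(8:ℕ) + (5/2)*t^(10:ℕ)) + (1/4)*((5/2) + (-1/2)*t + 8*t^(2:ℕ) + (5/2)*t^(3:ℕ) + 50*t^(4:ℕ) + 25*t^(5:ℕ) + 100*t^(6:ℕ) + 20*t^(7:ℕ) + (139/2)*t^(8:ℕ) + (-13/2)*t^(9:ℕ) + 14*t^(10:ℕ) + (-9/2)*t^(11:ℕ)) + (87/1400)*((-7) + (-37/4)*t + (-469/8)*t^(2:ℕ) + (-159/4)*t^(3:ℕ) + (-14)*t^(4:ℕ) + 40*t^(5:ℕ) + (691/4)*t^(6:ℕ) + 32*t^(7:ℕ) + 166*t^(8:ℕ) + (-275/4)*t^(9:ℕ) + (247/8)*t^(10:ℕ)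 + (-121/4)*t^(11:ℕ)) + (43/2800)*((-4) + (-4)*t + (-20)*t^(2:ℕ) + (-56)*t^(3:ℕ) + (-67)*t^(4:ℕ) + (165/4)*t^(5:ℕ) + (125/4)*t^(6:ℕ) + 35*t^(7:ℕ) + (251/2)*t^(8:ℕ) + (-455/4)*t^(9:ℕ) + (173/4)*t^(10:ℕ) + (-111/2)*t^(11:ℕ)) + (2641/700000)*((83/4)*t^(2:ℕ) + (-5/4)*t^(3:ℕ) + (-51/4)*t^(4:ℕ) + (-21/4)*t^(5:ℕ) + (-27/4)*t^(6:ℕ) + (25/4)*t^(7:ℕ) + (243/4)*t^(8:ℕ) + (-70)*t^(9:ℕ) + 34*t^(10:ℕ) + (-50)*t^(11:ℕ)) + (129/140000)*((-8)*t^(2:ℕ) + (119/4)*t^(3:ℕ) + 1*t^(4:ℕ) + (-18)*t^(5:ℕ) + (11/2)*t^(6:ℕ) + (23/4)*t^(7:ℕ) + (39/2)*t^(8:ℕ) + (-115/4)*t^(9:ℕ) + 23*t^(10:ℕ) + (-19)*t^(11:ℕ)) + (783/3500000)*((-8)*t^(2:ℕ) + (167/16)*t^(3:ℕ) + (-3)*t^(4:ℕ) + (1/8)*t^(5:ℕ) + (-127/8)*t^(6:ℕ)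 + (315/16)*t^(7:ℕ) + (31/8)*t^(8:ℕ) + (-445/16)*t^(9:ℕ) + (99/4)*t^(10:ℕ) + (-33/4)*t^(11:ℕ)) + (27/500000)*((5/2)*t^(5:ℕ) + (-31/4)*t^(6:ℕ) + 6*t^(7:ℕ) + (29/4)*t^(8:ℕ) + (-75/4)*t^(9:ℕ) + 15*t^(10:ℕ) + (-5)*t^(11:ℕ)) + (81/6250000)*((-1)*t^(7:ℕ) + 3*t^(8:ℕ) + (-17/4)*t^(9:ℕ) + 3*t^(10:ℕ) + (-1)*t^(11:ℕ)) - (1051/1000) := by
  have e : 1*(1 + (13/2)*t^(2:ℕ) + 16*t^(4:ℕ) + 19*t^(6:ℕ) + 11*t^(8:ℕ) + (5/2)*t^(10:ℕ)) + (1/4)*((5/2) + (-1/2)*t + 8*t^(2:ℕ) + (5/2)*t^(3:ℕ) + 50*t^(4:ℕ) + 25*t^(5:ℕ) + 100*t^(6:ℕ) + 20*t^(7:ℕ) + (139/2)*t^(8:ℕ) + (-13/2)*t^(9:ℕ) + 14*t^(10:ℕ) + (-9/2)*t^(11:ℕ)) + (87/1400)*((-7) + (-37/4)*t + (-469/8)*t^(2:ℕ) + (-159/4)*t^(3:ℕ) + (-14)*t^(4:ℕ)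 + 40*t^(5:ℕ) + (691/4)*t^(6:ℕ) + 32*t^(7:ℕ) + 166*t^(8:ℕ) + (-275/4)*t^(9:ℕ) + (247/8)*t^(10:ℕ) + (-121/4)*t^(11:ℕ)) + (43/2800)*((-4) + (-4)*t + (-20)*t^(2:ℕ) + (-56)*t^(3:ℕ) + (-67)*t^(4:ℕ) + (165/4)*t^(5:ℕ) + (125/4)*t^(6:ℕ) + 35*t^(7:ℕ) + (251/2)*t^(8:ℕ) + (-455/4)*t^(9:ℕ) + (173/4)*t^(10:ℕ) + (-111/2)*t^(11:ℕ)) + (2641/700000)*((83/4)*t^(2:ℕ) + (-5/4)*t^(3:ℕ) + (-51/4)*t^(4:ℕ) + (-21/4)*t^(5:ℕ) + (-27/4)*t^(6:ℕ) + (25/4)*t^(7:ℕ) + (243/4)*t^(8:ℕ) + (-70)*t^(9:ℕ) + 34*t^(10:ℕ) + (-50)*t^(11:ℕ)) + (129/140000)*((-8)*t^(2:ℕ) + (119/4)*t^(3:ℕ) + 1*t^(4:ℕ) + (-18)*t^(5:ℕ) + (11/2)*t^(6:ℕ) + (23/4)*t^(7:ℕ) + (39/2)*t^(8:ℕ) + (-115/4)*t^(9:ℕ) + 23*t^(10:ℕ) + (-19)*t^(11:ℕ))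 + (783/3500000)*((-8)*t^(2:ℕ) + (167/16)*t^(3:ℕ) + (-3)*t^(4:ℕ) + (1/8)*t^(5:ℕ) + (-127/8)*t^(6:ℕ) + (315/16)*t^(7:ℕ) + (31/8)*t^(8:ℕ) + (-445/16)*t^(9:ℕ) + (99/4)*t^(10:ℕ) + (-33/4)*t^(11:ℕ)) + (27/500000)*((5/2)*t^(5:ℕ) + (-31/4)*t^(6:ℕ) + 6*t^(7:ℕ) + (29/4)*t^(8:ℕ) + (-75/4)*t^(9:ℕ) + 15*t^(10:ℕ) + (-5)*t^(11:ℕ)) + (81/6250000)*((-1)*t^(7:ℕ) + 3*t^(8:ℕ) + (-17/4)*t^(9:ℕ) + 3*t^(10:ℕ) + (-1)*t^(11:ℕ)) - (1051/1000) = (593433111902506251/24716584287500000)*(1 - t)^(11:ℕ) + (2258197120099862397/4943316857500000)*(t - (3/10))*(1 - t)^(10:ℕ) + (15484450200352724597/3954653486000000)*(t - (3/10))^(2:ℕ)*(1 - t)^(9:ℕ) + (7886215883038316097/395465348600000)*(t - (3/10))^(3:ℕ)*(1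 - t)^(8:ℕ) + (106330009518638161/1581861394400)*(t - (3/10))^(4:ℕ)*(1 - t)^(7:ℕ) + (89127101367321837/564950498000)*(t - (3/10))^(5:ℕ)*(1 - t)^(6:ℕ) + (2125617912950237/8070721400)*(t - (3/10))^(6:ℕ)*(1 - t)^(5:ℕ) + (12375433311337279/39546534860)*(t - (3/10))^(7:ℕ)*(1 - t)^(4:ℕ) + (512847225143462/1977326743)*(t - (3/10))^(8:ℕ)*(1 - t)^(3:ℕ) + (282271469841350/1977326743)*(t - (3/10))^(9:ℕ)*(1 - t)^(2:ℕ) + (92753493473450/1977326743)*(t - (3/10))^(10:ℕ)*(1 - t) + (13748931813500/1977326743)*(t - (3/10))^(11:ℕ) := by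
    ring
  rw [e]
  have a3 : 0 ≤ t - (3/10) := by linarith
  have a4 : 0 ≤ 1 - t := by linarith
  generalize t - (3/10) = t1 at a3 ⊢
  generalize 1 - t = t2 at a4 ⊢
  positivity

lemma pos_L2e_B1_b5 (t : ℝ) (h3 : (3/10) ≤ t) (h4 : t ≤ 1) :
    0 ≤ 1*(1 + (13/2)*t^(2:ℕ) + 16*t^(4:ℕ) + 19*t^(6:ℕ) + 11*t^(8:ℕ) + (5/2)*t^(10:ℕ)) + (21/80)*((5/2) + (-1/2)*t + 8*t^(2:ℕ) + (5/2)*t^(3:ℕ) + 50*t^(4:ℕ) + 25*t^(5:ℕ) + 100*t^(6:ℕ) + 20*t^(7:ℕ) + (139/2)*t^(8:ℕ) + (-13/2)*t^(9:ℕ) + 14*t^(10:ℕ) + (-9/2)*t^(11:ℕ)) + (12/175)*((-7) + (-37/4)*t + (-469/8)*t^(2:ℕ) + (-159/4)*t^(3:ℕ) + (-14)*t^(4:ℕ) + 40*t^(5:ℕ) + (691/4)*t^(6:ℕ) + 32*t^(7:ℕ) + 166*t^(8:ℕ) + (-275/4)*t^(9:ℕ) + (247/8)*t^(10:ℕ)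 + (-121/4)*t^(11:ℕ)) + (499/28000)*((-4) + (-4)*t + (-20)*t^(2:ℕ) + (-56)*t^(3:ℕ) + (-67)*t^(4:ℕ) + (165/4)*t^(5:ℕ) + (125/4)*t^(6:ℕ) + 35*t^(7:ℕ) + (251/2)*t^(8:ℕ) + (-455/4)*t^(9:ℕ) + (173/4)*t^(10:ℕ) + (-111/2)*t^(11:ℕ)) + (129/28000)*((83/4)*t^(2:ℕ) + (-5/4)*t^(3:ℕ) + (-51/4)*t^(4:ℕ) + (-21/4)*t^(5:ℕ) + (-27/4)*t^(6:ℕ) + (25/4)*t^(7:ℕ) + (243/4)*t^(8:ℕ) + (-70)*t^(9:ℕ) + 34*t^(10:ℕ) + (-50)*t^(11:ℕ)) + (6633/5600000)*((-8)*t^(2:ℕ) + (119/4)*t^(3:ℕ) + 1*t^(4:ℕ) + (-18)*t^(5:ℕ) + (11/2)*t^(6:ℕ) + (23/4)*t^(7:ℕ) + (39/2)*t^(8:ℕ) + (-115/4)*t^(9:ℕ) + 23*t^(10:ℕ) + (-19)*t^(11:ℕ)) + (4239/14000000)*((-8)*t^(2:ℕ) + (167/16)*t^(3:ℕ) + (-3)*t^(4:ℕ) + (1/8)*t^(5:ℕ) + (-127/8)*t^(6:ℕ)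 + (315/16)*t^(7:ℕ) + (31/8)*t^(8:ℕ) + (-445/16)*t^(9:ℕ) + (99/4)*t^(10:ℕ) + (-33/4)*t^(11:ℕ)) + (1539/20000000)*((5/2)*t^(5:ℕ) + (-31/4)*t^(6:ℕ) + 6*t^(7:ℕ) + (29/4)*t^(8:ℕ) + (-75/4)*t^(9:ℕ) + 15*t^(10:ℕ) + (-5)*t^(11:ℕ)) + (243/12500000)*((-1)*t^(7:ℕ) + 3*t^(8:ℕ) + (-17/4)*t^(9:ℕ) + 3*t^(10:ℕ) + (-1)*t^(11:ℕ)) - (1051/1000) := by
  have e : 1*(1 + (13/2)*t^(2:ℕ) + 16*t^(4:ℕ) + 19*t^(6:ℕ) + 11*t^(8:ℕ) + (5/2)*t^(10:ℕ)) + (21/80)*((5/2) + (-1/2)*t + 8*t^(2:ℕ) + (5/2)*t^(3:ℕ) + 50*t^(4:ℕ) + 25*t^(5:ℕ) + 100*t^(6:ℕ) + 20*t^(7:ℕ) + (139/2)*t^(8:ℕ) + (-13/2)*t^(9:ℕ) + 14*t^(10:ℕ) + (-9/2)*t^(11:ℕ)) + (12/175)*((-7) + (-37/4)*t + (-469/8)*t^(2:ℕ) + (-159/4)*t^(3:ℕ) + (-14)*t^(4:ℕ)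 + 40*t^(5:ℕ) + (691/4)*t^(6:ℕ) + 32*t^(7:ℕ) + 166*t^(8:ℕ) + (-275/4)*t^(9:ℕ) + (247/8)*t^(10:ℕ) + (-121/4)*t^(11:ℕ)) + (499/28000)*((-4) + (-4)*t + (-20)*t^(2:ℕ) + (-56)*t^(3:ℕ) + (-67)*t^(4:ℕ) + (165/4)*t^(5:ℕ) + (125/4)*t^(6:ℕ) + 35*t^(7:ℕ) + (251/2)*t^(8:ℕ) + (-455/4)*t^(9:ℕ) + (173/4)*t^(10:ℕ) + (-111/2)*t^(11:ℕ)) + (129/28000)*((83/4)*t^(2:ℕ) + (-5/4)*t^(3:ℕ) + (-51/4)*t^(4:ℕ) + (-21/4)*t^(5:ℕ) + (-27/4)*t^(6:ℕ) + (25/4)*t^(7:ℕ) + (243/4)*t^(8:ℕ) + (-70)*t^(9:ℕ) + 34*t^(10:ℕ) + (-50)*t^(11:ℕ)) + (6633/5600000)*((-8)*t^(2:ℕ) + (119/4)*t^(3:ℕ) + 1*t^(4:ℕ) + (-18)*t^(5:ℕ) + (11/2)*t^(6:ℕ) + (23/4)*t^(7:ℕ) + (39/2)*t^(8:ℕ) + (-115/4)*t^(9:ℕ) + 23*t^(10:ℕ) + (-19)*t^(11:ℕ))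 + (4239/14000000)*((-8)*t^(2:ℕ) + (167/16)*t^(3:ℕ) + (-3)*t^(4:ℕ) + (1/8)*t^(5:ℕ) + (-127/8)*t^(6:ℕ) + (315/16)*t^(7:ℕ) + (31/8)*t^(8:ℕ) + (-445/16)*t^(9:ℕ) + (99/4)*t^(10:ℕ) + (-33/4)*t^(11:ℕ)) + (1539/20000000)*((5/2)*t^(5:ℕ) + (-31/4)*t^(6:ℕ) + 6*t^(7:ℕ) + (29/4)*t^(8:ℕ) + (-75/4)*t^(9:ℕ) + 15*t^(10:ℕ) + (-5)*t^(11:ℕ)) + (243/12500000)*((-1)*t^(7:ℕ) + 3*t^(8:ℕ) + (-17/4)*t^(9:ℕ) + 3*t^(10:ℕ) + (-1)*t^(11:ℕ)) - (1051/1000) = (13908918034533181117/692064360050000000)*(1 - t)^(11:ℕ) + (14011170691968506331/34603218002500000)*(t - (3/10))*(1 - t)^(10:ℕ) + (400202283970869381299/110730297608000000)*(t - (3/10))^(2:ℕ)*(1 - t)^(9:ℕ) + (209969321914907540969/11073029760800000)*(t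 - (3/10))^(3:ℕ)*(1 - t)^(8:ℕ) + (14476309593281290217/221460595216000)*(t - (3/10))^(4:ℕ)*(1 - t)^(7:ℕ) + (2469090509503252619/15818613944000)*(t - (3/10))^(5:ℕ)*(1 - t)^(6:ℕ) + (417758168754609043/1581861394400)*(t - (3/10))^(6:ℕ)*(1 - t)^(5:ℕ) + (351087519459146493/1107302976080)*(t - (3/10))^(7:ℕ)*(1 - t)^(4:ℕ) + (3666543424661731/13841287201)*(t - (3/10))^(8:ℕ)*(1 - t)^(3:ℕ) + (2030238320631700/13841287201)*(t - (3/10))^(9:ℕ)*(1 - t)^(2:ℕ) + (1339963817659575/27682574402)*(t - (3/10))^(10:ℕ)*(1 - t) + (99567201996125/13841287201)*(t - (3/10))^(11:ℕ) := by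
    ring
  rw [e]
  have a3 : 0 ≤ t - (3/10) := by linarith
  have a4 : 0 ≤ 1 - t := by linarith
  generalize t - (3/10) = t1 at a3 ⊢
  generalize 1 - t = t2 at a4 ⊢
  positivity

lemma pos_L2e_B1_b6 (t : ℝ) (h3 : (3/10) ≤ t) (h4 : t ≤ 1) :
    0 ≤ 1*(1 + (13/2)*t^(2:ℕ) + 16*t^(4:ℕ) + 19*t^(6:ℕ) + 11*t^(8:ℕ) + (5/2)*t^(10:ℕ)) + (11/40)*((5/2) + (-1/2)*t + 8*t^(2:ℕ) + (5/2)*t^(3:ℕ) + 50*t^(4:ℕ) + 25*t^(5:ℕ) + 100*t^(6:ℕ) + 20*t^(7:ℕ) + (139/2)*t^(8:ℕ) + (-13/2)*t^(9:ℕ) + 14*t^(10:ℕ) + (-9/2)*t^(11:ℕ)) + (211/2800)*((-7) + (-37/4)*t + (-469/8)*t^(2:ℕ) + (-159/4)*t^(3:ℕ) + (-14)*t^(4:ℕ) + 40*t^(5:ℕ) + (691/4)*t^(6:ℕ) + 32*t^(7:ℕ) + 166*t^(8:ℕ) + (-275/4)*t^(9:ℕ) + (247/8)*t^(10:ℕ)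 + (-121/4)*t^(11:ℕ)) + (18/875)*((-4) + (-4)*t + (-20)*t^(2:ℕ) + (-56)*t^(3:ℕ) + (-67)*t^(4:ℕ) + (165/4)*t^(5:ℕ) + (125/4)*t^(6:ℕ) + 35*t^(7:ℕ) + (251/2)*t^(8:ℕ) + (-455/4)*t^(9:ℕ) + (173/4)*t^(10:ℕ) + (-111/2)*t^(11:ℕ)) + (783/140000)*((83/4)*t^(2:ℕ) + (-5/4)*t^(3:ℕ) + (-51/4)*t^(4:ℕ) + (-21/4)*t^(5:ℕ) + (-27/4)*t^(6:ℕ) + (25/4)*t^(7:ℕ) + (243/4)*t^(8:ℕ) + (-70)*t^(9:ℕ) + 34*t^(10:ℕ) + (-50)*t^(11:ℕ)) + (4239/2800000)*((-8)*t^(2:ℕ) + (119/4)*t^(3:ℕ) + 1*t^(4:ℕ) + (-18)*t^(5:ℕ) + (11/2)*t^(6:ℕ) + (23/4)*t^(7:ℕ) + (39/2)*t^(8:ℕ) + (-115/4)*t^(9:ℕ) + 23*t^(10:ℕ) + (-19)*t^(11:ℕ)) + (11421/28000000)*((-8)*t^(2:ℕ) + (167/16)*t^(3:ℕ) + (-3)*t^(4:ℕ) + (1/8)*t^(5:ℕ) + (-127/8)*t^(6:ℕ)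 + (315/16)*t^(7:ℕ) + (31/8)*t^(8:ℕ) + (-445/16)*t^(9:ℕ) + (99/4)*t^(10:ℕ) + (-33/4)*t^(11:ℕ)) + (2187/20000000)*((5/2)*t^(5:ℕ) + (-31/4)*t^(6:ℕ) + 6*t^(7:ℕ) + (29/4)*t^(8:ℕ) + (-75/4)*t^(9:ℕ) + 15*t^(10:ℕ) + (-5)*t^(11:ℕ)) + (729/25000000)*((-1)*t^(7:ℕ) + 3*t^(8:ℕ) + (-17/4)*t^(9:ℕ) + 3*t^(10:ℕ) + (-1)*t^(11:ℕ)) - (1051/1000) := by
  have e : 1*(1 + (13/2)*t^(2:ℕ) + 16*t^(4:ℕ) + 19*t^(6:ℕ) + 11*t^(8:ℕ) + (5/2)*t^(10:ℕ)) + (11/40)*((5/2) + (-1/2)*t + 8*t^(2:ℕ) + (5/2)*t^(3:ℕ) + 50*t^(4:ℕ) + 25*t^(5:ℕ) + 100*t^(6:ℕ) + 20*t^(7:ℕ) + (139/2)*t^(8:ℕ) + (-13/2)*t^(9:ℕ) + 14*t^(10:ℕ) + (-9/2)*t^(11:ℕ)) + (211/2800)*((-7) + (-37/4)*t + (-469/8)*t^(2:ℕ) + (-159/4)*t^(3:ℕ) +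 (-14)*t^(4:ℕ) + 40*t^(5:ℕ) + (691/4)*t^(6:ℕ) + 32*t^(7:ℕ) + 166*t^(8:ℕ) + (-275/4)*t^(9:ℕ) + (247/8)*t^(10:ℕ) + (-121/4)*t^(11:ℕ)) + (18/875)*((-4) + (-4)*t + (-20)*t^(2:ℕ) + (-56)*t^(3:ℕ) + (-67)*t^(4:ℕ) + (165/4)*t^(5:ℕ) + (125/4)*t^(6:ℕ) + 35*t^(7:ℕ) + (251/2)*t^(8:ℕ) + (-455/4)*t^(9:ℕ) + (173/4)*t^(10:ℕ) + (-111/2)*t^(11:ℕ)) + (783/140000)*((83/4)*t^(2:ℕ) + (-5/4)*t^(3:ℕ) + (-51/4)*t^(4:ℕ) + (-21/4)*t^(5:ℕ) + (-27/4)*t^(6:ℕ) + (25/4)*t^(7:ℕ) + (243/4)*t^(8:ℕ) + (-70)*t^(9:ℕ) + 34*t^(10:ℕ) + (-50)*t^(11:ℕ)) + (4239/2800000)*((-8)*t^(2:ℕ) + (119/4)*t^(3:ℕ) + 1*t^(4:ℕ) + (-18)*t^(5:ℕ) + (11/2)*t^(6:ℕ) + (23/4)*t^(7:ℕ) + (39/2)*t^(8:ℕ) + (-115/4)*t^(9:ℕ) + 23*t^(10:ℕ)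 + (-19)*t^(11:ℕ)) + (11421/28000000)*((-8)*t^(2:ℕ) + (167/16)*t^(3:ℕ) + (-3)*t^(4:ℕ) + (1/8)*t^(5:ℕ) + (-127/8)*t^(6:ℕ) + (315/16)*t^(7:ℕ) + (31/8)*t^(8:ℕ) + (-445/16)*t^(9:ℕ) + (99/4)*t^(10:ℕ) + (-33/4)*t^(11:ℕ)) + (2187/20000000)*((5/2)*t^(5:ℕ) + (-31/4)*t^(6:ℕ) + 6*t^(7:ℕ) + (29/4)*t^(8:ℕ) + (-75/4)*t^(9:ℕ) + 15*t^(10:ℕ) + (-5)*t^(11:ℕ)) + (729/25000000)*((-1)*t^(7:ℕ) + 3*t^(8:ℕ) + (-17/4)*t^(9:ℕ) + 3*t^(10:ℕ) + (-1)*t^(11:ℕ)) - (1051/1000) = (21842701901229387601/1384128720100000000)*(1 - t)^(11:ℕ) + (96220000707604588347/276825744020000000)*(t - (3/10))*(1 - t)^(10:ℕ) + (726365008766633359197/221460595216000000)*(t - (3/10))^(2:ℕ)*(1 - t)^(9:ℕ) + (395590864160263606517/22146059521600000)*(t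 - (3/10))^(3:ℕ)*(1 - t)^(8:ℕ) + (28006342377966352457/442921190432000)*(t - (3/10))^(4:ℕ)*(1 - t)^(7:ℕ) + (4870700998940167277/31637227888000)*(t - (3/10))^(5:ℕ)*(1 - t)^(6:ℕ) + (836216088292626899/3163722788800)*(t - (3/10))^(6:ℕ)*(1 - t)^(5:ℕ) + (710565193371776479/2214605952160)*(t - (3/10))^(7:ℕ)*(1 - t)^(4:ℕ) + (14965603084144191/55365148804)*(t - (3/10))^(8:ℕ)*(1 - t)^(3:ℕ) + (8338031948149975/55365148804)*(t - (3/10))^(9:ℕ)*(1 - t)^(2:ℕ) + (2763480255373225/55365148804)*(t - (3/10))^(10:ℕ)*(1 - t) + (205868862210875/27682574402)*(t - (3/10))^(11:ℕ) := by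
    ring
  rw [e]
  have a3 : 0 ≤ t - (3/10) := by linarith
  have a4 : 0 ≤ 1 - t := by linarith
  generalize t - (3/10) = t1 at a3 ⊢
  generalize 1 - t = t2 at a4 ⊢
  positivity

lemma pos_L2e_B1_b7 (t : ℝ) (h3 : (3/10) ≤ t) (h4 : t ≤ 1) :
    0 ≤ 1*(1 + (13/2)*t^(2:ℕ) + 16*t^(4:ℕ) + 19*t^(6:ℕ) + 11*t^(8:ℕ) + (5/2)*t^(10:ℕ)) + (23/80)*((5/2) + (-1/2)*t + 8*t^(2:ℕ) + (5/2)*t^(3:ℕ) + 50*t^(4:ℕ) + 25*t^(5:ℕ) + 100*t^(6:ℕ) + 20*t^(7:ℕ) + (139/2)*t^(8:ℕ) + (-13/2)*t^(9:ℕ) + 14*t^(10:ℕ) + (-9/2)*t^(11:ℕ)) + (33/400)*((-7) + (-37/4)*t + (-469/8)*t^(2:ℕ) + (-159/4)*t^(3:ℕ) + (-14)*t^(4:ℕ) + 40*t^(5:ℕ) + (691/4)*t^(6:ℕ) + 32*t^(7:ℕ) + 166*t^(8:ℕ) + (-275/4)*t^(9:ℕ) + (247/8)*t^(10:ℕ)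 + (-121/4)*t^(11:ℕ)) + (189/8000)*((-4) + (-4)*t + (-20)*t^(2:ℕ) + (-56)*t^(3:ℕ) + (-67)*t^(4:ℕ) + (165/4)*t^(5:ℕ) + (125/4)*t^(6:ℕ) + 35*t^(7:ℕ) + (251/2)*t^(8:ℕ) + (-455/4)*t^(9:ℕ) + (173/4)*t^(10:ℕ) + (-111/2)*t^(11:ℕ)) + (27/4000)*((83/4)*t^(2:ℕ) + (-5/4)*t^(3:ℕ) + (-51/4)*t^(4:ℕ) + (-21/4)*t^(5:ℕ) + (-27/4)*t^(6:ℕ) + (25/4)*t^(7:ℕ) + (243/4)*t^(8:ℕ) + (-70)*t^(9:ℕ) + 34*t^(10:ℕ) + (-50)*t^(11:ℕ)) + (1539/800000)*((-8)*t^(2:ℕ) + (119/4)*t^(3:ℕ) + 1*t^(4:ℕ) + (-18)*t^(5:ℕ) + (11/2)*t^(6:ℕ) + (23/4)*t^(7:ℕ) + (39/2)*t^(8:ℕ) + (-115/4)*t^(9:ℕ) + 23*t^(10:ℕ) + (-19)*t^(11:ℕ)) + (2187/4000000)*((-8)*t^(2:ℕ) + (167/16)*t^(3:ℕ) + (-3)*t^(4:ℕ) + (1/8)*t^(5:ℕ) + (-127/8)*t^(6:ℕ)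 + (315/16)*t^(7:ℕ) + (31/8)*t^(8:ℕ) + (-445/16)*t^(9:ℕ) + (99/4)*t^(10:ℕ) + (-33/4)*t^(11:ℕ)) + (12393/80000000)*((5/2)*t^(5:ℕ) + (-31/4)*t^(6:ℕ) + 6*t^(7:ℕ) + (29/4)*t^(8:ℕ) + (-75/4)*t^(9:ℕ) + 15*t^(10:ℕ) + (-5)*t^(11:ℕ)) + (2187/50000000)*((-1)*t^(7:ℕ) + 3*t^(8:ℕ) + (-17/4)*t^(9:ℕ) + 3*t^(10:ℕ) + (-1)*t^(11:ℕ)) - (1051/1000) := by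
  have e : 1*(1 + (13/2)*t^(2:ℕ) + 16*t^(4:ℕ) + 19*t^(6:ℕ) + 11*t^(8:ℕ) + (5/2)*t^(10:ℕ)) + (23/80)*((5/2) + (-1/2)*t + 8*t^(2:ℕ) + (5/2)*t^(3:ℕ) + 50*t^(4:ℕ) + 25*t^(5:ℕ) + 100*t^(6:ℕ) + 20*t^(7:ℕ) + (139/2)*t^(8:ℕ) + (-13/2)*t^(9:ℕ) + 14*t^(10:ℕ) + (-9/2)*t^(11:ℕ)) + (33/400)*((-7) + (-37/4)*t + (-469/8)*t^(2:ℕ) + (-159/4)*t^(3:ℕ) + (-14)*t^(4:ℕ) + 40*t^(5:ℕ) + (691/4)*t^(6:ℕ) + 32*t^(7:ℕ) + 166*t^(8:ℕ) + (-275/4)*t^(9:ℕ) + (247/8)*t^(10:ℕ) + (-121/4)*t^(11:ℕ)) + (189/8000)*((-4) + (-4)*t + (-20)*t^(2:ℕ) + (-56)*t^(3:ℕ) + (-67)*t^(4:ℕ) + (165/4)*t^(5:ℕ) + (125/4)*t^(6:ℕ) + 35*t^(7:ℕ) + (251/2)*t^(8:ℕ) + (-455/4)*t^(9:ℕ) + (173/4)*t^(10:ℕ) + (-111/2)*t^(11:ℕ)) +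 (27/4000)*((83/4)*t^(2:ℕ) + (-5/4)*t^(3:ℕ) + (-51/4)*t^(4:ℕ) + (-21/4)*t^(5:ℕ) + (-27/4)*t^(6:ℕ) + (25/4)*t^(7:ℕ) + (243/4)*t^(8:ℕ) + (-70)*t^(9:ℕ) + 34*t^(10:ℕ) + (-50)*t^(11:ℕ)) + (1539/800000)*((-8)*t^(2:ℕ) + (119/4)*t^(3:ℕ) + 1*t^(4:ℕ) + (-18)*t^(5:ℕ) + (11/2)*t^(6:ℕ) + (23/4)*t^(7:ℕ) + (39/2)*t^(8:ℕ) + (-115/4)*t^(9:ℕ) + 23*t^(10:ℕ) + (-19)*t^(11:ℕ)) + (2187/4000000)*((-8)*t^(2:ℕ) + (167/16)*t^(3:ℕ) + (-3)*t^(4:ℕ) + (1/8)*t^(5:ℕ) + (-127/8)*t^(6:ℕ) + (315/16)*t^(7:ℕ) + (31/8)*t^(8:ℕ) + (-445/16)*t^(9:ℕ) + (99/4)*t^(10:ℕ) + (-33/4)*t^(11:ℕ)) + (12393/80000000)*((5/2)*t^(5:ℕ) + (-31/4)*t^(6:ℕ) + 6*t^(7:ℕ) + (29/4)*t^(8:ℕ) + (-75/4)*t^(9:ℕ) + 15*t^(10:ℕ) + (-5)*t^(11:ℕ))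 + (2187/50000000)*((-1)*t^(7:ℕ) + 3*t^(8:ℕ) + (-17/4)*t^(9:ℕ) + 3*t^(10:ℕ) + (-1)*t^(11:ℕ)) - (1051/1000) = (2185415329499807527/197732674300000000)*(1 - t)^(11:ℕ) + (22522068184007685813/79093069720000000)*(t - (3/10))*(1 - t)^(10:ℕ) + (23031906372147072261/7909306972000000)*(t - (3/10))^(2:ℕ)*(1 - t)^(9:ℕ) + (52648655568398022529/3163722788800000)*(t - (3/10))^(3:ℕ)*(1 - t)^(8:ℕ) + (3847334727897034921/63274455776000)*(t - (3/10))^(4:ℕ)*(1 - t)^(7:ℕ) + (342028531031972497/2259801992000)*(t - (3/10))^(5:ℕ)*(1 - t)^(6:ℕ) + (119329680431216413/451960398400)*(t - (3/10))^(6:ℕ)*(1 - t)^(5:ℕ) + (51298237172737829/158186139440)*(t - (3/10))^(7:ℕ)*(1 - t)^(4:ℕ) + (4359357552404259/15818613944)*(t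 - (3/10))^(8:ℕ)*(1 - t)^(3:ℕ) + (2444214893610625/15818613944)*(t - (3/10))^(9:ℕ)*(1 - t)^(2:ℕ) + (203409831215225/3954653486)*(t - (3/10))^(10:ℕ)*(1 - t) + (15191914452125/1977326743)*(t - (3/10))^(11:ℕ) := by
    ring
  rw [e]
  have a3 : 0 ≤ t - (3/10) := by linarith
  have a4 : 0 ≤ 1 - t := by linarith
  generalize t - (3/10) = t1 at a3 ⊢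
  generalize 1 - t = t2 at a4 ⊢
  positivity

lemma pos_L2e_B1_b8 (t : ℝ) (h3 : (3/10) ≤ t) (h4 : t ≤ 1) :
    0 ≤ 1*(1 + (13/2)*t^(2:ℕ) + 16*t^(4:ℕ) + 19*t^(6:ℕ) + 11*t^(8:ℕ) + (5/2)*t^(10:ℕ)) + (3/10)*((5/2) + (-1/2)*t + 8*t^(2:ℕ) + (5/2)*t^(3:ℕ) + 50*t^(4:ℕ) + 25*t^(5:ℕ) + 100*t^(6:ℕ) + 20*t^(7:ℕ) + (139/2)*t^(8:ℕ) + (-13/2)*t^(9:ℕ) + 14*t^(10:ℕ) + (-9/2)*t^(11:ℕ)) + (9/100)*((-7) + (-37/4)*t + (-469/8)*t^(2:ℕ) + (-159/4)*t^(3:ℕ) + (-14)*t^(4:ℕ) + 40*t^(5:ℕ) + (691/4)*t^(6:ℕ) + 32*t^(7:ℕ) + 166*t^(8:ℕ) + (-275/4)*t^(9:ℕ) + (247/8)*t^(10:ℕ) + (-121/4)*t^(11:ℕ)) + (27/1000)*((-4) + (-4)*t + (-20)*t^(2:ℕ) + (-56)*t^(3:ℕ) + (-67)*t^(4:ℕ) + (165/4)*t^(5:ℕ) + (125/4)*t^(6:ℕ)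 + 35*t^(7:ℕ) + (251/2)*t^(8:ℕ) + (-455/4)*t^(9:ℕ) + (173/4)*t^(10:ℕ) + (-111/2)*t^(11:ℕ)) + (81/10000)*((83/4)*t^(2:ℕ) + (-5/4)*t^(3:ℕ) + (-51/4)*t^(4:ℕ) + (-21/4)*t^(5:ℕ) + (-27/4)*t^(6:ℕ) + (25/4)*t^(7:ℕ) + (243/4)*t^(8:ℕ) + (-70)*t^(9:ℕ) + 34*t^(10:ℕ) + (-50)*t^(11:ℕ)) + (243/100000)*((-8)*t^(2:ℕ) + (119/4)*t^(3:ℕ) + 1*t^(4:ℕ) + (-18)*t^(5:ℕ) + (11/2)*t^(6:ℕ) + (23/4)*t^(7:ℕ) + (39/2)*t^(8:ℕ) + (-115/4)*t^(9:ℕ) + 23*t^(10:ℕ) + (-19)*t^(11:ℕ)) + (729/1000000)*((-8)*t^(2:ℕ) + (167/16)*t^(3:ℕ) + (-3)*t^(4:ℕ) + (1/8)*t^(5:ℕ) + (-127/8)*t^(6:ℕ) + (315/16)*t^(7:ℕ) + (31/8)*t^(8:ℕ) + (-445/16)*t^(9:ℕ) + (99/4)*t^(10:ℕ) + (-33/4)*t^(11:ℕ)) + (2187/10000000)*((5/2)*t^(5:ℕ)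 + (-31/4)*t^(6:ℕ) + 6*t^(7:ℕ) + (29/4)*t^(8:ℕ) + (-75/4)*t^(9:ℕ) + 15*t^(10:ℕ) + (-5)*t^(11:ℕ)) + (6561/100000000)*((-1)*t^(7:ℕ) + 3*t^(8:ℕ) + (-17/4)*t^(9:ℕ) + 3*t^(10:ℕ) + (-1)*t^(11:ℕ)) - (1051/1000) := by
  have e : 1*(1 + (13/2)*t^(2:ℕ) + 16*t^(4:ℕ) + 19*t^(6:ℕ) + 11*t^(8:ℕ) + (5/2)*t^(10:ℕ)) + (3/10)*((5/2) + (-1/2)*t + 8*t^(2:ℕ) + (5/2)*t^(3:ℕ) + 50*t^(4:ℕ) + 25*t^(5:ℕ) + 100*t^(6:ℕ) + 20*t^(7:ℕ) + (139/2)*t^(8:ℕ) + (-13/2)*t^(9:ℕ) + 14*t^(10:ℕ) + (-9/2)*t^(11:ℕ)) + (9/100)*((-7) + (-37/4)*t + (-469/8)*t^(2:ℕ) + (-159/4)*t^(3:ℕ) + (-14)*t^(4:ℕ) + 40*t^(5:ℕ) + (691/4)*t^(6:ℕ) + 32*t^(7:ℕ) + 166*t^(8:ℕ) + (-275/4)*t^(9:ℕ) + (247/8)*t^(10:ℕ) + (-121/4)*t^(11:ℕ))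 + (27/1000)*((-4) + (-4)*t + (-20)*t^(2:ℕ) + (-56)*t^(3:ℕ) + (-67)*t^(4:ℕ) + (165/4)*t^(5:ℕ) + (125/4)*t^(6:ℕ) + 35*t^(7:ℕ) + (251/2)*t^(8:ℕ) + (-455/4)*t^(9:ℕ) + (173/4)*t^(10:ℕ) + (-111/2)*t^(11:ℕ)) + (81/10000)*((83/4)*t^(2:ℕ) + (-5/4)*t^(3:ℕ) + (-51/4)*t^(4:ℕ) + (-21/4)*t^(5:ℕ) + (-27/4)*t^(6:ℕ) + (25/4)*t^(7:ℕ) + (243/4)*t^(8:ℕ) + (-70)*t^(9:ℕ) + 34*t^(10:ℕ) + (-50)*t^(11:ℕ)) + (243/100000)*((-8)*t^(2:ℕ) + (119/4)*t^(3:ℕ) + 1*t^(4:ℕ) + (-18)*t^(5:ℕ) + (11/2)*t^(6:ℕ) + (23/4)*t^(7:ℕ) + (39/2)*t^(8:ℕ) + (-115/4)*t^(9:ℕ) + 23*t^(10:ℕ) + (-19)*t^(11:ℕ)) + (729/1000000)*((-8)*t^(2:ℕ) + (167/16)*t^(3:ℕ) + (-3)*t^(4:ℕ) + (1/8)*t^(5:ℕ) + (-127/8)*t^(6:ℕ) + (315/16)*t^(7:ℕ)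 + (31/8)*t^(8:ℕ) + (-445/16)*t^(9:ℕ) + (99/4)*t^(10:ℕ) + (-33/4)*t^(11:ℕ)) + (2187/10000000)*((5/2)*t^(5:ℕ) + (-31/4)*t^(6:ℕ) + 6*t^(7:ℕ) + (29/4)*t^(8:ℕ) + (-75/4)*t^(9:ℕ) + 15*t^(10:ℕ) + (-5)*t^(11:ℕ)) + (6561/100000000)*((-1)*t^(7:ℕ) + 3*t^(8:ℕ) + (-17/4)*t^(9:ℕ) + 3*t^(10:ℕ) + (-1)*t^(11:ℕ)) - (1051/1000) = (291950869630043157/49433168575000000)*(1 - t)^(11:ℕ) + (1069424807889751227/4943316857500000)*(t - (3/10))*(1 - t)^(10:ℕ) + (2481585190022885413/988663371500000)*(t - (3/10))^(2:ℕ)*(1 - t)^(9:ℕ) + (756126746866512699/49433168575000)*(t - (3/10))^(3:ℕ)*(1 - t)^(8:ℕ) + (918766254725777993/15818613944000)*(t - (3/10))^(4:ℕ)*(1 - t)^(7:ℕ) + (167535949421067319/1129900996000)*(t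 - (3/10))^(5:ℕ)*(1 - t)^(6:ℕ) + (29741383750177573/112990099600)*(t - (3/10))^(6:ℕ)*(1 - t)^(5:ℕ) + (25892382236527603/79093069720)*(t - (3/10))^(7:ℕ)*(1 - t)^(4:ℕ) + (555084653063432/1977326743)*(t - (3/10))^(8:ℕ)*(1 - t)^(3:ℕ) + (313251170300050/1977326743)*(t - (3/10))^(9:ℕ)*(1 - t)^(2:ℕ) + (104738656083700/1977326743)*(t - (3/10))^(10:ℕ)*(1 - t) + (15684755551000/1977326743)*(t - (3/10))^(11:ℕ) := by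
    ring
  rw [e]
  have a3 : 0 ≤ t - (3/10) := by linarith
  have a4 : 0 ≤ 1 - t := by linarith
  generalize t - (3/10) = t1 at a3 ⊢
  generalize 1 - t = t2 at a4 ⊢
  positivity

lemma pos_L2e_B1_id (d : ℝ) (C0 C1 C2 C3 C4 C5 C6 C7 C8 : ℝ) :
    C0 + d*C1 + d^(2:ℕ)*C2 + d^(3:ℕ)*C3 + d^(4:ℕ)*C4 + d^(5:ℕ)*C5 + d^(6:ℕ)*C6 + d^(7:ℕ)*C7 + d^(8:ℕ)*C8 = (1051/1000) + (100000000*((3/10) - d)^(8:ℕ)*(1*C0 + (1/5)*C1 + (1/25)*C2 + (1/125)*C3 + (1/625)*C4 + (1/3125)*C5 + (1/15625)*C6 + (1/78125)*C7 + (1/390625)*C8 - (1051/1000)) + 800000000*(d - (1/5))*((3/10) - d)^(7:ℕ)*(1*C0 + (17/80)*C1 + (9/200)*C2 + (19/2000)*C3 + (1/500)*C4 + (21/50000)*C5 + (11/125000)*C6 + (23/1250000)*C7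 + (3/781250)*C8 - (1051/1000)) + 2800000000*(d - (1/5))^(2:ℕ)*((3/10) - d)^(6:ℕ)*(1*C0 + (9/40)*C1 + (141/2800)*C2 + (157/14000)*C3 + (87/35000)*C4 + (12/21875)*C5 + (211/1750000)*C6 + (33/1250000)*C7 + (9/1562500)*C8 - (1051/1000)) + 5600000000*(d - (1/5))^(3:ℕ)*((3/10) - d)^(5:ℕ)*(1*C0 + (19/80)*C1 + (157/2800)*C2 + (737/56000)*C3 + (43/14000)*C4 + (499/700000)*C5 + (18/109375)*C6 + (189/5000000)*C7 + (27/3125000)*C8 - (1051/1000)) + 7000000000*(d - (1/5))^(4:ℕ)*((3/10) - d)^(4:ℕ)*(1*C0 + (1/4)*C1 + (87/1400)*C2 + (43/2800)*C3 + (2641/700000)*C4 + (129/140000)*C5 + (783/3500000)*C6 + (27/500000)*C7 + (81/6250000)*C8 - (1051/1000)) + 5600000000*(d - (1/5))^(5:ℕ)*((3/10)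 - d)^(3:ℕ)*(1*C0 + (21/80)*C1 + (12/175)*C2 + (499/28000)*C3 + (129/28000)*C4 + (6633/5600000)*C5 + (4239/14000000)*C6 + (1539/20000000)*C7 + (243/12500000)*C8 - (1051/1000)) + 2800000000*(d - (1/5))^(6:ℕ)*((3/10) - d)^(2:ℕ)*(1*C0 + (11/40)*C1 + (211/2800)*C2 + (18/875)*C3 + (783/140000)*C4 + (4239/2800000)*C5 + (11421/28000000)*C6 + (2187/20000000)*C7 + (729/25000000)*C8 - (1051/1000)) + 800000000*(d - (1/5))^(7:ℕ)*((3/10) - d)*(1*C0 + (23/80)*C1 + (33/400)*C2 + (189/8000)*C3 + (27/4000)*C4 + (1539/800000)*C5 + (2187/4000000)*C6 + (12393/80000000)*C7 + (2187/50000000)*C8 - (1051/1000)) + 100000000*(d - (1/5))^(8:ℕ)*(1*C0 + (3/10)*C1 + (9/100)*C2 + (27/1000)*C3 +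 (81/10000)*C4 + (243/100000)*C5 + (729/1000000)*C6 + (2187/10000000)*C7 + (6561/100000000)*C8 - (1051/1000))) := by
  ring

lemma pos_L2e_B1_gen (d1 d2 B0 B1 B2 B3 B4 B5 B6 B7 B8 : ℝ) (a1 : 0 ≤ d1) (a2 : 0 ≤ d2) (b0 : 0 ≤ B0) (b1 : 0 ≤ B1) (b2 : 0 ≤ B2) (b3 : 0 ≤ B3) (b4 : 0 ≤ B4) (b5 : 0 ≤ B5) (b6 : 0 ≤ B6) (b7 : 0 ≤ B7) (b8 : 0 ≤ B8) :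
    0 < (1051/1000) + (100000000*d2^(8:ℕ)*(B0) + 800000000*d1*d2^(7:ℕ)*(B1) + 2800000000*d1^(2:ℕ)*d2^(6:ℕ)*(B2) + 5600000000*d1^(3:ℕ)*d2^(5:ℕ)*(B3) + 7000000000*d1^(4:ℕ)*d2^(4:ℕ)*(B4) + 5600000000*d1^(5:ℕ)*d2^(3:ℕ)*(B5) + 2800000000*d1^(6:ℕ)*d2^(2:ℕ)*(B6) + 800000000*d1^(7:ℕ)*d2*(B7) + 100000000*d1^(8:ℕ)*(B8)) := by
  positivity

lemma pos_L2e_B1_core (d C0 C1 C2 C3 C4 C5 C6 C7 C8 : ℝ) (h1 : (1/5) ≤ d) (h2 : d ≤ (3/10))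
    (b0 : 0 ≤ 1*C0 + (1/5)*C1 + (1/25)*C2 + (1/125)*C3 + (1/625)*C4 + (1/3125)*C5 + (1/15625)*C6 + (1/78125)*C7 + (1/390625)*C8 - (1051/1000))
    (b1 : 0 ≤ 1*C0 + (17/80)*C1 + (9/200)*C2 + (19/2000)*C3 + (1/500)*C4 + (21/50000)*C5 + (11/125000)*C6 + (23/1250000)*C7 + (3/781250)*C8 - (1051/1000))
    (b2 : 0 ≤ 1*C0 + (9/40)*C1 + (141/2800)*C2 + (157/14000)*C3 + (87/35000)*C4 + (12/21875)*C5 + (211/1750000)*C6 + (33/1250000)*C7 + (9/1562500)*C8 - (1051/1000))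
    (b3 : 0 ≤ 1*C0 + (19/80)*C1 + (157/2800)*C2 + (737/56000)*C3 + (43/14000)*C4 + (499/700000)*C5 + (18/109375)*C6 + (189/5000000)*C7 + (27/3125000)*C8 - (1051/1000))
    (b4 : 0 ≤ 1*C0 + (1/4)*C1 + (87/1400)*C2 + (43/2800)*C3 + (2641/700000)*C4 + (129/140000)*C5 + (783/3500000)*C6 + (27/500000)*C7 + (81/6250000)*C8 - (1051/1000))
    (b5 : 0 ≤ 1*C0 + (21/80)*C1 + (12/175)*C2 + (499/28000)*C3 + (129/28000)*C4 + (6633/5600000)*C5 + (4239/14000000)*C6 + (1539/20000000)*C7 + (243/12500000)*C8 - (1051/1000))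
    (b6 : 0 ≤ 1*C0 + (11/40)*C1 + (211/2800)*C2 + (18/875)*C3 + (783/140000)*C4 + (4239/2800000)*C5 + (11421/28000000)*C6 + (2187/20000000)*C7 + (729/25000000)*C8 - (1051/1000))
    (b7 : 0 ≤ 1*C0 + (23/80)*C1 + (33/400)*C2 + (189/8000)*C3 + (27/4000)*C4 + (1539/800000)*C5 + (2187/4000000)*C6 + (12393/80000000)*C7 + (2187/50000000)*C8 - (1051/1000))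
    (b8 : 0 ≤ 1*C0 + (3/10)*C1 + (9/100)*C2 + (27/1000)*C3 + (81/10000)*C4 + (243/100000)*C5 + (729/1000000)*C6 + (2187/10000000)*C7 + (6561/100000000)*C8 - (1051/1000)) :
    0 < C0 + d*C1 + d^(2:ℕ)*C2 + d^(3:ℕ)*C3 + d^(4:ℕ)*C4 + d^(5:ℕ)*C5 + d^(6:ℕ)*C6 + d^(7:ℕ)*C7 + d^(8:ℕ)*C8 := by
  rw [pos_L2e_B1_id]
  exact pos_L2e_B1_gen _ _ _ _ _ _ _ _ _ _ _ (sub_nonneg.2 h1) (sub_nonneg.2 h2) b0 b1 b2 b3 b4 b5 b6 b7 b8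

lemma pos_L2e_B1 (d t : ℝ) (h1 : (1/5) ≤ d) (h2 : d ≤ (3/10)) (h3 : (3/10) ≤ t) (h4 : t ≤ 1) :
    0 < 1 + (13/2)*t^(2:ℕ) + 16*t^(4:ℕ) + 19*t^(6:ℕ) + 11*t^(8:ℕ) + (5/2)*t^(10:ℕ) + (5/2)*d + (-1/2)*d*t + 8*d*t^(2:ℕ) + (5/2)*d*t^(3:ℕ) + 50*d*t^(4:ℕ) + 25*d*t^(5:ℕ) + 100*d*t^(6:ℕ) + 20*d*t^(7:ℕ) + (139/2)*d*t^(8:ℕ) + (-13/2)*d*t^(9:ℕ) + 14*d*t^(10:ℕ) + (-9/2)*d*t^(11:ℕ) + (-7)*d^(2:ℕ) + (-37/4)*d^(2:ℕ)*t + (-469/8)*d^(2:ℕ)*t^(2:ℕ) + (-159/4)*d^(2:ℕ)*t^(3:ℕ) + (-14)*d^(2:ℕ)*t^(4:ℕ) + 40*d^(2:ℕ)*t^(5:ℕ) + (691/4)*d^(2:ℕ)*t^(6:ℕ) + 32*d^(2:ℕ)*t^(7:ℕ) + 166*d^(2:ℕ)*t^(8:ℕ) + (-275/4)*d^(2:ℕ)*t^(9:ℕ) + (247/8)*d^(2:ℕ)*t^(10:ℕ) + (-121/4)*d^(2:ℕ)*t^(11:ℕ) + (-4)*d^(3:ℕ) +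 (-4)*d^(3:ℕ)*t + (-20)*d^(3:ℕ)*t^(2:ℕ) + (-56)*d^(3:ℕ)*t^(3:ℕ) + (-67)*d^(3:ℕ)*t^(4:ℕ) + (165/4)*d^(3:ℕ)*t^(5:ℕ) + (125/4)*d^(3:ℕ)*t^(6:ℕ) + 35*d^(3:ℕ)*t^(7:ℕ) + (251/2)*d^(3:ℕ)*t^(8:ℕ) + (-455/4)*d^(3:ℕ)*t^(9:ℕ) + (173/4)*d^(3:ℕ)*t^(10:ℕ) + (-111/2)*d^(3:ℕ)*t^(11:ℕ) + (83/4)*d^(4:ℕ)*t^(2:ℕ) + (-5/4)*d^(4:ℕ)*t^(3:ℕ) + (-51/4)*d^(4:ℕ)*t^(4:ℕ) + (-21/4)*d^(4:ℕ)*t^(5:ℕ) + (-27/4)*d^(4:ℕ)*t^(6:ℕ) + (25/4)*d^(4:ℕ)*t^(7:ℕ) + (243/4)*d^(4:ℕ)*t^(8:ℕ) + (-70)*d^(4:ℕ)*t^(9:ℕ) + 34*d^(4:ℕ)*t^(10:ℕ) + (-50)*d^(4:ℕ)*t^(11:ℕ) + (-8)*d^(5:ℕ)*t^(2:ℕ) + (119/4)*d^(5:ℕ)*t^(3:ℕ) + 1*d^(5:ℕ)*t^(4:ℕ) + (-18)*d^(5:ℕ)*t^(5:ℕ) + (11/2)*d^(5:ℕ)*t^(6:ℕ) + (23/4)*d^(5:ℕ)*t^(7:ℕ) + (39/2)*d^(5:ℕ)*t^(8:ℕ)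 + (-115/4)*d^(5:ℕ)*t^(9:ℕ) + 23*d^(5:ℕ)*t^(10:ℕ) + (-19)*d^(5:ℕ)*t^(11:ℕ) + (-8)*d^(6:ℕ)*t^(2:ℕ) + (167/16)*d^(6:ℕ)*t^(3:ℕ) + (-3)*d^(6:ℕ)*t^(4:ℕ) + (1/8)*d^(6:ℕ)*t^(5:ℕ) + (-127/8)*d^(6:ℕ)*t^(6:ℕ) + (315/16)*d^(6:ℕ)*t^(7:ℕ) + (31/8)*d^(6:ℕ)*t^(8:ℕ) + (-445/16)*d^(6:ℕ)*t^(9:ℕ) + (99/4)*d^(6:ℕ)*t^(10:ℕ) + (-33/4)*d^(6:ℕ)*t^(11:ℕ) + (5/2)*d^(7:ℕ)*t^(5:ℕ) + (-31/4)*d^(7:ℕ)*t^(6:ℕ) + 6*d^(7:ℕ)*t^(7:ℕ) + (29/4)*d^(7:ℕ)*t^(8:ℕ) + (-75/4)*d^(7:ℕ)*t^(9:ℕ) + 15*d^(7:ℕ)*t^(10:ℕ) + (-5)*d^(7:ℕ)*t^(11:ℕ) + (-1)*d^(8:ℕ)*t^(7:ℕ) + 3*d^(8:ℕ)*t^(8:ℕ) + (-17/4)*d^(8:ℕ)*t^(9:ℕ) + 3*d^(8:ℕ)*t^(10:ℕ) + (-1)*d^(8:ℕ)*t^(11:ℕ) := by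
  have e0 : 1 + (13/2)*t^(2:ℕ) + 16*t^(4:ℕ) + 19*t^(6:ℕ) + 11*t^(8:ℕ) + (5/2)*t^(10:ℕ) + (5/2)*d + (-1/2)*d*t + 8*d*t^(2:ℕ) + (5/2)*d*t^(3:ℕ) + 50*d*t^(4:ℕ) + 25*d*t^(5:ℕ) + 100*d*t^(6:ℕ) + 20*d*t^(7:ℕ) + (139/2)*d*t^(8:ℕ) + (-13/2)*d*t^(9:ℕ) + 14*d*t^(10:ℕ) + (-9/2)*d*t^(11:ℕ) + (-7)*d^(2:ℕ) + (-37/4)*d^(2:ℕ)*t + (-469/8)*d^(2:ℕ)*t^(2:ℕ) + (-159/4)*d^(2:ℕ)*t^(3:ℕ) + (-14)*d^(2:ℕ)*t^(4:ℕ) + 40*d^(2:ℕ)*t^(5:ℕ) + (691/4)*d^(2:ℕ)*t^(6:ℕ) + 32*d^(2:ℕ)*t^(7:ℕ) + 166*d^(2:ℕ)*t^(8:ℕ) + (-275/4)*d^(2:ℕ)*t^(9:ℕ) + (247/8)*d^(2:ℕ)*t^(10:ℕ) + (-121/4)*d^(2:ℕ)*t^(11:ℕ) + (-4)*d^(3:ℕ) + (-4)*d^(3:ℕ)*t + (-20)*d^(3:ℕ)*t^(2:ℕ) + (-56)*d^(3:ℕ)*t^(3:ℕ) + (-67)*d^(3:ℕ)*t^(4:ℕ) + (165/4)*d^(3:ℕ)*t^(5:ℕ)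 + (125/4)*d^(3:ℕ)*t^(6:ℕ) + 35*d^(3:ℕ)*t^(7:ℕ) + (251/2)*d^(3:ℕ)*t^(8:ℕ) + (-455/4)*d^(3:ℕ)*t^(9:ℕ) + (173/4)*d^(3:ℕ)*t^(10:ℕ) + (-111/2)*d^(3:ℕ)*t^(11:ℕ) + (83/4)*d^(4:ℕ)*t^(2:ℕ) + (-5/4)*d^(4:ℕ)*t^(3:ℕ) + (-51/4)*d^(4:ℕ)*t^(4:ℕ) + (-21/4)*d^(4:ℕ)*t^(5:ℕ) + (-27/4)*d^(4:ℕ)*t^(6:ℕ) + (25/4)*d^(4:ℕ)*t^(7:ℕ) + (243/4)*d^(4:ℕ)*t^(8:ℕ) + (-70)*d^(4:ℕ)*t^(9:ℕ) + 34*d^(4:ℕ)*t^(10:ℕ) + (-50)*d^(4:ℕ)*t^(11:ℕ) + (-8)*d^(5:ℕ)*t^(2:ℕ) + (119/4)*d^(5:ℕ)*t^(3:ℕ) + 1*d^(5:ℕ)*t^(4:ℕ) + (-18)*d^(5:ℕ)*t^(5:ℕ) + (11/2)*d^(5:ℕ)*t^(6:ℕ) + (23/4)*d^(5:ℕ)*t^(7:ℕ) + (39/2)*d^(5:ℕ)*t^(8:ℕ) + (-115/4)*d^(5:ℕ)*t^(9:ℕ) + 23*d^(5:ℕ)*t^(10:ℕ) + (-19)*d^(5:ℕ)*t^(11:ℕ) + (-8)*d^(6:ℕ)*t^(2:ℕ) +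 (167/16)*d^(6:ℕ)*t^(3:ℕ) + (-3)*d^(6:ℕ)*t^(4:ℕ) + (1/8)*d^(6:ℕ)*t^(5:ℕ) + (-127/8)*d^(6:ℕ)*t^(6:ℕ) + (315/16)*d^(6:ℕ)*t^(7:ℕ) + (31/8)*d^(6:ℕ)*t^(8:ℕ) + (-445/16)*d^(6:ℕ)*t^(9:ℕ) + (99/4)*d^(6:ℕ)*t^(10:ℕ) + (-33/4)*d^(6:ℕ)*t^(11:ℕ) + (5/2)*d^(7:ℕ)*t^(5:ℕ) + (-31/4)*d^(7:ℕ)*t^(6:ℕ) + 6*d^(7:ℕ)*t^(7:ℕ) + (29/4)*d^(7:ℕ)*t^(8:ℕ) + (-75/4)*d^(7:ℕ)*t^(9:ℕ) + 15*d^(7:ℕ)*t^(10:ℕ) + (-5)*d^(7:ℕ)*t^(11:ℕ) + (-1)*d^(8:ℕ)*t^(7:ℕ) + 3*d^(8:ℕ)*t^(8:ℕ) + (-17/4)*d^(8:ℕ)*t^(9:ℕ) + 3*d^(8:ℕ)*t^(10:ℕ) + (-1)*d^(8:ℕ)*t^(11:ℕ) = (1 + (13/2)*t^(2:ℕ) + 16*t^(4:ℕ) + 19*t^(6:ℕ) + 11*t^(8:ℕ) + (5/2)*t^(10:ℕ)) + d*((5/2) + (-1/2)*t + 8*t^(2:ℕ) + (5/2)*t^(3:ℕ) + 50*t^(4:ℕ) + 25*t^(5:ℕ) + 100*t^(6:ℕ)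 + 20*t^(7:ℕ) + (139/2)*t^(8:ℕ) + (-13/2)*t^(9:ℕ) + 14*t^(10:ℕ) + (-9/2)*t^(11:ℕ)) + d^(2:ℕ)*((-7) + (-37/4)*t + (-469/8)*t^(2:ℕ) + (-159/4)*t^(3:ℕ) + (-14)*t^(4:ℕ) + 40*t^(5:ℕ) + (691/4)*t^(6:ℕ) + 32*t^(7:ℕ) + 166*t^(8:ℕ) + (-275/4)*t^(9:ℕ) + (247/8)*t^(10:ℕ) + (-121/4)*t^(11:ℕ)) + d^(3:ℕ)*((-4) + (-4)*t + (-20)*t^(2:ℕ) + (-56)*t^(3:ℕ) + (-67)*t^(4:ℕ) + (165/4)*t^(5:ℕ) + (125/4)*t^(6:ℕ) + 35*t^(7:ℕ) + (251/2)*t^(8:ℕ) + (-455/4)*t^(9:ℕ) + (173/4)*t^(10:ℕ) + (-111/2)*t^(11:ℕ)) + d^(4:ℕ)*((83/4)*t^(2:ℕ) + (-5/4)*t^(3:ℕ) + (-51/4)*t^(4:ℕ) + (-21/4)*t^(5:ℕ) + (-27/4)*t^(6:ℕ) + (25/4)*t^(7:ℕ) + (243/4)*t^(8:ℕ) + (-70)*t^(9:ℕ) + 34*t^(10:ℕ) + (-50)*t^(11:ℕ)) + d^(5:ℕ)*((-8)*t^(2:ℕ)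 + (119/4)*t^(3:ℕ) + 1*t^(4:ℕ) + (-18)*t^(5:ℕ) + (11/2)*t^(6:ℕ) + (23/4)*t^(7:ℕ) + (39/2)*t^(8:ℕ) + (-115/4)*t^(9:ℕ) + 23*t^(10:ℕ) + (-19)*t^(11:ℕ)) + d^(6:ℕ)*((-8)*t^(2:ℕ) + (167/16)*t^(3:ℕ) + (-3)*t^(4:ℕ) + (1/8)*t^(5:ℕ) + (-127/8)*t^(6:ℕ) + (315/16)*t^(7:ℕ) + (31/8)*t^(8:ℕ) + (-445/16)*t^(9:ℕ) + (99/4)*t^(10:ℕ) + (-33/4)*t^(11:ℕ)) + d^(7:ℕ)*((5/2)*t^(5:ℕ) + (-31/4)*t^(6:ℕ) + 6*t^(7:ℕ) + (29/4)*t^(8:ℕ) + (-75/4)*t^(9:ℕ) + 15*t^(10:ℕ) + (-5)*t^(11:ℕ)) + d^(8:ℕ)*((-1)*t^(7:ℕ) + 3*t^(8:ℕ) + (-17/4)*t^(9:ℕ) + 3*t^(10:ℕ) + (-1)*t^(11:ℕ)) := by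
    ring
  rw [e0]
  exact pos_L2e_B1_core d _ _ _ _ _ _ _ _ _ h1 h2 (pos_L2e_B1_b0 t h3 h4) (pos_L2e_B1_b1 t h3 h4) (pos_L2e_B1_b2 t h3 h4) (pos_L2e_B1_b3 t h3 h4) (pos_L2e_B1_b4 t h3 h4) (pos_L2e_B1_b5 t h3 h4) (pos_L2e_B1_b6 t h3 h4) (pos_L2e_B1_b7 t h3 h4) (pos_L2e_B1_b8 t h3 h4)

end Vale.Agent.Lib.P100.AB.V1X
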