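import Mathlib

/-!
# P100: polynomial inequalities of the unequal-exponent family, box B2 (Bernstein coefficients).
-/

namespace Vale.Agent.Lib.P100.AB.V1X

lemma pos_r1_B2_b0 (t : ℝ) (h3 : (9/20) ≤ t) (h4 : t ≤ 1) :
    0 ≤ 1*(1 + 1*t^(2:ℕ)) + (3/10)*(2 + (-3)*t^(2:ℕ)) + (9/100)*((-1)*t^(2:ℕ)) - (7/5) := by
  have e : 1*(1 + 1*t^(2:ℕ)) + (3/10)*(2 + (-3)*t^(2:ℕ)) + (9/100)*((-1)*t^(2:ℕ)) - (7/5) = (8081/12100)*(1 - t)^(2:ℕ) + (818/605)*(t - (9/20))*(1 - t) + (84/121)*(t - (9/20))^(2:ℕ) := by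
    ring
  rw [e]
  have a3 : 0 ≤ t - (9/20) := by linarith
  have a4 : 0 ≤ 1 - t := by linarith
  generalize t - (9/20) = t1 at a3 ⊢
  generalize 1 - t = t2 at a4 ⊢
  positivity

lemma pos_r1_B2_b1 (t : ℝ) (h3 : (9/20) ≤ t) (h4 : t ≤ 1) :
    0 ≤ 1*(1 + 1*t^(2:ℕ)) + (19/60)*(2 + (-3)*t^(2:ℕ)) + (1/10)*((-1)*t^(2:ℕ)) - (7/5) := by
  have e : 1*(1 + 1*t^(2:ℕ)) + (19/60)*(2 + (-3)*t^(2:ℕ)) + (1/10)*((-1)*t^(2:ℕ)) - (7/5) = (487/660)*(1 - t)^(2:ℕ) + (46/33)*(t - (9/20))*(1 - t) + (20/33)*(t - (9/20))^(2:ℕ) := by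
    ring
  rw [e]
  have a3 : 0 ≤ t - (9/20) := by linarith
  have a4 : 0 ≤ 1 - t := by linarith
  generalize t - (9/20) = t1 at a3 ⊢
  generalize 1 - t = t2 at a4 ⊢
  positivity

lemma pos_r1_B2_b2 (t : ℝ) (h3 : (9/20) ≤ t) (h4 : t ≤ 1) :
    0 ≤ 1*(1 + 1*t^(2:ℕ)) + (1/3)*(2 + (-3)*t^(2:ℕ)) + (1/9)*((-1)*t^(2:ℕ)) - (7/5) := by
  have e : 1*(1 + 1*t^(2:ℕ)) + (1/3)*(2 + (-3)*t^(2:ℕ)) + (1/9)*((-1)*t^(2:ℕ)) - (7/5) = (293/363)*(1 - t)^(2:ℕ) + (520/363)*(t - (9/20))*(1 - t) + (560/1089)*(t - (9/20))^(2:ℕ) := by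
    ring
  rw [e]
  have a3 : 0 ≤ t - (9/20) := by linarith
  have a4 : 0 ≤ 1 - t := by linarith
  generalize t - (9/20) = t1 at a3 ⊢
  generalize 1 - t = t2 at a4 ⊢
  positivity

lemma pos_r1_B2_id (d : ℝ) (C0 C1 C2 : ℝ) :
    C0 + d*C1 + d^(2:ℕ)*C2 = (7/5) + (900*((1/3) - d)^(2:ℕ)*(1*C0 + (3/10)*C1 + (9/100)*C2 - (7/5)) + 1800*(d - (3/10))*((1/3) - d)*(1*C0 + (19/60)*C1 + (1/10)*C2 - (7/5)) + 900*(d - (3/10))^(2:ℕ)*(1*C0 + (1/3)*C1 + (1/9)*C2 - (7/5))) := by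
  ring

lemma pos_r1_B2_gen (d1 d2 B0 B1 B2 : ℝ) (a1 : 0 ≤ d1) (a2 : 0 ≤ d2) (b0 : 0 ≤ B0) (b1 : 0 ≤ B1) (b2 : 0 ≤ B2) :
    0 < (7/5) + (900*d2^(2:ℕ)*(B0) + 1800*d1*d2*(B1) + 900*d1^(2:ℕ)*(B2)) := by
  positivity

lemma pos_r1_B2_core (d C0 C1 C2 : ℝ) (h1 : (3/10) ≤ d) (h2 : d ≤ (1/3))
    (b0 : 0 ≤ 1*C0 + (3/10)*C1 + (9/100)*C2 - (7/5))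
    (b1 : 0 ≤ 1*C0 + (19/60)*C1 + (1/10)*C2 - (7/5))
    (b2 : 0 ≤ 1*C0 + (1/3)*C1 + (1/9)*C2 - (7/5)) :
    0 < C0 + d*C1 + d^(2:ℕ)*C2 := by
  rw [pos_r1_B2_id]
  exact pos_r1_B2_gen _ _ _ _ _ (sub_nonneg.2 h1) (sub_nonneg.2 h2) b0 b1 b2

lemma pos_r1_B2 (d t : ℝ) (h1 : (3/10) ≤ d) (h2 : d ≤ (1/3)) (h3 : (9/20) ≤ t) (h4 : t ≤ 1) :
    0 < 1 + 1*t^(2:ℕ) + 2*d + (-3)*d*t^(2:ℕ) + (-1)*d^(2:ℕ)*t^(2:ℕ) := by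
  have e0 : 1 + 1*t^(2:ℕ) + 2*d + (-3)*d*t^(2:ℕ) + (-1)*d^(2:ℕ)*t^(2:ℕ) = (1 + 1*t^(2:ℕ)) + d*(2 + (-3)*t^(2:ℕ)) + d^(2:ℕ)*((-1)*t^(2:ℕ)) := by
    ring
  rw [e0]
  exact pos_r1_B2_core d _ _ _ h1 h2 (pos_r1_B2_b0 t h3 h4) (pos_r1_B2_b1 t h3 h4) (pos_r1_B2_b2 t h3 h4)

lemma pos_r6_B2_b0 (t : ℝ) (h3 : (9/20) ≤ t) (h4 : t ≤ 1) :
    0 ≤ 1*(1 + 1*t^(2:ℕ)) + (3/10)*((-3) + 2*t^(2:ℕ)) + (9/100)*((-1)) - (203/1000) := by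
  have e : 1*(1 + 1*t^(2:ℕ)) + (3/10)*((-3) + 2*t^(2:ℕ)) + (9/100)*((-1)) - (203/1000) = (262/605)*(1 - t)^(2:ℕ) + (2108/605)*(t - (9/20))*(1 - t) + (2814/605)*(t - (9/20))^(2:ℕ) := by
    ring
  rw [e]
  have a3 : 0 ≤ t - (9/20) := by linarith
  have a4 : 0 ≤ 1 - t := by linarith
  generalize t - (9/20) = t1 at a3 ⊢
  generalize 1 - t = t2 at a4 ⊢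
  positivity

lemma pos_r6_B2_b1 (t : ℝ) (h3 : (9/20) ≤ t) (h4 : t ≤ 1) :
    0 ≤ 1*(1 + 1*t^(2:ℕ)) + (19/60)*((-3) + 2*t^(2:ℕ)) + (1/10)*((-1)) - (203/1000) := by
  have e : 1*(1 + 1*t^(2:ℕ)) + (19/60)*((-3) + 2*t^(2:ℕ)) + (1/10)*((-1)) - (203/1000) = (311/1210)*(1 - t)^(2:ℕ) + (1928/605)*(t - (9/20))*(1 - t) + (8282/1815)*(t - (9/20))^(2:ℕ) := by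
    ring
  rw [e]
  have a3 : 0 ≤ t - (9/20) := by linarith
  have a4 : 0 ≤ 1 - t := by linarith
  generalize t - (9/20) = t1 at a3 ⊢
  generalize 1 - t = t2 at a4 ⊢
  positivity

lemma pos_r6_B2_b2 (t : ℝ) (h3 : (9/20) ≤ t) (h4 : t ≤ 1) :
    0 ≤ 1*(1 + 1*t^(2:ℕ)) + (1/3)*((-3) + 2*t^(2:ℕ)) + (1/9)*((-1)) - (203/1000) := by
  have e : 1*(1 + 1*t^(2:ℕ)) + (1/3)*((-3) + 2*t^(2:ℕ)) + (1/9)*((-1)) - (203/1000) = (421/5445)*(1 - t)^(2:ℕ) + (15692/5445)*(t - (9/20))*(1 - t) + (24346/5445)*(t - (9/20))^(2:ℕ) := by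
    ring
  rw [e]
  have a3 : 0 ≤ t - (9/20) := by linarith
  have a4 : 0 ≤ 1 - t := by linarith
  generalize t - (9/20) = t1 at a3 ⊢
  generalize 1 - t = t2 at a4 ⊢
  positivity

lemma pos_r6_B2_id (d : ℝ) (C0 C1 C2 : ℝ) :
    C0 + d*C1 + d^(2:ℕ)*C2 = (203/1000) + (900*((1/3) - d)^(2:ℕ)*(1*C0 + (3/10)*C1 + (9/100)*C2 - (203/1000)) + 1800*(d - (3/10))*((1/3) - d)*(1*C0 + (19/60)*C1 + (1/10)*C2 - (203/1000)) + 900*(d - (3/10))^(2:ℕ)*(1*C0 + (1/3)*C1 + (1/9)*C2 - (203/1000))) := by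
  ring

lemma pos_r6_B2_gen (d1 d2 B0 B1 B2 : ℝ) (a1 : 0 ≤ d1) (a2 : 0 ≤ d2) (b0 : 0 ≤ B0) (b1 : 0 ≤ B1) (b2 : 0 ≤ B2) :
    0 < (203/1000) + (900*d2^(2:ℕ)*(B0) + 1800*d1*d2*(B1) + 900*d1^(2:ℕ)*(B2)) := by
  positivity

lemma pos_r6_B2_core (d C0 C1 C2 : ℝ) (h1 : (3/10) ≤ d) (h2 : d ≤ (1/3))
    (b0 : 0 ≤ 1*C0 + (3/10)*C1 + (9/100)*C2 - (203/1000))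
    (b1 : 0 ≤ 1*C0 + (19/60)*C1 + (1/10)*C2 - (203/1000))
    (b2 : 0 ≤ 1*C0 + (1/3)*C1 + (1/9)*C2 - (203/1000)) :
    0 < C0 + d*C1 + d^(2:ℕ)*C2 := by
  rw [pos_r6_B2_id]
  exact pos_r6_B2_gen _ _ _ _ _ (sub_nonneg.2 h1) (sub_nonneg.2 h2) b0 b1 b2

lemma pos_r6_B2 (d t : ℝ) (h1 : (3/10) ≤ d) (h2 : d ≤ (1/3)) (h3 : (9/20) ≤ t) (h4 : t ≤ 1) :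
    0 < 1 + 1*t^(2:ℕ) + (-3)*d + 2*d*t^(2:ℕ) + (-1)*d^(2:ℕ) := by
  have e0 : 1 + 1*t^(2:ℕ) + (-3)*d + 2*d*t^(2:ℕ) + (-1)*d^(2:ℕ) = (1 + 1*t^(2:ℕ)) + d*((-3) + 2*t^(2:ℕ)) + d^(2:ℕ)*((-1)) := by
    ring
  rw [e0]
  exact pos_r6_B2_core d _ _ _ h1 h2 (pos_r6_B2_b0 t h3 h4) (pos_r6_B2_b1 t h3 h4) (pos_r6_B2_b2 t h3 h4)

lemma pos_DP_B2_b0 (t : ℝ) (h3 : (9/20) ≤ t) (h4 : t ≤ 1) :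
    0 ≤ 1*(1 + 6*t^(2:ℕ) + 15*t^(4:ℕ) + 20*t^(6:ℕ) + 15*t^(8:ℕ) + 6*t^(10:ℕ) + 1*t^(12:ℕ)) + (3/10)*((-9/16) + (149/8)*t^(2:ℕ) + (-32)*t^(3:ℕ) + (1273/16)*t^(4:ℕ) + (-96)*t^(5:ℕ) + (483/4)*t^(6:ℕ) + (-96)*t^(7:ℕ) + (1273/16)*t^(8:ℕ) + (-32)*t^(9:ℕ) + (149/8)*t^(10:ℕ) + (-9/16)*t^(12:ℕ)) + (9/100)*((-233/16) + 8*t + (-73/2)*t^(2:ℕ) + 12*t^(3:ℕ) + (-623/16)*t^(4:ℕ) + (-4)*t^(5:ℕ) + (-34)*t^(6:ℕ) + (-4)*t^(7:ℕ) + (-623/16)*t^(8:ℕ) + 12*t^(9:ℕ) + (-73/2)*t^(10:ℕ) + 8*t^(11:ℕ) + (-233/16)*t^(12:ℕ)) + (27/1000)*((-287/16) + 27*t + (-625/4)*t^(2:ℕ) + 213*t^(3:ℕ) + (-3321/16)*t^(4:ℕ) + 184*t^(5:ℕ) + (-277/2)*t^(6:ℕ) + 184*t^(7:ℕ) + (-3321/16)*t^(8:ℕ) + 213*t^(9:ℕ) + (-625/4)*t^(10:ℕ)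 + 27*t^(11:ℕ) + (-287/16)*t^(12:ℕ)) + (81/10000)*(5 + 12*t + (-347/4)*t^(2:ℕ) + 62*t^(3:ℕ) + (419/2)*t^(4:ℕ) + (-378)*t^(5:ℕ) + (885/2)*t^(6:ℕ) + (-378)*t^(7:ℕ) + (419/2)*t^(8:ℕ) + 62*t^(9:ℕ) + (-347/4)*t^(10:ℕ) + 12*t^(11:ℕ) + 5*t^(12:ℕ)) + (243/100000)*((25/4) + (-20)*t + (107/2)*t^(2:ℕ) + (-120)*t^(3:ℕ) + (529/4)*t^(4:ℕ) + 52*t^(5:ℕ) + (-182)*t^(6:ℕ) + 52*t^(7:ℕ) + (529/4)*t^(8:ℕ) + (-120)*t^(9:ℕ) + (107/2)*t^(10:ℕ) + (-20)*t^(11:ℕ) + (25/4)*t^(12:ℕ)) + (729/1000000)*((-25)*t^(4:ℕ) + 80*t^(5:ℕ) + (-114)*t^(6:ℕ) + 80*t^(7:ℕ) + (-25)*t^(8:ℕ)) - (399/500) := by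
  have e : 1*(1 + 6*t^(2:ℕ) + 15*t^(4:ℕ) + 20*t^(6:ℕ) + 15*t^(8:ℕ) + 6*t^(10:ℕ) + 1*t^(12:ℕ)) + (3/10)*((-9/16) + (149/8)*t^(2:ℕ) + (-32)*t^(3:ℕ) + (1273/16)*t^(4:ℕ) + (-96)*t^(5:ℕ) + (483/4)*t^(6:ℕ) + (-96)*t^(7:ℕ) + (1273/16)*t^(8:ℕ) + (-32)*t^(9:ℕ) + (149/8)*t^(10:ℕ) + (-9/16)*t^(12:ℕ)) + (9/100)*((-233/16) + 8*t + (-73/2)*t^(2:ℕ) + 12*t^(3:ℕ) + (-623/16)*t^(4:ℕ) + (-4)*t^(5:ℕ) + (-34)*t^(6:ℕ) + (-4)*t^(7:ℕ) + (-623/16)*t^(8:ℕ) + 12*t^(9:ℕ) + (-73/2)*t^(10:ℕ) + 8*t^(11:ℕ) + (-233/16)*t^(12:ℕ)) + (27/1000)*((-287/16) + 27*t + (-625/4)*t^(2:ℕ) + 213*t^(3:ℕ) + (-3321/16)*t^(4:ℕ) + 184*t^(5:ℕ) + (-277/2)*t^(6:ℕ) + 184*t^(7:ℕ) + (-3321/16)*t^(8:ℕ) + 213*t^(9:ℕ) + (-625/4)*t^(10:ℕ)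 + 27*t^(11:ℕ) + (-287/16)*t^(12:ℕ)) + (81/10000)*(5 + 12*t + (-347/4)*t^(2:ℕ) + 62*t^(3:ℕ) + (419/2)*t^(4:ℕ) + (-378)*t^(5:ℕ) + (885/2)*t^(6:ℕ) + (-378)*t^(7:ℕ) + (419/2)*t^(8:ℕ) + 62*t^(9:ℕ) + (-347/4)*t^(10:ℕ) + 12*t^(11:ℕ) + 5*t^(12:ℕ)) + (243/100000)*((25/4) + (-20)*t + (107/2)*t^(2:ℕ) + (-120)*t^(3:ℕ) + (529/4)*t^(4:ℕ) + 52*t^(5:ℕ) + (-182)*t^(6:ℕ) + 52*t^(7:ℕ) + (529/4)*t^(8:ℕ) + (-120)*t^(9:ℕ) + (107/2)*t^(10:ℕ) + (-20)*t^(11:ℕ) + (25/4)*t^(12:ℕ)) + (729/1000000)*((-25)*t^(4:ℕ) + 80*t^(5:ℕ) + (-114)*t^(6:ℕ) + 80*t^(7:ℕ) + (-25)*t^(8:ℕ)) - (399/500) = (651416477824677313/784607094180250)*(1 - t)^(12:ℕ) + (7937813432410931724/392303547090125)*(t - (9/20))*(1 - t)^(11:ℕ)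 + (6590699345781164694/35663958826375)*(t - (9/20))^(2:ℕ)*(1 - t)^(10:ℕ) + (267399682388411504/285311670611)*(t - (9/20))^(3:ℕ)*(1 - t)^(9:ℕ) + (4369373795274165504/1426558353055)*(t - (9/20))^(4:ℕ)*(1 - t)^(8:ℕ) + (1977357621199260672/285311670611)*(t - (9/20))^(5:ℕ)*(1 - t)^(7:ℕ) + (3212125702945217536/285311670611)*(t - (9/20))^(6:ℕ)*(1 - t)^(6:ℕ) + (3800869513468846080/285311670611)*(t - (9/20))^(7:ℕ)*(1 - t)^(5:ℕ) + (3266730189210624000/285311670611)*(t - (9/20))^(8:ℕ)*(1 - t)^(4:ℕ) + (1995303298416640000/285311670611)*(t - (9/20))^(9:ℕ)*(1 - t)^(3:ℕ) + (823969343078400000/285311670611)*(t - (9/20))^(10:ℕ)*(1 - t)^(2:ℕ) + (2275327986892800000/3138428376721)*(t - (9/20))^(11:ℕ)*(1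 - t) + (262771769344000000/3138428376721)*(t - (9/20))^(12:ℕ) := by
    ring
  rw [e]
  have a3 : 0 ≤ t - (9/20) := by linarith
  have a4 : 0 ≤ 1 - t := by linarith
  generalize t - (9/20) = t1 at a3 ⊢
  generalize 1 - t = t2 at a4 ⊢
  positivity

lemma pos_DP_B2_b1 (t : ℝ) (h3 : (9/20) ≤ t) (h4 : t ≤ 1) :
    0 ≤ 1*(1 + 6*t^(2:ℕ) + 15*t^(4:ℕ) + 20*t^(6:ℕ) + 15*t^(8:ℕ) + 6*t^(10:ℕ) + 1*t^(12:ℕ)) + (11/36)*((-9/16) + (149/8)*t^(2:ℕ) + (-32)*t^(3:ℕ) + (1273/16)*t^(4:ℕ) + (-96)*t^(5:ℕ) + (483/4)*t^(6:ℕ) + (-96)*t^(7:ℕ) + (1273/16)*t^(8:ℕ) + (-32)*t^(9:ℕ) + (149/8)*t^(10:ℕ) + (-9/16)*t^(12:ℕ)) + (7/75)*((-233/16) + 8*t + (-73/2)*t^(2:ℕ) + 12*t^(3:ℕ) + (-623/16)*t^(4:ℕ) + (-4)*t^(5:ℕ)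 + (-34)*t^(6:ℕ) + (-4)*t^(7:ℕ) + (-623/16)*t^(8:ℕ) + 12*t^(9:ℕ) + (-73/2)*t^(10:ℕ) + 8*t^(11:ℕ) + (-233/16)*t^(12:ℕ)) + (57/2000)*((-287/16) + 27*t + (-625/4)*t^(2:ℕ) + 213*t^(3:ℕ) + (-3321/16)*t^(4:ℕ) + 184*t^(5:ℕ) + (-277/2)*t^(6:ℕ) + 184*t^(7:ℕ) + (-3321/16)*t^(8:ℕ) + 213*t^(9:ℕ) + (-625/4)*t^(10:ℕ) + 27*t^(11:ℕ) + (-287/16)*t^(12:ℕ)) + (87/10000)*(5 + 12*t + (-347/4)*t^(2:ℕ) + 62*t^(3:ℕ) + (419/2)*t^(4:ℕ) + (-378)*t^(5:ℕ) + (885/2)*t^(6:ℕ) + (-378)*t^(7:ℕ) + (419/2)*t^(8:ℕ) + 62*t^(9:ℕ) + (-347/4)*t^(10:ℕ) + 12*t^(11:ℕ) + 5*t^(12:ℕ)) + (531/200000)*((25/4) + (-20)*t + (107/2)*t^(2:ℕ) + (-120)*t^(3:ℕ) + (529/4)*t^(4:ℕ) + 52*t^(5:ℕ) + (-182)*t^(6:ℕ) + 52*t^(7:ℕ) + (529/4)*t^(8:ℕ)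 + (-120)*t^(9:ℕ) + (107/2)*t^(10:ℕ) + (-20)*t^(11:ℕ) + (25/4)*t^(12:ℕ)) + (81/100000)*((-25)*t^(4:ℕ) + 80*t^(5:ℕ) + (-114)*t^(6:ℕ) + 80*t^(7:ℕ) + (-25)*t^(8:ℕ)) - (399/500) := by
  have e : 1*(1 + 6*t^(2:ℕ) + 15*t^(4:ℕ) + 20*t^(6:ℕ) + 15*t^(8:ℕ) + 6*t^(10:ℕ) + 1*t^(12:ℕ)) + (11/36)*((-9/16) + (149/8)*t^(2:ℕ) + (-32)*t^(3:ℕ) + (1273/16)*t^(4:ℕ) + (-96)*t^(5:ℕ) + (483/4)*t^(6:ℕ) + (-96)*t^(7:ℕ) + (1273/16)*t^(8:ℕ) + (-32)*t^(9:ℕ) + (149/8)*t^(10:ℕ) + (-9/16)*t^(12:ℕ)) + (7/75)*((-233/16) + 8*t + (-73/2)*t^(2:ℕ) + 12*t^(3:ℕ) + (-623/16)*t^(4:ℕ) + (-4)*t^(5:ℕ) + (-34)*t^(6:ℕ) + (-4)*t^(7:ℕ) + (-623/16)*t^(8:ℕ) + 12*t^(9:ℕ) + (-73/2)*t^(10:ℕ) + 8*t^(11:ℕ) + (-233/16)*t^(12:ℕ))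 + (57/2000)*((-287/16) + 27*t + (-625/4)*t^(2:ℕ) + 213*t^(3:ℕ) + (-3321/16)*t^(4:ℕ) + 184*t^(5:ℕ) + (-277/2)*t^(6:ℕ) + 184*t^(7:ℕ) + (-3321/16)*t^(8:ℕ) + 213*t^(9:ℕ) + (-625/4)*t^(10:ℕ) + 27*t^(11:ℕ) + (-287/16)*t^(12:ℕ)) + (87/10000)*(5 + 12*t + (-347/4)*t^(2:ℕ) + 62*t^(3:ℕ) + (419/2)*t^(4:ℕ) + (-378)*t^(5:ℕ) + (885/2)*t^(6:ℕ) + (-378)*t^(7:ℕ) + (419/2)*t^(8:ℕ) + 62*t^(9:ℕ) + (-347/4)*t^(10:ℕ) + 12*t^(11:ℕ) + 5*t^(12:ℕ)) + (531/200000)*((25/4) + (-20)*t + (107/2)*t^(2:ℕ) + (-120)*t^(3:ℕ) + (529/4)*t^(4:ℕ) + 52*t^(5:ℕ) + (-182)*t^(6:ℕ) + 52*t^(7:ℕ) + (529/4)*t^(8:ℕ) + (-120)*t^(9:ℕ) + (107/2)*t^(10:ℕ) + (-20)*t^(11:ℕ) + (25/4)*t^(12:ℕ)) + (81/100000)*((-25)*t^(4:ℕ) + 80*t^(5:ℕ)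 + (-114)*t^(6:ℕ) + 80*t^(7:ℕ) + (-25)*t^(8:ℕ)) - (399/500) = (13574766750904726193/18830570260326000)*(1 - t)^(12:ℕ) + (88809945190676848507/4707642565081500)*(t - (9/20))*(1 - t)^(11:ℕ) + (454319300241328925443/2567805035499000)*(t - (9/20))^(2:ℕ)*(1 - t)^(10:ℕ) + (11680149728455140523/12839025177495)*(t - (9/20))^(3:ℕ)*(1 - t)^(9:ℕ) + (38491089189748610576/12839025177495)*(t - (9/20))^(4:ℕ)*(1 - t)^(8:ℕ) + (17515473051195558080/2567805035499)*(t - (9/20))^(5:ℕ)*(1 - t)^(7:ℕ) + (28562448714574797760/2567805035499)*(t - (9/20))^(6:ℕ)*(1 - t)^(6:ℕ) + (33890337947645964800/2567805035499)*(t - (9/20))^(7:ℕ)*(1 - t)^(5:ℕ) + (29185032179972672000/2567805035499)*(t - (9/20))^(8:ℕ)*(1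 - t)^(4:ℕ) + (17850666749363200000/2567805035499)*(t - (9/20))^(9:ℕ)*(1 - t)^(3:ℕ) + (7378107283865600000/2567805035499)*(t - (9/20))^(10:ℕ)*(1 - t)^(2:ℕ) + (2264822468608000000/3138428376721)*(t - (9/20))^(11:ℕ)*(1 - t) + (784692715520000000/9415285130163)*(t - (9/20))^(12:ℕ) := by
    ring
  rw [e]
  have a3 : 0 ≤ t - (9/20) := by linarith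
  have a4 : 0 ≤ 1 - t := by linarith
  generalize t - (9/20) = t1 at a3 ⊢
  generalize 1 - t = t2 at a4 ⊢
  positivity

lemma pos_DP_B2_b2 (t : ℝ) (h3 : (9/20) ≤ t) (h4 : t ≤ 1) :
    0 ≤ 1*(1 + 6*t^(2:ℕ) + 15*t^(4:ℕ) + 20*t^(6:ℕ) + 15*t^(8:ℕ) + 6*t^(10:ℕ) + 1*t^(12:ℕ)) + (14/45)*((-9/16) + (149/8)*t^(2:ℕ) + (-32)*t^(3:ℕ) + (1273/16)*t^(4:ℕ) + (-96)*t^(5:ℕ) + (483/4)*t^(6:ℕ) + (-96)*t^(7:ℕ) + (1273/16)*t^(8:ℕ) + (-32)*t^(9:ℕ) + (149/8)*t^(10:ℕ) + (-9/16)*t^(12:ℕ)) + (653/6750)*((-233/16) + 8*t + (-73/2)*t^(2:ℕ) + 12*t^(3:ℕ) + (-623/16)*t^(4:ℕ) + (-4)*t^(5:ℕ) + (-34)*t^(6:ℕ) + (-4)*t^(7:ℕ) + (-623/16)*t^(8:ℕ) + 12*t^(9:ℕ) + (-73/2)*t^(10:ℕ) + 8*t^(11:ℕ) + (-233/16)*t^(12:ℕ))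 + (451/15000)*((-287/16) + 27*t + (-625/4)*t^(2:ℕ) + 213*t^(3:ℕ) + (-3321/16)*t^(4:ℕ) + 184*t^(5:ℕ) + (-277/2)*t^(6:ℕ) + 184*t^(7:ℕ) + (-3321/16)*t^(8:ℕ) + 213*t^(9:ℕ) + (-625/4)*t^(10:ℕ) + 27*t^(11:ℕ) + (-287/16)*t^(12:ℕ)) + (467/50000)*(5 + 12*t + (-347/4)*t^(2:ℕ) + 62*t^(3:ℕ) + (419/2)*t^(4:ℕ) + (-378)*t^(5:ℕ) + (885/2)*t^(6:ℕ) + (-378)*t^(7:ℕ) + (419/2)*t^(8:ℕ) + 62*t^(9:ℕ) + (-347/4)*t^(10:ℕ) + 12*t^(11:ℕ) + 5*t^(12:ℕ)) + (29/10000)*((25/4) + (-20)*t + (107/2)*t^(2:ℕ) + (-120)*t^(3:ℕ) + (529/4)*t^(4:ℕ) + 52*t^(5:ℕ) + (-182)*t^(6:ℕ) + 52*t^(7:ℕ) + (529/4)*t^(8:ℕ) + (-120)*t^(9:ℕ) + (107/2)*t^(10:ℕ) + (-20)*t^(11:ℕ) + (25/4)*t^(12:ℕ)) + (9/10000)*((-25)*t^(4:ℕ) + 80*t^(5:ℕ)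 + (-114)*t^(6:ℕ) + 80*t^(7:ℕ) + (-25)*t^(8:ℕ)) - (399/500) := by
  have e : 1*(1 + 6*t^(2:ℕ) + 15*t^(4:ℕ) + 20*t^(6:ℕ) + 15*t^(8:ℕ) + 6*t^(10:ℕ) + 1*t^(12:ℕ)) + (14/45)*((-9/16) + (149/8)*t^(2:ℕ) + (-32)*t^(3:ℕ) + (1273/16)*t^(4:ℕ) + (-96)*t^(5:ℕ) + (483/4)*t^(6:ℕ) + (-96)*t^(7:ℕ) + (1273/16)*t^(8:ℕ) + (-32)*t^(9:ℕ) + (149/8)*t^(10:ℕ) + (-9/16)*t^(12:ℕ)) + (653/6750)*((-233/16) + 8*t + (-73/2)*t^(2:ℕ) + 12*t^(3:ℕ) + (-623/16)*t^(4:ℕ) + (-4)*t^(5:ℕ) + (-34)*t^(6:ℕ) + (-4)*t^(7:ℕ) + (-623/16)*t^(8:ℕ) + 12*t^(9:ℕ) + (-73/2)*t^(10:ℕ) + 8*t^(11:ℕ) + (-233/16)*t^(12:ℕ)) + (451/15000)*((-287/16) + 27*t + (-625/4)*t^(2:ℕ) + 213*t^(3:ℕ) + (-3321/16)*t^(4:ℕ) + 184*t^(5:ℕ) + (-277/2)*t^(6:ℕ)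 + 184*t^(7:ℕ) + (-3321/16)*t^(8:ℕ) + 213*t^(9:ℕ) + (-625/4)*t^(10:ℕ) + 27*t^(11:ℕ) + (-287/16)*t^(12:ℕ)) + (467/50000)*(5 + 12*t + (-347/4)*t^(2:ℕ) + 62*t^(3:ℕ) + (419/2)*t^(4:ℕ) + (-378)*t^(5:ℕ) + (885/2)*t^(6:ℕ) + (-378)*t^(7:ℕ) + (419/2)*t^(8:ℕ) + 62*t^(9:ℕ) + (-347/4)*t^(10:ℕ) + 12*t^(11:ℕ) + 5*t^(12:ℕ)) + (29/10000)*((25/4) + (-20)*t + (107/2)*t^(2:ℕ) + (-120)*t^(3:ℕ) + (529/4)*t^(4:ℕ) + 52*t^(5:ℕ) + (-182)*t^(6:ℕ) + 52*t^(7:ℕ) + (529/4)*t^(8:ℕ) + (-120)*t^(9:ℕ) + (107/2)*t^(10:ℕ) + (-20)*t^(11:ℕ) + (25/4)*t^(12:ℕ)) + (9/10000)*((-25)*t^(4:ℕ) + 80*t^(5:ℕ) + (-114)*t^(6:ℕ) + 80*t^(7:ℕ) + (-25)*t^(8:ℕ)) - (399/500) = (4120254694866827716093/6779005293717360000)*(1 - t)^(12:ℕ)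 + (7392511261451825089859/423687830857335000)*(t - (9/20))*(1 - t)^(11:ℕ) + (325031456555586643667/1925853776624250)*(t - (9/20))^(2:ℕ)*(1 - t)^(10:ℕ) + (169712613395510341648/192585377662425)*(t - (9/20))^(3:ℕ)*(1 - t)^(9:ℕ) + (22575602844258270736/7703415106497)*(t - (9/20))^(4:ℕ)*(1 - t)^(8:ℕ) + (51671265621371536000/7703415106497)*(t - (9/20))^(5:ℕ)*(1 - t)^(7:ℕ) + (84605713205609776640/7703415106497)*(t - (9/20))^(6:ℕ)*(1 - t)^(6:ℕ) + (100679599993805209600/7703415106497)*(t - (9/20))^(7:ℕ)*(1 - t)^(5:ℕ) + (86881434706665472000/7703415106497)*(t - (9/20))^(8:ℕ)*(1 - t)^(4:ℕ) + (53217083267072000000/7703415106497)*(t - (9/20))^(9:ℕ)*(1 - t)^(3:ℕ) + (7338851909632000000/2567805035499)*(t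 - (9/20))^(10:ℕ)*(1 - t)^(2:ℕ) + (20284684042240000000/28245855390489)*(t - (9/20))^(11:ℕ)*(1 - t) + (7028193689600000000/84737566171467)*(t - (9/20))^(12:ℕ) := by
    ring
  rw [e]
  have a3 : 0 ≤ t - (9/20) := by linarith
  have a4 : 0 ≤ 1 - t := by linarith
  generalize t - (9/20) = t1 at a3 ⊢
  generalize 1 - t = t2 at a4 ⊢
  positivity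

lemma pos_DP_B2_b3 (t : ℝ) (h3 : (9/20) ≤ t) (h4 : t ≤ 1) :
    0 ≤ 1*(1 + 6*t^(2:ℕ) + 15*t^(4:ℕ) + 20*t^(6:ℕ) + 15*t^(8:ℕ) + 6*t^(10:ℕ) + 1*t^(12:ℕ)) + (19/60)*((-9/16) + (149/8)*t^(2:ℕ) + (-32)*t^(3:ℕ) + (1273/16)*t^(4:ℕ) + (-96)*t^(5:ℕ) + (483/4)*t^(6:ℕ) + (-96)*t^(7:ℕ) + (1273/16)*t^(8:ℕ) + (-32)*t^(9:ℕ) + (149/8)*t^(10:ℕ) + (-9/16)*t^(12:ℕ)) + (451/4500)*((-233/16) + 8*t + (-73/2)*t^(2:ℕ) + 12*t^(3:ℕ) + (-623/16)*t^(4:ℕ) + (-4)*t^(5:ℕ) + (-34)*t^(6:ℕ) + (-4)*t^(7:ℕ) + (-623/16)*t^(8:ℕ) + 12*t^(9:ℕ) + (-73/2)*t^(10:ℕ) + 8*t^(11:ℕ) + (-233/16)*t^(12:ℕ)) + (17119/540000)*((-287/16) + 27*t + (-625/4)*t^(2:ℕ) + 213*t^(3:ℕ) + (-3321/16)*t^(4:ℕ) + 184*t^(5:ℕ) + (-277/2)*t^(6:ℕ)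 + 184*t^(7:ℕ) + (-3321/16)*t^(8:ℕ) + 213*t^(9:ℕ) + (-625/4)*t^(10:ℕ) + 27*t^(11:ℕ) + (-287/16)*t^(12:ℕ)) + (451/45000)*(5 + 12*t + (-347/4)*t^(2:ℕ) + 62*t^(3:ℕ) + (419/2)*t^(4:ℕ) + (-378)*t^(5:ℕ) + (885/2)*t^(6:ℕ) + (-378)*t^(7:ℕ) + (419/2)*t^(8:ℕ) + 62*t^(9:ℕ) + (-347/4)*t^(10:ℕ) + 12*t^(11:ℕ) + 5*t^(12:ℕ)) + (19/6000)*((25/4) + (-20)*t + (107/2)*t^(2:ℕ) + (-120)*t^(3:ℕ) + (529/4)*t^(4:ℕ) + 52*t^(5:ℕ) + (-182)*t^(6:ℕ) + 52*t^(7:ℕ) + (529/4)*t^(8:ℕ) + (-120)*t^(9:ℕ) + (107/2)*t^(10:ℕ) + (-20)*t^(11:ℕ) + (25/4)*t^(12:ℕ)) + (1/1000)*((-25)*t^(4:ℕ) + 80*t^(5:ℕ) + (-114)*t^(6:ℕ) + 80*t^(7:ℕ) + (-25)*t^(8:ℕ)) - (399/500) := by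
  have e : 1*(1 + 6*t^(2:ℕ) + 15*t^(4:ℕ) + 20*t^(6:ℕ) + 15*t^(8:ℕ) + 6*t^(10:ℕ) + 1*t^(12:ℕ)) + (19/60)*((-9/16) + (149/8)*t^(2:ℕ) + (-32)*t^(3:ℕ) + (1273/16)*t^(4:ℕ) + (-96)*t^(5:ℕ) + (483/4)*t^(6:ℕ) + (-96)*t^(7:ℕ) + (1273/16)*t^(8:ℕ) + (-32)*t^(9:ℕ) + (149/8)*t^(10:ℕ) + (-9/16)*t^(12:ℕ)) + (451/4500)*((-233/16) + 8*t + (-73/2)*t^(2:ℕ) + 12*t^(3:ℕ) + (-623/16)*t^(4:ℕ) + (-4)*t^(5:ℕ) + (-34)*t^(6:ℕ) + (-4)*t^(7:ℕ) + (-623/16)*t^(8:ℕ) + 12*t^(9:ℕ) + (-73/2)*t^(10:ℕ) + 8*t^(11:ℕ) + (-233/16)*t^(12:ℕ)) + (17119/540000)*((-287/16) + 27*t + (-625/4)*t^(2:ℕ) + 213*t^(3:ℕ) + (-3321/16)*t^(4:ℕ) + 184*t^(5:ℕ) + (-277/2)*t^(6:ℕ) + 184*t^(7:ℕ) + (-3321/16)*t^(8:ℕ) + 213*t^(9:ℕ) +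 (-625/4)*t^(10:ℕ) + 27*t^(11:ℕ) + (-287/16)*t^(12:ℕ)) + (451/45000)*(5 + 12*t + (-347/4)*t^(2:ℕ) + 62*t^(3:ℕ) + (419/2)*t^(4:ℕ) + (-378)*t^(5:ℕ) + (885/2)*t^(6:ℕ) + (-378)*t^(7:ℕ) + (419/2)*t^(8:ℕ) + 62*t^(9:ℕ) + (-347/4)*t^(10:ℕ) + 12*t^(11:ℕ) + 5*t^(12:ℕ)) + (19/6000)*((25/4) + (-20)*t + (107/2)*t^(2:ℕ) + (-120)*t^(3:ℕ) + (529/4)*t^(4:ℕ) + 52*t^(5:ℕ) + (-182)*t^(6:ℕ) + 52*t^(7:ℕ) + (529/4)*t^(8:ℕ) + (-120)*t^(9:ℕ) + (107/2)*t^(10:ℕ) + (-20)*t^(11:ℕ) + (25/4)*t^(12:ℕ)) + (1/1000)*((-25)*t^(4:ℕ) + 80*t^(5:ℕ) + (-114)*t^(6:ℕ) + 80*t^(7:ℕ) + (-25)*t^(8:ℕ)) - (399/500) = (13311801104882482446967/27116021174869440000)*(1 - t)^(12:ℕ) + (601906104266643117409/37661140520652000)*(t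 - (9/20))*(1 - t)^(11:ℕ) + (494027864111306759339/3081366042598800)*(t - (9/20))^(2:ℕ)*(1 - t)^(10:ℕ) + (21869840539946306767/25678050354990)*(t - (9/20))^(3:ℕ)*(1 - t)^(9:ℕ) + (7345763410431635399/2567805035499)*(t - (9/20))^(4:ℕ)*(1 - t)^(8:ℕ) + (50762952154289975200/7703415106497)*(t - (9/20))^(5:ℕ)*(1 - t)^(7:ℕ) + (83482288397376214400/7703415106497)*(t - (9/20))^(6:ℕ)*(1 - t)^(6:ℕ) + (99649157941001728000/7703415106497)*(t - (9/20))^(7:ℕ)*(1 - t)^(5:ℕ) + (86180770253236480000/7703415106497)*(t - (9/20))^(8:ℕ)*(1 - t)^(4:ℕ) + (17622836637184000000/2567805035499)*(t - (9/20))^(9:ℕ)*(1 - t)^(3:ℕ) + (7297972065280000000/2567805035499)*(t - (9/20))^(10:ℕ)*(1 - t)^(2:ℕ) +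 (6727280680960000000/9415285130163)*(t - (9/20))^(11:ℕ)*(1 - t) + (2330910310400000000/28245855390489)*(t - (9/20))^(12:ℕ) := by
    ring
  rw [e]
  have a3 : 0 ≤ t - (9/20) := by linarith
  have a4 : 0 ≤ 1 - t := by linarith
  generalize t - (9/20) = t1 at a3 ⊢
  generalize 1 - t = t2 at a4 ⊢
  positivity

lemma pos_DP_B2_b4 (t : ℝ) (h3 : (9/20) ≤ t) (h4 : t ≤ 1) :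
    0 ≤ 1*(1 + 6*t^(2:ℕ) + 15*t^(4:ℕ) + 20*t^(6:ℕ) + 15*t^(8:ℕ) + 6*t^(10:ℕ) + 1*t^(12:ℕ)) + (29/90)*((-9/16) + (149/8)*t^(2:ℕ) + (-32)*t^(3:ℕ) + (1273/16)*t^(4:ℕ) + (-96)*t^(5:ℕ) + (483/4)*t^(6:ℕ) + (-96)*t^(7:ℕ) + (1273/16)*t^(8:ℕ) + (-32)*t^(9:ℕ) + (149/8)*t^(10:ℕ) + (-9/16)*t^(12:ℕ)) + (467/4500)*((-233/16) + 8*t + (-73/2)*t^(2:ℕ) + 12*t^(3:ℕ) + (-623/16)*t^(4:ℕ) + (-4)*t^(5:ℕ) + (-34)*t^(6:ℕ) + (-4)*t^(7:ℕ) + (-623/16)*t^(8:ℕ) + 12*t^(9:ℕ) + (-73/2)*t^(10:ℕ) + 8*t^(11:ℕ) + (-233/16)*t^(12:ℕ)) + (451/13500)*((-287/16) + 27*t + (-625/4)*t^(2:ℕ) + 213*t^(3:ℕ) + (-3321/16)*t^(4:ℕ) + 184*t^(5:ℕ) + (-277/2)*t^(6:ℕ) + 184*t^(7:ℕ) + (-3321/16)*t^(8:ℕ) + 213*t^(9:ℕ) + (-625/4)*t^(10:ℕ)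 + 27*t^(11:ℕ) + (-287/16)*t^(12:ℕ)) + (653/60750)*(5 + 12*t + (-347/4)*t^(2:ℕ) + 62*t^(3:ℕ) + (419/2)*t^(4:ℕ) + (-378)*t^(5:ℕ) + (885/2)*t^(6:ℕ) + (-378)*t^(7:ℕ) + (419/2)*t^(8:ℕ) + 62*t^(9:ℕ) + (-347/4)*t^(10:ℕ) + 12*t^(11:ℕ) + 5*t^(12:ℕ)) + (7/2025)*((25/4) + (-20)*t + (107/2)*t^(2:ℕ) + (-120)*t^(3:ℕ) + (529/4)*t^(4:ℕ) + 52*t^(5:ℕ) + (-182)*t^(6:ℕ) + 52*t^(7:ℕ) + (529/4)*t^(8:ℕ) + (-120)*t^(9:ℕ) + (107/2)*t^(10:ℕ) + (-20)*t^(11:ℕ) + (25/4)*t^(12:ℕ)) + (1/900)*((-25)*t^(4:ℕ) + 80*t^(5:ℕ) + (-114)*t^(6:ℕ) + 80*t^(7:ℕ) + (-25)*t^(8:ℕ)) - (399/500) := by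
  have e : 1*(1 + 6*t^(2:ℕ) + 15*t^(4:ℕ) + 20*t^(6:ℕ) + 15*t^(8:ℕ) + 6*t^(10:ℕ) + 1*t^(12:ℕ)) + (29/90)*((-9/16) + (149/8)*t^(2:ℕ) + (-32)*t^(3:ℕ) + (1273/16)*t^(4:ℕ) + (-96)*t^(5:ℕ) + (483/4)*t^(6:ℕ) + (-96)*t^(7:ℕ) + (1273/16)*t^(8:ℕ) + (-32)*t^(9:ℕ) + (149/8)*t^(10:ℕ) + (-9/16)*t^(12:ℕ)) + (467/4500)*((-233/16) + 8*t + (-73/2)*t^(2:ℕ) + 12*t^(3:ℕ) + (-623/16)*t^(4:ℕ) + (-4)*t^(5:ℕ) + (-34)*t^(6:ℕ) + (-4)*t^(7:ℕ) + (-623/16)*t^(8:ℕ) + 12*t^(9:ℕ) + (-73/2)*t^(10:ℕ) + 8*t^(11:ℕ) + (-233/16)*t^(12:ℕ)) + (451/13500)*((-287/16) + 27*t + (-625/4)*t^(2:ℕ) + 213*t^(3:ℕ) + (-3321/16)*t^(4:ℕ) + 184*t^(5:ℕ) + (-277/2)*t^(6:ℕ) + 184*t^(7:ℕ) + (-3321/16)*t^(8:ℕ) + 213*t^(9:ℕ) + (-625/4)*t^(10:ℕ)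 + 27*t^(11:ℕ) + (-287/16)*t^(12:ℕ)) + (653/60750)*(5 + 12*t + (-347/4)*t^(2:ℕ) + 62*t^(3:ℕ) + (419/2)*t^(4:ℕ) + (-378)*t^(5:ℕ) + (885/2)*t^(6:ℕ) + (-378)*t^(7:ℕ) + (419/2)*t^(8:ℕ) + 62*t^(9:ℕ) + (-347/4)*t^(10:ℕ) + 12*t^(11:ℕ) + 5*t^(12:ℕ)) + (7/2025)*((25/4) + (-20)*t + (107/2)*t^(2:ℕ) + (-120)*t^(3:ℕ) + (529/4)*t^(4:ℕ) + 52*t^(5:ℕ) + (-182)*t^(6:ℕ) + 52*t^(7:ℕ) + (529/4)*t^(8:ℕ) + (-120)*t^(9:ℕ) + (107/2)*t^(10:ℕ) + (-20)*t^(11:ℕ) + (25/4)*t^(12:ℕ)) + (1/900)*((-25)*t^(4:ℕ) + 80*t^(5:ℕ) + (-114)*t^(6:ℕ) + 80*t^(7:ℕ) + (-25)*t^(8:ℕ)) - (399/500) = (112936636035746200213/305055238217281200)*(1 - t)^(12:ℕ) + (91941782540392964896/6355317462860025)*(t - (9/20))*(1 - t)^(11:ℕ)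 + (52549406533097543162/346653679792365)*(t - (9/20))^(2:ℕ)*(1 - t)^(10:ℕ) + (56928157221853735088/69330735958473)*(t - (9/20))^(3:ℕ)*(1 - t)^(9:ℕ) + (193315892258133179680/69330735958473)*(t - (9/20))^(4:ℕ)*(1 - t)^(8:ℕ) + (448391201408680179200/69330735958473)*(t - (9/20))^(5:ℕ)*(1 - t)^(7:ℕ) + (740851910961839872000/69330735958473)*(t - (9/20))^(6:ℕ)*(1 - t)^(6:ℕ) + (887216640947179520000/69330735958473)*(t - (9/20))^(7:ℕ)*(1 - t)^(5:ℕ) + (769078421400473600000/69330735958473)*(t - (9/20))^(8:ℕ)*(1 - t)^(4:ℕ) + (472557245317120000000/69330735958473)*(t - (9/20))^(9:ℕ)*(1 - t)^(3:ℕ) + (195898041958400000000/69330735958473)*(t - (9/20))^(10:ℕ)*(1 - t)^(2:ℕ) + (60224772505600000000/84737566171467)*(t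 - (9/20))^(11:ℕ)*(1 - t) + (20867588096000000000/254212698514401)*(t - (9/20))^(12:ℕ) := by
    ring
  rw [e]
  have a3 : 0 ≤ t - (9/20) := by linarith
  have a4 : 0 ≤ 1 - t := by linarith
  generalize t - (9/20) = t1 at a3 ⊢
  generalize 1 - t = t2 at a4 ⊢
  positivity

lemma pos_DP_B2_b5 (t : ℝ) (h3 : (9/20) ≤ t) (h4 : t ≤ 1) :
    0 ≤ 1*(1 + 6*t^(2:ℕ) + 15*t^(4:ℕ) + 20*t^(6:ℕ) + 15*t^(8:ℕ) + 6*t^(10:ℕ) + 1*t^(12:ℕ)) + (59/180)*((-9/16) + (149/8)*t^(2:ℕ) + (-32)*t^(3:ℕ) + (1273/16)*t^(4:ℕ) + (-96)*t^(5:ℕ) + (483/4)*t^(6:ℕ) + (-96)*t^(7:ℕ) + (1273/16)*t^(8:ℕ) + (-32)*t^(9:ℕ) + (149/8)*t^(10:ℕ) + (-9/16)*t^(12:ℕ)) + (29/270)*((-233/16) + 8*t + (-73/2)*t^(2:ℕ) + 12*t^(3:ℕ)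 + (-623/16)*t^(4:ℕ) + (-4)*t^(5:ℕ) + (-34)*t^(6:ℕ) + (-4)*t^(7:ℕ) + (-623/16)*t^(8:ℕ) + 12*t^(9:ℕ) + (-73/2)*t^(10:ℕ) + 8*t^(11:ℕ) + (-233/16)*t^(12:ℕ)) + (19/540)*((-287/16) + 27*t + (-625/4)*t^(2:ℕ) + 213*t^(3:ℕ) + (-3321/16)*t^(4:ℕ) + 184*t^(5:ℕ) + (-277/2)*t^(6:ℕ) + 184*t^(7:ℕ) + (-3321/16)*t^(8:ℕ) + 213*t^(9:ℕ) + (-625/4)*t^(10:ℕ) + 27*t^(11:ℕ) + (-287/16)*t^(12:ℕ)) + (14/1215)*(5 + 12*t + (-347/4)*t^(2:ℕ) + 62*t^(3:ℕ) + (419/2)*t^(4:ℕ) + (-378)*t^(5:ℕ) + (885/2)*t^(6:ℕ) + (-378)*t^(7:ℕ) + (419/2)*t^(8:ℕ) + 62*t^(9:ℕ) + (-347/4)*t^(10:ℕ) + 12*t^(11:ℕ) + 5*t^(12:ℕ)) + (11/2916)*((25/4) + (-20)*t + (107/2)*t^(2:ℕ) + (-120)*t^(3:ℕ) + (529/4)*t^(4:ℕ) + 52*t^(5:ℕ) + (-182)*t^(6:ℕ)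 + 52*t^(7:ℕ) + (529/4)*t^(8:ℕ) + (-120)*t^(9:ℕ) + (107/2)*t^(10:ℕ) + (-20)*t^(11:ℕ) + (25/4)*t^(12:ℕ)) + (1/810)*((-25)*t^(4:ℕ) + 80*t^(5:ℕ) + (-114)*t^(6:ℕ) + 80*t^(7:ℕ) + (-25)*t^(8:ℕ)) - (399/500) := by
  have e : 1*(1 + 6*t^(2:ℕ) + 15*t^(4:ℕ) + 20*t^(6:ℕ) + 15*t^(8:ℕ) + 6*t^(10:ℕ) + 1*t^(12:ℕ)) + (59/180)*((-9/16) + (149/8)*t^(2:ℕ) + (-32)*t^(3:ℕ) + (1273/16)*t^(4:ℕ) + (-96)*t^(5:ℕ) + (483/4)*t^(6:ℕ) + (-96)*t^(7:ℕ) + (1273/16)*t^(8:ℕ) + (-32)*t^(9:ℕ) + (149/8)*t^(10:ℕ) + (-9/16)*t^(12:ℕ)) + (29/270)*((-233/16) + 8*t + (-73/2)*t^(2:ℕ) + 12*t^(3:ℕ) + (-623/16)*t^(4:ℕ) + (-4)*t^(5:ℕ) + (-34)*t^(6:ℕ) + (-4)*t^(7:ℕ) + (-623/16)*t^(8:ℕ) + 12*t^(9:ℕ) + (-73/2)*t^(10:ℕ) + 8*t^(11:ℕ)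 + (-233/16)*t^(12:ℕ)) + (19/540)*((-287/16) + 27*t + (-625/4)*t^(2:ℕ) + 213*t^(3:ℕ) + (-3321/16)*t^(4:ℕ) + 184*t^(5:ℕ) + (-277/2)*t^(6:ℕ) + 184*t^(7:ℕ) + (-3321/16)*t^(8:ℕ) + 213*t^(9:ℕ) + (-625/4)*t^(10:ℕ) + 27*t^(11:ℕ) + (-287/16)*t^(12:ℕ)) + (14/1215)*(5 + 12*t + (-347/4)*t^(2:ℕ) + 62*t^(3:ℕ) + (419/2)*t^(4:ℕ) + (-378)*t^(5:ℕ) + (885/2)*t^(6:ℕ) + (-378)*t^(7:ℕ) + (419/2)*t^(8:ℕ) + 62*t^(9:ℕ) + (-347/4)*t^(10:ℕ) + 12*t^(11:ℕ) + 5*t^(12:ℕ)) + (11/2916)*((25/4) + (-20)*t + (107/2)*t^(2:ℕ) + (-120)*t^(3:ℕ) + (529/4)*t^(4:ℕ) + 52*t^(5:ℕ) + (-182)*t^(6:ℕ) + 52*t^(7:ℕ) + (529/4)*t^(8:ℕ) + (-120)*t^(9:ℕ) + (107/2)*t^(10:ℕ) + (-20)*t^(11:ℕ) + (25/4)*t^(12:ℕ)) + (1/810)*((-25)*t^(4:ℕ)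 + 80*t^(5:ℕ) + (-114)*t^(6:ℕ) + 80*t^(7:ℕ) + (-25)*t^(8:ℕ)) - (399/500) = (8992175232003209615/36606628586073744)*(1 - t)^(12:ℕ) + (29518019913426795365/2287914286629609)*(t - (9/20))*(1 - t)^(11:ℕ) + (2196372341150800705/15406830212994)*(t - (9/20))^(2:ℕ)*(1 - t)^(10:ℕ) + (18244860051997251100/23110245319491)*(t - (9/20))^(3:ℕ)*(1 - t)^(9:ℕ) + (564359266254661219000/207992207875419)*(t - (9/20))^(4:ℕ)*(1 - t)^(8:ℕ) + (439613260345056800000/69330735958473)*(t - (9/20))^(5:ℕ)*(1 - t)^(7:ℕ) + (729983758706662400000/69330735958473)*(t - (9/20))^(6:ℕ)*(1 - t)^(6:ℕ) + (877238660350336000000/69330735958473)*(t - (9/20))^(7:ℕ)*(1 - t)^(5:ℕ) + (762288001170560000000/69330735958473)*(t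 - (9/20))^(8:ℕ)*(1 - t)^(4:ℕ) + (156392173312000000000/23110245319491)*(t - (9/20))^(9:ℕ)*(1 - t)^(3:ℕ) + (584123505664000000000/207992207875419)*(t - (9/20))^(10:ℕ)*(1 - t)^(2:ℕ) + (539027505152000000000/762638095543203)*(t - (9/20))^(11:ℕ)*(1 - t) + (186775379968000000000/2287914286629609)*(t - (9/20))^(12:ℕ) := by
    ring
  rw [e]
  have a3 : 0 ≤ t - (9/20) := by linarith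
  have a4 : 0 ≤ 1 - t := by linarith
  generalize t - (9/20) = t1 at a3 ⊢
  generalize 1 - t = t2 at a4 ⊢
  positivity

lemma pos_DP_B2_b6 (t : ℝ) (h3 : (9/20) ≤ t) (h4 : t ≤ 1) :
    0 ≤ 1*(1 + 6*t^(2:ℕ) + 15*t^(4:ℕ) + 20*t^(6:ℕ) + 15*t^(8:ℕ) + 6*t^(10:ℕ) + 1*t^(12:ℕ)) + (1/3)*((-9/16) + (149/8)*t^(2:ℕ) + (-32)*t^(3:ℕ) + (1273/16)*t^(4:ℕ) + (-96)*t^(5:ℕ) + (483/4)*t^(6:ℕ) + (-96)*t^(7:ℕ) + (1273/16)*t^(8:ℕ) + (-32)*t^(9:ℕ) + (149/8)*t^(10:ℕ) + (-9/16)*t^(12:ℕ)) + (1/9)*((-233/16) + 8*t + (-73/2)*t^(2:ℕ) + 12*t^(3:ℕ) + (-623/16)*t^(4:ℕ) + (-4)*t^(5:ℕ) + (-34)*t^(6:ℕ) + (-4)*t^(7:ℕ) + (-623/16)*t^(8:ℕ) + 12*t^(9:ℕ) + (-73/2)*t^(10:ℕ) + 8*t^(11:ℕ) + (-233/16)*t^(12:ℕ)) + (1/27)*((-287/16)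 + 27*t + (-625/4)*t^(2:ℕ) + 213*t^(3:ℕ) + (-3321/16)*t^(4:ℕ) + 184*t^(5:ℕ) + (-277/2)*t^(6:ℕ) + 184*t^(7:ℕ) + (-3321/16)*t^(8:ℕ) + 213*t^(9:ℕ) + (-625/4)*t^(10:ℕ) + 27*t^(11:ℕ) + (-287/16)*t^(12:ℕ)) + (1/81)*(5 + 12*t + (-347/4)*t^(2:ℕ) + 62*t^(3:ℕ) + (419/2)*t^(4:ℕ) + (-378)*t^(5:ℕ) + (885/2)*t^(6:ℕ) + (-378)*t^(7:ℕ) + (419/2)*t^(8:ℕ) + 62*t^(9:ℕ) + (-347/4)*t^(10:ℕ) + 12*t^(11:ℕ) + 5*t^(12:ℕ)) + (1/243)*((25/4) + (-20)*t + (107/2)*t^(2:ℕ) + (-120)*t^(3:ℕ) + (529/4)*t^(4:ℕ) + 52*t^(5:ℕ) + (-182)*t^(6:ℕ) + 52*t^(7:ℕ) + (529/4)*t^(8:ℕ) + (-120)*t^(9:ℕ) + (107/2)*t^(10:ℕ) + (-20)*t^(11:ℕ) + (25/4)*t^(12:ℕ)) + (1/729)*((-25)*t^(4:ℕ) + 80*t^(5:ℕ) + (-114)*t^(6:ℕ) + 80*t^(7:ℕ)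 + (-25)*t^(8:ℕ)) - (399/500) := by
  have e : 1*(1 + 6*t^(2:ℕ) + 15*t^(4:ℕ) + 20*t^(6:ℕ) + 15*t^(8:ℕ) + 6*t^(10:ℕ) + 1*t^(12:ℕ)) + (1/3)*((-9/16) + (149/8)*t^(2:ℕ) + (-32)*t^(3:ℕ) + (1273/16)*t^(4:ℕ) + (-96)*t^(5:ℕ) + (483/4)*t^(6:ℕ) + (-96)*t^(7:ℕ) + (1273/16)*t^(8:ℕ) + (-32)*t^(9:ℕ) + (149/8)*t^(10:ℕ) + (-9/16)*t^(12:ℕ)) + (1/9)*((-233/16) + 8*t + (-73/2)*t^(2:ℕ) + 12*t^(3:ℕ) + (-623/16)*t^(4:ℕ) + (-4)*t^(5:ℕ) + (-34)*t^(6:ℕ) + (-4)*t^(7:ℕ) + (-623/16)*t^(8:ℕ) + 12*t^(9:ℕ) + (-73/2)*t^(10:ℕ) + 8*t^(11:ℕ) + (-233/16)*t^(12:ℕ)) + (1/27)*((-287/16) + 27*t + (-625/4)*t^(2:ℕ) + 213*t^(3:ℕ) + (-3321/16)*t^(4:ℕ) + 184*t^(5:ℕ) + (-277/2)*t^(6:ℕ) + 184*t^(7:ℕ) + (-3321/16)*t^(8:ℕ)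 + 213*t^(9:ℕ) + (-625/4)*t^(10:ℕ) + 27*t^(11:ℕ) + (-287/16)*t^(12:ℕ)) + (1/81)*(5 + 12*t + (-347/4)*t^(2:ℕ) + 62*t^(3:ℕ) + (419/2)*t^(4:ℕ) + (-378)*t^(5:ℕ) + (885/2)*t^(6:ℕ) + (-378)*t^(7:ℕ) + (419/2)*t^(8:ℕ) + 62*t^(9:ℕ) + (-347/4)*t^(10:ℕ) + 12*t^(11:ℕ) + 5*t^(12:ℕ)) + (1/243)*((25/4) + (-20)*t + (107/2)*t^(2:ℕ) + (-120)*t^(3:ℕ) + (529/4)*t^(4:ℕ) + 52*t^(5:ℕ) + (-182)*t^(6:ℕ) + 52*t^(7:ℕ) + (529/4)*t^(8:ℕ) + (-120)*t^(9:ℕ) + (107/2)*t^(10:ℕ) + (-20)*t^(11:ℕ) + (25/4)*t^(12:ℕ)) + (1/729)*((-25)*t^(4:ℕ) + 80*t^(5:ℕ) + (-114)*t^(6:ℕ) + 80*t^(7:ℕ) + (-25)*t^(8:ℕ)) - (399/500) = (1429566084271218625/12202209528691248)*(1 - t)^(12:ℕ) + (8607156830685184375/762638095543203)*(t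 - (9/20))*(1 - t)^(11:ℕ) + (3078931009876124500/23110245319491)*(t - (9/20))^(2:ℕ)*(1 - t)^(10:ℕ) + (17489042599409560000/23110245319491)*(t - (9/20))^(3:ℕ)*(1 - t)^(9:ℕ) + (548237188673472400000/207992207875419)*(t - (9/20))^(4:ℕ)*(1 - t)^(8:ℕ) + (430530802100800000000/69330735958473)*(t - (9/20))^(5:ℕ)*(1 - t)^(7:ℕ) + (2156203987291520000000/207992207875419)*(t - (9/20))^(6:ℕ)*(1 - t)^(6:ℕ) + (288969411251200000000/23110245319491)*(t - (9/20))^(7:ℕ)*(1 - t)^(5:ℕ) + (755256423296000000000/69330735958473)*(t - (9/20))^(8:ℕ)*(1 - t)^(4:ℕ) + (155225098240000000000/23110245319491)*(t - (9/20))^(9:ℕ)*(1 - t)^(3:ℕ) + (580425310208000000000/207992207875419)*(t - (9/20))^(10:ℕ)*(1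 - t)^(2:ℕ) + (535924867072000000000/762638095543203)*(t - (9/20))^(11:ℕ)*(1 - t) + (185705504768000000000/2287914286629609)*(t - (9/20))^(12:ℕ) := by
    ring
  rw [e]
  have a3 : 0 ≤ t - (9/20) := by linarith
  have a4 : 0 ≤ 1 - t := by linarith
  generalize t - (9/20) = t1 at a3 ⊢
  generalize 1 - t = t2 at a4 ⊢
  positivity

lemma pos_DP_B2_id (d : ℝ) (C0 C1 C2 C3 C4 C5 C6 : ℝ) :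
    C0 + d*C1 + d^(2:ℕ)*C2 + d^(3:ℕ)*C3 + d^(4:ℕ)*C4 + d^(5:ℕ)*C5 + d^(6:ℕ)*C6 = (399/500) + (729000000*((1/3) - d)^(6:ℕ)*(1*C0 + (3/10)*C1 + (9/100)*C2 + (27/1000)*C3 + (81/10000)*C4 + (243/100000)*C5 + (729/1000000)*C6 - (399/500)) + 4374000000*(d - (3/10))*((1/3) - d)^(5:ℕ)*(1*C0 + (11/36)*C1 + (7/75)*C2 + (57/2000)*C3 + (87/10000)*C4 + (531/200000)*C5 + (81/100000)*C6 - (399/500)) + 10935000000*(d - (3/10))^(2:ℕ)*((1/3) - d)^(4:ℕ)*(1*C0 + (14/45)*C1 + (653/6750)*C2 + (451/15000)*C3 + (467/50000)*C4 + (29/10000)*C5 + (9/10000)*C6 - (399/500)) + 14580000000*(d - (3/10))^(3:ℕ)*((1/3) - d)^(3:ℕ)*(1*C0 + (19/60)*C1 + (451/4500)*C2 + (17119/540000)*C3 + (451/45000)*C4 + (19/6000)*C5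 + (1/1000)*C6 - (399/500)) + 10935000000*(d - (3/10))^(4:ℕ)*((1/3) - d)^(2:ℕ)*(1*C0 + (29/90)*C1 + (467/4500)*C2 + (451/13500)*C3 + (653/60750)*C4 + (7/2025)*C5 + (1/900)*C6 - (399/500)) + 4374000000*(d - (3/10))^(5:ℕ)*((1/3) - d)*(1*C0 + (59/180)*C1 + (29/270)*C2 + (19/540)*C3 + (14/1215)*C4 + (11/2916)*C5 + (1/810)*C6 - (399/500)) + 729000000*(d - (3/10))^(6:ℕ)*(1*C0 + (1/3)*C1 + (1/9)*C2 + (1/27)*C3 + (1/81)*C4 + (1/243)*C5 + (1/729)*C6 - (399/500))) := by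
  ring

lemma pos_DP_B2_gen (d1 d2 B0 B1 B2 B3 B4 B5 B6 : ℝ) (a1 : 0 ≤ d1) (a2 : 0 ≤ d2) (b0 : 0 ≤ B0) (b1 : 0 ≤ B1) (b2 : 0 ≤ B2) (b3 : 0 ≤ B3) (b4 : 0 ≤ B4) (b5 : 0 ≤ B5) (b6 : 0 ≤ B6) :
    0 < (399/500) + (729000000*d2^(6:ℕ)*(B0) + 4374000000*d1*d2^(5:ℕ)*(B1) + 10935000000*d1^(2:ℕ)*d2^(4:ℕ)*(B2) + 14580000000*d1^(3:ℕ)*d2^(3:ℕ)*(B3) + 10935000000*d1^(4:ℕ)*d2^(2:ℕ)*(B4) + 4374000000*d1^(5:ℕ)*d2*(B5) + 729000000*d1^(6:ℕ)*(B6)) := by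
  positivity

lemma pos_DP_B2_core (d C0 C1 C2 C3 C4 C5 C6 : ℝ) (h1 : (3/10) ≤ d) (h2 : d ≤ (1/3))
    (b0 : 0 ≤ 1*C0 + (3/10)*C1 + (9/100)*C2 + (27/1000)*C3 + (81/10000)*C4 + (243/100000)*C5 + (729/1000000)*C6 - (399/500))
    (b1 : 0 ≤ 1*C0 + (11/36)*C1 + (7/75)*C2 + (57/2000)*C3 + (87/10000)*C4 + (531/200000)*C5 + (81/100000)*C6 - (399/500))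
    (b2 : 0 ≤ 1*C0 + (14/45)*C1 + (653/6750)*C2 + (451/15000)*C3 + (467/50000)*C4 + (29/10000)*C5 + (9/10000)*C6 - (399/500))
    (b3 : 0 ≤ 1*C0 + (19/60)*C1 + (451/4500)*C2 + (17119/540000)*C3 + (451/45000)*C4 + (19/6000)*C5 + (1/1000)*C6 - (399/500))
    (b4 : 0 ≤ 1*C0 + (29/90)*C1 + (467/4500)*C2 + (451/13500)*C3 + (653/60750)*C4 + (7/2025)*C5 + (1/900)*C6 - (399/500))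
    (b5 : 0 ≤ 1*C0 + (59/180)*C1 + (29/270)*C2 + (19/540)*C3 + (14/1215)*C4 + (11/2916)*C5 + (1/810)*C6 - (399/500))
    (b6 : 0 ≤ 1*C0 + (1/3)*C1 + (1/9)*C2 + (1/27)*C3 + (1/81)*C4 + (1/243)*C5 + (1/729)*C6 - (399/500)) :
    0 < C0 + d*C1 + d^(2:ℕ)*C2 + d^(3:ℕ)*C3 + d^(4:ℕ)*C4 + d^(5:ℕ)*C5 + d^(6:ℕ)*C6 := by
  rw [pos_DP_B2_id]
  exact pos_DP_B2_gen _ _ _ _ _ _ _ _ _ (sub_nonneg.2 h1) (sub_nonneg.2 h2) b0 b1 b2 b3 b4 b5 b6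

lemma pos_DP_B2 (d t : ℝ) (h1 : (3/10) ≤ d) (h2 : d ≤ (1/3)) (h3 : (9/20) ≤ t) (h4 : t ≤ 1) :
    0 < 1 + 6*t^(2:ℕ) + 15*t^(4:ℕ) + 20*t^(6:ℕ) + 15*t^(8:ℕ) + 6*t^(10:ℕ) + 1*t^(12:ℕ) + (-9/16)*d + (149/8)*d*t^(2:ℕ) + (-32)*d*t^(3:ℕ) + (1273/16)*d*t^(4:ℕ) + (-96)*d*t^(5:ℕ) + (483/4)*d*t^(6:ℕ) + (-96)*d*t^(7:ℕ) + (1273/16)*d*t^(8:ℕ) + (-32)*d*t^(9:ℕ) + (149/8)*d*t^(10:ℕ) + (-9/16)*d*t^(12:ℕ) + (-233/16)*d^(2:ℕ) + 8*d^(2:ℕ)*t + (-73/2)*d^(2:ℕ)*t^(2:ℕ) + 12*d^(2:ℕ)*t^(3:ℕ) + (-623/16)*d^(2:ℕ)*t^(4:ℕ) + (-4)*d^(2:ℕ)*t^(5:ℕ) + (-34)*d^(2:ℕ)*t^(6:ℕ) + (-4)*d^(2:ℕ)*t^(7:ℕ) + (-623/16)*d^(2:ℕ)*t^(8:ℕ) + 12*d^(2:ℕ)*t^(9:ℕ) + (-73/2)*d^(2:ℕ)*t^(10:ℕ) + 8*d^(2:ℕ)*t^(11:ℕ) + (-233/16)*d^(2:ℕ)*t^(12:ℕ)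 + (-287/16)*d^(3:ℕ) + 27*d^(3:ℕ)*t + (-625/4)*d^(3:ℕ)*t^(2:ℕ) + 213*d^(3:ℕ)*t^(3:ℕ) + (-3321/16)*d^(3:ℕ)*t^(4:ℕ) + 184*d^(3:ℕ)*t^(5:ℕ) + (-277/2)*d^(3:ℕ)*t^(6:ℕ) + 184*d^(3:ℕ)*t^(7:ℕ) + (-3321/16)*d^(3:ℕ)*t^(8:ℕ) + 213*d^(3:ℕ)*t^(9:ℕ) + (-625/4)*d^(3:ℕ)*t^(10:ℕ) + 27*d^(3:ℕ)*t^(11:ℕ) + (-287/16)*d^(3:ℕ)*t^(12:ℕ) + 5*d^(4:ℕ) + 12*d^(4:ℕ)*t + (-347/4)*d^(4:ℕ)*t^(2:ℕ) + 62*d^(4:ℕ)*t^(3:ℕ) + (419/2)*d^(4:ℕ)*t^(4:ℕ) + (-378)*d^(4:ℕ)*t^(5:ℕ) + (885/2)*d^(4:ℕ)*t^(6:ℕ) + (-378)*d^(4:ℕ)*t^(7:ℕ) + (419/2)*d^(4:ℕ)*t^(8:ℕ) + 62*d^(4:ℕ)*t^(9:ℕ) + (-347/4)*d^(4:ℕ)*t^(10:ℕ) + 12*d^(4:ℕ)*t^(11:ℕ) + 5*d^(4:ℕ)*t^(12:ℕ) + (25/4)*d^(5:ℕ) + (-20)*d^(5:ℕ)*t + (107/2)*d^(5:ℕ)*t^(2:ℕ) + (-120)*d^(5:ℕ)*t^(3:ℕ)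 + (529/4)*d^(5:ℕ)*t^(4:ℕ) + 52*d^(5:ℕ)*t^(5:ℕ) + (-182)*d^(5:ℕ)*t^(6:ℕ) + 52*d^(5:ℕ)*t^(7:ℕ) + (529/4)*d^(5:ℕ)*t^(8:ℕ) + (-120)*d^(5:ℕ)*t^(9:ℕ) + (107/2)*d^(5:ℕ)*t^(10:ℕ) + (-20)*d^(5:ℕ)*t^(11:ℕ) + (25/4)*d^(5:ℕ)*t^(12:ℕ) + (-25)*d^(6:ℕ)*t^(4:ℕ) + 80*d^(6:ℕ)*t^(5:ℕ) + (-114)*d^(6:ℕ)*t^(6:ℕ) + 80*d^(6:ℕ)*t^(7:ℕ) + (-25)*d^(6:ℕ)*t^(8:ℕ) := by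
  have e0 : 1 + 6*t^(2:ℕ) + 15*t^(4:ℕ) + 20*t^(6:ℕ) + 15*t^(8:ℕ) + 6*t^(10:ℕ) + 1*t^(12:ℕ) + (-9/16)*d + (149/8)*d*t^(2:ℕ) + (-32)*d*t^(3:ℕ) + (1273/16)*d*t^(4:ℕ) + (-96)*d*t^(5:ℕ) + (483/4)*d*t^(6:ℕ) + (-96)*d*t^(7:ℕ) + (1273/16)*d*t^(8:ℕ) + (-32)*d*t^(9:ℕ) + (149/8)*d*t^(10:ℕ) + (-9/16)*d*t^(12:ℕ) + (-233/16)*d^(2:ℕ) + 8*d^(2:ℕ)*t + (-73/2)*d^(2:ℕ)*t^(2:ℕ) + 12*d^(2:ℕ)*t^(3:ℕ) + (-623/16)*d^(2:ℕ)*t^(4:ℕ) + (-4)*d^(2:ℕ)*t^(5:ℕ) + (-34)*d^(2:ℕ)*t^(6:ℕ) + (-4)*d^(2:ℕ)*t^(7:ℕ) + (-623/16)*d^(2:ℕ)*t^(8:ℕ) + 12*d^(2:ℕ)*t^(9:ℕ) + (-73/2)*d^(2:ℕ)*t^(10:ℕ) + 8*d^(2:ℕ)*t^(11:ℕ) + (-233/16)*d^(2:ℕ)*t^(12:ℕ) + (-287/16)*d^(3:ℕ) + 27*d^(3:ℕ)*t + (-625/4)*d^(3:ℕ)*t^(2:ℕ) + 213*d^(3:ℕ)*t^(3:ℕ)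 + (-3321/16)*d^(3:ℕ)*t^(4:ℕ) + 184*d^(3:ℕ)*t^(5:ℕ) + (-277/2)*d^(3:ℕ)*t^(6:ℕ) + 184*d^(3:ℕ)*t^(7:ℕ) + (-3321/16)*d^(3:ℕ)*t^(8:ℕ) + 213*d^(3:ℕ)*t^(9:ℕ) + (-625/4)*d^(3:ℕ)*t^(10:ℕ) + 27*d^(3:ℕ)*t^(11:ℕ) + (-287/16)*d^(3:ℕ)*t^(12:ℕ) + 5*d^(4:ℕ) + 12*d^(4:ℕ)*t + (-347/4)*d^(4:ℕ)*t^(2:ℕ) + 62*d^(4:ℕ)*t^(3:ℕ) + (419/2)*d^(4:ℕ)*t^(4:ℕ) + (-378)*d^(4:ℕ)*t^(5:ℕ) + (885/2)*d^(4:ℕ)*t^(6:ℕ) + (-378)*d^(4:ℕ)*t^(7:ℕ) + (419/2)*d^(4:ℕ)*t^(8:ℕ) + 62*d^(4:ℕ)*t^(9:ℕ) + (-347/4)*d^(4:ℕ)*t^(10:ℕ) + 12*d^(4:ℕ)*t^(11:ℕ) + 5*d^(4:ℕ)*t^(12:ℕ) + (25/4)*d^(5:ℕ) + (-20)*d^(5:ℕ)*t + (107/2)*d^(5:ℕ)*t^(2:ℕ) + (-120)*d^(5:ℕ)*t^(3:ℕ) + (529/4)*d^(5:ℕ)*t^(4:ℕ) + 52*d^(5:ℕ)*t^(5:ℕ) + (-182)*d^(5:ℕ)*t^(6:ℕ)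 + 52*d^(5:ℕ)*t^(7:ℕ) + (529/4)*d^(5:ℕ)*t^(8:ℕ) + (-120)*d^(5:ℕ)*t^(9:ℕ) + (107/2)*d^(5:ℕ)*t^(10:ℕ) + (-20)*d^(5:ℕ)*t^(11:ℕ) + (25/4)*d^(5:ℕ)*t^(12:ℕ) + (-25)*d^(6:ℕ)*t^(4:ℕ) + 80*d^(6:ℕ)*t^(5:ℕ) + (-114)*d^(6:ℕ)*t^(6:ℕ) + 80*d^(6:ℕ)*t^(7:ℕ) + (-25)*d^(6:ℕ)*t^(8:ℕ) = (1 + 6*t^(2:ℕ) + 15*t^(4:ℕ) + 20*t^(6:ℕ) + 15*t^(8:ℕ) + 6*t^(10:ℕ) + 1*t^(12:ℕ)) + d*((-9/16) + (149/8)*t^(2:ℕ) + (-32)*t^(3:ℕ) + (1273/16)*t^(4:ℕ) + (-96)*t^(5:ℕ) + (483/4)*t^(6:ℕ) + (-96)*t^(7:ℕ) + (1273/16)*t^(8:ℕ) + (-32)*t^(9:ℕ) + (149/8)*t^(10:ℕ) + (-9/16)*t^(12:ℕ)) + d^(2:ℕ)*((-233/16) + 8*t + (-73/2)*t^(2:ℕ) + 12*t^(3:ℕ) + (-623/16)*t^(4:ℕ) + (-4)*t^(5:ℕ) + (-34)*t^(6:ℕ) + (-4)*t^(7:ℕ) + (-623/16)*t^(8:ℕ)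 + 12*t^(9:ℕ) + (-73/2)*t^(10:ℕ) + 8*t^(11:ℕ) + (-233/16)*t^(12:ℕ)) + d^(3:ℕ)*((-287/16) + 27*t + (-625/4)*t^(2:ℕ) + 213*t^(3:ℕ) + (-3321/16)*t^(4:ℕ) + 184*t^(5:ℕ) + (-277/2)*t^(6:ℕ) + 184*t^(7:ℕ) + (-3321/16)*t^(8:ℕ) + 213*t^(9:ℕ) + (-625/4)*t^(10:ℕ) + 27*t^(11:ℕ) + (-287/16)*t^(12:ℕ)) + d^(4:ℕ)*(5 + 12*t + (-347/4)*t^(2:ℕ) + 62*t^(3:ℕ) + (419/2)*t^(4:ℕ) + (-378)*t^(5:ℕ) + (885/2)*t^(6:ℕ) + (-378)*t^(7:ℕ) + (419/2)*t^(8:ℕ) + 62*t^(9:ℕ) + (-347/4)*t^(10:ℕ) + 12*t^(11:ℕ) + 5*t^(12:ℕ)) + d^(5:ℕ)*((25/4) + (-20)*t + (107/2)*t^(2:ℕ) + (-120)*t^(3:ℕ) + (529/4)*t^(4:ℕ) + 52*t^(5:ℕ) + (-182)*t^(6:ℕ) + 52*t^(7:ℕ) + (529/4)*t^(8:ℕ) + (-120)*t^(9:ℕ) + (107/2)*t^(10:ℕ) + (-20)*t^(11:ℕ)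 + (25/4)*t^(12:ℕ)) + d^(6:ℕ)*((-25)*t^(4:ℕ) + 80*t^(5:ℕ) + (-114)*t^(6:ℕ) + 80*t^(7:ℕ) + (-25)*t^(8:ℕ)) := by
    ring
  rw [e0]
  exact pos_DP_B2_core d _ _ _ _ _ _ _ h1 h2 (pos_DP_B2_b0 t h3 h4) (pos_DP_B2_b1 t h3 h4) (pos_DP_B2_b2 t h3 h4) (pos_DP_B2_b3 t h3 h4) (pos_DP_B2_b4 t h3 h4) (pos_DP_B2_b5 t h3 h4) (pos_DP_B2_b6 t h3 h4)

lemma pos_L10_B2_b0 (t : ℝ) (h3 : (9/20) ≤ t) (h4 : t ≤ 1) :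
    0 ≤ 1*(2 + 2*t + 10*t^(2:ℕ) + 10*t^(3:ℕ) + 20*t^(4:ℕ) + 20*t^(5:ℕ) + 20*t^(6:ℕ) + 20*t^(7:ℕ) + 10*t^(8:ℕ) + 10*t^(9:ℕ) + 2*t^(10:ℕ) + 2*t^(11:ℕ)) + (3/10)*(4 + 4*t + 28*t^(2:ℕ) + 28*t^(3:ℕ) + 64*t^(4:ℕ) + 64*t^(5:ℕ) + 64*t^(6:ℕ) + 64*t^(7:ℕ) + 28*t^(8:ℕ) + 28*t^(9:ℕ) + 4*t^(10:ℕ) + 4*t^(11:ℕ)) + (9/100)*(33*t^(2:ℕ) + 35*t^(3:ℕ) + 103*t^(4:ℕ) + 60*t^(5:ℕ) + 82*t^(6:ℕ) + (-3)*t^(7:ℕ) + 3*t^(8:ℕ) + (-46)*t^(9:ℕ) + (-9)*t^(10:ℕ) + (-18)*t^(11:ℕ)) + (27/1000)*(2*t^(2:ℕ) + 19*t^(3:ℕ) + 69*t^(4:ℕ) + (-41)*t^(5:ℕ) + 56*t^(6:ℕ) + (-125)*t^(7:ℕ) + (-3)*t^(8:ℕ) + (-73)*t^(9:ℕ) + 8*t^(10:ℕ) + (-8)*t^(11:ℕ)) + (81/10000)*(8*t^(2:ℕ) + (-48)*t^(3:ℕ) + 102*t^(4:ℕ) + (-124)*t^(5:ℕ) +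 96*t^(6:ℕ) + (-40)*t^(7:ℕ) + (-26)*t^(8:ℕ) + 44*t^(9:ℕ) + (-28)*t^(10:ℕ) + 8*t^(11:ℕ)) + (243/100000)*((15/4)*t^(4:ℕ) + (-35/2)*t^(5:ℕ) + (101/4)*t^(6:ℕ) + (-35/2)*t^(7:ℕ) + (15/4)*t^(8:ℕ) + 32*t^(9:ℕ) + (-48)*t^(10:ℕ) + 32*t^(11:ℕ)) + (729/1000000)*((-14)*t^(4:ℕ) + 43*t^(5:ℕ) + (-61)*t^(6:ℕ) + 43*t^(7:ℕ) + (-14)*t^(8:ℕ)) + (2187/10000000)*((-4)*t^(4:ℕ) + 12*t^(5:ℕ) + (-17)*t^(6:ℕ) + 12*t^(7:ℕ) + (-4)*t^(8:ℕ)) - (1623/125) := by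
  have e : 1*(2 + 2*t + 10*t^(2:ℕ) + 10*t^(3:ℕ) + 20*t^(4:ℕ) + 20*t^(5:ℕ) + 20*t^(6:ℕ) + 20*t^(7:ℕ) + 10*t^(8:ℕ) + 10*t^(9:ℕ) + 2*t^(10:ℕ) + 2*t^(11:ℕ)) + (3/10)*(4 + 4*t + 28*t^(2:ℕ) + 28*t^(3:ℕ) + 64*t^(4:ℕ) + 64*t^(5:ℕ) + 64*t^(6:ℕ) + 64*t^(7:ℕ) + 28*t^(8:ℕ) + 28*t^(9:ℕ) + 4*t^(10:ℕ) + 4*t^(11:ℕ)) + (9/100)*(33*t^(2:ℕ) + 35*t^(3:ℕ) + 103*t^(4:ℕ) + 60*t^(5:ℕ) + 82*t^(6:ℕ) + (-3)*t^(7:ℕ) + 3*t^(8:ℕ) + (-46)*t^(9:ℕ) + (-9)*t^(10:ℕ) + (-18)*t^(11:ℕ)) + (27/1000)*(2*t^(2:ℕ) + 19*t^(3:ℕ) + 69*t^(4:ℕ) + (-41)*t^(5:ℕ) + 56*t^(6:ℕ) + (-125)*t^(7:ℕ) + (-3)*t^(8:ℕ) + (-73)*t^(9:ℕ) + 8*t^(10:ℕ) + (-8)*t^(11:ℕ)) + (81/10000)*(8*t^(2:ℕ) + (-48)*t^(3:ℕ) + 102*t^(4:ℕ) + (-124)*t^(5:ℕ)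 + 96*t^(6:ℕ) + (-40)*t^(7:ℕ) + (-26)*t^(8:ℕ) + 44*t^(9:ℕ) + (-28)*t^(10:ℕ) + 8*t^(11:ℕ)) + (243/100000)*((15/4)*t^(4:ℕ) + (-35/2)*t^(5:ℕ) + (101/4)*t^(6:ℕ) + (-35/2)*t^(7:ℕ) + (15/4)*t^(8:ℕ) + 32*t^(9:ℕ) + (-48)*t^(10:ℕ) + 32*t^(11:ℕ)) + (729/1000000)*((-14)*t^(4:ℕ) + 43*t^(5:ℕ) + (-61)*t^(6:ℕ) + 43*t^(7:ℕ) + (-14)*t^(8:ℕ)) + (2187/10000000)*((-4)*t^(4:ℕ) + 12*t^(5:ℕ) + (-17)*t^(6:ℕ) + 12*t^(7:ℕ) + (-4)*t^(8:ℕ)) - (1623/125) = (1847349073474998649/1783197941318750)*(1 - t)^(11:ℕ) + (1281952274834844249/32421780751250)*(t - (9/20))*(1 - t)^(10:ℕ) + (12391082210466473641/32421780751250)*(t - (9/20))^(2:ℕ)*(1 - t)^(9:ℕ) + (60801605596462957607/32421780751250)*(t - (9/20))^(3:ℕ)*(1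 - t)^(8:ℕ) + (736558740322331552/129687123005)*(t - (9/20))^(4:ℕ)*(1 - t)^(7:ℕ) + (1497108840101384656/129687123005)*(t - (9/20))^(5:ℕ)*(1 - t)^(6:ℕ) + (2120525284943287808/129687123005)*(t - (9/20))^(6:ℕ)*(1 - t)^(5:ℕ) + (422808231140053376/25937424601)*(t - (9/20))^(7:ℕ)*(1 - t)^(4:ℕ) + (292589163274598400/25937424601)*(t - (9/20))^(8:ℕ)*(1 - t)^(3:ℕ) + (134427064231526400/25937424601)*(t - (9/20))^(9:ℕ)*(1 - t)^(2:ℕ) + (37017634562048000/25937424601)*(t - (9/20))^(10:ℕ)*(1 - t) + (51034154352640000/285311670611)*(t - (9/20))^(11:ℕ) := by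
    ring
  rw [e]
  have a3 : 0 ≤ t - (9/20) := by linarith
  have a4 : 0 ≤ 1 - t := by linarith
  generalize t - (9/20) = t1 at a3 ⊢
  generalize 1 - t = t2 at a4 ⊢
  positivity

lemma pos_L10_B2_b1 (t : ℝ) (h3 : (9/20) ≤ t) (h4 : t ≤ 1) :
    0 ≤ 1*(2 + 2*t + 10*t^(2:ℕ) + 10*t^(3:ℕ) + 20*t^(4:ℕ) + 20*t^(5:ℕ) + 20*t^(6:ℕ) + 20*t^(7:ℕ) + 10*t^(8:ℕ) + 10*t^(9:ℕ) + 2*t^(10:ℕ) + 2*t^(11:ℕ)) + (32/105)*(4 + 4*t + 28*t^(2:ℕ) + 28*t^(3:ℕ) + 64*t^(4:ℕ) + 64*t^(5:ℕ) + 64*t^(6:ℕ) + 64*t^(7:ℕ) + 28*t^(8:ℕ) + 28*t^(9:ℕ) + 4*t^(10:ℕ) + 4*t^(11:ℕ)) + (13/140)*(33*t^(2:ℕ) + 35*t^(3:ℕ) + 103*t^(4:ℕ) + 60*t^(5:ℕ) + 82*t^(6:ℕ) + (-3)*t^(7:ℕ) + 3*t^(8:ℕ) + (-46)*t^(9:ℕ) + (-9)*t^(10:ℕ) +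 (-18)*t^(11:ℕ)) + (99/3500)*(2*t^(2:ℕ) + 19*t^(3:ℕ) + 69*t^(4:ℕ) + (-41)*t^(5:ℕ) + 56*t^(6:ℕ) + (-125)*t^(7:ℕ) + (-3)*t^(8:ℕ) + (-73)*t^(9:ℕ) + 8*t^(10:ℕ) + (-8)*t^(11:ℕ)) + (603/70000)*(8*t^(2:ℕ) + (-48)*t^(3:ℕ) + 102*t^(4:ℕ) + (-124)*t^(5:ℕ) + 96*t^(6:ℕ) + (-40)*t^(7:ℕ) + (-26)*t^(8:ℕ) + 44*t^(9:ℕ) + (-28)*t^(10:ℕ) + 8*t^(11:ℕ)) + (459/175000)*((15/4)*t^(4:ℕ) + (-35/2)*t^(5:ℕ) + (101/4)*t^(6:ℕ) + (-35/2)*t^(7:ℕ) + (15/4)*t^(8:ℕ) + 32*t^(9:ℕ) + (-48)*t^(10:ℕ) + 32*t^(11:ℕ)) + (5589/7000000)*((-14)*t^(4:ℕ) + 43*t^(5:ℕ) + (-61)*t^(6:ℕ) + 43*t^(7:ℕ) + (-14)*t^(8:ℕ)) + (243/1000000)*((-4)*t^(4:ℕ) + 12*t^(5:ℕ) + (-17)*t^(6:ℕ) + 12*t^(7:ℕ) + (-4)*t^(8:ℕ)) - (1623/125) := by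
  have e : 1*(2 + 2*t + 10*t^(2:ℕ) + 10*t^(3:ℕ) + 20*t^(4:ℕ) + 20*t^(5:ℕ) + 20*t^(6:ℕ) + 20*t^(7:ℕ) + 10*t^(8:ℕ) + 10*t^(9:ℕ) + 2*t^(10:ℕ) + 2*t^(11:ℕ)) + (32/105)*(4 + 4*t + 28*t^(2:ℕ) + 28*t^(3:ℕ) + 64*t^(4:ℕ) + 64*t^(5:ℕ) + 64*t^(6:ℕ) + 64*t^(7:ℕ) + 28*t^(8:ℕ) + 28*t^(9:ℕ) + 4*t^(10:ℕ) + 4*t^(11:ℕ)) + (13/140)*(33*t^(2:ℕ) + 35*t^(3:ℕ) + 103*t^(4:ℕ) + 60*t^(5:ℕ) + 82*t^(6:ℕ) + (-3)*t^(7:ℕ) + 3*t^(8:ℕ) + (-46)*t^(9:ℕ) + (-9)*t^(10:ℕ) + (-18)*t^(11:ℕ)) + (99/3500)*(2*t^(2:ℕ) + 19*t^(3:ℕ) + 69*t^(4:ℕ) + (-41)*t^(5:ℕ) + 56*t^(6:ℕ) + (-125)*t^(7:ℕ) + (-3)*t^(8:ℕ) + (-73)*t^(9:ℕ) + 8*t^(10:ℕ) + (-8)*t^(11:ℕ)) + (603/70000)*(8*t^(2:ℕ) + (-48)*t^(3:ℕ) + 102*t^(4:ℕ) + (-124)*t^(5:ℕ)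 + 96*t^(6:ℕ) + (-40)*t^(7:ℕ) + (-26)*t^(8:ℕ) + 44*t^(9:ℕ) + (-28)*t^(10:ℕ) + 8*t^(11:ℕ)) + (459/175000)*((15/4)*t^(4:ℕ) + (-35/2)*t^(5:ℕ) + (101/4)*t^(6:ℕ) + (-35/2)*t^(7:ℕ) + (15/4)*t^(8:ℕ) + 32*t^(9:ℕ) + (-48)*t^(10:ℕ) + 32*t^(11:ℕ)) + (5589/7000000)*((-14)*t^(4:ℕ) + 43*t^(5:ℕ) + (-61)*t^(6:ℕ) + 43*t^(7:ℕ) + (-14)*t^(8:ℕ)) + (243/1000000)*((-4)*t^(4:ℕ) + 12*t^(5:ℕ) + (-17)*t^(6:ℕ) + 12*t^(7:ℕ) + (-4)*t^(8:ℕ)) - (1623/125) = (1933632059564571827/1702143489440625)*(1 - t)^(11:ℕ) + (4647401601735275578/113476232629375)*(t - (9/20))*(1 - t)^(10:ℕ) + (1268728672390248472/3242178075125)*(t - (9/20))^(2:ℕ)*(1 - t)^(9:ℕ) + (26020054352998507216/13617147915525)*(t - (9/20))^(3:ℕ)*(1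 - t)^(8:ℕ) + (26197814561134397204/4539049305175)*(t - (9/20))^(4:ℕ)*(1 - t)^(7:ℕ) + (10631972071097615152/907809861035)*(t - (9/20))^(5:ℕ)*(1 - t)^(6:ℕ) + (3008326248921945472/181561972207)*(t - (9/20))^(6:ℕ)*(1 - t)^(5:ℕ) + (2996431397199411200/181561972207)*(t - (9/20))^(7:ℕ)*(1 - t)^(4:ℕ) + (2072010388631168000/181561972207)*(t - (9/20))^(8:ℕ)*(1 - t)^(3:ℕ) + (407704816225792000/77812273803)*(t - (9/20))^(9:ℕ)*(1 - t)^(2:ℕ) + (261790055505920000/181561972207)*(t - (9/20))^(10:ℕ)*(1 - t) + (32787653017600000/181561972207)*(t - (9/20))^(11:ℕ) := by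
    ring
  rw [e]
  have a3 : 0 ≤ t - (9/20) := by linarith
  have a4 : 0 ≤ 1 - t := by linarith
  generalize t - (9/20) = t1 at a3 ⊢
  generalize 1 - t = t2 at a4 ⊢
  positivity

lemma pos_L10_B2_b2 (t : ℝ) (h3 : (9/20) ≤ t) (h4 : t ≤ 1) :
    0 ≤ 1*(2 + 2*t + 10*t^(2:ℕ) + 10*t^(3:ℕ) + 20*t^(4:ℕ) + 20*t^(5:ℕ) + 20*t^(6:ℕ) + 20*t^(7:ℕ) + 10*t^(8:ℕ) + 10*t^(9:ℕ) + 2*t^(10:ℕ) + 2*t^(11:ℕ)) + (13/42)*(4 + 4*t + 28*t^(2:ℕ) + 28*t^(3:ℕ) + 64*t^(4:ℕ) + 64*t^(5:ℕ) + 64*t^(6:ℕ) + 64*t^(7:ℕ) + 28*t^(8:ℕ) + 28*t^(9:ℕ) + 4*t^(10:ℕ) + 4*t^(11:ℕ)) + (181/1890)*(33*t^(2:ℕ) + 35*t^(3:ℕ) + 103*t^(4:ℕ) + 60*t^(5:ℕ) + 82*t^(6:ℕ) + (-3)*t^(7:ℕ) + 3*t^(8:ℕ) + (-46)*t^(9:ℕ) + (-9)*t^(10:ℕ) +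 (-18)*t^(11:ℕ)) + (311/10500)*(2*t^(2:ℕ) + 19*t^(3:ℕ) + 69*t^(4:ℕ) + (-41)*t^(5:ℕ) + 56*t^(6:ℕ) + (-125)*t^(7:ℕ) + (-3)*t^(8:ℕ) + (-73)*t^(9:ℕ) + 8*t^(10:ℕ) + (-8)*t^(11:ℕ)) + (641/70000)*(8*t^(2:ℕ) + (-48)*t^(3:ℕ) + 102*t^(4:ℕ) + (-124)*t^(5:ℕ) + 96*t^(6:ℕ) + (-40)*t^(7:ℕ) + (-26)*t^(8:ℕ) + 44*t^(9:ℕ) + (-28)*t^(10:ℕ) + 8*t^(11:ℕ)) + (283/100000)*((15/4)*t^(4:ℕ) + (-35/2)*t^(5:ℕ) + (101/4)*t^(6:ℕ) + (-35/2)*t^(7:ℕ) + (15/4)*t^(8:ℕ) + 32*t^(9:ℕ) + (-48)*t^(10:ℕ) + 32*t^(11:ℕ)) + (153/175000)*((-14)*t^(4:ℕ) + 43*t^(5:ℕ) + (-61)*t^(6:ℕ) + 43*t^(7:ℕ) + (-14)*t^(8:ℕ)) + (27/100000)*((-4)*t^(4:ℕ) + 12*t^(5:ℕ) + (-17)*t^(6:ℕ) + 12*t^(7:ℕ) + (-4)*t^(8:ℕ)) - (1623/125) := by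
  have e : 1*(2 + 2*t + 10*t^(2:ℕ) + 10*t^(3:ℕ) + 20*t^(4:ℕ) + 20*t^(5:ℕ) + 20*t^(6:ℕ) + 20*t^(7:ℕ) + 10*t^(8:ℕ) + 10*t^(9:ℕ) + 2*t^(10:ℕ) + 2*t^(11:ℕ)) + (13/42)*(4 + 4*t + 28*t^(2:ℕ) + 28*t^(3:ℕ) + 64*t^(4:ℕ) + 64*t^(5:ℕ) + 64*t^(6:ℕ) + 64*t^(7:ℕ) + 28*t^(8:ℕ) + 28*t^(9:ℕ) + 4*t^(10:ℕ) + 4*t^(11:ℕ)) + (181/1890)*(33*t^(2:ℕ) + 35*t^(3:ℕ) + 103*t^(4:ℕ) + 60*t^(5:ℕ) + 82*t^(6:ℕ) + (-3)*t^(7:ℕ) + 3*t^(8:ℕ) + (-46)*t^(9:ℕ) + (-9)*t^(10:ℕ) + (-18)*t^(11:ℕ)) + (311/10500)*(2*t^(2:ℕ) + 19*t^(3:ℕ) + 69*t^(4:ℕ) + (-41)*t^(5:ℕ) + 56*t^(6:ℕ) + (-125)*t^(7:ℕ) + (-3)*t^(8:ℕ) + (-73)*t^(9:ℕ) + 8*t^(10:ℕ) + (-8)*t^(11:ℕ)) + (641/70000)*(8*t^(2:ℕ) + (-48)*t^(3:ℕ) + 102*t^(4:ℕ) + (-124)*t^(5:ℕ)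 + 96*t^(6:ℕ) + (-40)*t^(7:ℕ) + (-26)*t^(8:ℕ) + 44*t^(9:ℕ) + (-28)*t^(10:ℕ) + 8*t^(11:ℕ)) + (283/100000)*((15/4)*t^(4:ℕ) + (-35/2)*t^(5:ℕ) + (101/4)*t^(6:ℕ) + (-35/2)*t^(7:ℕ) + (15/4)*t^(8:ℕ) + 32*t^(9:ℕ) + (-48)*t^(10:ℕ) + 32*t^(11:ℕ)) + (153/175000)*((-14)*t^(4:ℕ) + 43*t^(5:ℕ) + (-61)*t^(6:ℕ) + 43*t^(7:ℕ) + (-14)*t^(8:ℕ)) + (27/100000)*((-4)*t^(4:ℕ) + 12*t^(5:ℕ) + (-17)*t^(6:ℕ) + 12*t^(7:ℕ) + (-4)*t^(8:ℕ)) - (1623/125) = (23156552466504047777/18723578383846875)*(1 - t)^(11:ℕ) + (9618411239269548701/226952465258750)*(t - (9/20))*(1 - t)^(10:ℕ) + (163621506700733931887/408514437465750)*(t - (9/20))^(2:ℕ)*(1 - t)^(9:ℕ) + (43375596658719402857/22282605679950)*(t - (9/20))^(3:ℕ)*(1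 - t)^(8:ℕ) + (143744884116198496636/24510866247945)*(t - (9/20))^(4:ℕ)*(1 - t)^(7:ℕ) + (19413686852560808936/1634057749863)*(t - (9/20))^(5:ℕ)*(1 - t)^(6:ℕ) + (82301902623644279360/4902173249589)*(t - (9/20))^(6:ℕ)*(1 - t)^(5:ℕ) + (433352858938547200/25937424601)*(t - (9/20))^(7:ℕ)*(1 - t)^(4:ℕ) + (56593474629499264000/4902173249589)*(t - (9/20))^(8:ℕ)*(1 - t)^(3:ℕ) + (25965713261177600000/4902173249589)*(t - (9/20))^(9:ℕ)*(1 - t)^(2:ℕ) + (7140673186764800000/4902173249589)*(t - (9/20))^(10:ℕ)*(1 - t) + (3276907732480000000/17974635248493)*(t - (9/20))^(11:ℕ) := by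
    ring
  rw [e]
  have a3 : 0 ≤ t - (9/20) := by linarith
  have a4 : 0 ≤ 1 - t := by linarith
  generalize t - (9/20) = t1 at a3 ⊢
  generalize 1 - t = t2 at a4 ⊢
  positivity

lemma pos_L10_B2_b3 (t : ℝ) (h3 : (9/20) ≤ t) (h4 : t ≤ 1) :
    0 ≤ 1*(2 + 2*t + 10*t^(2:ℕ) + 10*t^(3:ℕ) + 20*t^(4:ℕ) + 20*t^(5:ℕ) + 20*t^(6:ℕ) + 20*t^(7:ℕ) + 10*t^(8:ℕ) + 10*t^(9:ℕ) + 2*t^(10:ℕ) + 2*t^(11:ℕ)) + (11/35)*(4 + 4*t + 28*t^(2:ℕ) + 28*t^(3:ℕ) + 64*t^(4:ℕ) + 64*t^(5:ℕ) + 64*t^(6:ℕ) + 64*t^(7:ℕ) + 28*t^(8:ℕ) + 28*t^(9:ℕ) + 4*t^(10:ℕ) + 4*t^(11:ℕ)) + (311/3150)*(33*t^(2:ℕ) + 35*t^(3:ℕ) + 103*t^(4:ℕ) + 60*t^(5:ℕ) + 82*t^(6:ℕ) + (-3)*t^(7:ℕ) + 3*t^(8:ℕ) + (-46)*t^(9:ℕ) + (-9)*t^(10:ℕ) +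 (-18)*t^(11:ℕ)) + (3662/118125)*(2*t^(2:ℕ) + 19*t^(3:ℕ) + 69*t^(4:ℕ) + (-41)*t^(5:ℕ) + 56*t^(6:ℕ) + (-125)*t^(7:ℕ) + (-3)*t^(8:ℕ) + (-73)*t^(9:ℕ) + 8*t^(10:ℕ) + (-8)*t^(11:ℕ)) + (30649/3150000)*(8*t^(2:ℕ) + (-48)*t^(3:ℕ) + 102*t^(4:ℕ) + (-124)*t^(5:ℕ) + 96*t^(6:ℕ) + (-40)*t^(7:ℕ) + (-26)*t^(8:ℕ) + 44*t^(9:ℕ) + (-28)*t^(10:ℕ) + 8*t^(11:ℕ)) + (641/210000)*((15/4)*t^(4:ℕ) + (-35/2)*t^(5:ℕ) + (101/4)*t^(6:ℕ) + (-35/2)*t^(7:ℕ) + (15/4)*t^(8:ℕ) + 32*t^(9:ℕ) + (-48)*t^(10:ℕ) + 32*t^(11:ℕ)) + (67/70000)*((-14)*t^(4:ℕ) + 43*t^(5:ℕ) + (-61)*t^(6:ℕ) + 43*t^(7:ℕ) + (-14)*t^(8:ℕ)) + (3/10000)*((-4)*t^(4:ℕ) + 12*t^(5:ℕ) + (-17)*t^(6:ℕ) + 12*t^(7:ℕ) + (-4)*t^(8:ℕ)) - (1623/125) := by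
  have e : 1*(2 + 2*t + 10*t^(2:ℕ) + 10*t^(3:ℕ) + 20*t^(4:ℕ) + 20*t^(5:ℕ) + 20*t^(6:ℕ) + 20*t^(7:ℕ) + 10*t^(8:ℕ) + 10*t^(9:ℕ) + 2*t^(10:ℕ) + 2*t^(11:ℕ)) + (11/35)*(4 + 4*t + 28*t^(2:ℕ) + 28*t^(3:ℕ) + 64*t^(4:ℕ) + 64*t^(5:ℕ) + 64*t^(6:ℕ) + 64*t^(7:ℕ) + 28*t^(8:ℕ) + 28*t^(9:ℕ) + 4*t^(10:ℕ) + 4*t^(11:ℕ)) + (311/3150)*(33*t^(2:ℕ) + 35*t^(3:ℕ) + 103*t^(4:ℕ) + 60*t^(5:ℕ) + 82*t^(6:ℕ) + (-3)*t^(7:ℕ) + 3*t^(8:ℕ) + (-46)*t^(9:ℕ) + (-9)*t^(10:ℕ) + (-18)*t^(11:ℕ)) + (3662/118125)*(2*t^(2:ℕ) + 19*t^(3:ℕ) + 69*t^(4:ℕ) + (-41)*t^(5:ℕ) + 56*t^(6:ℕ) + (-125)*t^(7:ℕ) + (-3)*t^(8:ℕ) + (-73)*t^(9:ℕ) + 8*t^(10:ℕ) + (-8)*t^(11:ℕ)) + (30649/3150000)*(8*t^(2:ℕ) + (-48)*t^(3:ℕ) + 102*t^(4:ℕ) +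 (-124)*t^(5:ℕ) + 96*t^(6:ℕ) + (-40)*t^(7:ℕ) + (-26)*t^(8:ℕ) + 44*t^(9:ℕ) + (-28)*t^(10:ℕ) + 8*t^(11:ℕ)) + (641/210000)*((15/4)*t^(4:ℕ) + (-35/2)*t^(5:ℕ) + (101/4)*t^(6:ℕ) + (-35/2)*t^(7:ℕ) + (15/4)*t^(8:ℕ) + 32*t^(9:ℕ) + (-48)*t^(10:ℕ) + 32*t^(11:ℕ)) + (67/70000)*((-14)*t^(4:ℕ) + 43*t^(5:ℕ) + (-61)*t^(6:ℕ) + 43*t^(7:ℕ) + (-14)*t^(8:ℕ)) + (3/10000)*((-4)*t^(4:ℕ) + 12*t^(5:ℕ) + (-17)*t^(6:ℕ) + 12*t^(7:ℕ) + (-4)*t^(8:ℕ)) - (1623/125) = (16704678906371457819/12482385589231250)*(1 - t)^(11:ℕ) + (2983349853552064316/68085739577625)*(t - (9/20))*(1 - t)^(10:ℕ) + (22829022022717079017/55706514199875)*(t - (9/20))^(2:ℕ)*(1 - t)^(9:ℕ) + (48597214194248400757/24510866247945)*(t - (9/20))^(3:ℕ)*(1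 - t)^(8:ℕ) + (146039718081413348408/24510866247945)*(t - (9/20))^(4:ℕ)*(1 - t)^(7:ℕ) + (59075967037898326480/4902173249589)*(t - (9/20))^(5:ℕ)*(1 - t)^(6:ℕ) + (83387156265679318400/4902173249589)*(t - (9/20))^(6:ℕ)*(1 - t)^(5:ℕ) + (27636964638037734400/1634057749863)*(t - (9/20))^(7:ℕ)*(1 - t)^(4:ℕ) + (57246935060898560000/4902173249589)*(t - (9/20))^(8:ℕ)*(1 - t)^(3:ℕ) + (3749663108615680000/700310464227)*(t - (9/20))^(9:ℕ)*(1 - t)^(2:ℕ) + (1030479459430400000/700310464227)*(t - (9/20))^(10:ℕ)*(1 - t) + (3307940676608000000/17974635248493)*(t - (9/20))^(11:ℕ) := by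
    ring
  rw [e]
  have a3 : 0 ≤ t - (9/20) := by linarith
  have a4 : 0 ≤ 1 - t := by linarith
  generalize t - (9/20) = t1 at a3 ⊢
  generalize 1 - t = t2 at a4 ⊢
  positivity

lemma pos_L10_B2_b4 (t : ℝ) (h3 : (9/20) ≤ t) (h4 : t ≤ 1) :
    0 ≤ 1*(2 + 2*t + 10*t^(2:ℕ) + 10*t^(3:ℕ) + 20*t^(4:ℕ) + 20*t^(5:ℕ) + 20*t^(6:ℕ) + 20*t^(7:ℕ) + 10*t^(8:ℕ) + 10*t^(9:ℕ) + 2*t^(10:ℕ) + 2*t^(11:ℕ)) + (67/210)*(4 + 4*t + 28*t^(2:ℕ) + 28*t^(3:ℕ) + 64*t^(4:ℕ) + 64*t^(5:ℕ) + 64*t^(6:ℕ) + 64*t^(7:ℕ) + 28*t^(8:ℕ) + 28*t^(9:ℕ) + 4*t^(10:ℕ) + 4*t^(11:ℕ)) + (641/6300)*(33*t^(2:ℕ) + 35*t^(3:ℕ) + 103*t^(4:ℕ) + 60*t^(5:ℕ) + 82*t^(6:ℕ) + (-3)*t^(7:ℕ) + 3*t^(8:ℕ) + (-46)*t^(9:ℕ) + (-9)*t^(10:ℕ)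 + (-18)*t^(11:ℕ)) + (30649/945000)*(2*t^(2:ℕ) + 19*t^(3:ℕ) + 69*t^(4:ℕ) + (-41)*t^(5:ℕ) + 56*t^(6:ℕ) + (-125)*t^(7:ℕ) + (-3)*t^(8:ℕ) + (-73)*t^(9:ℕ) + 8*t^(10:ℕ) + (-8)*t^(11:ℕ)) + (3662/354375)*(8*t^(2:ℕ) + (-48)*t^(3:ℕ) + 102*t^(4:ℕ) + (-124)*t^(5:ℕ) + 96*t^(6:ℕ) + (-40)*t^(7:ℕ) + (-26)*t^(8:ℕ) + 44*t^(9:ℕ) + (-28)*t^(10:ℕ) + 8*t^(11:ℕ)) + (311/94500)*((15/4)*t^(4:ℕ) + (-35/2)*t^(5:ℕ) + (101/4)*t^(6:ℕ) + (-35/2)*t^(7:ℕ) + (15/4)*t^(8:ℕ) + 32*t^(9:ℕ) + (-48)*t^(10:ℕ) + 32*t^(11:ℕ)) + (11/10500)*((-14)*t^(4:ℕ) + 43*t^(5:ℕ) + (-61)*t^(6:ℕ) + 43*t^(7:ℕ) + (-14)*t^(8:ℕ)) + (1/3000)*((-4)*t^(4:ℕ) + 12*t^(5:ℕ) + (-17)*t^(6:ℕ) + 12*t^(7:ℕ) + (-4)*t^(8:ℕ)) - (1623/125) := by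
  have e : 1*(2 + 2*t + 10*t^(2:ℕ) + 10*t^(3:ℕ) + 20*t^(4:ℕ) + 20*t^(5:ℕ) + 20*t^(6:ℕ) + 20*t^(7:ℕ) + 10*t^(8:ℕ) + 10*t^(9:ℕ) + 2*t^(10:ℕ) + 2*t^(11:ℕ)) + (67/210)*(4 + 4*t + 28*t^(2:ℕ) + 28*t^(3:ℕ) + 64*t^(4:ℕ) + 64*t^(5:ℕ) + 64*t^(6:ℕ) + 64*t^(7:ℕ) + 28*t^(8:ℕ) + 28*t^(9:ℕ) + 4*t^(10:ℕ) + 4*t^(11:ℕ)) + (641/6300)*(33*t^(2:ℕ) + 35*t^(3:ℕ) + 103*t^(4:ℕ) + 60*t^(5:ℕ) + 82*t^(6:ℕ) + (-3)*t^(7:ℕ) + 3*t^(8:ℕ) + (-46)*t^(9:ℕ) + (-9)*t^(10:ℕ) + (-18)*t^(11:ℕ)) + (30649/945000)*(2*t^(2:ℕ) + 19*t^(3:ℕ) + 69*t^(4:ℕ) + (-41)*t^(5:ℕ) + 56*t^(6:ℕ) + (-125)*t^(7:ℕ) + (-3)*t^(8:ℕ) + (-73)*t^(9:ℕ) + 8*t^(10:ℕ) + (-8)*t^(11:ℕ)) + (3662/354375)*(8*t^(2:ℕ) + (-48)*t^(3:ℕ) + 102*t^(4:ℕ) +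 (-124)*t^(5:ℕ) + 96*t^(6:ℕ) + (-40)*t^(7:ℕ) + (-26)*t^(8:ℕ) + 44*t^(9:ℕ) + (-28)*t^(10:ℕ) + 8*t^(11:ℕ)) + (311/94500)*((15/4)*t^(4:ℕ) + (-35/2)*t^(5:ℕ) + (101/4)*t^(6:ℕ) + (-35/2)*t^(7:ℕ) + (15/4)*t^(8:ℕ) + 32*t^(9:ℕ) + (-48)*t^(10:ℕ) + 32*t^(11:ℕ)) + (11/10500)*((-14)*t^(4:ℕ) + 43*t^(5:ℕ) + (-61)*t^(6:ℕ) + 43*t^(7:ℕ) + (-14)*t^(8:ℕ)) + (1/3000)*((-4)*t^(4:ℕ) + 12*t^(5:ℕ) + (-17)*t^(6:ℕ) + 12*t^(7:ℕ) + (-4)*t^(8:ℕ)) - (1623/125) = (10788561503474399641/7489431353538750)*(1 - t)^(11:ℕ) + (369830788515941867/8170288749315)*(t - (9/20))*(1 - t)^(10:ℕ) + (154110498276818981434/367662993719175)*(t - (9/20))^(2:ℕ)*(1 - t)^(9:ℕ) + (366579971988502596/181561972207)*(t - (9/20))^(3:ℕ)*(1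 - t)^(8:ℕ) + (29670551984274939392/4902173249589)*(t - (9/20))^(4:ℕ)*(1 - t)^(7:ℕ) + (179752161840373549120/14706519748767)*(t - (9/20))^(5:ℕ)*(1 - t)^(6:ℕ) + (9386732034294284800/544685916621)*(t - (9/20))^(6:ℕ)*(1 - t)^(5:ℕ) + (35967972313483264000/2100931392681)*(t - (9/20))^(7:ℕ)*(1 - t)^(4:ℕ) + (173713987585664000000/14706519748767)*(t - (9/20))^(8:ℕ)*(1 - t)^(3:ℕ) + (79593558031513600000/14706519748767)*(t - (9/20))^(9:ℕ)*(1 - t)^(2:ℕ) + (21859136419840000000/14706519748767)*(t - (9/20))^(10:ℕ)*(1 - t) + (30051676672000000000/161771717236437)*(t - (9/20))^(11:ℕ) := by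
    ring
  rw [e]
  have a3 : 0 ≤ t - (9/20) := by linarith
  have a4 : 0 ≤ 1 - t := by linarith
  generalize t - (9/20) = t1 at a3 ⊢
  generalize 1 - t = t2 at a4 ⊢
  positivity

lemma pos_L10_B2_b5 (t : ℝ) (h3 : (9/20) ≤ t) (h4 : t ≤ 1) :
    0 ≤ 1*(2 + 2*t + 10*t^(2:ℕ) + 10*t^(3:ℕ) + 20*t^(4:ℕ) + 20*t^(5:ℕ) + 20*t^(6:ℕ) + 20*t^(7:ℕ) + 10*t^(8:ℕ) + 10*t^(9:ℕ) + 2*t^(10:ℕ) + 2*t^(11:ℕ)) + (34/105)*(4 + 4*t + 28*t^(2:ℕ) + 28*t^(3:ℕ) + 64*t^(4:ℕ) + 64*t^(5:ℕ) + 64*t^(6:ℕ) + 64*t^(7:ℕ) + 28*t^(8:ℕ) + 28*t^(9:ℕ) + 4*t^(10:ℕ) + 4*t^(11:ℕ)) + (283/2700)*(33*t^(2:ℕ) + 35*t^(3:ℕ) + 103*t^(4:ℕ) + 60*t^(5:ℕ) + 82*t^(6:ℕ) + (-3)*t^(7:ℕ) + 3*t^(8:ℕ) + (-46)*t^(9:ℕ) + (-9)*t^(10:ℕ)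 + (-18)*t^(11:ℕ)) + (641/18900)*(2*t^(2:ℕ) + 19*t^(3:ℕ) + 69*t^(4:ℕ) + (-41)*t^(5:ℕ) + 56*t^(6:ℕ) + (-125)*t^(7:ℕ) + (-3)*t^(8:ℕ) + (-73)*t^(9:ℕ) + 8*t^(10:ℕ) + (-8)*t^(11:ℕ)) + (311/28350)*(8*t^(2:ℕ) + (-48)*t^(3:ℕ) + 102*t^(4:ℕ) + (-124)*t^(5:ℕ) + 96*t^(6:ℕ) + (-40)*t^(7:ℕ) + (-26)*t^(8:ℕ) + 44*t^(9:ℕ) + (-28)*t^(10:ℕ) + 8*t^(11:ℕ)) + (181/51030)*((15/4)*t^(4:ℕ) + (-35/2)*t^(5:ℕ) + (101/4)*t^(6:ℕ) + (-35/2)*t^(7:ℕ) + (15/4)*t^(8:ℕ) + 32*t^(9:ℕ) + (-48)*t^(10:ℕ) + 32*t^(11:ℕ)) + (13/11340)*((-14)*t^(4:ℕ) + 43*t^(5:ℕ) + (-61)*t^(6:ℕ) + 43*t^(7:ℕ) + (-14)*t^(8:ℕ)) + (1/2700)*((-4)*t^(4:ℕ) + 12*t^(5:ℕ) + (-17)*t^(6:ℕ) + 12*t^(7:ℕ) + (-4)*t^(8:ℕ)) - (1623/125) := by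
  have e : 1*(2 + 2*t + 10*t^(2:ℕ) + 10*t^(3:ℕ) + 20*t^(4:ℕ) + 20*t^(5:ℕ) + 20*t^(6:ℕ) + 20*t^(7:ℕ) + 10*t^(8:ℕ) + 10*t^(9:ℕ) + 2*t^(10:ℕ) + 2*t^(11:ℕ)) + (34/105)*(4 + 4*t + 28*t^(2:ℕ) + 28*t^(3:ℕ) + 64*t^(4:ℕ) + 64*t^(5:ℕ) + 64*t^(6:ℕ) + 64*t^(7:ℕ) + 28*t^(8:ℕ) + 28*t^(9:ℕ) + 4*t^(10:ℕ) + 4*t^(11:ℕ)) + (283/2700)*(33*t^(2:ℕ) + 35*t^(3:ℕ) + 103*t^(4:ℕ) + 60*t^(5:ℕ) + 82*t^(6:ℕ) + (-3)*t^(7:ℕ) + 3*t^(8:ℕ) + (-46)*t^(9:ℕ) + (-9)*t^(10:ℕ) + (-18)*t^(11:ℕ)) + (641/18900)*(2*t^(2:ℕ) + 19*t^(3:ℕ) + 69*t^(4:ℕ) + (-41)*t^(5:ℕ) + 56*t^(6:ℕ) + (-125)*t^(7:ℕ) + (-3)*t^(8:ℕ) + (-73)*t^(9:ℕ) + 8*t^(10:ℕ) + (-8)*t^(11:ℕ)) + (311/28350)*(8*t^(2:ℕ) + (-48)*t^(3:ℕ) + 102*t^(4:ℕ) + (-124)*t^(5:ℕ)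 + 96*t^(6:ℕ) + (-40)*t^(7:ℕ) + (-26)*t^(8:ℕ) + 44*t^(9:ℕ) + (-28)*t^(10:ℕ) + 8*t^(11:ℕ)) + (181/51030)*((15/4)*t^(4:ℕ) + (-35/2)*t^(5:ℕ) + (101/4)*t^(6:ℕ) + (-35/2)*t^(7:ℕ) + (15/4)*t^(8:ℕ) + 32*t^(9:ℕ) + (-48)*t^(10:ℕ) + 32*t^(11:ℕ)) + (13/11340)*((-14)*t^(4:ℕ) + 43*t^(5:ℕ) + (-61)*t^(6:ℕ) + 43*t^(7:ℕ) + (-14)*t^(8:ℕ)) + (1/2700)*((-4)*t^(4:ℕ) + 12*t^(5:ℕ) + (-17)*t^(6:ℕ) + 12*t^(7:ℕ) + (-4)*t^(8:ℕ)) - (1623/125) = (462396189580776953/299577254141550)*(1 - t)^(11:ℕ) + (381749561027087821/8170288749315)*(t - (9/20))*(1 - t)^(10:ℕ) + (6303052527799903916/14706519748767)*(t - (9/20))^(2:ℕ)*(1 - t)^(9:ℕ) + (10077285409018305880/4902173249589)*(t - (9/20))^(3:ℕ)*(1 - t)^(8:ℕ)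 + (38747331954987305600/6302794178043)*(t - (9/20))^(4:ℕ)*(1 - t)^(7:ℕ) + (1640664175434373616000/132358677738903)*(t - (9/20))^(5:ℕ)*(1 - t)^(6:ℕ) + (2310719866693955840000/132358677738903)*(t - (9/20))^(6:ℕ)*(1 - t)^(5:ℕ) + (254840474910809600000/14706519748767)*(t - (9/20))^(7:ℕ)*(1 - t)^(4:ℕ) + (1581299758466048000000/132358677738903)*(t - (9/20))^(8:ℕ)*(1 - t)^(3:ℕ) + (65821933038080000000/12032607067173)*(t - (9/20))^(9:ℕ)*(1 - t)^(2:ℕ) + (198712957849600000000/132358677738903)*(t - (9/20))^(10:ℕ)*(1 - t) + (272995107430400000000/1455945455127933)*(t - (9/20))^(11:ℕ) := by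
    ring
  rw [e]
  have a3 : 0 ≤ t - (9/20) := by linarith
  have a4 : 0 ≤ 1 - t := by linarith
  generalize t - (9/20) = t1 at a3 ⊢
  generalize 1 - t = t2 at a4 ⊢
  positivity

lemma pos_L10_B2_b6 (t : ℝ) (h3 : (9/20) ≤ t) (h4 : t ≤ 1) :
    0 ≤ 1*(2 + 2*t + 10*t^(2:ℕ) + 10*t^(3:ℕ) + 20*t^(4:ℕ) + 20*t^(5:ℕ) + 20*t^(6:ℕ) + 20*t^(7:ℕ) + 10*t^(8:ℕ) + 10*t^(9:ℕ) + 2*t^(10:ℕ) + 2*t^(11:ℕ)) + (23/70)*(4 + 4*t + 28*t^(2:ℕ) + 28*t^(3:ℕ) + 64*t^(4:ℕ) + 64*t^(5:ℕ) + 64*t^(6:ℕ) + 64*t^(7:ℕ) + 28*t^(8:ℕ) + 28*t^(9:ℕ) + 4*t^(10:ℕ) + 4*t^(11:ℕ)) + (34/315)*(33*t^(2:ℕ) + 35*t^(3:ℕ) + 103*t^(4:ℕ) + 60*t^(5:ℕ) + 82*t^(6:ℕ) + (-3)*t^(7:ℕ) + 3*t^(8:ℕ) + (-46)*t^(9:ℕ) + (-9)*t^(10:ℕ) + (-18)*t^(11:ℕ))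 + (67/1890)*(2*t^(2:ℕ) + 19*t^(3:ℕ) + 69*t^(4:ℕ) + (-41)*t^(5:ℕ) + 56*t^(6:ℕ) + (-125)*t^(7:ℕ) + (-3)*t^(8:ℕ) + (-73)*t^(9:ℕ) + 8*t^(10:ℕ) + (-8)*t^(11:ℕ)) + (11/945)*(8*t^(2:ℕ) + (-48)*t^(3:ℕ) + 102*t^(4:ℕ) + (-124)*t^(5:ℕ) + 96*t^(6:ℕ) + (-40)*t^(7:ℕ) + (-26)*t^(8:ℕ) + 44*t^(9:ℕ) + (-28)*t^(10:ℕ) + 8*t^(11:ℕ)) + (13/3402)*((15/4)*t^(4:ℕ) + (-35/2)*t^(5:ℕ) + (101/4)*t^(6:ℕ) + (-35/2)*t^(7:ℕ) + (15/4)*t^(8:ℕ) + 32*t^(9:ℕ) + (-48)*t^(10:ℕ) + 32*t^(11:ℕ)) + (32/25515)*((-14)*t^(4:ℕ) + 43*t^(5:ℕ) + (-61)*t^(6:ℕ) + 43*t^(7:ℕ) + (-14)*t^(8:ℕ)) + (1/2430)*((-4)*t^(4:ℕ) + 12*t^(5:ℕ) + (-17)*t^(6:ℕ) + 12*t^(7:ℕ) + (-4)*t^(8:ℕ)) - (1623/125) := by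
  have e : 1*(2 + 2*t + 10*t^(2:ℕ) + 10*t^(3:ℕ) + 20*t^(4:ℕ) + 20*t^(5:ℕ) + 20*t^(6:ℕ) + 20*t^(7:ℕ) + 10*t^(8:ℕ) + 10*t^(9:ℕ) + 2*t^(10:ℕ) + 2*t^(11:ℕ)) + (23/70)*(4 + 4*t + 28*t^(2:ℕ) + 28*t^(3:ℕ) + 64*t^(4:ℕ) + 64*t^(5:ℕ) + 64*t^(6:ℕ) + 64*t^(7:ℕ) + 28*t^(8:ℕ) + 28*t^(9:ℕ) + 4*t^(10:ℕ) + 4*t^(11:ℕ)) + (34/315)*(33*t^(2:ℕ) + 35*t^(3:ℕ) + 103*t^(4:ℕ) + 60*t^(5:ℕ) + 82*t^(6:ℕ) + (-3)*t^(7:ℕ) + 3*t^(8:ℕ) + (-46)*t^(9:ℕ) + (-9)*t^(10:ℕ) + (-18)*t^(11:ℕ)) + (67/1890)*(2*t^(2:ℕ) + 19*t^(3:ℕ) + 69*t^(4:ℕ) + (-41)*t^(5:ℕ) + 56*t^(6:ℕ) + (-125)*t^(7:ℕ) + (-3)*t^(8:ℕ) + (-73)*t^(9:ℕ) + 8*t^(10:ℕ) + (-8)*t^(11:ℕ)) + (11/945)*(8*t^(2:ℕ) + (-48)*t^(3:ℕ) + 102*t^(4:ℕ) + (-124)*t^(5:ℕ)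 + 96*t^(6:ℕ) + (-40)*t^(7:ℕ) + (-26)*t^(8:ℕ) + 44*t^(9:ℕ) + (-28)*t^(10:ℕ) + 8*t^(11:ℕ)) + (13/3402)*((15/4)*t^(4:ℕ) + (-35/2)*t^(5:ℕ) + (101/4)*t^(6:ℕ) + (-35/2)*t^(7:ℕ) + (15/4)*t^(8:ℕ) + 32*t^(9:ℕ) + (-48)*t^(10:ℕ) + 32*t^(11:ℕ)) + (32/25515)*((-14)*t^(4:ℕ) + 43*t^(5:ℕ) + (-61)*t^(6:ℕ) + 43*t^(7:ℕ) + (-14)*t^(8:ℕ)) + (1/2430)*((-4)*t^(4:ℕ) + 12*t^(5:ℕ) + (-17)*t^(6:ℕ) + 12*t^(7:ℕ) + (-4)*t^(8:ℕ)) - (1623/125) = (16449144301445932/9985908471385)*(1 - t)^(11:ℕ) + (26250575761996000/544685916621)*(t - (9/20))*(1 - t)^(10:ℕ) + (2147587839771704560/4902173249589)*(t - (9/20))^(2:ℕ)*(1 - t)^(9:ℕ) + (30774978714646777400/14706519748767)*(t - (9/20))^(3:ℕ)*(1 - t)^(8:ℕ) + (826381997316464488000/132358677738903)*(t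 - (9/20))^(4:ℕ)*(1 - t)^(7:ℕ) + (1663735764340679600000/132358677738903)*(t - (9/20))^(5:ℕ)*(1 - t)^(6:ℕ) + (2340685663013763200000/132358677738903)*(t - (9/20))^(6:ℕ)*(1 - t)^(5:ℕ) + (2321340462945664000000/132358677738903)*(t - (9/20))^(7:ℕ)*(1 - t)^(4:ℕ) + (20769985381120000000/1718943866739)*(t - (9/20))^(8:ℕ)*(1 - t)^(3:ℕ) + (731783971673600000000/132358677738903)*(t - (9/20))^(9:ℕ)*(1 - t)^(2:ℕ) + (66900920012800000000/44119559246301)*(t - (9/20))^(10:ℕ)*(1 - t) + (30614793625600000000/161771717236437)*(t - (9/20))^(11:ℕ) := by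
    ring
  rw [e]
  have a3 : 0 ≤ t - (9/20) := by linarith
  have a4 : 0 ≤ 1 - t := by linarith
  generalize t - (9/20) = t1 at a3 ⊢
  generalize 1 - t = t2 at a4 ⊢
  positivity

lemma pos_L10_B2_b7 (t : ℝ) (h3 : (9/20) ≤ t) (h4 : t ≤ 1) :
    0 ≤ 1*(2 + 2*t + 10*t^(2:ℕ) + 10*t^(3:ℕ) + 20*t^(4:ℕ) + 20*t^(5:ℕ) + 20*t^(6:ℕ) + 20*t^(7:ℕ) + 10*t^(8:ℕ) + 10*t^(9:ℕ) + 2*t^(10:ℕ) + 2*t^(11:ℕ)) + (1/3)*(4 + 4*t + 28*t^(2:ℕ) + 28*t^(3:ℕ) + 64*t^(4:ℕ) + 64*t^(5:ℕ) + 64*t^(6:ℕ) + 64*t^(7:ℕ) + 28*t^(8:ℕ) + 28*t^(9:ℕ) + 4*t^(10:ℕ) + 4*t^(11:ℕ)) + (1/9)*(33*t^(2:ℕ) + 35*t^(3:ℕ) + 103*t^(4:ℕ) + 60*t^(5:ℕ) + 82*t^(6:ℕ) + (-3)*t^(7:ℕ) + 3*t^(8:ℕ) + (-46)*t^(9:ℕ) + (-9)*t^(10:ℕ) + (-18)*t^(11:ℕ))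 + (1/27)*(2*t^(2:ℕ) + 19*t^(3:ℕ) + 69*t^(4:ℕ) + (-41)*t^(5:ℕ) + 56*t^(6:ℕ) + (-125)*t^(7:ℕ) + (-3)*t^(8:ℕ) + (-73)*t^(9:ℕ) + 8*t^(10:ℕ) + (-8)*t^(11:ℕ)) + (1/81)*(8*t^(2:ℕ) + (-48)*t^(3:ℕ) + 102*t^(4:ℕ) + (-124)*t^(5:ℕ) + 96*t^(6:ℕ) + (-40)*t^(7:ℕ) + (-26)*t^(8:ℕ) + 44*t^(9:ℕ) + (-28)*t^(10:ℕ) + 8*t^(11:ℕ)) + (1/243)*((15/4)*t^(4:ℕ) + (-35/2)*t^(5:ℕ) + (101/4)*t^(6:ℕ) + (-35/2)*t^(7:ℕ) + (15/4)*t^(8:ℕ) + 32*t^(9:ℕ) + (-48)*t^(10:ℕ) + 32*t^(11:ℕ)) + (1/729)*((-14)*t^(4:ℕ) + 43*t^(5:ℕ) + (-61)*t^(6:ℕ) + 43*t^(7:ℕ) + (-14)*t^(8:ℕ)) + (1/2187)*((-4)*t^(4:ℕ) + 12*t^(5:ℕ) + (-17)*t^(6:ℕ) + 12*t^(7:ℕ) + (-4)*t^(8:ℕ)) - (1623/125) := by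
  have e : 1*(2 + 2*t + 10*t^(2:ℕ) + 10*t^(3:ℕ) + 20*t^(4:ℕ) + 20*t^(5:ℕ) + 20*t^(6:ℕ) + 20*t^(7:ℕ) + 10*t^(8:ℕ) + 10*t^(9:ℕ) + 2*t^(10:ℕ) + 2*t^(11:ℕ)) + (1/3)*(4 + 4*t + 28*t^(2:ℕ) + 28*t^(3:ℕ) + 64*t^(4:ℕ) + 64*t^(5:ℕ) + 64*t^(6:ℕ) + 64*t^(7:ℕ) + 28*t^(8:ℕ) + 28*t^(9:ℕ) + 4*t^(10:ℕ) + 4*t^(11:ℕ)) + (1/9)*(33*t^(2:ℕ) + 35*t^(3:ℕ) + 103*t^(4:ℕ) + 60*t^(5:ℕ) + 82*t^(6:ℕ) + (-3)*t^(7:ℕ) + 3*t^(8:ℕ) + (-46)*t^(9:ℕ) + (-9)*t^(10:ℕ) + (-18)*t^(11:ℕ)) + (1/27)*(2*t^(2:ℕ) + 19*t^(3:ℕ) + 69*t^(4:ℕ) + (-41)*t^(5:ℕ) + 56*t^(6:ℕ) + (-125)*t^(7:ℕ) + (-3)*t^(8:ℕ) + (-73)*t^(9:ℕ) + 8*t^(10:ℕ) + (-8)*t^(11:ℕ)) + (1/81)*(8*t^(2:ℕ) + (-48)*t^(3:ℕ) + 102*t^(4:ℕ) + (-124)*t^(5:ℕ) + 96*t^(6:ℕ)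 + (-40)*t^(7:ℕ) + (-26)*t^(8:ℕ) + 44*t^(9:ℕ) + (-28)*t^(10:ℕ) + 8*t^(11:ℕ)) + (1/243)*((15/4)*t^(4:ℕ) + (-35/2)*t^(5:ℕ) + (101/4)*t^(6:ℕ) + (-35/2)*t^(7:ℕ) + (15/4)*t^(8:ℕ) + 32*t^(9:ℕ) + (-48)*t^(10:ℕ) + 32*t^(11:ℕ)) + (1/729)*((-14)*t^(4:ℕ) + 43*t^(5:ℕ) + (-61)*t^(6:ℕ) + 43*t^(7:ℕ) + (-14)*t^(8:ℕ)) + (1/2187)*((-4)*t^(4:ℕ) + 12*t^(5:ℕ) + (-17)*t^(6:ℕ) + 12*t^(7:ℕ) + (-4)*t^(8:ℕ)) - (1623/125) = (1499364918070352/855935011833)*(1 - t)^(11:ℕ) + (11595952841469500/233436821409)*(t - (9/20))*(1 - t)^(10:ℕ) + (940508114247677600/2100931392681)*(t - (9/20))^(2:ℕ)*(1 - t)^(9:ℕ) + (13423868495268106000/6302794178043)*(t - (9/20))^(3:ℕ)*(1 - t)^(8:ℕ) + (359643984749778800000/56725147602387)*(t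 - (9/20))^(4:ℕ)*(1 - t)^(7:ℕ) + (722993450493216800000/56725147602387)*(t - (9/20))^(5:ℕ)*(1 - t)^(6:ℕ) + (1016088756985504000000/56725147602387)*(t - (9/20))^(6:ℕ)*(1 - t)^(5:ℕ) + (335615870128640000000/18908382534129)*(t - (9/20))^(7:ℕ)*(1 - t)^(4:ℕ) + (693168536358400000000/56725147602387)*(t - (9/20))^(8:ℕ)*(1 - t)^(3:ℕ) + (316958600320000000000/56725147602387)*(t - (9/20))^(9:ℕ)*(1 - t)^(2:ℕ) + (86872108441600000000/56725147602387)*(t - (9/20))^(10:ℕ)*(1 - t) + (119176753561600000000/623976623626257)*(t - (9/20))^(11:ℕ) := by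
    ring
  rw [e]
  have a3 : 0 ≤ t - (9/20) := by linarith
  have a4 : 0 ≤ 1 - t := by linarith
  generalize t - (9/20) = t1 at a3 ⊢
  generalize 1 - t = t2 at a4 ⊢
  positivity

lemma pos_L10_B2_id (d : ℝ) (C0 C1 C2 C3 C4 C5 C6 C7 : ℝ) :
    C0 + d*C1 + d^(2:ℕ)*C2 + d^(3:ℕ)*C3 + d^(4:ℕ)*C4 + d^(5:ℕ)*C5 + d^(6:ℕ)*C6 + d^(7:ℕ)*C7 = (1623/125) + (21870000000*((1/3) - d)^(7:ℕ)*(1*C0 + (3/10)*C1 + (9/100)*C2 + (27/1000)*C3 + (81/10000)*C4 + (243/100000)*C5 + (729/1000000)*C6 + (2187/10000000)*C7 - (1623/125)) + 153090000000*(d - (3/10))*((1/3) - d)^(6:ℕ)*(1*C0 + (32/105)*C1 + (13/140)*C2 + (99/3500)*C3 + (603/70000)*C4 + (459/175000)*C5 + (5589/7000000)*C6 + (243/1000000)*C7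 - (1623/125)) + 459270000000*(d - (3/10))^(2:ℕ)*((1/3) - d)^(5:ℕ)*(1*C0 + (13/42)*C1 + (181/1890)*C2 + (311/10500)*C3 + (641/70000)*C4 + (283/100000)*C5 + (153/175000)*C6 + (27/100000)*C7 - (1623/125)) + 765450000000*(d - (3/10))^(3:ℕ)*((1/3) - d)^(4:ℕ)*(1*C0 + (11/35)*C1 + (311/3150)*C2 + (3662/118125)*C3 + (30649/3150000)*C4 + (641/210000)*C5 + (67/70000)*C6 + (3/10000)*C7 - (1623/125)) + 765450000000*(d - (3/10))^(4:ℕ)*((1/3) - d)^(3:ℕ)*(1*C0 + (67/210)*C1 + (641/6300)*C2 + (30649/945000)*C3 + (3662/354375)*C4 + (311/94500)*C5 + (11/10500)*C6 + (1/3000)*C7 - (1623/125)) + 459270000000*(d - (3/10))^(5:ℕ)*((1/3) - d)^(2:ℕ)*(1*C0 + (34/105)*C1 + (283/2700)*C2 + (641/18900)*C3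 + (311/28350)*C4 + (181/51030)*C5 + (13/11340)*C6 + (1/2700)*C7 - (1623/125)) + 153090000000*(d - (3/10))^(6:ℕ)*((1/3) - d)*(1*C0 + (23/70)*C1 + (34/315)*C2 + (67/1890)*C3 + (11/945)*C4 + (13/3402)*C5 + (32/25515)*C6 + (1/2430)*C7 - (1623/125)) + 21870000000*(d - (3/10))^(7:ℕ)*(1*C0 + (1/3)*C1 + (1/9)*C2 + (1/27)*C3 + (1/81)*C4 + (1/243)*C5 + (1/729)*C6 + (1/2187)*C7 - (1623/125))) := by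
  ring

lemma pos_L10_B2_gen (d1 d2 B0 B1 B2 B3 B4 B5 B6 B7 : ℝ) (a1 : 0 ≤ d1) (a2 : 0 ≤ d2) (b0 : 0 ≤ B0) (b1 : 0 ≤ B1) (b2 : 0 ≤ B2) (b3 : 0 ≤ B3) (b4 : 0 ≤ B4) (b5 : 0 ≤ B5) (b6 : 0 ≤ B6) (b7 : 0 ≤ B7) :
    0 < (1623/125) + (21870000000*d2^(7:ℕ)*(B0) + 153090000000*d1*d2^(6:ℕ)*(B1) + 459270000000*d1^(2:ℕ)*d2^(5:ℕ)*(B2) + 765450000000*d1^(3:ℕ)*d2^(4:ℕ)*(B3) + 765450000000*d1^(4:ℕ)*d2^(3:ℕ)*(B4) + 459270000000*d1^(5:ℕ)*d2^(2:ℕ)*(B5) + 153090000000*d1^(6:ℕ)*d2*(B6) + 21870000000*d1^(7:ℕ)*(B7)) := by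
  positivity

lemma pos_L10_B2_core (d C0 C1 C2 C3 C4 C5 C6 C7 : ℝ) (h1 : (3/10) ≤ d) (h2 : d ≤ (1/3))
    (b0 : 0 ≤ 1*C0 + (3/10)*C1 + (9/100)*C2 + (27/1000)*C3 + (81/10000)*C4 + (243/100000)*C5 + (729/1000000)*C6 + (2187/10000000)*C7 - (1623/125))
    (b1 : 0 ≤ 1*C0 + (32/105)*C1 + (13/140)*C2 + (99/3500)*C3 + (603/70000)*C4 + (459/175000)*C5 + (5589/7000000)*C6 + (243/1000000)*C7 - (1623/125))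
    (b2 : 0 ≤ 1*C0 + (13/42)*C1 + (181/1890)*C2 + (311/10500)*C3 + (641/70000)*C4 + (283/100000)*C5 + (153/175000)*C6 + (27/100000)*C7 - (1623/125))
    (b3 : 0 ≤ 1*C0 + (11/35)*C1 + (311/3150)*C2 + (3662/118125)*C3 + (30649/3150000)*C4 + (641/210000)*C5 + (67/70000)*C6 + (3/10000)*C7 - (1623/125))
    (b4 : 0 ≤ 1*C0 + (67/210)*C1 + (641/6300)*C2 + (30649/945000)*C3 + (3662/354375)*C4 + (311/94500)*C5 + (11/10500)*C6 + (1/3000)*C7 - (1623/125))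
    (b5 : 0 ≤ 1*C0 + (34/105)*C1 + (283/2700)*C2 + (641/18900)*C3 + (311/28350)*C4 + (181/51030)*C5 + (13/11340)*C6 + (1/2700)*C7 - (1623/125))
    (b6 : 0 ≤ 1*C0 + (23/70)*C1 + (34/315)*C2 + (67/1890)*C3 + (11/945)*C4 + (13/3402)*C5 + (32/25515)*C6 + (1/2430)*C7 - (1623/125))
    (b7 : 0 ≤ 1*C0 + (1/3)*C1 + (1/9)*C2 + (1/27)*C3 + (1/81)*C4 + (1/243)*C5 + (1/729)*C6 + (1/2187)*C7 - (1623/125)) :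
    0 < C0 + d*C1 + d^(2:ℕ)*C2 + d^(3:ℕ)*C3 + d^(4:ℕ)*C4 + d^(5:ℕ)*C5 + d^(6:ℕ)*C6 + d^(7:ℕ)*C7 := by
  rw [pos_L10_B2_id]
  exact pos_L10_B2_gen _ _ _ _ _ _ _ _ _ _ (sub_nonneg.2 h1) (sub_nonneg.2 h2) b0 b1 b2 b3 b4 b5 b6 b7

lemma pos_L10_B2 (d t : ℝ) (h1 : (3/10) ≤ d) (h2 : d ≤ (1/3)) (h3 : (9/20) ≤ t) (h4 : t ≤ 1) :
    0 < 2 + 2*t + 10*t^(2:ℕ) + 10*t^(3:ℕ) + 20*t^(4:ℕ) + 20*t^(5:ℕ) + 20*t^(6:ℕ) + 20*t^(7:ℕ) + 10*t^(8:ℕ) + 10*t^(9:ℕ) + 2*t^(10:ℕ) + 2*t^(11:ℕ) + 4*d + 4*d*t + 28*d*t^(2:ℕ) + 28*d*t^(3:ℕ) + 64*d*t^(4:ℕ) + 64*d*t^(5:ℕ) + 64*d*t^(6:ℕ) + 64*d*t^(7:ℕ) + 28*d*t^(8:ℕ) + 28*d*t^(9:ℕ) + 4*d*t^(10:ℕ) + 4*d*t^(11:ℕ) + 33*d^(2:ℕ)*t^(2:ℕ) + 35*d^(2:ℕ)*t^(3:ℕ) + 103*d^(2:ℕ)*t^(4:ℕ)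 + 60*d^(2:ℕ)*t^(5:ℕ) + 82*d^(2:ℕ)*t^(6:ℕ) + (-3)*d^(2:ℕ)*t^(7:ℕ) + 3*d^(2:ℕ)*t^(8:ℕ) + (-46)*d^(2:ℕ)*t^(9:ℕ) + (-9)*d^(2:ℕ)*t^(10:ℕ) + (-18)*d^(2:ℕ)*t^(11:ℕ) + 2*d^(3:ℕ)*t^(2:ℕ) + 19*d^(3:ℕ)*t^(3:ℕ) + 69*d^(3:ℕ)*t^(4:ℕ) + (-41)*d^(3:ℕ)*t^(5:ℕ) + 56*d^(3:ℕ)*t^(6:ℕ) + (-125)*d^(3:ℕ)*t^(7:ℕ) + (-3)*d^(3:ℕ)*t^(8:ℕ) + (-73)*d^(3:ℕ)*t^(9:ℕ) + 8*d^(3:ℕ)*t^(10:ℕ) + (-8)*d^(3:ℕ)*t^(11:ℕ) + 8*d^(4:ℕ)*t^(2:ℕ) + (-48)*d^(4:ℕ)*t^(3:ℕ) + 102*d^(4:ℕ)*t^(4:ℕ) + (-124)*d^(4:ℕ)*t^(5:ℕ) + 96*d^(4:ℕ)*t^(6:ℕ) + (-40)*d^(4:ℕ)*t^(7:ℕ) + (-26)*d^(4:ℕ)*t^(8:ℕ) + 44*d^(4:ℕ)*t^(9:ℕ) + (-28)*d^(4:ℕ)*t^(10:ℕ) + 8*d^(4:ℕ)*t^(11:ℕ) + (15/4)*d^(5:ℕ)*t^(4:ℕ) + (-35/2)*d^(5:ℕ)*t^(5:ℕ) + (101/4)*d^(5:ℕ)*t^(6:ℕ)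 + (-35/2)*d^(5:ℕ)*t^(7:ℕ) + (15/4)*d^(5:ℕ)*t^(8:ℕ) + 32*d^(5:ℕ)*t^(9:ℕ) + (-48)*d^(5:ℕ)*t^(10:ℕ) + 32*d^(5:ℕ)*t^(11:ℕ) + (-14)*d^(6:ℕ)*t^(4:ℕ) + 43*d^(6:ℕ)*t^(5:ℕ) + (-61)*d^(6:ℕ)*t^(6:ℕ) + 43*d^(6:ℕ)*t^(7:ℕ) + (-14)*d^(6:ℕ)*t^(8:ℕ) + (-4)*d^(7:ℕ)*t^(4:ℕ) + 12*d^(7:ℕ)*t^(5:ℕ) + (-17)*d^(7:ℕ)*t^(6:ℕ) + 12*d^(7:ℕ)*t^(7:ℕ) + (-4)*d^(7:ℕ)*t^(8:ℕ) := by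
  have e0 : 2 + 2*t + 10*t^(2:ℕ) + 10*t^(3:ℕ) + 20*t^(4:ℕ) + 20*t^(5:ℕ) + 20*t^(6:ℕ) + 20*t^(7:ℕ) + 10*t^(8:ℕ) + 10*t^(9:ℕ) + 2*t^(10:ℕ) + 2*t^(11:ℕ) + 4*d + 4*d*t + 28*d*t^(2:ℕ) + 28*d*t^(3:ℕ) + 64*d*t^(4:ℕ) + 64*d*t^(5:ℕ) + 64*d*t^(6:ℕ) + 64*d*t^(7:ℕ) + 28*d*t^(8:ℕ) + 28*d*t^(9:ℕ) + 4*d*t^(10:ℕ) + 4*d*t^(11:ℕ) + 33*d^(2:ℕ)*t^(2:ℕ) + 35*d^(2:ℕ)*t^(3:ℕ) + 103*d^(2:ℕ)*t^(4:ℕ) + 60*d^(2:ℕ)*t^(5:ℕ) + 82*d^(2:ℕ)*t^(6:ℕ) + (-3)*d^(2:ℕ)*t^(7:ℕ) + 3*d^(2:ℕ)*t^(8:ℕ) + (-46)*d^(2:ℕ)*t^(9:ℕ) + (-9)*d^(2:ℕ)*t^(10:ℕ) + (-18)*d^(2:ℕ)*t^(11:ℕ) + 2*d^(3:ℕ)*t^(2:ℕ) + 19*d^(3:ℕ)*t^(3:ℕ) + 69*d^(3:ℕ)*t^(4:ℕ) + (-41)*d^(3:ℕ)*t^(5:ℕ) + 56*d^(3:ℕ)*t^(6:ℕ) + (-125)*d^(3:ℕ)*t^(7:ℕ) + (-3)*d^(3:ℕ)*t^(8:ℕ)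 + (-73)*d^(3:ℕ)*t^(9:ℕ) + 8*d^(3:ℕ)*t^(10:ℕ) + (-8)*d^(3:ℕ)*t^(11:ℕ) + 8*d^(4:ℕ)*t^(2:ℕ) + (-48)*d^(4:ℕ)*t^(3:ℕ) + 102*d^(4:ℕ)*t^(4:ℕ) + (-124)*d^(4:ℕ)*t^(5:ℕ) + 96*d^(4:ℕ)*t^(6:ℕ) + (-40)*d^(4:ℕ)*t^(7:ℕ) + (-26)*d^(4:ℕ)*t^(8:ℕ) + 44*d^(4:ℕ)*t^(9:ℕ) + (-28)*d^(4:ℕ)*t^(10:ℕ) + 8*d^(4:ℕ)*t^(11:ℕ) + (15/4)*d^(5:ℕ)*t^(4:ℕ) + (-35/2)*d^(5:ℕ)*t^(5:ℕ) + (101/4)*d^(5:ℕ)*t^(6:ℕ) + (-35/2)*d^(5:ℕ)*t^(7:ℕ) + (15/4)*d^(5:ℕ)*t^(8:ℕ) + 32*d^(5:ℕ)*t^(9:ℕ) + (-48)*d^(5:ℕ)*t^(10:ℕ) + 32*d^(5:ℕ)*t^(11:ℕ) + (-14)*d^(6:ℕ)*t^(4:ℕ) + 43*d^(6:ℕ)*t^(5:ℕ) + (-61)*d^(6:ℕ)*t^(6:ℕ) + 43*d^(6:ℕ)*t^(7:ℕ) + (-14)*d^(6:ℕ)*t^(8:ℕ) + (-4)*d^(7:ℕ)*t^(4:ℕ) + 12*d^(7:ℕ)*t^(5:ℕ) + (-17)*d^(7:ℕ)*t^(6:ℕ) + 12*d^(7:ℕ)*t^(7:ℕ)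 + (-4)*d^(7:ℕ)*t^(8:ℕ) = (2 + 2*t + 10*t^(2:ℕ) + 10*t^(3:ℕ) + 20*t^(4:ℕ) + 20*t^(5:ℕ) + 20*t^(6:ℕ) + 20*t^(7:ℕ) + 10*t^(8:ℕ) + 10*t^(9:ℕ) + 2*t^(10:ℕ) + 2*t^(11:ℕ)) + d*(4 + 4*t + 28*t^(2:ℕ) + 28*t^(3:ℕ) + 64*t^(4:ℕ) + 64*t^(5:ℕ) + 64*t^(6:ℕ) + 64*t^(7:ℕ) + 28*t^(8:ℕ) + 28*t^(9:ℕ) + 4*t^(10:ℕ) + 4*t^(11:ℕ)) + d^(2:ℕ)*(33*t^(2:ℕ) + 35*t^(3:ℕ) + 103*t^(4:ℕ) + 60*t^(5:ℕ) + 82*t^(6:ℕ) + (-3)*t^(7:ℕ) + 3*t^(8:ℕ) + (-46)*t^(9:ℕ) + (-9)*t^(10:ℕ) + (-18)*t^(11:ℕ)) + d^(3:ℕ)*(2*t^(2:ℕ) + 19*t^(3:ℕ) + 69*t^(4:ℕ) + (-41)*t^(5:ℕ) + 56*t^(6:ℕ) + (-125)*t^(7:ℕ) + (-3)*t^(8:ℕ) + (-73)*t^(9:ℕ) + 8*t^(10:ℕ) + (-8)*t^(11:ℕ)) + d^(4:ℕ)*(8*t^(2:ℕ) + (-48)*t^(3:ℕ) + 102*t^(4:ℕ) + (-124)*t^(5:ℕ)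 + 96*t^(6:ℕ) + (-40)*t^(7:ℕ) + (-26)*t^(8:ℕ) + 44*t^(9:ℕ) + (-28)*t^(10:ℕ) + 8*t^(11:ℕ)) + d^(5:ℕ)*((15/4)*t^(4:ℕ) + (-35/2)*t^(5:ℕ) + (101/4)*t^(6:ℕ) + (-35/2)*t^(7:ℕ) + (15/4)*t^(8:ℕ) + 32*t^(9:ℕ) + (-48)*t^(10:ℕ) + 32*t^(11:ℕ)) + d^(6:ℕ)*((-14)*t^(4:ℕ) + 43*t^(5:ℕ) + (-61)*t^(6:ℕ) + 43*t^(7:ℕ) + (-14)*t^(8:ℕ)) + d^(7:ℕ)*((-4)*t^(4:ℕ) + 12*t^(5:ℕ) + (-17)*t^(6:ℕ) + 12*t^(7:ℕ) + (-4)*t^(8:ℕ)) := by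
    ring
  rw [e0]
  exact pos_L10_B2_core d _ _ _ _ _ _ _ _ h1 h2 (pos_L10_B2_b0 t h3 h4) (pos_L10_B2_b1 t h3 h4) (pos_L10_B2_b2 t h3 h4) (pos_L10_B2_b3 t h3 h4) (pos_L10_B2_b4 t h3 h4) (pos_L10_B2_b5 t h3 h4) (pos_L10_B2_b6 t h3 h4) (pos_L10_B2_b7 t h3 h4)

lemma pos_L20_B2_b0 (t : ℝ) (h3 : (9/20) ≤ t) (h4 : t ≤ 1) :
    0 ≤ 1*(2 + 2*t + 10*t^(2:ℕ) + 10*t^(3:ℕ) + 20*t^(4:ℕ) + 20*t^(5:ℕ) + 20*t^(6:ℕ) + 20*t^(7:ℕ) + 10*t^(8:ℕ) + 10*t^(9:ℕ) + 2*t^(10:ℕ) + 2*t^(11:ℕ)) + (3/10)*(4 + 3*t + (59/2)*t^(2:ℕ) + 23*t^(3:ℕ) + 70*t^(4:ℕ) + 54*t^(5:ℕ) + 73*t^(6:ℕ) + 54*t^(7:ℕ) + 34*t^(8:ℕ) + 23*t^(9:ℕ) + (11/2)*t^(10:ℕ) + 3*t^(11:ℕ)) + (9/100)*((-16) + (-16)*t + (-32)*t^(2:ℕ) + (-28)*t^(3:ℕ)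 + 36*t^(4:ℕ) + 25*t^(5:ℕ) + 113*t^(6:ℕ) + 48*t^(7:ℕ) + 70*t^(8:ℕ) + 5*t^(9:ℕ) + 9*t^(10:ℕ) + (-6)*t^(11:ℕ)) + (27/1000)*((-41)*t^(2:ℕ) + (-48)*t^(3:ℕ) + (-55)*t^(4:ℕ) + (-31)*t^(5:ℕ) + 51*t^(6:ℕ) + (-14)*t^(7:ℕ) + 81*t^(8:ℕ) + (-43)*t^(9:ℕ) + 16*t^(10:ℕ) + (-12)*t^(11:ℕ)) + (81/10000)*(32*t^(2:ℕ) + (-16)*t^(3:ℕ) + 4*t^(4:ℕ) + 22*t^(5:ℕ) + (-24)*t^(6:ℕ) + 28*t^(7:ℕ) + 12*t^(8:ℕ) + (-18)*t^(9:ℕ) + 8*t^(10:ℕ) + (-8)*t^(11:ℕ)) + (243/100000)*((-32)*t^(2:ℕ) + (167/4)*t^(3:ℕ) + (-12)*t^(4:ℕ) + (-79/2)*t^(5:ℕ) + (121/2)*t^(6:ℕ) + (-261/4)*t^(7:ℕ) + (87/2)*t^(8:ℕ) + (-61/4)*t^(9:ℕ) + 3*t^(10:ℕ) + (-1)*t^(11:ℕ)) + (729/1000000)*(10*t^(5:ℕ) + (-31)*t^(6:ℕ) + 40*t^(7:ℕ) + (-19)*t^(8:ℕ)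 + (-7)*t^(9:ℕ) + 12*t^(10:ℕ) + (-4)*t^(11:ℕ)) + (2187/10000000)*((-4)*t^(7:ℕ) + 12*t^(8:ℕ) + (-17)*t^(9:ℕ) + 12*t^(10:ℕ) + (-4)*t^(11:ℕ)) - (1731/200) := by
  have e : 1*(2 + 2*t + 10*t^(2:ℕ) + 10*t^(3:ℕ) + 20*t^(4:ℕ) + 20*t^(5:ℕ) + 20*t^(6:ℕ) + 20*t^(7:ℕ) + 10*t^(8:ℕ) + 10*t^(9:ℕ) + 2*t^(10:ℕ) + 2*t^(11:ℕ)) + (3/10)*(4 + 3*t + (59/2)*t^(2:ℕ) + 23*t^(3:ℕ) + 70*t^(4:ℕ) + 54*t^(5:ℕ) + 73*t^(6:ℕ) + 54*t^(7:ℕ) + 34*t^(8:ℕ) + 23*t^(9:ℕ) + (11/2)*t^(10:ℕ) + 3*t^(11:ℕ)) + (9/100)*((-16) + (-16)*t + (-32)*t^(2:ℕ) + (-28)*t^(3:ℕ) + 36*t^(4:ℕ) + 25*t^(5:ℕ) + 113*t^(6:ℕ) + 48*t^(7:ℕ) + 70*t^(8:ℕ) + 5*t^(9:ℕ) + 9*t^(10:ℕ) + (-6)*t^(11:ℕ)) + (27/1000)*((-41)*t^(2:ℕ) + (-48)*t^(3:ℕ) +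 (-55)*t^(4:ℕ) + (-31)*t^(5:ℕ) + 51*t^(6:ℕ) + (-14)*t^(7:ℕ) + 81*t^(8:ℕ) + (-43)*t^(9:ℕ) + 16*t^(10:ℕ) + (-12)*t^(11:ℕ)) + (81/10000)*(32*t^(2:ℕ) + (-16)*t^(3:ℕ) + 4*t^(4:ℕ) + 22*t^(5:ℕ) + (-24)*t^(6:ℕ) + 28*t^(7:ℕ) + 12*t^(8:ℕ) + (-18)*t^(9:ℕ) + 8*t^(10:ℕ) + (-8)*t^(11:ℕ)) + (243/100000)*((-32)*t^(2:ℕ) + (167/4)*t^(3:ℕ) + (-12)*t^(4:ℕ) + (-79/2)*t^(5:ℕ) + (121/2)*t^(6:ℕ) + (-261/4)*t^(7:ℕ) + (87/2)*t^(8:ℕ) + (-61/4)*t^(9:ℕ) + 3*t^(10:ℕ) + (-1)*t^(11:ℕ)) + (729/1000000)*(10*t^(5:ℕ) + (-31)*t^(6:ℕ) + 40*t^(7:ℕ) + (-19)*t^(8:ℕ) + (-7)*t^(9:ℕ) + 12*t^(10:ℕ) + (-4)*t^(11:ℕ)) + (2187/10000000)*((-4)*t^(7:ℕ) + 12*t^(8:ℕ) + (-17)*t^(9:ℕ) + 12*t^(10:ℕ) + (-4)*t^(11:ℕ)) - (1731/200)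 = (17656564796840485136/22289974266484375)*(1 - t)^(11:ℕ) + (12434680019769961248/405272259390625)*(t - (9/20))*(1 - t)^(10:ℕ) + (24448439811684983848/81054451878125)*(t - (9/20))^(2:ℕ)*(1 - t)^(9:ℕ) + (24450535259108083624/16210890375625)*(t - (9/20))^(3:ℕ)*(1 - t)^(8:ℕ) + (274942693408332434/58948692275)*(t - (9/20))^(4:ℕ)*(1 - t)^(7:ℕ) + (6288965902697643272/648435615025)*(t - (9/20))^(5:ℕ)*(1 - t)^(6:ℕ) + (1826067925147580192/129687123005)*(t - (9/20))^(6:ℕ)*(1 - t)^(5:ℕ) + (373861916175832448/25937424601)*(t - (9/20))^(7:ℕ)*(1 - t)^(4:ℕ) + (266095513989918720/25937424601)*(t - (9/20))^(8:ℕ)*(1 - t)^(3:ℕ) + (125927197320192000/25937424601)*(t - (9/20))^(9:ℕ)*(1 - t)^(2:ℕ)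 + (35764142354432000/25937424601)*(t - (9/20))^(10:ℕ)*(1 - t) + (50904683069440000/285311670611)*(t - (9/20))^(11:ℕ) := by
    ring
  rw [e]
  have a3 : 0 ≤ t - (9/20) := by linarith
  have a4 : 0 ≤ 1 - t := by linarith
  generalize t - (9/20) = t1 at a3 ⊢
  generalize 1 - t = t2 at a4 ⊢
  positivity

lemma pos_L20_B2_b1 (t : ℝ) (h3 : (9/20) ≤ t) (h4 : t ≤ 1) :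
    0 ≤ 1*(2 + 2*t + 10*t^(2:ℕ) + 10*t^(3:ℕ) + 20*t^(4:ℕ) + 20*t^(5:ℕ) + 20*t^(6:ℕ) + 20*t^(7:ℕ) + 10*t^(8:ℕ) + 10*t^(9:ℕ) + 2*t^(10:ℕ) + 2*t^(11:ℕ)) + (32/105)*(4 + 3*t + (59/2)*t^(2:ℕ) + 23*t^(3:ℕ) + 70*t^(4:ℕ) + 54*t^(5:ℕ) + 73*t^(6:ℕ) + 54*t^(7:ℕ) + 34*t^(8:ℕ) + 23*t^(9:ℕ) + (11/2)*t^(10:ℕ) + 3*t^(11:ℕ)) + (13/140)*((-16) + (-16)*t + (-32)*t^(2:ℕ) + (-28)*t^(3:ℕ) + 36*t^(4:ℕ) + 25*t^(5:ℕ) + 113*t^(6:ℕ) + 48*t^(7:ℕ) + 70*t^(8:ℕ) + 5*t^(9:ℕ) + 9*t^(10:ℕ) + (-6)*t^(11:ℕ)) + (99/3500)*((-41)*t^(2:ℕ) + (-48)*t^(3:ℕ) + (-55)*t^(4:ℕ) + (-31)*t^(5:ℕ) + 51*t^(6:ℕ) + (-14)*t^(7:ℕ) + 81*t^(8:ℕ) + (-43)*t^(9:ℕ) + 16*t^(10:ℕ) + (-12)*t^(11:ℕ)) + (603/70000)*(32*t^(2:ℕ) + (-16)*t^(3:ℕ)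 + 4*t^(4:ℕ) + 22*t^(5:ℕ) + (-24)*t^(6:ℕ) + 28*t^(7:ℕ) + 12*t^(8:ℕ) + (-18)*t^(9:ℕ) + 8*t^(10:ℕ) + (-8)*t^(11:ℕ)) + (459/175000)*((-32)*t^(2:ℕ) + (167/4)*t^(3:ℕ) + (-12)*t^(4:ℕ) + (-79/2)*t^(5:ℕ) + (121/2)*t^(6:ℕ) + (-261/4)*t^(7:ℕ) + (87/2)*t^(8:ℕ) + (-61/4)*t^(9:ℕ) + 3*t^(10:ℕ) + (-1)*t^(11:ℕ)) + (5589/7000000)*(10*t^(5:ℕ) + (-31)*t^(6:ℕ) + 40*t^(7:ℕ) + (-19)*t^(8:ℕ) + (-7)*t^(9:ℕ) + 12*t^(10:ℕ) + (-4)*t^(11:ℕ)) + (243/1000000)*((-4)*t^(7:ℕ) + 12*t^(8:ℕ) + (-17)*t^(9:ℕ) + 12*t^(10:ℕ) + (-4)*t^(11:ℕ)) - (1731/200) := by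
  have e : 1*(2 + 2*t + 10*t^(2:ℕ) + 10*t^(3:ℕ) + 20*t^(4:ℕ) + 20*t^(5:ℕ) + 20*t^(6:ℕ) + 20*t^(7:ℕ) + 10*t^(8:ℕ) + 10*t^(9:ℕ) + 2*t^(10:ℕ) + 2*t^(11:ℕ)) + (32/105)*(4 + 3*t + (59/2)*t^(2:ℕ) + 23*t^(3:ℕ) + 70*t^(4:ℕ) + 54*t^(5:ℕ) + 73*t^(6:ℕ) + 54*t^(7:ℕ) + 34*t^(8:ℕ) + 23*t^(9:ℕ) + (11/2)*t^(10:ℕ) + 3*t^(11:ℕ)) + (13/140)*((-16) + (-16)*t + (-32)*t^(2:ℕ) + (-28)*t^(3:ℕ) + 36*t^(4:ℕ) + 25*t^(5:ℕ) + 113*t^(6:ℕ) + 48*t^(7:ℕ) + 70*t^(8:ℕ) + 5*t^(9:ℕ) + 9*t^(10:ℕ) + (-6)*t^(11:ℕ)) + (99/3500)*((-41)*t^(2:ℕ) + (-48)*t^(3:ℕ) + (-55)*t^(4:ℕ) + (-31)*t^(5:ℕ) + 51*t^(6:ℕ) + (-14)*t^(7:ℕ) + 81*t^(8:ℕ) + (-43)*t^(9:ℕ) + 16*t^(10:ℕ) + (-12)*t^(11:ℕ)) + (603/70000)*(32*t^(2:ℕ) + (-16)*t^(3:ℕ)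 + 4*t^(4:ℕ) + 22*t^(5:ℕ) + (-24)*t^(6:ℕ) + 28*t^(7:ℕ) + 12*t^(8:ℕ) + (-18)*t^(9:ℕ) + 8*t^(10:ℕ) + (-8)*t^(11:ℕ)) + (459/175000)*((-32)*t^(2:ℕ) + (167/4)*t^(3:ℕ) + (-12)*t^(4:ℕ) + (-79/2)*t^(5:ℕ) + (121/2)*t^(6:ℕ) + (-261/4)*t^(7:ℕ) + (87/2)*t^(8:ℕ) + (-61/4)*t^(9:ℕ) + 3*t^(10:ℕ) + (-1)*t^(11:ℕ)) + (5589/7000000)*(10*t^(5:ℕ) + (-31)*t^(6:ℕ) + 40*t^(7:ℕ) + (-19)*t^(8:ℕ) + (-7)*t^(9:ℕ) + 12*t^(10:ℕ) + (-4)*t^(11:ℕ)) + (243/1000000)*((-4)*t^(7:ℕ) + 12*t^(8:ℕ) + (-17)*t^(9:ℕ) + 12*t^(10:ℕ) + (-4)*t^(11:ℕ)) - (1731/200) = (2092578043912824724/2674796911978125)*(1 - t)^(11:ℕ) + (10444332928078622369/340428697888125)*(t - (9/20))*(1 - t)^(10:ℕ) + (41184857049405796127/136171479155250)*(t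 - (9/20))^(2:ℕ)*(1 - t)^(9:ℕ) + (9374618092903275353/6189612688875)*(t - (9/20))^(3:ℕ)*(1 - t)^(8:ℕ) + (63841760985594223112/13617147915525)*(t - (9/20))^(4:ℕ)*(1 - t)^(7:ℕ) + (1265364405008439728/129687123005)*(t - (9/20))^(5:ℕ)*(1 - t)^(6:ℕ) + (1103013003250393472/77812273803)*(t - (9/20))^(6:ℕ)*(1 - t)^(5:ℕ) + (2636287237911340800/181561972207)*(t - (9/20))^(7:ℕ)*(1 - t)^(4:ℕ) + (804606268964249600/77812273803)*(t - (9/20))^(8:ℕ)*(1 - t)^(3:ℕ) + (888902481064448000/181561972207)*(t - (9/20))^(9:ℕ)*(1 - t)^(2:ℕ) + (757677670215680000/544685916621)*(t - (9/20))^(10:ℕ)*(1 - t) + (1078799076147200000/5991545082831)*(t - (9/20))^(11:ℕ) := by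
    ring
  rw [e]
  have a3 : 0 ≤ t - (9/20) := by linarith
  have a4 : 0 ≤ 1 - t := by linarith
  generalize t - (9/20) = t1 at a3 ⊢
  generalize 1 - t = t2 at a4 ⊢
  positivity

lemma pos_L20_B2_b2 (t : ℝ) (h3 : (9/20) ≤ t) (h4 : t ≤ 1) :
    0 ≤ 1*(2 + 2*t + 10*t^(2:ℕ) + 10*t^(3:ℕ) + 20*t^(4:ℕ) + 20*t^(5:ℕ) + 20*t^(6:ℕ) + 20*t^(7:ℕ) + 10*t^(8:ℕ) + 10*t^(9:ℕ) + 2*t^(10:ℕ) + 2*t^(11:ℕ)) + (13/42)*(4 + 3*t + (59/2)*t^(2:ℕ) + 23*t^(3:ℕ) + 70*t^(4:ℕ) + 54*t^(5:ℕ) + 73*t^(6:ℕ) + 54*t^(7:ℕ) + 34*t^(8:ℕ) + 23*t^(9:ℕ) + (11/2)*t^(10:ℕ) + 3*t^(11:ℕ)) + (181/1890)*((-16) + (-16)*t + (-32)*t^(2:ℕ) + (-28)*t^(3:ℕ) + 36*t^(4:ℕ) + 25*t^(5:ℕ) + 113*t^(6:ℕ) + 48*t^(7:ℕ) + 70*t^(8:ℕ) +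 5*t^(9:ℕ) + 9*t^(10:ℕ) + (-6)*t^(11:ℕ)) + (311/10500)*((-41)*t^(2:ℕ) + (-48)*t^(3:ℕ) + (-55)*t^(4:ℕ) + (-31)*t^(5:ℕ) + 51*t^(6:ℕ) + (-14)*t^(7:ℕ) + 81*t^(8:ℕ) + (-43)*t^(9:ℕ) + 16*t^(10:ℕ) + (-12)*t^(11:ℕ)) + (641/70000)*(32*t^(2:ℕ) + (-16)*t^(3:ℕ) + 4*t^(4:ℕ) + 22*t^(5:ℕ) + (-24)*t^(6:ℕ) + 28*t^(7:ℕ) + 12*t^(8:ℕ) + (-18)*t^(9:ℕ) + 8*t^(10:ℕ) + (-8)*t^(11:ℕ)) + (283/100000)*((-32)*t^(2:ℕ) + (167/4)*t^(3:ℕ) + (-12)*t^(4:ℕ) + (-79/2)*t^(5:ℕ) + (121/2)*t^(6:ℕ) + (-261/4)*t^(7:ℕ) + (87/2)*t^(8:ℕ) + (-61/4)*t^(9:ℕ) + 3*t^(10:ℕ) + (-1)*t^(11:ℕ)) + (153/175000)*(10*t^(5:ℕ) + (-31)*t^(6:ℕ) + 40*t^(7:ℕ) + (-19)*t^(8:ℕ) + (-7)*t^(9:ℕ) + 12*t^(10:ℕ) + (-4)*t^(11:ℕ)) + (27/100000)*((-4)*t^(7:ℕ)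 + 12*t^(8:ℕ) + (-17)*t^(9:ℕ) + 12*t^(10:ℕ) + (-4)*t^(11:ℕ)) - (1731/200) := by
  have e : 1*(2 + 2*t + 10*t^(2:ℕ) + 10*t^(3:ℕ) + 20*t^(4:ℕ) + 20*t^(5:ℕ) + 20*t^(6:ℕ) + 20*t^(7:ℕ) + 10*t^(8:ℕ) + 10*t^(9:ℕ) + 2*t^(10:ℕ) + 2*t^(11:ℕ)) + (13/42)*(4 + 3*t + (59/2)*t^(2:ℕ) + 23*t^(3:ℕ) + 70*t^(4:ℕ) + 54*t^(5:ℕ) + 73*t^(6:ℕ) + 54*t^(7:ℕ) + 34*t^(8:ℕ) + 23*t^(9:ℕ) + (11/2)*t^(10:ℕ) + 3*t^(11:ℕ)) + (181/1890)*((-16) + (-16)*t + (-32)*t^(2:ℕ) + (-28)*t^(3:ℕ) + 36*t^(4:ℕ) + 25*t^(5:ℕ) + 113*t^(6:ℕ) + 48*t^(7:ℕ) + 70*t^(8:ℕ) + 5*t^(9:ℕ) + 9*t^(10:ℕ) + (-6)*t^(11:ℕ)) + (311/10500)*((-41)*t^(2:ℕ) + (-48)*t^(3:ℕ) + (-55)*t^(4:ℕ) + (-31)*t^(5:ℕ) + 51*t^(6:ℕ) + (-14)*t^(7:ℕ) + 81*t^(8:ℕ)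 + (-43)*t^(9:ℕ) + 16*t^(10:ℕ) + (-12)*t^(11:ℕ)) + (641/70000)*(32*t^(2:ℕ) + (-16)*t^(3:ℕ) + 4*t^(4:ℕ) + 22*t^(5:ℕ) + (-24)*t^(6:ℕ) + 28*t^(7:ℕ) + 12*t^(8:ℕ) + (-18)*t^(9:ℕ) + 8*t^(10:ℕ) + (-8)*t^(11:ℕ)) + (283/100000)*((-32)*t^(2:ℕ) + (167/4)*t^(3:ℕ) + (-12)*t^(4:ℕ) + (-79/2)*t^(5:ℕ) + (121/2)*t^(6:ℕ) + (-261/4)*t^(7:ℕ) + (87/2)*t^(8:ℕ) + (-61/4)*t^(9:ℕ) + 3*t^(10:ℕ) + (-1)*t^(11:ℕ)) + (153/175000)*(10*t^(5:ℕ) + (-31)*t^(6:ℕ) + 40*t^(7:ℕ) + (-19)*t^(8:ℕ) + (-7)*t^(9:ℕ) + 12*t^(10:ℕ) + (-4)*t^(11:ℕ)) + (27/100000)*((-4)*t^(7:ℕ) + 12*t^(8:ℕ) + (-17)*t^(9:ℕ) + 12*t^(10:ℕ) + (-4)*t^(11:ℕ)) - (1731/200) = (831498243062605122161/1078478114909580000)*(1 - t)^(11:ℕ) + (25049043647313509539/817028874931500)*(t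 - (9/20))*(1 - t)^(10:ℕ) + (1486155538528795788023/4902173249589000)*(t - (9/20))^(2:ℕ)*(1 - t)^(9:ℕ) + (372693746310669967801/245108662479450)*(t - (9/20))^(3:ℕ)*(1 - t)^(8:ℕ) + (115491252201221657798/24510866247945)*(t - (9/20))^(4:ℕ)*(1 - t)^(7:ℕ) + (2291038108849533400/233436821409)*(t - (9/20))^(5:ℕ)*(1 - t)^(6:ℕ) + (23316420401714137760/1634057749863)*(t - (9/20))^(6:ℕ)*(1 - t)^(5:ℕ) + (2655426399760105600/181561972207)*(t - (9/20))^(7:ℕ)*(1 - t)^(4:ℕ) + (17029109048014592000/1634057749863)*(t - (9/20))^(8:ℕ)*(1 - t)^(3:ℕ) + (200004028398080000/40513828509)*(t - (9/20))^(9:ℕ)*(1 - t)^(2:ℕ) + (764320540441600000/544685916621)*(t - (9/20))^(10:ℕ)*(1 - t) + (9797682702848000000/53923905745479)*(t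 - (9/20))^(11:ℕ) := by
    ring
  rw [e]
  have a3 : 0 ≤ t - (9/20) := by linarith
  have a4 : 0 ≤ 1 - t := by linarith
  generalize t - (9/20) = t1 at a3 ⊢
  generalize 1 - t = t2 at a4 ⊢
  positivity

lemma pos_L20_B2_b3 (t : ℝ) (h3 : (9/20) ≤ t) (h4 : t ≤ 1) :
    0 ≤ 1*(2 + 2*t + 10*t^(2:ℕ) + 10*t^(3:ℕ) + 20*t^(4:ℕ) + 20*t^(5:ℕ) + 20*t^(6:ℕ) + 20*t^(7:ℕ) + 10*t^(8:ℕ) + 10*t^(9:ℕ) + 2*t^(10:ℕ) + 2*t^(11:ℕ)) + (11/35)*(4 + 3*t + (59/2)*t^(2:ℕ) + 23*t^(3:ℕ) + 70*t^(4:ℕ) + 54*t^(5:ℕ) + 73*t^(6:ℕ) + 54*t^(7:ℕ) + 34*t^(8:ℕ) + 23*t^(9:ℕ) + (11/2)*t^(10:ℕ) + 3*t^(11:ℕ)) + (311/3150)*((-16) + (-16)*t + (-32)*t^(2:ℕ) + (-28)*t^(3:ℕ) + 36*t^(4:ℕ) + 25*t^(5:ℕ) + 113*t^(6:ℕ) + 48*t^(7:ℕ)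 + 70*t^(8:ℕ) + 5*t^(9:ℕ) + 9*t^(10:ℕ) + (-6)*t^(11:ℕ)) + (3662/118125)*((-41)*t^(2:ℕ) + (-48)*t^(3:ℕ) + (-55)*t^(4:ℕ) + (-31)*t^(5:ℕ) + 51*t^(6:ℕ) + (-14)*t^(7:ℕ) + 81*t^(8:ℕ) + (-43)*t^(9:ℕ) + 16*t^(10:ℕ) + (-12)*t^(11:ℕ)) + (30649/3150000)*(32*t^(2:ℕ) + (-16)*t^(3:ℕ) + 4*t^(4:ℕ) + 22*t^(5:ℕ) + (-24)*t^(6:ℕ) + 28*t^(7:ℕ) + 12*t^(8:ℕ) + (-18)*t^(9:ℕ) + 8*t^(10:ℕ) + (-8)*t^(11:ℕ)) + (641/210000)*((-32)*t^(2:ℕ) + (167/4)*t^(3:ℕ) + (-12)*t^(4:ℕ) + (-79/2)*t^(5:ℕ) + (121/2)*t^(6:ℕ) + (-261/4)*t^(7:ℕ) + (87/2)*t^(8:ℕ) + (-61/4)*t^(9:ℕ) + 3*t^(10:ℕ) + (-1)*t^(11:ℕ)) + (67/70000)*(10*t^(5:ℕ) + (-31)*t^(6:ℕ) + 40*t^(7:ℕ) + (-19)*t^(8:ℕ) + (-7)*t^(9:ℕ) + 12*t^(10:ℕ) + (-4)*t^(11:ℕ))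 + (3/10000)*((-4)*t^(7:ℕ) + 12*t^(8:ℕ) + (-17)*t^(9:ℕ) + 12*t^(10:ℕ) + (-4)*t^(11:ℕ)) - (1731/200) := by
  have e : 1*(2 + 2*t + 10*t^(2:ℕ) + 10*t^(3:ℕ) + 20*t^(4:ℕ) + 20*t^(5:ℕ) + 20*t^(6:ℕ) + 20*t^(7:ℕ) + 10*t^(8:ℕ) + 10*t^(9:ℕ) + 2*t^(10:ℕ) + 2*t^(11:ℕ)) + (11/35)*(4 + 3*t + (59/2)*t^(2:ℕ) + 23*t^(3:ℕ) + 70*t^(4:ℕ) + 54*t^(5:ℕ) + 73*t^(6:ℕ) + 54*t^(7:ℕ) + 34*t^(8:ℕ) + 23*t^(9:ℕ) + (11/2)*t^(10:ℕ) + 3*t^(11:ℕ)) + (311/3150)*((-16) + (-16)*t + (-32)*t^(2:ℕ) + (-28)*t^(3:ℕ) + 36*t^(4:ℕ) + 25*t^(5:ℕ) + 113*t^(6:ℕ) + 48*t^(7:ℕ) + 70*t^(8:ℕ) + 5*t^(9:ℕ) + 9*t^(10:ℕ) + (-6)*t^(11:ℕ)) + (3662/118125)*((-41)*t^(2:ℕ) + (-48)*t^(3:ℕ) + (-55)*t^(4:ℕ) + (-31)*t^(5:ℕ) + 51*t^(6:ℕ)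 + (-14)*t^(7:ℕ) + 81*t^(8:ℕ) + (-43)*t^(9:ℕ) + 16*t^(10:ℕ) + (-12)*t^(11:ℕ)) + (30649/3150000)*(32*t^(2:ℕ) + (-16)*t^(3:ℕ) + 4*t^(4:ℕ) + 22*t^(5:ℕ) + (-24)*t^(6:ℕ) + 28*t^(7:ℕ) + 12*t^(8:ℕ) + (-18)*t^(9:ℕ) + 8*t^(10:ℕ) + (-8)*t^(11:ℕ)) + (641/210000)*((-32)*t^(2:ℕ) + (167/4)*t^(3:ℕ) + (-12)*t^(4:ℕ) + (-79/2)*t^(5:ℕ) + (121/2)*t^(6:ℕ) + (-261/4)*t^(7:ℕ) + (87/2)*t^(8:ℕ) + (-61/4)*t^(9:ℕ) + 3*t^(10:ℕ) + (-1)*t^(11:ℕ)) + (67/70000)*(10*t^(5:ℕ) + (-31)*t^(6:ℕ) + 40*t^(7:ℕ) + (-19)*t^(8:ℕ) + (-7)*t^(9:ℕ) + 12*t^(10:ℕ) + (-4)*t^(11:ℕ)) + (3/10000)*((-4)*t^(7:ℕ) + 12*t^(8:ℕ) + (-17)*t^(9:ℕ) + 12*t^(10:ℕ) + (-4)*t^(11:ℕ)) - (1731/200) = (681331702862798091257/898731762424650000)*(1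 - t)^(11:ℕ) + (15161300903778233/495169015110)*(t - (9/20))*(1 - t)^(10:ℕ) + (744569895804404763889/2451086624794500)*(t - (9/20))^(2:ℕ)*(1 - t)^(9:ℕ) + (12468932305442013101/8170288749315)*(t - (9/20))^(3:ℕ)*(1 - t)^(8:ℕ) + (116049238317344871908/24510866247945)*(t - (9/20))^(4:ℕ)*(1 - t)^(7:ℕ) + (48387598206647709200/4902173249589)*(t - (9/20))^(5:ℕ)*(1 - t)^(6:ℕ) + (3352553370568193600/233436821409)*(t - (9/20))^(6:ℕ)*(1 - t)^(5:ℕ) + (72210114069072467200/4902173249589)*(t - (9/20))^(7:ℕ)*(1 - t)^(4:ℕ) + (17161138302517760000/1634057749863)*(t - (9/20))^(8:ℕ)*(1 - t)^(3:ℕ) + (24400589401400320000/4902173249589)*(t - (9/20))^(9:ℕ)*(1 - t)^(2:ℕ) + (6938777853184000000/4902173249589)*(t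 - (9/20))^(10:ℕ)*(1 - t) + (3295485199360000000/17974635248493)*(t - (9/20))^(11:ℕ) := by
    ring
  rw [e]
  have a3 : 0 ≤ t - (9/20) := by linarith
  have a4 : 0 ≤ 1 - t := by linarith
  generalize t - (9/20) = t1 at a3 ⊢
  generalize 1 - t = t2 at a4 ⊢
  positivity

lemma pos_L20_B2_b4 (t : ℝ) (h3 : (9/20) ≤ t) (h4 : t ≤ 1) :
    0 ≤ 1*(2 + 2*t + 10*t^(2:ℕ) + 10*t^(3:ℕ) + 20*t^(4:ℕ) + 20*t^(5:ℕ) + 20*t^(6:ℕ) + 20*t^(7:ℕ) + 10*t^(8:ℕ) + 10*t^(9:ℕ) + 2*t^(10:ℕ) + 2*t^(11:ℕ)) + (67/210)*(4 + 3*t + (59/2)*t^(2:ℕ) + 23*t^(3:ℕ) + 70*t^(4:ℕ) + 54*t^(5:ℕ) + 73*t^(6:ℕ) + 54*t^(7:ℕ) + 34*t^(8:ℕ) + 23*t^(9:ℕ) + (11/2)*t^(10:ℕ) + 3*t^(11:ℕ)) + (641/6300)*((-16) + (-16)*t + (-32)*t^(2:ℕ)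 + (-28)*t^(3:ℕ) + 36*t^(4:ℕ) + 25*t^(5:ℕ) + 113*t^(6:ℕ) + 48*t^(7:ℕ) + 70*t^(8:ℕ) + 5*t^(9:ℕ) + 9*t^(10:ℕ) + (-6)*t^(11:ℕ)) + (30649/945000)*((-41)*t^(2:ℕ) + (-48)*t^(3:ℕ) + (-55)*t^(4:ℕ) + (-31)*t^(5:ℕ) + 51*t^(6:ℕ) + (-14)*t^(7:ℕ) + 81*t^(8:ℕ) + (-43)*t^(9:ℕ) + 16*t^(10:ℕ) + (-12)*t^(11:ℕ)) + (3662/354375)*(32*t^(2:ℕ) + (-16)*t^(3:ℕ) + 4*t^(4:ℕ) + 22*t^(5:ℕ) + (-24)*t^(6:ℕ) + 28*t^(7:ℕ) + 12*t^(8:ℕ) + (-18)*t^(9:ℕ) + 8*t^(10:ℕ) + (-8)*t^(11:ℕ)) + (311/94500)*((-32)*t^(2:ℕ) + (167/4)*t^(3:ℕ) + (-12)*t^(4:ℕ) + (-79/2)*t^(5:ℕ) + (121/2)*t^(6:ℕ) + (-261/4)*t^(7:ℕ) + (87/2)*t^(8:ℕ) + (-61/4)*t^(9:ℕ) + 3*t^(10:ℕ) + (-1)*t^(11:ℕ)) + (11/10500)*(10*t^(5:ℕ) + (-31)*t^(6:ℕ) + 40*t^(7:ℕ)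 + (-19)*t^(8:ℕ) + (-7)*t^(9:ℕ) + 12*t^(10:ℕ) + (-4)*t^(11:ℕ)) + (1/3000)*((-4)*t^(7:ℕ) + 12*t^(8:ℕ) + (-17)*t^(9:ℕ) + 12*t^(10:ℕ) + (-4)*t^(11:ℕ)) - (1731/200) := by
  have e : 1*(2 + 2*t + 10*t^(2:ℕ) + 10*t^(3:ℕ) + 20*t^(4:ℕ) + 20*t^(5:ℕ) + 20*t^(6:ℕ) + 20*t^(7:ℕ) + 10*t^(8:ℕ) + 10*t^(9:ℕ) + 2*t^(10:ℕ) + 2*t^(11:ℕ)) + (67/210)*(4 + 3*t + (59/2)*t^(2:ℕ) + 23*t^(3:ℕ) + 70*t^(4:ℕ) + 54*t^(5:ℕ) + 73*t^(6:ℕ) + 54*t^(7:ℕ) + 34*t^(8:ℕ) + 23*t^(9:ℕ) + (11/2)*t^(10:ℕ) + 3*t^(11:ℕ)) + (641/6300)*((-16) + (-16)*t + (-32)*t^(2:ℕ) + (-28)*t^(3:ℕ) + 36*t^(4:ℕ) + 25*t^(5:ℕ) + 113*t^(6:ℕ) + 48*t^(7:ℕ) + 70*t^(8:ℕ) + 5*t^(9:ℕ) + 9*t^(10:ℕ) + (-6)*t^(11:ℕ)) + (30649/945000)*((-41)*t^(2:ℕ)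 + (-48)*t^(3:ℕ) + (-55)*t^(4:ℕ) + (-31)*t^(5:ℕ) + 51*t^(6:ℕ) + (-14)*t^(7:ℕ) + 81*t^(8:ℕ) + (-43)*t^(9:ℕ) + 16*t^(10:ℕ) + (-12)*t^(11:ℕ)) + (3662/354375)*(32*t^(2:ℕ) + (-16)*t^(3:ℕ) + 4*t^(4:ℕ) + 22*t^(5:ℕ) + (-24)*t^(6:ℕ) + 28*t^(7:ℕ) + 12*t^(8:ℕ) + (-18)*t^(9:ℕ) + 8*t^(10:ℕ) + (-8)*t^(11:ℕ)) + (311/94500)*((-32)*t^(2:ℕ) + (167/4)*t^(3:ℕ) + (-12)*t^(4:ℕ) + (-79/2)*t^(5:ℕ) + (121/2)*t^(6:ℕ) + (-261/4)*t^(7:ℕ) + (87/2)*t^(8:ℕ) + (-61/4)*t^(9:ℕ) + 3*t^(10:ℕ) + (-1)*t^(11:ℕ)) + (11/10500)*(10*t^(5:ℕ) + (-31)*t^(6:ℕ) + 40*t^(7:ℕ) + (-19)*t^(8:ℕ) + (-7)*t^(9:ℕ) + 12*t^(10:ℕ) + (-4)*t^(11:ℕ)) + (1/3000)*((-4)*t^(7:ℕ) + 12*t^(8:ℕ) + (-17)*t^(9:ℕ) + 12*t^(10:ℕ) + (-4)*t^(11:ℕ))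 - (1731/200) = (33417389950481425439/44936588121232500)*(1 - t)^(11:ℕ) + (567445577075642836/18568838066625)*(t - (9/20))*(1 - t)^(10:ℕ) + (111870278802104365993/367662993719175)*(t - (9/20))^(2:ℕ)*(1 - t)^(9:ℕ) + (112607043972224403284/73532598743835)*(t - (9/20))^(3:ℕ)*(1 - t)^(8:ℕ) + (69953368640297839504/14706519748767)*(t - (9/20))^(4:ℕ)*(1 - t)^(7:ℕ) + (145974321364325566400/14706519748767)*(t - (9/20))^(5:ℕ)*(1 - t)^(6:ℕ) + (212558476249871532800/14706519748767)*(t - (9/20))^(6:ℕ)*(1 - t)^(5:ℕ) + (218161497939852160000/14706519748767)*(t - (9/20))^(7:ℕ)*(1 - t)^(4:ℕ) + (1921423132354560000/181561972207)*(t - (9/20))^(8:ℕ)*(1 - t)^(3:ℕ) + (73801982174310400000/14706519748767)*(t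 - (9/20))^(9:ℕ)*(1 - t)^(2:ℕ) + (20996326411264000000/14706519748767)*(t - (9/20))^(10:ℕ)*(1 - t) + (29926523514880000000/161771717236437)*(t - (9/20))^(11:ℕ) := by
    ring
  rw [e]
  have a3 : 0 ≤ t - (9/20) := by linarith
  have a4 : 0 ≤ 1 - t := by linarith
  generalize t - (9/20) = t1 at a3 ⊢
  generalize 1 - t = t2 at a4 ⊢
  positivity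

lemma pos_L20_B2_b5 (t : ℝ) (h3 : (9/20) ≤ t) (h4 : t ≤ 1) :
    0 ≤ 1*(2 + 2*t + 10*t^(2:ℕ) + 10*t^(3:ℕ) + 20*t^(4:ℕ) + 20*t^(5:ℕ) + 20*t^(6:ℕ) + 20*t^(7:ℕ) + 10*t^(8:ℕ) + 10*t^(9:ℕ) + 2*t^(10:ℕ) + 2*t^(11:ℕ)) + (34/105)*(4 + 3*t + (59/2)*t^(2:ℕ) + 23*t^(3:ℕ) + 70*t^(4:ℕ) + 54*t^(5:ℕ) + 73*t^(6:ℕ) + 54*t^(7:ℕ) + 34*t^(8:ℕ) + 23*t^(9:ℕ) + (11/2)*t^(10:ℕ) + 3*t^(11:ℕ)) + (283/2700)*((-16) + (-16)*t + (-32)*t^(2:ℕ) + (-28)*t^(3:ℕ) + 36*t^(4:ℕ) + 25*t^(5:ℕ) + 113*t^(6:ℕ) + 48*t^(7:ℕ) + 70*t^(8:ℕ) + 5*t^(9:ℕ) + 9*t^(10:ℕ) + (-6)*t^(11:ℕ)) + (641/18900)*((-41)*t^(2:ℕ) + (-48)*t^(3:ℕ) + (-55)*t^(4:ℕ) + (-31)*t^(5:ℕ) + 51*t^(6:ℕ) + (-14)*t^(7:ℕ) + 81*t^(8:ℕ) + (-43)*t^(9:ℕ) +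 16*t^(10:ℕ) + (-12)*t^(11:ℕ)) + (311/28350)*(32*t^(2:ℕ) + (-16)*t^(3:ℕ) + 4*t^(4:ℕ) + 22*t^(5:ℕ) + (-24)*t^(6:ℕ) + 28*t^(7:ℕ) + 12*t^(8:ℕ) + (-18)*t^(9:ℕ) + 8*t^(10:ℕ) + (-8)*t^(11:ℕ)) + (181/51030)*((-32)*t^(2:ℕ) + (167/4)*t^(3:ℕ) + (-12)*t^(4:ℕ) + (-79/2)*t^(5:ℕ) + (121/2)*t^(6:ℕ) + (-261/4)*t^(7:ℕ) + (87/2)*t^(8:ℕ) + (-61/4)*t^(9:ℕ) + 3*t^(10:ℕ) + (-1)*t^(11:ℕ)) + (13/11340)*(10*t^(5:ℕ) + (-31)*t^(6:ℕ) + 40*t^(7:ℕ) + (-19)*t^(8:ℕ) + (-7)*t^(9:ℕ) + 12*t^(10:ℕ) + (-4)*t^(11:ℕ)) + (1/2700)*((-4)*t^(7:ℕ) + 12*t^(8:ℕ) + (-17)*t^(9:ℕ) + 12*t^(10:ℕ) + (-4)*t^(11:ℕ)) - (1731/200) := by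
  have e : 1*(2 + 2*t + 10*t^(2:ℕ) + 10*t^(3:ℕ) + 20*t^(4:ℕ) + 20*t^(5:ℕ) + 20*t^(6:ℕ) + 20*t^(7:ℕ) + 10*t^(8:ℕ) + 10*t^(9:ℕ) + 2*t^(10:ℕ) + 2*t^(11:ℕ)) + (34/105)*(4 + 3*t + (59/2)*t^(2:ℕ) + 23*t^(3:ℕ) + 70*t^(4:ℕ) + 54*t^(5:ℕ) + 73*t^(6:ℕ) + 54*t^(7:ℕ) + 34*t^(8:ℕ) + 23*t^(9:ℕ) + (11/2)*t^(10:ℕ) + 3*t^(11:ℕ)) + (283/2700)*((-16) + (-16)*t + (-32)*t^(2:ℕ) + (-28)*t^(3:ℕ) + 36*t^(4:ℕ) + 25*t^(5:ℕ) + 113*t^(6:ℕ) + 48*t^(7:ℕ) + 70*t^(8:ℕ) + 5*t^(9:ℕ) + 9*t^(10:ℕ) + (-6)*t^(11:ℕ)) + (641/18900)*((-41)*t^(2:ℕ) + (-48)*t^(3:ℕ) + (-55)*t^(4:ℕ) + (-31)*t^(5:ℕ) + 51*t^(6:ℕ) + (-14)*t^(7:ℕ) + 81*t^(8:ℕ) + (-43)*t^(9:ℕ) + 16*t^(10:ℕ) + (-12)*t^(11:ℕ)) + (311/28350)*(32*t^(2:ℕ) + (-16)*t^(3:ℕ)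 + 4*t^(4:ℕ) + 22*t^(5:ℕ) + (-24)*t^(6:ℕ) + 28*t^(7:ℕ) + 12*t^(8:ℕ) + (-18)*t^(9:ℕ) + 8*t^(10:ℕ) + (-8)*t^(11:ℕ)) + (181/51030)*((-32)*t^(2:ℕ) + (167/4)*t^(3:ℕ) + (-12)*t^(4:ℕ) + (-79/2)*t^(5:ℕ) + (121/2)*t^(6:ℕ) + (-261/4)*t^(7:ℕ) + (87/2)*t^(8:ℕ) + (-61/4)*t^(9:ℕ) + 3*t^(10:ℕ) + (-1)*t^(11:ℕ)) + (13/11340)*(10*t^(5:ℕ) + (-31)*t^(6:ℕ) + 40*t^(7:ℕ) + (-19)*t^(8:ℕ) + (-7)*t^(9:ℕ) + 12*t^(10:ℕ) + (-4)*t^(11:ℕ)) + (1/2700)*((-4)*t^(7:ℕ) + 12*t^(8:ℕ) + (-17)*t^(9:ℕ) + 12*t^(10:ℕ) + (-4)*t^(11:ℕ)) - (1731/200) = (980933349516478807/1348097643636975)*(1 - t)^(11:ℕ) + (2241298642393544999/73532598743835)*(t - (9/20))*(1 - t)^(10:ℕ) + (40325672479106165842/132358677738903)*(t - (9/20))^(2:ℕ)*(1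 - t)^(9:ℕ) + (203342155973388839720/132358677738903)*(t - (9/20))^(3:ℕ)*(1 - t)^(8:ℕ) + (632395082638413594400/132358677738903)*(t - (9/20))^(4:ℕ)*(1 - t)^(7:ℕ) + (146769798166248176000/14706519748767)*(t - (9/20))^(5:ℕ)*(1 - t)^(6:ℕ) + (641671225538505920000/44119559246301)*(t - (9/20))^(6:ℕ)*(1 - t)^(5:ℕ) + (94149782781932800000/6302794178043)*(t - (9/20))^(7:ℕ)*(1 - t)^(4:ℕ) + (1411352711329280000000/132358677738903)*(t - (9/20))^(8:ℕ)*(1 - t)^(3:ℕ) + (31886600550400000000/6302794178043)*(t - (9/20))^(9:ℕ)*(1 - t)^(2:ℕ) + (3025232230400000000/2100931392681)*(t - (9/20))^(10:ℕ)*(1 - t) + (271750596608000000000/1455945455127933)*(t - (9/20))^(11:ℕ) := by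
    ring
  rw [e]
  have a3 : 0 ≤ t - (9/20) := by linarith
  have a4 : 0 ≤ 1 - t := by linarith
  generalize t - (9/20) = t1 at a3 ⊢
  generalize 1 - t = t2 at a4 ⊢
  positivity

lemma pos_L20_B2_b6 (t : ℝ) (h3 : (9/20) ≤ t) (h4 : t ≤ 1) :
    0 ≤ 1*(2 + 2*t + 10*t^(2:ℕ) + 10*t^(3:ℕ) + 20*t^(4:ℕ) + 20*t^(5:ℕ) + 20*t^(6:ℕ) + 20*t^(7:ℕ) + 10*t^(8:ℕ) + 10*t^(9:ℕ) + 2*t^(10:ℕ) + 2*t^(11:ℕ)) + (23/70)*(4 + 3*t + (59/2)*t^(2:ℕ) + 23*t^(3:ℕ) + 70*t^(4:ℕ) + 54*t^(5:ℕ) + 73*t^(6:ℕ) + 54*t^(7:ℕ) + 34*t^(8:ℕ) + 23*t^(9:ℕ) + (11/2)*t^(10:ℕ) + 3*t^(11:ℕ)) + (34/315)*((-16) + (-16)*t + (-32)*t^(2:ℕ) + (-28)*t^(3:ℕ) + 36*t^(4:ℕ) + 25*t^(5:ℕ) + 113*t^(6:ℕ) + 48*t^(7:ℕ) + 70*t^(8:ℕ) + 5*t^(9:ℕ)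 + 9*t^(10:ℕ) + (-6)*t^(11:ℕ)) + (67/1890)*((-41)*t^(2:ℕ) + (-48)*t^(3:ℕ) + (-55)*t^(4:ℕ) + (-31)*t^(5:ℕ) + 51*t^(6:ℕ) + (-14)*t^(7:ℕ) + 81*t^(8:ℕ) + (-43)*t^(9:ℕ) + 16*t^(10:ℕ) + (-12)*t^(11:ℕ)) + (11/945)*(32*t^(2:ℕ) + (-16)*t^(3:ℕ) + 4*t^(4:ℕ) + 22*t^(5:ℕ) + (-24)*t^(6:ℕ) + 28*t^(7:ℕ) + 12*t^(8:ℕ) + (-18)*t^(9:ℕ) + 8*t^(10:ℕ) + (-8)*t^(11:ℕ)) + (13/3402)*((-32)*t^(2:ℕ) + (167/4)*t^(3:ℕ) + (-12)*t^(4:ℕ) + (-79/2)*t^(5:ℕ) + (121/2)*t^(6:ℕ) + (-261/4)*t^(7:ℕ) + (87/2)*t^(8:ℕ) + (-61/4)*t^(9:ℕ) + 3*t^(10:ℕ) + (-1)*t^(11:ℕ)) + (32/25515)*(10*t^(5:ℕ) + (-31)*t^(6:ℕ) + 40*t^(7:ℕ) + (-19)*t^(8:ℕ) + (-7)*t^(9:ℕ) + 12*t^(10:ℕ) + (-4)*t^(11:ℕ)) + (1/2430)*((-4)*t^(7:ℕ) + 12*t^(8:ℕ)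 + (-17)*t^(9:ℕ) + 12*t^(10:ℕ) + (-4)*t^(11:ℕ)) - (1731/200) := by
  have e : 1*(2 + 2*t + 10*t^(2:ℕ) + 10*t^(3:ℕ) + 20*t^(4:ℕ) + 20*t^(5:ℕ) + 20*t^(6:ℕ) + 20*t^(7:ℕ) + 10*t^(8:ℕ) + 10*t^(9:ℕ) + 2*t^(10:ℕ) + 2*t^(11:ℕ)) + (23/70)*(4 + 3*t + (59/2)*t^(2:ℕ) + 23*t^(3:ℕ) + 70*t^(4:ℕ) + 54*t^(5:ℕ) + 73*t^(6:ℕ) + 54*t^(7:ℕ) + 34*t^(8:ℕ) + 23*t^(9:ℕ) + (11/2)*t^(10:ℕ) + 3*t^(11:ℕ)) + (34/315)*((-16) + (-16)*t + (-32)*t^(2:ℕ) + (-28)*t^(3:ℕ) + 36*t^(4:ℕ) + 25*t^(5:ℕ) + 113*t^(6:ℕ) + 48*t^(7:ℕ) + 70*t^(8:ℕ) + 5*t^(9:ℕ) + 9*t^(10:ℕ) + (-6)*t^(11:ℕ)) + (67/1890)*((-41)*t^(2:ℕ) + (-48)*t^(3:ℕ) + (-55)*t^(4:ℕ) + (-31)*t^(5:ℕ) + 51*t^(6:ℕ) + (-14)*t^(7:ℕ) + 81*t^(8:ℕ) + (-43)*t^(9:ℕ)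 + 16*t^(10:ℕ) + (-12)*t^(11:ℕ)) + (11/945)*(32*t^(2:ℕ) + (-16)*t^(3:ℕ) + 4*t^(4:ℕ) + 22*t^(5:ℕ) + (-24)*t^(6:ℕ) + 28*t^(7:ℕ) + 12*t^(8:ℕ) + (-18)*t^(9:ℕ) + 8*t^(10:ℕ) + (-8)*t^(11:ℕ)) + (13/3402)*((-32)*t^(2:ℕ) + (167/4)*t^(3:ℕ) + (-12)*t^(4:ℕ) + (-79/2)*t^(5:ℕ) + (121/2)*t^(6:ℕ) + (-261/4)*t^(7:ℕ) + (87/2)*t^(8:ℕ) + (-61/4)*t^(9:ℕ) + 3*t^(10:ℕ) + (-1)*t^(11:ℕ)) + (32/25515)*(10*t^(5:ℕ) + (-31)*t^(6:ℕ) + 40*t^(7:ℕ) + (-19)*t^(8:ℕ) + (-7)*t^(9:ℕ) + 12*t^(10:ℕ) + (-4)*t^(11:ℕ)) + (1/2430)*((-4)*t^(7:ℕ) + 12*t^(8:ℕ) + (-17)*t^(9:ℕ) + 12*t^(10:ℕ) + (-4)*t^(11:ℕ)) - (1731/200) = (9116386797411988/12839025177495)*(1 - t)^(11:ℕ) + (148939097894947487/4902173249589)*(t - (9/20))*(1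 - t)^(10:ℕ) + (1223145022581021790/4010869022391)*(t - (9/20))^(2:ℕ)*(1 - t)^(9:ℕ) + (67981579981859115400/44119559246301)*(t - (9/20))^(3:ℕ)*(1 - t)^(8:ℕ) + (211703070560447252000/44119559246301)*(t - (9/20))^(4:ℕ)*(1 - t)^(7:ℕ) + (1327941383069765680000/132358677738903)*(t - (9/20))^(5:ℕ)*(1 - t)^(6:ℕ) + (1936857986889771200000/132358677738903)*(t - (9/20))^(6:ℕ)*(1 - t)^(5:ℕ) + (1990747344945248000000/132358677738903)*(t - (9/20))^(7:ℕ)*(1 - t)^(4:ℕ) + (1421957045578240000000/132358677738903)*(t - (9/20))^(8:ℕ)*(1 - t)^(3:ℕ) + (675017905177600000000/132358677738903)*(t - (9/20))^(9:ℕ)*(1 - t)^(2:ℕ) + (7119074560000000000/4902173249589)*(t - (9/20))^(10:ℕ)*(1 - t) + (274169888768000000000/1455945455127933)*(t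 - (9/20))^(11:ℕ) := by
    ring
  rw [e]
  have a3 : 0 ≤ t - (9/20) := by linarith
  have a4 : 0 ≤ 1 - t := by linarith
  generalize t - (9/20) = t1 at a3 ⊢
  generalize 1 - t = t2 at a4 ⊢
  positivity

lemma pos_L20_B2_b7 (t : ℝ) (h3 : (9/20) ≤ t) (h4 : t ≤ 1) :
    0 ≤ 1*(2 + 2*t + 10*t^(2:ℕ) + 10*t^(3:ℕ) + 20*t^(4:ℕ) + 20*t^(5:ℕ) + 20*t^(6:ℕ) + 20*t^(7:ℕ) + 10*t^(8:ℕ) + 10*t^(9:ℕ) + 2*t^(10:ℕ) + 2*t^(11:ℕ)) + (1/3)*(4 + 3*t + (59/2)*t^(2:ℕ) + 23*t^(3:ℕ) + 70*t^(4:ℕ) + 54*t^(5:ℕ) + 73*t^(6:ℕ) + 54*t^(7:ℕ) + 34*t^(8:ℕ) + 23*t^(9:ℕ) + (11/2)*t^(10:ℕ) + 3*t^(11:ℕ)) + (1/9)*((-16) + (-16)*t + (-32)*t^(2:ℕ) + (-28)*t^(3:ℕ) + 36*t^(4:ℕ) + 25*t^(5:ℕ) + 113*t^(6:ℕ) + 48*t^(7:ℕ)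 + 70*t^(8:ℕ) + 5*t^(9:ℕ) + 9*t^(10:ℕ) + (-6)*t^(11:ℕ)) + (1/27)*((-41)*t^(2:ℕ) + (-48)*t^(3:ℕ) + (-55)*t^(4:ℕ) + (-31)*t^(5:ℕ) + 51*t^(6:ℕ) + (-14)*t^(7:ℕ) + 81*t^(8:ℕ) + (-43)*t^(9:ℕ) + 16*t^(10:ℕ) + (-12)*t^(11:ℕ)) + (1/81)*(32*t^(2:ℕ) + (-16)*t^(3:ℕ) + 4*t^(4:ℕ) + 22*t^(5:ℕ) + (-24)*t^(6:ℕ) + 28*t^(7:ℕ) + 12*t^(8:ℕ) + (-18)*t^(9:ℕ) + 8*t^(10:ℕ) + (-8)*t^(11:ℕ)) + (1/243)*((-32)*t^(2:ℕ) + (167/4)*t^(3:ℕ) + (-12)*t^(4:ℕ) + (-79/2)*t^(5:ℕ) + (121/2)*t^(6:ℕ) + (-261/4)*t^(7:ℕ) + (87/2)*t^(8:ℕ) + (-61/4)*t^(9:ℕ) + 3*t^(10:ℕ) + (-1)*t^(11:ℕ)) + (1/729)*(10*t^(5:ℕ) + (-31)*t^(6:ℕ) + 40*t^(7:ℕ) + (-19)*t^(8:ℕ) + (-7)*t^(9:ℕ) + 12*t^(10:ℕ) + (-4)*t^(11:ℕ)) + (1/2187)*((-4)*t^(7:ℕ)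 + 12*t^(8:ℕ) + (-17)*t^(9:ℕ) + 12*t^(10:ℕ) + (-4)*t^(11:ℕ)) - (1731/200) := by
  have e : 1*(2 + 2*t + 10*t^(2:ℕ) + 10*t^(3:ℕ) + 20*t^(4:ℕ) + 20*t^(5:ℕ) + 20*t^(6:ℕ) + 20*t^(7:ℕ) + 10*t^(8:ℕ) + 10*t^(9:ℕ) + 2*t^(10:ℕ) + 2*t^(11:ℕ)) + (1/3)*(4 + 3*t + (59/2)*t^(2:ℕ) + 23*t^(3:ℕ) + 70*t^(4:ℕ) + 54*t^(5:ℕ) + 73*t^(6:ℕ) + 54*t^(7:ℕ) + 34*t^(8:ℕ) + 23*t^(9:ℕ) + (11/2)*t^(10:ℕ) + 3*t^(11:ℕ)) + (1/9)*((-16) + (-16)*t + (-32)*t^(2:ℕ) + (-28)*t^(3:ℕ) + 36*t^(4:ℕ) + 25*t^(5:ℕ) + 113*t^(6:ℕ) + 48*t^(7:ℕ) + 70*t^(8:ℕ) + 5*t^(9:ℕ) + 9*t^(10:ℕ) + (-6)*t^(11:ℕ)) + (1/27)*((-41)*t^(2:ℕ) + (-48)*t^(3:ℕ) + (-55)*t^(4:ℕ) + (-31)*t^(5:ℕ) + 51*t^(6:ℕ) + (-14)*t^(7:ℕ) + 81*t^(8:ℕ) + (-43)*t^(9:ℕ)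 + 16*t^(10:ℕ) + (-12)*t^(11:ℕ)) + (1/81)*(32*t^(2:ℕ) + (-16)*t^(3:ℕ) + 4*t^(4:ℕ) + 22*t^(5:ℕ) + (-24)*t^(6:ℕ) + 28*t^(7:ℕ) + 12*t^(8:ℕ) + (-18)*t^(9:ℕ) + 8*t^(10:ℕ) + (-8)*t^(11:ℕ)) + (1/243)*((-32)*t^(2:ℕ) + (167/4)*t^(3:ℕ) + (-12)*t^(4:ℕ) + (-79/2)*t^(5:ℕ) + (121/2)*t^(6:ℕ) + (-261/4)*t^(7:ℕ) + (87/2)*t^(8:ℕ) + (-61/4)*t^(9:ℕ) + 3*t^(10:ℕ) + (-1)*t^(11:ℕ)) + (1/729)*(10*t^(5:ℕ) + (-31)*t^(6:ℕ) + 40*t^(7:ℕ) + (-19)*t^(8:ℕ) + (-7)*t^(9:ℕ) + 12*t^(10:ℕ) + (-4)*t^(11:ℕ)) + (1/2187)*((-4)*t^(7:ℕ) + 12*t^(8:ℕ) + (-17)*t^(9:ℕ) + 12*t^(10:ℕ) + (-4)*t^(11:ℕ)) - (1731/200) = (1774041113032420/2567805035499)*(1 - t)^(11:ℕ) + (21194654980536250/700310464227)*(t - (9/20))*(1 - t)^(10:ℕ)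 + (1923215964177768100/6302794178043)*(t - (9/20))^(2:ℕ)*(1 - t)^(9:ℕ) + (9738097028496962000/6302794178043)*(t - (9/20))^(3:ℕ)*(1 - t)^(8:ℕ) + (30367701742885960000/6302794178043)*(t - (9/20))^(4:ℕ)*(1 - t)^(7:ℕ) + (190686693202367200000/18908382534129)*(t - (9/20))^(5:ℕ)*(1 - t)^(6:ℕ) + (278365325300720000000/18908382534129)*(t - (9/20))^(6:ℕ)*(1 - t)^(5:ℕ) + (858967543146560000000/56725147602387)*(t - (9/20))^(7:ℕ)*(1 - t)^(4:ℕ) + (5073894579200000000/468802872747)*(t - (9/20))^(8:ℕ)*(1 - t)^(3:ℕ) + (291606598912000000000/56725147602387)*(t - (9/20))^(9:ℕ)*(1 - t)^(2:ℕ) + (83075579392000000000/56725147602387)*(t - (9/20))^(10:ℕ)*(1 - t) + (118541366272000000000/623976623626257)*(t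 - (9/20))^(11:ℕ) := by
    ring
  rw [e]
  have a3 : 0 ≤ t - (9/20) := by linarith
  have a4 : 0 ≤ 1 - t := by linarith
  generalize t - (9/20) = t1 at a3 ⊢
  generalize 1 - t = t2 at a4 ⊢
  positivity

lemma pos_L20_B2_id (d : ℝ) (C0 C1 C2 C3 C4 C5 C6 C7 : ℝ) :
    C0 + d*C1 + d^(2:ℕ)*C2 + d^(3:ℕ)*C3 + d^(4:ℕ)*C4 + d^(5:ℕ)*C5 + d^(6:ℕ)*C6 + d^(7:ℕ)*C7 = (1731/200) + (21870000000*((1/3) - d)^(7:ℕ)*(1*C0 + (3/10)*C1 + (9/100)*C2 + (27/1000)*C3 + (81/10000)*C4 + (243/100000)*C5 + (729/1000000)*C6 + (2187/10000000)*C7 - (1731/200)) + 153090000000*(d - (3/10))*((1/3) - d)^(6:ℕ)*(1*C0 + (32/105)*C1 + (13/140)*C2 + (99/3500)*C3 + (603/70000)*C4 + (459/175000)*C5 + (5589/7000000)*C6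 + (243/1000000)*C7 - (1731/200)) + 459270000000*(d - (3/10))^(2:ℕ)*((1/3) - d)^(5:ℕ)*(1*C0 + (13/42)*C1 + (181/1890)*C2 + (311/10500)*C3 + (641/70000)*C4 + (283/100000)*C5 + (153/175000)*C6 + (27/100000)*C7 - (1731/200)) + 765450000000*(d - (3/10))^(3:ℕ)*((1/3) - d)^(4:ℕ)*(1*C0 + (11/35)*C1 + (311/3150)*C2 + (3662/118125)*C3 + (30649/3150000)*C4 + (641/210000)*C5 + (67/70000)*C6 + (3/10000)*C7 - (1731/200)) + 765450000000*(d - (3/10))^(4:ℕ)*((1/3) - d)^(3:ℕ)*(1*C0 + (67/210)*C1 + (641/6300)*C2 + (30649/945000)*C3 + (3662/354375)*C4 + (311/94500)*C5 + (11/10500)*C6 + (1/3000)*C7 - (1731/200)) + 459270000000*(d - (3/10))^(5:ℕ)*((1/3) - d)^(2:ℕ)*(1*C0 + (34/105)*C1 + (283/2700)*C2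 + (641/18900)*C3 + (311/28350)*C4 + (181/51030)*C5 + (13/11340)*C6 + (1/2700)*C7 - (1731/200)) + 153090000000*(d - (3/10))^(6:ℕ)*((1/3) - d)*(1*C0 + (23/70)*C1 + (34/315)*C2 + (67/1890)*C3 + (11/945)*C4 + (13/3402)*C5 + (32/25515)*C6 + (1/2430)*C7 - (1731/200)) + 21870000000*(d - (3/10))^(7:ℕ)*(1*C0 + (1/3)*C1 + (1/9)*C2 + (1/27)*C3 + (1/81)*C4 + (1/243)*C5 + (1/729)*C6 + (1/2187)*C7 - (1731/200))) := by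
  ring

lemma pos_L20_B2_gen (d1 d2 B0 B1 B2 B3 B4 B5 B6 B7 : ℝ) (a1 : 0 ≤ d1) (a2 : 0 ≤ d2) (b0 : 0 ≤ B0) (b1 : 0 ≤ B1) (b2 : 0 ≤ B2) (b3 : 0 ≤ B3) (b4 : 0 ≤ B4) (b5 : 0 ≤ B5) (b6 : 0 ≤ B6) (b7 : 0 ≤ B7) :
    0 < (1731/200) + (21870000000*d2^(7:ℕ)*(B0) + 153090000000*d1*d2^(6:ℕ)*(B1) + 459270000000*d1^(2:ℕ)*d2^(5:ℕ)*(B2) + 765450000000*d1^(3:ℕ)*d2^(4:ℕ)*(B3) + 765450000000*d1^(4:ℕ)*d2^(3:ℕ)*(B4) + 459270000000*d1^(5:ℕ)*d2^(2:ℕ)*(B5) + 153090000000*d1^(6:ℕ)*d2*(B6) + 21870000000*d1^(7:ℕ)*(B7)) := by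
  positivity

lemma pos_L20_B2_core (d C0 C1 C2 C3 C4 C5 C6 C7 : ℝ) (h1 : (3/10) ≤ d) (h2 : d ≤ (1/3))
    (b0 : 0 ≤ 1*C0 + (3/10)*C1 + (9/100)*C2 + (27/1000)*C3 + (81/10000)*C4 + (243/100000)*C5 + (729/1000000)*C6 + (2187/10000000)*C7 - (1731/200))
    (b1 : 0 ≤ 1*C0 + (32/105)*C1 + (13/140)*C2 + (99/3500)*C3 + (603/70000)*C4 + (459/175000)*C5 + (5589/7000000)*C6 + (243/1000000)*C7 - (1731/200))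
    (b2 : 0 ≤ 1*C0 + (13/42)*C1 + (181/1890)*C2 + (311/10500)*C3 + (641/70000)*C4 + (283/100000)*C5 + (153/175000)*C6 + (27/100000)*C7 - (1731/200))
    (b3 : 0 ≤ 1*C0 + (11/35)*C1 + (311/3150)*C2 + (3662/118125)*C3 + (30649/3150000)*C4 + (641/210000)*C5 + (67/70000)*C6 + (3/10000)*C7 - (1731/200))
    (b4 : 0 ≤ 1*C0 + (67/210)*C1 + (641/6300)*C2 + (30649/945000)*C3 + (3662/354375)*C4 + (311/94500)*C5 + (11/10500)*C6 + (1/3000)*C7 - (1731/200))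
    (b5 : 0 ≤ 1*C0 + (34/105)*C1 + (283/2700)*C2 + (641/18900)*C3 + (311/28350)*C4 + (181/51030)*C5 + (13/11340)*C6 + (1/2700)*C7 - (1731/200))
    (b6 : 0 ≤ 1*C0 + (23/70)*C1 + (34/315)*C2 + (67/1890)*C3 + (11/945)*C4 + (13/3402)*C5 + (32/25515)*C6 + (1/2430)*C7 - (1731/200))
    (b7 : 0 ≤ 1*C0 + (1/3)*C1 + (1/9)*C2 + (1/27)*C3 + (1/81)*C4 + (1/243)*C5 + (1/729)*C6 + (1/2187)*C7 - (1731/200)) :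
    0 < C0 + d*C1 + d^(2:ℕ)*C2 + d^(3:ℕ)*C3 + d^(4:ℕ)*C4 + d^(5:ℕ)*C5 + d^(6:ℕ)*C6 + d^(7:ℕ)*C7 := by
  rw [pos_L20_B2_id]
  exact pos_L20_B2_gen _ _ _ _ _ _ _ _ _ _ (sub_nonneg.2 h1) (sub_nonneg.2 h2) b0 b1 b2 b3 b4 b5 b6 b7

lemma pos_L20_B2 (d t : ℝ) (h1 : (3/10) ≤ d) (h2 : d ≤ (1/3)) (h3 : (9/20) ≤ t) (h4 : t ≤ 1) :
    0 < 2 + 2*t + 10*t^(2:ℕ) + 10*t^(3:ℕ) + 20*t^(4:ℕ) + 20*t^(5:ℕ) + 20*t^(6:ℕ) + 20*t^(7:ℕ) + 10*t^(8:ℕ) + 10*t^(9:ℕ) + 2*t^(10:ℕ) + 2*t^(11:ℕ) + 4*d + 3*d*t + (59/2)*d*t^(2:ℕ) + 23*d*t^(3:ℕ) + 70*d*t^(4:ℕ) + 54*d*t^(5:ℕ) + 73*d*t^(6:ℕ) + 54*d*t^(7:ℕ) + 34*d*t^(8:ℕ) + 23*d*t^(9:ℕ) + (11/2)*d*t^(10:ℕ) + 3*d*t^(11:ℕ) + (-16)*d^(2:ℕ) + (-16)*d^(2:ℕ)*t + (-32)*d^(2:ℕ)*t^(2:ℕ)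 + (-28)*d^(2:ℕ)*t^(3:ℕ) + 36*d^(2:ℕ)*t^(4:ℕ) + 25*d^(2:ℕ)*t^(5:ℕ) + 113*d^(2:ℕ)*t^(6:ℕ) + 48*d^(2:ℕ)*t^(7:ℕ) + 70*d^(2:ℕ)*t^(8:ℕ) + 5*d^(2:ℕ)*t^(9:ℕ) + 9*d^(2:ℕ)*t^(10:ℕ) + (-6)*d^(2:ℕ)*t^(11:ℕ) + (-41)*d^(3:ℕ)*t^(2:ℕ) + (-48)*d^(3:ℕ)*t^(3:ℕ) + (-55)*d^(3:ℕ)*t^(4:ℕ) + (-31)*d^(3:ℕ)*t^(5:ℕ) + 51*d^(3:ℕ)*t^(6:ℕ) + (-14)*d^(3:ℕ)*t^(7:ℕ) + 81*d^(3:ℕ)*t^(8:ℕ) + (-43)*d^(3:ℕ)*t^(9:ℕ) + 16*d^(3:ℕ)*t^(10:ℕ) + (-12)*d^(3:ℕ)*t^(11:ℕ) + 32*d^(4:ℕ)*t^(2:ℕ) + (-16)*d^(4:ℕ)*t^(3:ℕ) + 4*d^(4:ℕ)*t^(4:ℕ) + 22*d^(4:ℕ)*t^(5:ℕ) + (-24)*d^(4:ℕ)*t^(6:ℕ) + 28*d^(4:ℕ)*t^(7:ℕ) + 12*d^(4:ℕ)*t^(8:ℕ) + (-18)*d^(4:ℕ)*t^(9:ℕ) + 8*d^(4:ℕ)*t^(10:ℕ) + (-8)*d^(4:ℕ)*t^(11:ℕ) + (-32)*d^(5:ℕ)*t^(2:ℕ) + (167/4)*d^(5:ℕ)*t^(3:ℕ)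 + (-12)*d^(5:ℕ)*t^(4:ℕ) + (-79/2)*d^(5:ℕ)*t^(5:ℕ) + (121/2)*d^(5:ℕ)*t^(6:ℕ) + (-261/4)*d^(5:ℕ)*t^(7:ℕ) + (87/2)*d^(5:ℕ)*t^(8:ℕ) + (-61/4)*d^(5:ℕ)*t^(9:ℕ) + 3*d^(5:ℕ)*t^(10:ℕ) + (-1)*d^(5:ℕ)*t^(11:ℕ) + 10*d^(6:ℕ)*t^(5:ℕ) + (-31)*d^(6:ℕ)*t^(6:ℕ) + 40*d^(6:ℕ)*t^(7:ℕ) + (-19)*d^(6:ℕ)*t^(8:ℕ) + (-7)*d^(6:ℕ)*t^(9:ℕ) + 12*d^(6:ℕ)*t^(10:ℕ) + (-4)*d^(6:ℕ)*t^(11:ℕ) + (-4)*d^(7:ℕ)*t^(7:ℕ) + 12*d^(7:ℕ)*t^(8:ℕ) + (-17)*d^(7:ℕ)*t^(9:ℕ) + 12*d^(7:ℕ)*t^(10:ℕ) + (-4)*d^(7:ℕ)*t^(11:ℕ) := by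
  have e0 : 2 + 2*t + 10*t^(2:ℕ) + 10*t^(3:ℕ) + 20*t^(4:ℕ) + 20*t^(5:ℕ) + 20*t^(6:ℕ) + 20*t^(7:ℕ) + 10*t^(8:ℕ) + 10*t^(9:ℕ) + 2*t^(10:ℕ) + 2*t^(11:ℕ) + 4*d + 3*d*t + (59/2)*d*t^(2:ℕ) + 23*d*t^(3:ℕ) + 70*d*t^(4:ℕ) + 54*d*t^(5:ℕ) + 73*d*t^(6:ℕ) + 54*d*t^(7:ℕ) + 34*d*t^(8:ℕ) + 23*d*t^(9:ℕ) + (11/2)*d*t^(10:ℕ) + 3*d*t^(11:ℕ) + (-16)*d^(2:ℕ) + (-16)*d^(2:ℕ)*t + (-32)*d^(2:ℕ)*t^(2:ℕ) + (-28)*d^(2:ℕ)*t^(3:ℕ) + 36*d^(2:ℕ)*t^(4:ℕ) + 25*d^(2:ℕ)*t^(5:ℕ) + 113*d^(2:ℕ)*t^(6:ℕ) + 48*d^(2:ℕ)*t^(7:ℕ) + 70*d^(2:ℕ)*t^(8:ℕ) + 5*d^(2:ℕ)*t^(9:ℕ) + 9*d^(2:ℕ)*t^(10:ℕ) + (-6)*d^(2:ℕ)*t^(11:ℕ) + (-41)*d^(3:ℕ)*t^(2:ℕ) + (-48)*d^(3:ℕ)*t^(3:ℕ) + (-55)*d^(3:ℕ)*t^(4:ℕ) + (-31)*d^(3:ℕ)*t^(5:ℕ) + 51*d^(3:ℕ)*t^(6:ℕ)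 + (-14)*d^(3:ℕ)*t^(7:ℕ) + 81*d^(3:ℕ)*t^(8:ℕ) + (-43)*d^(3:ℕ)*t^(9:ℕ) + 16*d^(3:ℕ)*t^(10:ℕ) + (-12)*d^(3:ℕ)*t^(11:ℕ) + 32*d^(4:ℕ)*t^(2:ℕ) + (-16)*d^(4:ℕ)*t^(3:ℕ) + 4*d^(4:ℕ)*t^(4:ℕ) + 22*d^(4:ℕ)*t^(5:ℕ) + (-24)*d^(4:ℕ)*t^(6:ℕ) + 28*d^(4:ℕ)*t^(7:ℕ) + 12*d^(4:ℕ)*t^(8:ℕ) + (-18)*d^(4:ℕ)*t^(9:ℕ) + 8*d^(4:ℕ)*t^(10:ℕ) + (-8)*d^(4:ℕ)*t^(11:ℕ) + (-32)*d^(5:ℕ)*t^(2:ℕ) + (167/4)*d^(5:ℕ)*t^(3:ℕ) + (-12)*d^(5:ℕ)*t^(4:ℕ) + (-79/2)*d^(5:ℕ)*t^(5:ℕ) + (121/2)*d^(5:ℕ)*t^(6:ℕ) + (-261/4)*d^(5:ℕ)*t^(7:ℕ) + (87/2)*d^(5:ℕ)*t^(8:ℕ) + (-61/4)*d^(5:ℕ)*t^(9:ℕ) + 3*d^(5:ℕ)*t^(10:ℕ) + (-1)*d^(5:ℕ)*t^(11:ℕ) + 10*d^(6:ℕ)*t^(5:ℕ) + (-31)*d^(6:ℕ)*t^(6:ℕ) + 40*d^(6:ℕ)*t^(7:ℕ) + (-19)*d^(6:ℕ)*t^(8:ℕ) + (-7)*d^(6:ℕ)*t^(9:ℕ)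 + 12*d^(6:ℕ)*t^(10:ℕ) + (-4)*d^(6:ℕ)*t^(11:ℕ) + (-4)*d^(7:ℕ)*t^(7:ℕ) + 12*d^(7:ℕ)*t^(8:ℕ) + (-17)*d^(7:ℕ)*t^(9:ℕ) + 12*d^(7:ℕ)*t^(10:ℕ) + (-4)*d^(7:ℕ)*t^(11:ℕ) = (2 + 2*t + 10*t^(2:ℕ) + 10*t^(3:ℕ) + 20*t^(4:ℕ) + 20*t^(5:ℕ) + 20*t^(6:ℕ) + 20*t^(7:ℕ) + 10*t^(8:ℕ) + 10*t^(9:ℕ) + 2*t^(10:ℕ) + 2*t^(11:ℕ)) + d*(4 + 3*t + (59/2)*t^(2:ℕ) + 23*t^(3:ℕ) + 70*t^(4:ℕ) + 54*t^(5:ℕ) + 73*t^(6:ℕ) + 54*t^(7:ℕ) + 34*t^(8:ℕ) + 23*t^(9:ℕ) + (11/2)*t^(10:ℕ) + 3*t^(11:ℕ)) + d^(2:ℕ)*((-16) + (-16)*t + (-32)*t^(2:ℕ) + (-28)*t^(3:ℕ) + 36*t^(4:ℕ) + 25*t^(5:ℕ) + 113*t^(6:ℕ) + 48*t^(7:ℕ) + 70*t^(8:ℕ) + 5*t^(9:ℕ) + 9*t^(10:ℕ) + (-6)*t^(11:ℕ)) + d^(3:ℕ)*((-41)*t^(2:ℕ) + (-48)*t^(3:ℕ) + (-55)*t^(4:ℕ)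 + (-31)*t^(5:ℕ) + 51*t^(6:ℕ) + (-14)*t^(7:ℕ) + 81*t^(8:ℕ) + (-43)*t^(9:ℕ) + 16*t^(10:ℕ) + (-12)*t^(11:ℕ)) + d^(4:ℕ)*(32*t^(2:ℕ) + (-16)*t^(3:ℕ) + 4*t^(4:ℕ) + 22*t^(5:ℕ) + (-24)*t^(6:ℕ) + 28*t^(7:ℕ) + 12*t^(8:ℕ) + (-18)*t^(9:ℕ) + 8*t^(10:ℕ) + (-8)*t^(11:ℕ)) + d^(5:ℕ)*((-32)*t^(2:ℕ) + (167/4)*t^(3:ℕ) + (-12)*t^(4:ℕ) + (-79/2)*t^(5:ℕ) + (121/2)*t^(6:ℕ) + (-261/4)*t^(7:ℕ) + (87/2)*t^(8:ℕ) + (-61/4)*t^(9:ℕ) + 3*t^(10:ℕ) + (-1)*t^(11:ℕ)) + d^(6:ℕ)*(10*t^(5:ℕ) + (-31)*t^(6:ℕ) + 40*t^(7:ℕ) + (-19)*t^(8:ℕ) + (-7)*t^(9:ℕ) + 12*t^(10:ℕ) + (-4)*t^(11:ℕ)) + d^(7:ℕ)*((-4)*t^(7:ℕ) + 12*t^(8:ℕ) + (-17)*t^(9:ℕ) + 12*t^(10:ℕ) + (-4)*t^(11:ℕ)) := by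
    ring
  rw [e0]
  exact pos_L20_B2_core d _ _ _ _ _ _ _ _ h1 h2 (pos_L20_B2_b0 t h3 h4) (pos_L20_B2_b1 t h3 h4) (pos_L20_B2_b2 t h3 h4) (pos_L20_B2_b3 t h3 h4) (pos_L20_B2_b4 t h3 h4) (pos_L20_B2_b5 t h3 h4) (pos_L20_B2_b6 t h3 h4) (pos_L20_B2_b7 t h3 h4)

lemma pos_L1e_B2_b0 (t : ℝ) (h3 : (9/20) ≤ t) (h4 : t ≤ 1) :
    0 ≤ 1*(1 + 1*t + 5*t^(2:ℕ) + 5*t^(3:ℕ) + 10*t^(4:ℕ) + 10*t^(5:ℕ) + 10*t^(6:ℕ) + 10*t^(7:ℕ) + 5*t^(8:ℕ) + 5*t^(9:ℕ) + 1*t^(10:ℕ) + 1*t^(11:ℕ)) + (3/10)*((9/2) + (5/2)*t + (67/2)*t^(2:ℕ) + (53/2)*t^(3:ℕ) + 93*t^(4:ℕ) + 40*t^(5:ℕ) + 94*t^(6:ℕ) + 13*t^(7:ℕ) + (73/2)*t^(8:ℕ) + (-1/2)*t^(9:ℕ) + (13/2)*t^(10:ℕ) + (5/2)*t^(11:ℕ)) + (9/100)*(1 + (-1)*t + 47*t^(2:ℕ)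 + (113/2)*t^(3:ℕ) + (429/2)*t^(4:ℕ) + (81/2)*t^(5:ℕ) + (387/2)*t^(6:ℕ) + (-157/2)*t^(7:ℕ) + (53/2)*t^(8:ℕ) + (-139/2)*t^(9:ℕ) + (3/2)*t^(10:ℕ) + (-8)*t^(11:ℕ)) + (27/1000)*((181/4)*t^(2:ℕ) + (-81/4)*t^(3:ℕ) + (987/4)*t^(4:ℕ) + (-121)*t^(5:ℕ) + (387/2)*t^(6:ℕ) + (-447/4)*t^(7:ℕ) + (-113/4)*t^(8:ℕ) + (-39/2)*t^(9:ℕ) + (-81/4)*t^(10:ℕ) + (-17/2)*t^(11:ℕ)) + (81/10000)*((83/2)*t^(2:ℕ) + (-237/4)*t^(3:ℕ) + 137*t^(4:ℕ) + (-531/4)*t^(5:ℕ) + (329/4)*t^(6:ℕ) + (-155/4)*t^(7:ℕ) + (-39)*t^(8:ℕ) + (147/4)*t^(9:ℕ) + (-56)*t^(10:ℕ) + 2*t^(11:ℕ)) + (243/100000)*(14*t^(2:ℕ) + (-18)*t^(3:ℕ) + (69/4)*t^(4:ℕ) + (5/2)*t^(5:ℕ) + (-143/4)*t^(6:ℕ) + (67/2)*t^(7:ℕ) + (-91/4)*t^(8:ℕ) + 31*t^(9:ℕ)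 + (-47)*t^(10:ℕ) + 18*t^(11:ℕ)) + (729/1000000)*((-273/16)*t^(4:ℕ) + (405/8)*t^(5:ℕ) + (-1147/16)*t^(6:ℕ) + (405/8)*t^(7:ℕ) + (-273/16)*t^(8:ℕ) + 8*t^(9:ℕ) + (-12)*t^(10:ℕ) + 8*t^(11:ℕ)) + (2187/10000000)*((-15/2)*t^(4:ℕ) + (91/4)*t^(5:ℕ) + (-129/4)*t^(6:ℕ) + (91/4)*t^(7:ℕ) + (-15/2)*t^(8:ℕ)) + (6561/100000000)*((-1)*t^(4:ℕ) + 3*t^(5:ℕ) + (-17/4)*t^(6:ℕ) + 3*t^(7:ℕ) + (-1)*t^(8:ℕ)) - (11313/1000) := by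
  have e : 1*(1 + 1*t + 5*t^(2:ℕ) + 5*t^(3:ℕ) + 10*t^(4:ℕ) + 10*t^(5:ℕ) + 10*t^(6:ℕ) + 10*t^(7:ℕ) + 5*t^(8:ℕ) + 5*t^(9:ℕ) + 1*t^(10:ℕ) + 1*t^(11:ℕ)) + (3/10)*((9/2) + (5/2)*t + (67/2)*t^(2:ℕ) + (53/2)*t^(3:ℕ) + 93*t^(4:ℕ) + 40*t^(5:ℕ) + 94*t^(6:ℕ) + 13*t^(7:ℕ) + (73/2)*t^(8:ℕ) + (-1/2)*t^(9:ℕ) + (13/2)*t^(10:ℕ) + (5/2)*t^(11:ℕ)) + (9/100)*(1 + (-1)*t + 47*t^(2:ℕ) + (113/2)*t^(3:ℕ) + (429/2)*t^(4:ℕ) + (81/2)*t^(5:ℕ) + (387/2)*t^(6:ℕ) + (-157/2)*t^(7:ℕ) + (53/2)*t^(8:ℕ) + (-139/2)*t^(9:ℕ) + (3/2)*t^(10:ℕ) + (-8)*t^(11:ℕ)) + (27/1000)*((181/4)*t^(2:ℕ) + (-81/4)*t^(3:ℕ) + (987/4)*t^(4:ℕ) + (-121)*t^(5:ℕ) + (387/2)*t^(6:ℕ) + (-447/4)*t^(7:ℕ) + (-113/4)*t^(8:ℕ) + (-39/2)*t^(9:ℕ)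 + (-81/4)*t^(10:ℕ) + (-17/2)*t^(11:ℕ)) + (81/10000)*((83/2)*t^(2:ℕ) + (-237/4)*t^(3:ℕ) + 137*t^(4:ℕ) + (-531/4)*t^(5:ℕ) + (329/4)*t^(6:ℕ) + (-155/4)*t^(7:ℕ) + (-39)*t^(8:ℕ) + (147/4)*t^(9:ℕ) + (-56)*t^(10:ℕ) + 2*t^(11:ℕ)) + (243/100000)*(14*t^(2:ℕ) + (-18)*t^(3:ℕ) + (69/4)*t^(4:ℕ) + (5/2)*t^(5:ℕ) + (-143/4)*t^(6:ℕ) + (67/2)*t^(7:ℕ) + (-91/4)*t^(8:ℕ) + 31*t^(9:ℕ) + (-47)*t^(10:ℕ) + 18*t^(11:ℕ)) + (729/1000000)*((-273/16)*t^(4:ℕ) + (405/8)*t^(5:ℕ) + (-1147/16)*t^(6:ℕ) + (405/8)*t^(7:ℕ) + (-273/16)*t^(8:ℕ) + 8*t^(9:ℕ) + (-12)*t^(10:ℕ) + 8*t^(11:ℕ)) + (2187/10000000)*((-15/2)*t^(4:ℕ) + (91/4)*t^(5:ℕ) + (-129/4)*t^(6:ℕ) + (91/4)*t^(7:ℕ) + (-15/2)*t^(8:ℕ)) + (6561/100000000)*((-1)*t^(4:ℕ)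 + 3*t^(5:ℕ) + (-17/4)*t^(6:ℕ) + 3*t^(7:ℕ) + (-1)*t^(8:ℕ)) - (11313/1000) = (64391085451095126227/71327917652750000)*(1 - t)^(11:ℕ) + (46841866153607117667/1296871230050000)*(t - (9/20))*(1 - t)^(10:ℕ) + (456216460189935882563/1296871230050000)*(t - (9/20))^(2:ℕ)*(1 - t)^(9:ℕ) + (2239566040442826116701/1296871230050000)*(t - (9/20))^(3:ℕ)*(1 - t)^(8:ℕ) + (3379091030627328332/648435615025)*(t - (9/20))^(4:ℕ)*(1 - t)^(7:ℕ) + (6819751166404141726/648435615025)*(t - (9/20))^(5:ℕ)*(1 - t)^(6:ℕ) + (9557793069990344768/648435615025)*(t - (9/20))^(6:ℕ)*(1 - t)^(5:ℕ) + (1878621166158196496/129687123005)*(t - (9/20))^(7:ℕ)*(1 - t)^(4:ℕ) + (255287037425537280/25937424601)*(t - (9/20))^(8:ℕ)*(1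 - t)^(3:ℕ) + (114669168669818880/25937424601)*(t - (9/20))^(9:ℕ)*(1 - t)^(2:ℕ) + (2793912964505600/2357947691)*(t - (9/20))^(10:ℕ)*(1 - t) + (41047643813888000/285311670611)*(t - (9/20))^(11:ℕ) := by
    ring
  rw [e]
  have a3 : 0 ≤ t - (9/20) := by linarith
  have a4 : 0 ≤ 1 - t := by linarith
  generalize t - (9/20) = t1 at a3 ⊢
  generalize 1 - t = t2 at a4 ⊢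
  positivity

lemma pos_L1e_B2_b1 (t : ℝ) (h3 : (9/20) ≤ t) (h4 : t ≤ 1) :
    0 ≤ 1*(1 + 1*t + 5*t^(2:ℕ) + 5*t^(3:ℕ) + 10*t^(4:ℕ) + 10*t^(5:ℕ) + 10*t^(6:ℕ) + 10*t^(7:ℕ) + 5*t^(8:ℕ) + 5*t^(9:ℕ) + 1*t^(10:ℕ) + 1*t^(11:ℕ)) + (73/240)*((9/2) + (5/2)*t + (67/2)*t^(2:ℕ) + (53/2)*t^(3:ℕ) + 93*t^(4:ℕ) + 40*t^(5:ℕ) + 94*t^(6:ℕ) + 13*t^(7:ℕ) + (73/2)*t^(8:ℕ) + (-1/2)*t^(9:ℕ) + (13/2)*t^(10:ℕ) + (5/2)*t^(11:ℕ)) + (37/400)*(1 + (-1)*t + 47*t^(2:ℕ) + (113/2)*t^(3:ℕ) + (429/2)*t^(4:ℕ) + (81/2)*t^(5:ℕ) + (387/2)*t^(6:ℕ) + (-157/2)*t^(7:ℕ) + (53/2)*t^(8:ℕ) + (-139/2)*t^(9:ℕ) + (3/2)*t^(10:ℕ) + (-8)*t^(11:ℕ)) + (9/320)*((181/4)*t^(2:ℕ) + (-81/4)*t^(3:ℕ) + (987/4)*t^(4:ℕ) + (-121)*t^(5:ℕ)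 + (387/2)*t^(6:ℕ) + (-447/4)*t^(7:ℕ) + (-113/4)*t^(8:ℕ) + (-39/2)*t^(9:ℕ) + (-81/4)*t^(10:ℕ) + (-17/2)*t^(11:ℕ)) + (171/20000)*((83/2)*t^(2:ℕ) + (-237/4)*t^(3:ℕ) + 137*t^(4:ℕ) + (-531/4)*t^(5:ℕ) + (329/4)*t^(6:ℕ) + (-155/4)*t^(7:ℕ) + (-39)*t^(8:ℕ) + (147/4)*t^(9:ℕ) + (-56)*t^(10:ℕ) + 2*t^(11:ℕ)) + (2079/800000)*(14*t^(2:ℕ) + (-18)*t^(3:ℕ) + (69/4)*t^(4:ℕ) + (5/2)*t^(5:ℕ) + (-143/4)*t^(6:ℕ) + (67/2)*t^(7:ℕ) + (-91/4)*t^(8:ℕ) + 31*t^(9:ℕ) + (-47)*t^(10:ℕ) + 18*t^(11:ℕ)) + (3159/4000000)*((-273/16)*t^(4:ℕ) + (405/8)*t^(5:ℕ) + (-1147/16)*t^(6:ℕ) + (405/8)*t^(7:ℕ) + (-273/16)*t^(8:ℕ) + 8*t^(9:ℕ) + (-12)*t^(10:ℕ) + 8*t^(11:ℕ)) + (19197/80000000)*((-15/2)*t^(4:ℕ) + (91/4)*t^(5:ℕ)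 + (-129/4)*t^(6:ℕ) + (91/4)*t^(7:ℕ) + (-15/2)*t^(8:ℕ)) + (729/10000000)*((-1)*t^(4:ℕ) + 3*t^(5:ℕ) + (-17/4)*t^(6:ℕ) + 3*t^(7:ℕ) + (-1)*t^(8:ℕ)) - (11313/1000) := by
  have e : 1*(1 + 1*t + 5*t^(2:ℕ) + 5*t^(3:ℕ) + 10*t^(4:ℕ) + 10*t^(5:ℕ) + 10*t^(6:ℕ) + 10*t^(7:ℕ) + 5*t^(8:ℕ) + 5*t^(9:ℕ) + 1*t^(10:ℕ) + 1*t^(11:ℕ)) + (73/240)*((9/2) + (5/2)*t + (67/2)*t^(2:ℕ) + (53/2)*t^(3:ℕ) + 93*t^(4:ℕ) + 40*t^(5:ℕ) + 94*t^(6:ℕ) + 13*t^(7:ℕ) + (73/2)*t^(8:ℕ) + (-1/2)*t^(9:ℕ) + (13/2)*t^(10:ℕ) + (5/2)*t^(11:ℕ)) + (37/400)*(1 + (-1)*t + 47*t^(2:ℕ) + (113/2)*t^(3:ℕ) + (429/2)*t^(4:ℕ) + (81/2)*t^(5:ℕ) + (387/2)*t^(6:ℕ) + (-157/2)*t^(7:ℕ) + (53/2)*t^(8:ℕ) + (-139/2)*t^(9:ℕ) + (3/2)*t^(10:ℕ) +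 (-8)*t^(11:ℕ)) + (9/320)*((181/4)*t^(2:ℕ) + (-81/4)*t^(3:ℕ) + (987/4)*t^(4:ℕ) + (-121)*t^(5:ℕ) + (387/2)*t^(6:ℕ) + (-447/4)*t^(7:ℕ) + (-113/4)*t^(8:ℕ) + (-39/2)*t^(9:ℕ) + (-81/4)*t^(10:ℕ) + (-17/2)*t^(11:ℕ)) + (171/20000)*((83/2)*t^(2:ℕ) + (-237/4)*t^(3:ℕ) + 137*t^(4:ℕ) + (-531/4)*t^(5:ℕ) + (329/4)*t^(6:ℕ) + (-155/4)*t^(7:ℕ) + (-39)*t^(8:ℕ) + (147/4)*t^(9:ℕ) + (-56)*t^(10:ℕ) + 2*t^(11:ℕ)) + (2079/800000)*(14*t^(2:ℕ) + (-18)*t^(3:ℕ) + (69/4)*t^(4:ℕ) + (5/2)*t^(5:ℕ) + (-143/4)*t^(6:ℕ) + (67/2)*t^(7:ℕ) + (-91/4)*t^(8:ℕ) + 31*t^(9:ℕ) + (-47)*t^(10:ℕ) + 18*t^(11:ℕ)) + (3159/4000000)*((-273/16)*t^(4:ℕ) + (405/8)*t^(5:ℕ) + (-1147/16)*t^(6:ℕ) + (405/8)*t^(7:ℕ) + (-273/16)*t^(8:ℕ)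 + 8*t^(9:ℕ) + (-12)*t^(10:ℕ) + 8*t^(11:ℕ)) + (19197/80000000)*((-15/2)*t^(4:ℕ) + (91/4)*t^(5:ℕ) + (-129/4)*t^(6:ℕ) + (91/4)*t^(7:ℕ) + (-15/2)*t^(8:ℕ)) + (729/10000000)*((-1)*t^(4:ℕ) + 3*t^(5:ℕ) + (-17/4)*t^(6:ℕ) + 3*t^(7:ℕ) + (-1)*t^(8:ℕ)) - (11313/1000) = (9144872226171097601/8915989706593750)*(1 - t)^(11:ℕ) + (589359800883528514267/15562454760600000)*(t - (9/20))*(1 - t)^(10:ℕ) + (376760597476670670303/1037496984040000)*(t - (9/20))^(2:ℕ)*(1 - t)^(9:ℕ) + (5512631203546380396491/3112490952120000)*(t - (9/20))^(3:ℕ)*(1 - t)^(8:ℕ) + (828835235010496641029/155624547606000)*(t - (9/20))^(4:ℕ)*(1 - t)^(7:ℕ) + (83455036156127831293/7781227380300)*(t - (9/20))^(5:ℕ)*(1 - t)^(6:ℕ)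 + (1946385055029830978/129687123005)*(t - (9/20))^(6:ℕ)*(1 - t)^(5:ℕ) + (1146381887377411964/77812273803)*(t - (9/20))^(7:ℕ)*(1 - t)^(4:ℕ) + (778166103263549200/77812273803)*(t - (9/20))^(8:ℕ)*(1 - t)^(3:ℕ) + (116410483333006400/25937424601)*(t - (9/20))^(9:ℕ)*(1 - t)^(2:ℕ) + (93519611413376000/77812273803)*(t - (9/20))^(10:ℕ)*(1 - t) + (124795088385280000/855935011833)*(t - (9/20))^(11:ℕ) := by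
    ring
  rw [e]
  have a3 : 0 ≤ t - (9/20) := by linarith
  have a4 : 0 ≤ 1 - t := by linarith
  generalize t - (9/20) = t1 at a3 ⊢
  generalize 1 - t = t2 at a4 ⊢
  positivity

lemma pos_L1e_B2_b2 (t : ℝ) (h3 : (9/20) ≤ t) (h4 : t ≤ 1) :
    0 ≤ 1*(1 + 1*t + 5*t^(2:ℕ) + 5*t^(3:ℕ) + 10*t^(4:ℕ) + 10*t^(5:ℕ) + 10*t^(6:ℕ) + 10*t^(7:ℕ) + 5*t^(8:ℕ) + 5*t^(9:ℕ) + 1*t^(10:ℕ) + 1*t^(11:ℕ)) + (37/120)*((9/2) + (5/2)*t + (67/2)*t^(2:ℕ) + (53/2)*t^(3:ℕ) + 93*t^(4:ℕ) + 40*t^(5:ℕ) + 94*t^(6:ℕ) + 13*t^(7:ℕ) + (73/2)*t^(8:ℕ) + (-1/2)*t^(9:ℕ) + (13/2)*t^(10:ℕ) + (5/2)*t^(11:ℕ)) + (479/5040)*(1 + (-1)*t + 47*t^(2:ℕ) + (113/2)*t^(3:ℕ) + (429/2)*t^(4:ℕ) + (81/2)*t^(5:ℕ) + (387/2)*t^(6:ℕ)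 + (-157/2)*t^(7:ℕ) + (53/2)*t^(8:ℕ) + (-139/2)*t^(9:ℕ) + (3/2)*t^(10:ℕ) + (-8)*t^(11:ℕ)) + (41/1400)*((181/4)*t^(2:ℕ) + (-81/4)*t^(3:ℕ) + (987/4)*t^(4:ℕ) + (-121)*t^(5:ℕ) + (387/2)*t^(6:ℕ) + (-447/4)*t^(7:ℕ) + (-113/4)*t^(8:ℕ) + (-39/2)*t^(9:ℕ) + (-81/4)*t^(10:ℕ) + (-17/2)*t^(11:ℕ)) + (1263/140000)*((83/2)*t^(2:ℕ) + (-237/4)*t^(3:ℕ) + 137*t^(4:ℕ) + (-531/4)*t^(5:ℕ) + (329/4)*t^(6:ℕ) + (-155/4)*t^(7:ℕ) + (-39)*t^(8:ℕ) + (147/4)*t^(9:ℕ) + (-56)*t^(10:ℕ) + 2*t^(11:ℕ)) + (7779/2800000)*(14*t^(2:ℕ) + (-18)*t^(3:ℕ) + (69/4)*t^(4:ℕ) + (5/2)*t^(5:ℕ) + (-143/4)*t^(6:ℕ) + (67/2)*t^(7:ℕ) + (-91/4)*t^(8:ℕ) + 31*t^(9:ℕ) + (-47)*t^(10:ℕ) + 18*t^(11:ℕ)) + (23949/28000000)*((-273/16)*t^(4:ℕ)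 + (405/8)*t^(5:ℕ) + (-1147/16)*t^(6:ℕ) + (405/8)*t^(7:ℕ) + (-273/16)*t^(8:ℕ) + 8*t^(9:ℕ) + (-12)*t^(10:ℕ) + 8*t^(11:ℕ)) + (1053/4000000)*((-15/2)*t^(4:ℕ) + (91/4)*t^(5:ℕ) + (-129/4)*t^(6:ℕ) + (91/4)*t^(7:ℕ) + (-15/2)*t^(8:ℕ)) + (81/1000000)*((-1)*t^(4:ℕ) + 3*t^(5:ℕ) + (-17/4)*t^(6:ℕ) + 3*t^(7:ℕ) + (-1)*t^(8:ℕ)) - (11313/1000) := by
  have e : 1*(1 + 1*t + 5*t^(2:ℕ) + 5*t^(3:ℕ) + 10*t^(4:ℕ) + 10*t^(5:ℕ) + 10*t^(6:ℕ) + 10*t^(7:ℕ) + 5*t^(8:ℕ) + 5*t^(9:ℕ) + 1*t^(10:ℕ) + 1*t^(11:ℕ)) + (37/120)*((9/2) + (5/2)*t + (67/2)*t^(2:ℕ) + (53/2)*t^(3:ℕ) + 93*t^(4:ℕ) + 40*t^(5:ℕ) + 94*t^(6:ℕ) + 13*t^(7:ℕ) + (73/2)*t^(8:ℕ) + (-1/2)*t^(9:ℕ) + (13/2)*t^(10:ℕ) + (5/2)*t^(11:ℕ)) + (479/5040)*(1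 + (-1)*t + 47*t^(2:ℕ) + (113/2)*t^(3:ℕ) + (429/2)*t^(4:ℕ) + (81/2)*t^(5:ℕ) + (387/2)*t^(6:ℕ) + (-157/2)*t^(7:ℕ) + (53/2)*t^(8:ℕ) + (-139/2)*t^(9:ℕ) + (3/2)*t^(10:ℕ) + (-8)*t^(11:ℕ)) + (41/1400)*((181/4)*t^(2:ℕ) + (-81/4)*t^(3:ℕ) + (987/4)*t^(4:ℕ) + (-121)*t^(5:ℕ) + (387/2)*t^(6:ℕ) + (-447/4)*t^(7:ℕ) + (-113/4)*t^(8:ℕ) + (-39/2)*t^(9:ℕ) + (-81/4)*t^(10:ℕ) + (-17/2)*t^(11:ℕ)) + (1263/140000)*((83/2)*t^(2:ℕ) + (-237/4)*t^(3:ℕ) + 137*t^(4:ℕ) + (-531/4)*t^(5:ℕ) + (329/4)*t^(6:ℕ) + (-155/4)*t^(7:ℕ) + (-39)*t^(8:ℕ) + (147/4)*t^(9:ℕ) + (-56)*t^(10:ℕ) + 2*t^(11:ℕ)) + (7779/2800000)*(14*t^(2:ℕ) + (-18)*t^(3:ℕ) + (69/4)*t^(4:ℕ) + (5/2)*t^(5:ℕ) + (-143/4)*t^(6:ℕ) + (67/2)*t^(7:ℕ) +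 (-91/4)*t^(8:ℕ) + 31*t^(9:ℕ) + (-47)*t^(10:ℕ) + 18*t^(11:ℕ)) + (23949/28000000)*((-273/16)*t^(4:ℕ) + (405/8)*t^(5:ℕ) + (-1147/16)*t^(6:ℕ) + (405/8)*t^(7:ℕ) + (-273/16)*t^(8:ℕ) + 8*t^(9:ℕ) + (-12)*t^(10:ℕ) + 8*t^(11:ℕ)) + (1053/4000000)*((-15/2)*t^(4:ℕ) + (91/4)*t^(5:ℕ) + (-129/4)*t^(6:ℕ) + (91/4)*t^(7:ℕ) + (-15/2)*t^(8:ℕ)) + (81/1000000)*((-1)*t^(4:ℕ) + 3*t^(5:ℕ) + (-17/4)*t^(6:ℕ) + 3*t^(7:ℕ) + (-1)*t^(8:ℕ)) - (11313/1000) = (1476321731407527125497/1283902517749500000)*(1 - t)^(11:ℕ) + (12955046621185030444421/326811549972600000)*(t - (9/20))*(1 - t)^(10:ℕ) + (24486542721070085598863/65362309994520000)*(t - (9/20))^(2:ℕ)*(1 - t)^(9:ℕ) + (23737568031474936384737/13072461998904000)*(t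 - (9/20))^(3:ℕ)*(1 - t)^(8:ℕ) + (355690882218108848111/65362309994520)*(t - (9/20))^(4:ℕ)*(1 - t)^(7:ℕ) + (71476080900305300173/6536230999452)*(t - (9/20))^(5:ℕ)*(1 - t)^(6:ℕ) + (3566850130527937274/233436821409)*(t - (9/20))^(6:ℕ)*(1 - t)^(5:ℕ) + (3497375114630456480/233436821409)*(t - (9/20))^(7:ℕ)*(1 - t)^(4:ℕ) + (16602504002844095200/1634057749863)*(t - (9/20))^(8:ℕ)*(1 - t)^(3:ℕ) + (2481539963561240000/544685916621)*(t - (9/20))^(9:ℕ)*(1 - t)^(2:ℕ) + (60360336112960000/49516901511)*(t - (9/20))^(10:ℕ)*(1 - t) + (2655672781539200000/17974635248493)*(t - (9/20))^(11:ℕ) := by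
    ring
  rw [e]
  have a3 : 0 ≤ t - (9/20) := by linarith
  have a4 : 0 ≤ 1 - t := by linarith
  generalize t - (9/20) = t1 at a3 ⊢
  generalize 1 - t = t2 at a4 ⊢
  positivity

lemma pos_L1e_B2_b3 (t : ℝ) (h3 : (9/20) ≤ t) (h4 : t ≤ 1) :
    0 ≤ 1*(1 + 1*t + 5*t^(2:ℕ) + 5*t^(3:ℕ) + 10*t^(4:ℕ) + 10*t^(5:ℕ) + 10*t^(6:ℕ) + 10*t^(7:ℕ) + 5*t^(8:ℕ) + 5*t^(9:ℕ) + 1*t^(10:ℕ) + 1*t^(11:ℕ)) + (5/16)*((9/2) + (5/2)*t + (67/2)*t^(2:ℕ) + (53/2)*t^(3:ℕ) + 93*t^(4:ℕ) + 40*t^(5:ℕ) + 94*t^(6:ℕ) + 13*t^(7:ℕ) + (73/2)*t^(8:ℕ) + (-1/2)*t^(9:ℕ) + (13/2)*t^(10:ℕ) + (5/2)*t^(11:ℕ)) + (41/420)*(1 + (-1)*t + 47*t^(2:ℕ) + (113/2)*t^(3:ℕ) + (429/2)*t^(4:ℕ) + (81/2)*t^(5:ℕ) + (387/2)*t^(6:ℕ) + (-157/2)*t^(7:ℕ)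 + (53/2)*t^(8:ℕ) + (-139/2)*t^(9:ℕ) + (3/2)*t^(10:ℕ) + (-8)*t^(11:ℕ)) + (4609/151200)*((181/4)*t^(2:ℕ) + (-81/4)*t^(3:ℕ) + (987/4)*t^(4:ℕ) + (-121)*t^(5:ℕ) + (387/2)*t^(6:ℕ) + (-447/4)*t^(7:ℕ) + (-113/4)*t^(8:ℕ) + (-39/2)*t^(9:ℕ) + (-81/4)*t^(10:ℕ) + (-17/2)*t^(11:ℕ)) + (11989/1260000)*((83/2)*t^(2:ℕ) + (-237/4)*t^(3:ℕ) + 137*t^(4:ℕ) + (-531/4)*t^(5:ℕ) + (329/4)*t^(6:ℕ) + (-155/4)*t^(7:ℕ) + (-39)*t^(8:ℕ) + (147/4)*t^(9:ℕ) + (-56)*t^(10:ℕ) + 2*t^(11:ℕ)) + (49879/16800000)*(14*t^(2:ℕ) + (-18)*t^(3:ℕ) + (69/4)*t^(4:ℕ) + (5/2)*t^(5:ℕ) + (-143/4)*t^(6:ℕ) + (67/2)*t^(7:ℕ) + (-91/4)*t^(8:ℕ) + 31*t^(9:ℕ) + (-47)*t^(10:ℕ) + 18*t^(11:ℕ)) + (2593/2800000)*((-273/16)*t^(4:ℕ) + (405/8)*t^(5:ℕ)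 + (-1147/16)*t^(6:ℕ) + (405/8)*t^(7:ℕ) + (-273/16)*t^(8:ℕ) + 8*t^(9:ℕ) + (-12)*t^(10:ℕ) + 8*t^(11:ℕ)) + (231/800000)*((-15/2)*t^(4:ℕ) + (91/4)*t^(5:ℕ) + (-129/4)*t^(6:ℕ) + (91/4)*t^(7:ℕ) + (-15/2)*t^(8:ℕ)) + (9/100000)*((-1)*t^(4:ℕ) + 3*t^(5:ℕ) + (-17/4)*t^(6:ℕ) + 3*t^(7:ℕ) + (-1)*t^(8:ℕ)) - (11313/1000) := by
  have e : 1*(1 + 1*t + 5*t^(2:ℕ) + 5*t^(3:ℕ) + 10*t^(4:ℕ) + 10*t^(5:ℕ) + 10*t^(6:ℕ) + 10*t^(7:ℕ) + 5*t^(8:ℕ) + 5*t^(9:ℕ) + 1*t^(10:ℕ) + 1*t^(11:ℕ)) + (5/16)*((9/2) + (5/2)*t + (67/2)*t^(2:ℕ) + (53/2)*t^(3:ℕ) + 93*t^(4:ℕ) + 40*t^(5:ℕ) + 94*t^(6:ℕ) + 13*t^(7:ℕ) + (73/2)*t^(8:ℕ) + (-1/2)*t^(9:ℕ) + (13/2)*t^(10:ℕ) + (5/2)*t^(11:ℕ)) + (41/420)*(1 + (-1)*t + 47*t^(2:ℕ)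 + (113/2)*t^(3:ℕ) + (429/2)*t^(4:ℕ) + (81/2)*t^(5:ℕ) + (387/2)*t^(6:ℕ) + (-157/2)*t^(7:ℕ) + (53/2)*t^(8:ℕ) + (-139/2)*t^(9:ℕ) + (3/2)*t^(10:ℕ) + (-8)*t^(11:ℕ)) + (4609/151200)*((181/4)*t^(2:ℕ) + (-81/4)*t^(3:ℕ) + (987/4)*t^(4:ℕ) + (-121)*t^(5:ℕ) + (387/2)*t^(6:ℕ) + (-447/4)*t^(7:ℕ) + (-113/4)*t^(8:ℕ) + (-39/2)*t^(9:ℕ) + (-81/4)*t^(10:ℕ) + (-17/2)*t^(11:ℕ)) + (11989/1260000)*((83/2)*t^(2:ℕ) + (-237/4)*t^(3:ℕ) + 137*t^(4:ℕ) + (-531/4)*t^(5:ℕ) + (329/4)*t^(6:ℕ) + (-155/4)*t^(7:ℕ) + (-39)*t^(8:ℕ) + (147/4)*t^(9:ℕ) + (-56)*t^(10:ℕ) + 2*t^(11:ℕ)) + (49879/16800000)*(14*t^(2:ℕ) + (-18)*t^(3:ℕ) + (69/4)*t^(4:ℕ) + (5/2)*t^(5:ℕ) + (-143/4)*t^(6:ℕ) + (67/2)*t^(7:ℕ) + (-91/4)*t^(8:ℕ)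 + 31*t^(9:ℕ) + (-47)*t^(10:ℕ) + 18*t^(11:ℕ)) + (2593/2800000)*((-273/16)*t^(4:ℕ) + (405/8)*t^(5:ℕ) + (-1147/16)*t^(6:ℕ) + (405/8)*t^(7:ℕ) + (-273/16)*t^(8:ℕ) + 8*t^(9:ℕ) + (-12)*t^(10:ℕ) + 8*t^(11:ℕ)) + (231/800000)*((-15/2)*t^(4:ℕ) + (91/4)*t^(5:ℕ) + (-129/4)*t^(6:ℕ) + (91/4)*t^(7:ℕ) + (-15/2)*t^(8:ℕ)) + (9/100000)*((-1)*t^(4:ℕ) + 3*t^(5:ℕ) + (-17/4)*t^(6:ℕ) + 3*t^(7:ℕ) + (-1)*t^(8:ℕ)) - (11313/1000) = (3056546501169617287127/2396618033132400000)*(1 - t)^(11:ℕ) + (300881760332335841389/7262478888280000)*(t - (9/20))*(1 - t)^(10:ℕ) + (7573577065393609304621/19608692998356000)*(t - (9/20))^(2:ℕ)*(1 - t)^(9:ℕ) + (162189541258978298521/87149746659360)*(t - (9/20))^(3:ℕ)*(1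 - t)^(8:ℕ) + (45419163515361276547/8170288749315)*(t - (9/20))^(4:ℕ)*(1 - t)^(7:ℕ) + (109297141619721156485/9804346499178)*(t - (9/20))^(5:ℕ)*(1 - t)^(6:ℕ) + (8472057309624262460/544685916621)*(t - (9/20))^(6:ℕ)*(1 - t)^(5:ℕ) + (68577067502287600/4501536501)*(t - (9/20))^(7:ℕ)*(1 - t)^(4:ℕ) + (50598444839273920000/4902173249589)*(t - (9/20))^(8:ℕ)*(1 - t)^(3:ℕ) + (1079491754701840000/233436821409)*(t - (9/20))^(9:ℕ)*(1 - t)^(2:ℕ) + (673373565654400000/544685916621)*(t - (9/20))^(10:ℕ)*(1 - t) + (2690930336224000000/17974635248493)*(t - (9/20))^(11:ℕ) := by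
    ring
  rw [e]
  have a3 : 0 ≤ t - (9/20) := by linarith
  have a4 : 0 ≤ 1 - t := by linarith
  generalize t - (9/20) = t1 at a3 ⊢
  generalize 1 - t = t2 at a4 ⊢
  positivity

lemma pos_L1e_B2_b4 (t : ℝ) (h3 : (9/20) ≤ t) (h4 : t ≤ 1) :
    0 ≤ 1*(1 + 1*t + 5*t^(2:ℕ) + 5*t^(3:ℕ) + 10*t^(4:ℕ) + 10*t^(5:ℕ) + 10*t^(6:ℕ) + 10*t^(7:ℕ) + 5*t^(8:ℕ) + 5*t^(9:ℕ) + 1*t^(10:ℕ) + 1*t^(11:ℕ)) + (19/60)*((9/2) + (5/2)*t + (67/2)*t^(2:ℕ) + (53/2)*t^(3:ℕ) + 93*t^(4:ℕ) + 40*t^(5:ℕ) + 94*t^(6:ℕ) + 13*t^(7:ℕ) + (73/2)*t^(8:ℕ) + (-1/2)*t^(9:ℕ) + (13/2)*t^(10:ℕ) + (5/2)*t^(11:ℕ)) + (421/4200)*(1 + (-1)*t + 47*t^(2:ℕ) + (113/2)*t^(3:ℕ) + (429/2)*t^(4:ℕ) + (81/2)*t^(5:ℕ) + (387/2)*t^(6:ℕ)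 + (-157/2)*t^(7:ℕ) + (53/2)*t^(8:ℕ) + (-139/2)*t^(9:ℕ) + (3/2)*t^(10:ℕ) + (-8)*t^(11:ℕ)) + (11989/378000)*((181/4)*t^(2:ℕ) + (-81/4)*t^(3:ℕ) + (987/4)*t^(4:ℕ) + (-121)*t^(5:ℕ) + (387/2)*t^(6:ℕ) + (-447/4)*t^(7:ℕ) + (-113/4)*t^(8:ℕ) + (-39/2)*t^(9:ℕ) + (-81/4)*t^(10:ℕ) + (-17/2)*t^(11:ℕ)) + (568801/56700000)*((83/2)*t^(2:ℕ) + (-237/4)*t^(3:ℕ) + 137*t^(4:ℕ) + (-531/4)*t^(5:ℕ) + (329/4)*t^(6:ℕ) + (-155/4)*t^(7:ℕ) + (-39)*t^(8:ℕ) + (147/4)*t^(9:ℕ) + (-56)*t^(10:ℕ) + 2*t^(11:ℕ)) + (11989/3780000)*(14*t^(2:ℕ) + (-18)*t^(3:ℕ) + (69/4)*t^(4:ℕ) + (5/2)*t^(5:ℕ) + (-143/4)*t^(6:ℕ) + (67/2)*t^(7:ℕ) + (-91/4)*t^(8:ℕ) + 31*t^(9:ℕ) + (-47)*t^(10:ℕ) + 18*t^(11:ℕ)) + (421/420000)*((-273/16)*t^(4:ℕ)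 + (405/8)*t^(5:ℕ) + (-1147/16)*t^(6:ℕ) + (405/8)*t^(7:ℕ) + (-273/16)*t^(8:ℕ) + 8*t^(9:ℕ) + (-12)*t^(10:ℕ) + 8*t^(11:ℕ)) + (19/60000)*((-15/2)*t^(4:ℕ) + (91/4)*t^(5:ℕ) + (-129/4)*t^(6:ℕ) + (91/4)*t^(7:ℕ) + (-15/2)*t^(8:ℕ)) + (1/10000)*((-1)*t^(4:ℕ) + 3*t^(5:ℕ) + (-17/4)*t^(6:ℕ) + 3*t^(7:ℕ) + (-1)*t^(8:ℕ)) - (11313/1000) := by
  have e : 1*(1 + 1*t + 5*t^(2:ℕ) + 5*t^(3:ℕ) + 10*t^(4:ℕ) + 10*t^(5:ℕ) + 10*t^(6:ℕ) + 10*t^(7:ℕ) + 5*t^(8:ℕ) + 5*t^(9:ℕ) + 1*t^(10:ℕ) + 1*t^(11:ℕ)) + (19/60)*((9/2) + (5/2)*t + (67/2)*t^(2:ℕ) + (53/2)*t^(3:ℕ) + 93*t^(4:ℕ) + 40*t^(5:ℕ) + 94*t^(6:ℕ) + 13*t^(7:ℕ) + (73/2)*t^(8:ℕ) + (-1/2)*t^(9:ℕ) + (13/2)*t^(10:ℕ) + (5/2)*t^(11:ℕ)) + (421/4200)*(1 + (-1)*t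 + 47*t^(2:ℕ) + (113/2)*t^(3:ℕ) + (429/2)*t^(4:ℕ) + (81/2)*t^(5:ℕ) + (387/2)*t^(6:ℕ) + (-157/2)*t^(7:ℕ) + (53/2)*t^(8:ℕ) + (-139/2)*t^(9:ℕ) + (3/2)*t^(10:ℕ) + (-8)*t^(11:ℕ)) + (11989/378000)*((181/4)*t^(2:ℕ) + (-81/4)*t^(3:ℕ) + (987/4)*t^(4:ℕ) + (-121)*t^(5:ℕ) + (387/2)*t^(6:ℕ) + (-447/4)*t^(7:ℕ) + (-113/4)*t^(8:ℕ) + (-39/2)*t^(9:ℕ) + (-81/4)*t^(10:ℕ) + (-17/2)*t^(11:ℕ)) + (568801/56700000)*((83/2)*t^(2:ℕ) + (-237/4)*t^(3:ℕ) + 137*t^(4:ℕ) + (-531/4)*t^(5:ℕ) + (329/4)*t^(6:ℕ) + (-155/4)*t^(7:ℕ) + (-39)*t^(8:ℕ) + (147/4)*t^(9:ℕ) + (-56)*t^(10:ℕ) + 2*t^(11:ℕ)) + (11989/3780000)*(14*t^(2:ℕ) + (-18)*t^(3:ℕ) + (69/4)*t^(4:ℕ) + (5/2)*t^(5:ℕ) + (-143/4)*t^(6:ℕ) + (67/2)*t^(7:ℕ) +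 (-91/4)*t^(8:ℕ) + 31*t^(9:ℕ) + (-47)*t^(10:ℕ) + 18*t^(11:ℕ)) + (421/420000)*((-273/16)*t^(4:ℕ) + (405/8)*t^(5:ℕ) + (-1147/16)*t^(6:ℕ) + (405/8)*t^(7:ℕ) + (-273/16)*t^(8:ℕ) + 8*t^(9:ℕ) + (-12)*t^(10:ℕ) + 8*t^(11:ℕ)) + (19/60000)*((-15/2)*t^(4:ℕ) + (91/4)*t^(5:ℕ) + (-129/4)*t^(6:ℕ) + (91/4)*t^(7:ℕ) + (-15/2)*t^(8:ℕ)) + (1/10000)*((-1)*t^(4:ℕ) + 3*t^(5:ℕ) + (-17/4)*t^(6:ℕ) + 3*t^(7:ℕ) + (-1)*t^(8:ℕ)) - (11313/1000) = (76372932503690445779/54468591662100000)*(1 - t)^(11:ℕ) + (706525531281088321393/16340577498630000)*(t - (9/20))*(1 - t)^(10:ℕ) + (2926364935804945018739/7353259874383500)*(t - (9/20))^(2:ℕ)*(1 - t)^(9:ℕ) + (1869427162781692800301/980434649917800)*(t - (9/20))^(3:ℕ)*(1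 - t)^(8:ℕ) + (417486108080007864967/73532598743835)*(t - (9/20))^(4:ℕ)*(1 - t)^(7:ℕ) + (167103876067942643990/14706519748767)*(t - (9/20))^(5:ℕ)*(1 - t)^(6:ℕ) + (232822355958441878480/14706519748767)*(t - (9/20))^(6:ℕ)*(1 - t)^(5:ℕ) + (25309599181098928000/1634057749863)*(t - (9/20))^(7:ℕ)*(1 - t)^(4:ℕ) + (154191946293002272000/14706519748767)*(t - (9/20))^(8:ℕ)*(1 - t)^(3:ℕ) + (69024005748820160000/14706519748767)*(t - (9/20))^(9:ℕ)*(1 - t)^(2:ℕ) + (18437417191616000000/14706519748767)*(t - (9/20))^(10:ℕ)*(1 - t) + (247860955520000000/1634057749863)*(t - (9/20))^(11:ℕ) := by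
    ring
  rw [e]
  have a3 : 0 ≤ t - (9/20) := by linarith
  have a4 : 0 ≤ 1 - t := by linarith
  generalize t - (9/20) = t1 at a3 ⊢
  generalize 1 - t = t2 at a4 ⊢
  positivity

lemma pos_L1e_B2_b5 (t : ℝ) (h3 : (9/20) ≤ t) (h4 : t ≤ 1) :
    0 ≤ 1*(1 + 1*t + 5*t^(2:ℕ) + 5*t^(3:ℕ) + 10*t^(4:ℕ) + 10*t^(5:ℕ) + 10*t^(6:ℕ) + 10*t^(7:ℕ) + 5*t^(8:ℕ) + 5*t^(9:ℕ) + 1*t^(10:ℕ) + 1*t^(11:ℕ)) + (77/240)*((9/2) + (5/2)*t + (67/2)*t^(2:ℕ) + (53/2)*t^(3:ℕ) + 93*t^(4:ℕ) + 40*t^(5:ℕ) + 94*t^(6:ℕ) + 13*t^(7:ℕ) + (73/2)*t^(8:ℕ) + (-1/2)*t^(9:ℕ) + (13/2)*t^(10:ℕ) + (5/2)*t^(11:ℕ)) + (2593/25200)*(1 + (-1)*t + 47*t^(2:ℕ) + (113/2)*t^(3:ℕ) + (429/2)*t^(4:ℕ) + (81/2)*t^(5:ℕ) + (387/2)*t^(6:ℕ)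 + (-157/2)*t^(7:ℕ) + (53/2)*t^(8:ℕ) + (-139/2)*t^(9:ℕ) + (3/2)*t^(10:ℕ) + (-8)*t^(11:ℕ)) + (49879/1512000)*((181/4)*t^(2:ℕ) + (-81/4)*t^(3:ℕ) + (987/4)*t^(4:ℕ) + (-121)*t^(5:ℕ) + (387/2)*t^(6:ℕ) + (-447/4)*t^(7:ℕ) + (-113/4)*t^(8:ℕ) + (-39/2)*t^(9:ℕ) + (-81/4)*t^(10:ℕ) + (-17/2)*t^(11:ℕ)) + (11989/1134000)*((83/2)*t^(2:ℕ) + (-237/4)*t^(3:ℕ) + 137*t^(4:ℕ) + (-531/4)*t^(5:ℕ) + (329/4)*t^(6:ℕ) + (-155/4)*t^(7:ℕ) + (-39)*t^(8:ℕ) + (147/4)*t^(9:ℕ) + (-56)*t^(10:ℕ) + 2*t^(11:ℕ)) + (4609/1360800)*(14*t^(2:ℕ) + (-18)*t^(3:ℕ) + (69/4)*t^(4:ℕ) + (5/2)*t^(5:ℕ) + (-143/4)*t^(6:ℕ) + (67/2)*t^(7:ℕ) + (-91/4)*t^(8:ℕ) + 31*t^(9:ℕ) + (-47)*t^(10:ℕ) + 18*t^(11:ℕ)) + (41/37800)*((-273/16)*t^(4:ℕ)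 + (405/8)*t^(5:ℕ) + (-1147/16)*t^(6:ℕ) + (405/8)*t^(7:ℕ) + (-273/16)*t^(8:ℕ) + 8*t^(9:ℕ) + (-12)*t^(10:ℕ) + 8*t^(11:ℕ)) + (1/2880)*((-15/2)*t^(4:ℕ) + (91/4)*t^(5:ℕ) + (-129/4)*t^(6:ℕ) + (91/4)*t^(7:ℕ) + (-15/2)*t^(8:ℕ)) + (1/9000)*((-1)*t^(4:ℕ) + 3*t^(5:ℕ) + (-17/4)*t^(6:ℕ) + 3*t^(7:ℕ) + (-1)*t^(8:ℕ)) - (11313/1000) := by
  have e : 1*(1 + 1*t + 5*t^(2:ℕ) + 5*t^(3:ℕ) + 10*t^(4:ℕ) + 10*t^(5:ℕ) + 10*t^(6:ℕ) + 10*t^(7:ℕ) + 5*t^(8:ℕ) + 5*t^(9:ℕ) + 1*t^(10:ℕ) + 1*t^(11:ℕ)) + (77/240)*((9/2) + (5/2)*t + (67/2)*t^(2:ℕ) + (53/2)*t^(3:ℕ) + 93*t^(4:ℕ) + 40*t^(5:ℕ) + 94*t^(6:ℕ) + 13*t^(7:ℕ) + (73/2)*t^(8:ℕ) + (-1/2)*t^(9:ℕ) + (13/2)*t^(10:ℕ) + (5/2)*t^(11:ℕ)) + (2593/25200)*(1 + (-1)*t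 + 47*t^(2:ℕ) + (113/2)*t^(3:ℕ) + (429/2)*t^(4:ℕ) + (81/2)*t^(5:ℕ) + (387/2)*t^(6:ℕ) + (-157/2)*t^(7:ℕ) + (53/2)*t^(8:ℕ) + (-139/2)*t^(9:ℕ) + (3/2)*t^(10:ℕ) + (-8)*t^(11:ℕ)) + (49879/1512000)*((181/4)*t^(2:ℕ) + (-81/4)*t^(3:ℕ) + (987/4)*t^(4:ℕ) + (-121)*t^(5:ℕ) + (387/2)*t^(6:ℕ) + (-447/4)*t^(7:ℕ) + (-113/4)*t^(8:ℕ) + (-39/2)*t^(9:ℕ) + (-81/4)*t^(10:ℕ) + (-17/2)*t^(11:ℕ)) + (11989/1134000)*((83/2)*t^(2:ℕ) + (-237/4)*t^(3:ℕ) + 137*t^(4:ℕ) + (-531/4)*t^(5:ℕ) + (329/4)*t^(6:ℕ) + (-155/4)*t^(7:ℕ) + (-39)*t^(8:ℕ) + (147/4)*t^(9:ℕ) + (-56)*t^(10:ℕ) + 2*t^(11:ℕ)) + (4609/1360800)*(14*t^(2:ℕ) + (-18)*t^(3:ℕ) + (69/4)*t^(4:ℕ) + (5/2)*t^(5:ℕ) + (-143/4)*t^(6:ℕ) + (67/2)*t^(7:ℕ) + (-91/4)*t^(8:ℕ)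 + 31*t^(9:ℕ) + (-47)*t^(10:ℕ) + 18*t^(11:ℕ)) + (41/37800)*((-273/16)*t^(4:ℕ) + (405/8)*t^(5:ℕ) + (-1147/16)*t^(6:ℕ) + (405/8)*t^(7:ℕ) + (-273/16)*t^(8:ℕ) + 8*t^(9:ℕ) + (-12)*t^(10:ℕ) + 8*t^(11:ℕ)) + (1/2880)*((-15/2)*t^(4:ℕ) + (91/4)*t^(5:ℕ) + (-129/4)*t^(6:ℕ) + (91/4)*t^(7:ℕ) + (-15/2)*t^(8:ℕ)) + (1/9000)*((-1)*t^(4:ℕ) + 3*t^(5:ℕ) + (-17/4)*t^(6:ℕ) + 3*t^(7:ℕ) + (-1)*t^(8:ℕ)) - (11313/1000) = (88018031826733564753/57518832795177600)*(1 - t)^(11:ℕ) + (353462360901513320293/7843477199342400)*(t - (9/20))*(1 - t)^(10:ℕ) + (103322225194469183533/252111767121720)*(t - (9/20))^(2:ℕ)*(1 - t)^(9:ℕ) + (9573531134966070763/4902173249589)*(t - (9/20))^(3:ℕ)*(1 - t)^(8:ℕ) + (85258785829974219770/14706519748767)*(t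 - (9/20))^(4:ℕ)*(1 - t)^(7:ℕ) + (46444347568257810100/4010869022391)*(t - (9/20))^(5:ℕ)*(1 - t)^(6:ℕ) + (710826927163053842000/44119559246301)*(t - (9/20))^(6:ℕ)*(1 - t)^(5:ℕ) + (99244391458899320000/6302794178043)*(t - (9/20))^(7:ℕ)*(1 - t)^(4:ℕ) + (469837587531581600000/44119559246301)*(t - (9/20))^(8:ℕ)*(1 - t)^(3:ℕ) + (210149135485984000000/44119559246301)*(t - (9/20))^(9:ℕ)*(1 - t)^(2:ℕ) + (8012581654400000000/6302794178043)*(t - (9/20))^(10:ℕ)*(1 - t) + (74581945734400000000/485315151709311)*(t - (9/20))^(11:ℕ) := by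
    ring
  rw [e]
  have a3 : 0 ≤ t - (9/20) := by linarith
  have a4 : 0 ≤ 1 - t := by linarith
  generalize t - (9/20) = t1 at a3 ⊢
  generalize 1 - t = t2 at a4 ⊢
  positivity

lemma pos_L1e_B2_b6 (t : ℝ) (h3 : (9/20) ≤ t) (h4 : t ≤ 1) :
    0 ≤ 1*(1 + 1*t + 5*t^(2:ℕ) + 5*t^(3:ℕ) + 10*t^(4:ℕ) + 10*t^(5:ℕ) + 10*t^(6:ℕ) + 10*t^(7:ℕ) + 5*t^(8:ℕ) + 5*t^(9:ℕ) + 1*t^(10:ℕ) + 1*t^(11:ℕ)) + (13/40)*((9/2) + (5/2)*t + (67/2)*t^(2:ℕ) + (53/2)*t^(3:ℕ) + 93*t^(4:ℕ) + 40*t^(5:ℕ) + 94*t^(6:ℕ) + 13*t^(7:ℕ) + (73/2)*t^(8:ℕ) + (-1/2)*t^(9:ℕ) + (13/2)*t^(10:ℕ) + (5/2)*t^(11:ℕ)) + (887/8400)*(1 + (-1)*t + 47*t^(2:ℕ) + (113/2)*t^(3:ℕ) + (429/2)*t^(4:ℕ) + (81/2)*t^(5:ℕ) + (387/2)*t^(6:ℕ)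 + (-157/2)*t^(7:ℕ) + (53/2)*t^(8:ℕ) + (-139/2)*t^(9:ℕ) + (3/2)*t^(10:ℕ) + (-8)*t^(11:ℕ)) + (2593/75600)*((181/4)*t^(2:ℕ) + (-81/4)*t^(3:ℕ) + (987/4)*t^(4:ℕ) + (-121)*t^(5:ℕ) + (387/2)*t^(6:ℕ) + (-447/4)*t^(7:ℕ) + (-113/4)*t^(8:ℕ) + (-39/2)*t^(9:ℕ) + (-81/4)*t^(10:ℕ) + (-17/2)*t^(11:ℕ)) + (421/37800)*((83/2)*t^(2:ℕ) + (-237/4)*t^(3:ℕ) + 137*t^(4:ℕ) + (-531/4)*t^(5:ℕ) + (329/4)*t^(6:ℕ) + (-155/4)*t^(7:ℕ) + (-39)*t^(8:ℕ) + (147/4)*t^(9:ℕ) + (-56)*t^(10:ℕ) + 2*t^(11:ℕ)) + (41/11340)*(14*t^(2:ℕ) + (-18)*t^(3:ℕ) + (69/4)*t^(4:ℕ) + (5/2)*t^(5:ℕ) + (-143/4)*t^(6:ℕ) + (67/2)*t^(7:ℕ) + (-91/4)*t^(8:ℕ) + 31*t^(9:ℕ) + (-47)*t^(10:ℕ) + 18*t^(11:ℕ)) + (479/408240)*((-273/16)*t^(4:ℕ) +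 (405/8)*t^(5:ℕ) + (-1147/16)*t^(6:ℕ) + (405/8)*t^(7:ℕ) + (-273/16)*t^(8:ℕ) + 8*t^(9:ℕ) + (-12)*t^(10:ℕ) + 8*t^(11:ℕ)) + (37/97200)*((-15/2)*t^(4:ℕ) + (91/4)*t^(5:ℕ) + (-129/4)*t^(6:ℕ) + (91/4)*t^(7:ℕ) + (-15/2)*t^(8:ℕ)) + (1/8100)*((-1)*t^(4:ℕ) + 3*t^(5:ℕ) + (-17/4)*t^(6:ℕ) + 3*t^(7:ℕ) + (-1)*t^(8:ℕ)) - (11313/1000) := by
  have e : 1*(1 + 1*t + 5*t^(2:ℕ) + 5*t^(3:ℕ) + 10*t^(4:ℕ) + 10*t^(5:ℕ) + 10*t^(6:ℕ) + 10*t^(7:ℕ) + 5*t^(8:ℕ) + 5*t^(9:ℕ) + 1*t^(10:ℕ) + 1*t^(11:ℕ)) + (13/40)*((9/2) + (5/2)*t + (67/2)*t^(2:ℕ) + (53/2)*t^(3:ℕ) + 93*t^(4:ℕ) + 40*t^(5:ℕ) + 94*t^(6:ℕ) + 13*t^(7:ℕ) + (73/2)*t^(8:ℕ) + (-1/2)*t^(9:ℕ) + (13/2)*t^(10:ℕ) + (5/2)*t^(11:ℕ)) + (887/8400)*(1 + (-1)*t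 + 47*t^(2:ℕ) + (113/2)*t^(3:ℕ) + (429/2)*t^(4:ℕ) + (81/2)*t^(5:ℕ) + (387/2)*t^(6:ℕ) + (-157/2)*t^(7:ℕ) + (53/2)*t^(8:ℕ) + (-139/2)*t^(9:ℕ) + (3/2)*t^(10:ℕ) + (-8)*t^(11:ℕ)) + (2593/75600)*((181/4)*t^(2:ℕ) + (-81/4)*t^(3:ℕ) + (987/4)*t^(4:ℕ) + (-121)*t^(5:ℕ) + (387/2)*t^(6:ℕ) + (-447/4)*t^(7:ℕ) + (-113/4)*t^(8:ℕ) + (-39/2)*t^(9:ℕ) + (-81/4)*t^(10:ℕ) + (-17/2)*t^(11:ℕ)) + (421/37800)*((83/2)*t^(2:ℕ) + (-237/4)*t^(3:ℕ) + 137*t^(4:ℕ) + (-531/4)*t^(5:ℕ) + (329/4)*t^(6:ℕ) + (-155/4)*t^(7:ℕ) + (-39)*t^(8:ℕ) + (147/4)*t^(9:ℕ) + (-56)*t^(10:ℕ) + 2*t^(11:ℕ)) + (41/11340)*(14*t^(2:ℕ) + (-18)*t^(3:ℕ) + (69/4)*t^(4:ℕ) + (5/2)*t^(5:ℕ) + (-143/4)*t^(6:ℕ) + (67/2)*t^(7:ℕ) + (-91/4)*t^(8:ℕ)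 + 31*t^(9:ℕ) + (-47)*t^(10:ℕ) + 18*t^(11:ℕ)) + (479/408240)*((-273/16)*t^(4:ℕ) + (405/8)*t^(5:ℕ) + (-1147/16)*t^(6:ℕ) + (405/8)*t^(7:ℕ) + (-273/16)*t^(8:ℕ) + 8*t^(9:ℕ) + (-12)*t^(10:ℕ) + 8*t^(11:ℕ)) + (37/97200)*((-15/2)*t^(4:ℕ) + (91/4)*t^(5:ℕ) + (-129/4)*t^(6:ℕ) + (91/4)*t^(7:ℕ) + (-15/2)*t^(8:ℕ)) + (1/8100)*((-1)*t^(4:ℕ) + 3*t^(5:ℕ) + (-17/4)*t^(6:ℕ) + 3*t^(7:ℕ) + (-1)*t^(8:ℕ)) - (11313/1000) = (7955207006814965939/4793236066264800)*(1 - t)^(11:ℕ) + (1226480037034168019/26144923997808)*(t - (9/20))*(1 - t)^(10:ℕ) + (3544799541729013301/8403725570724)*(t - (9/20))^(2:ℕ)*(1 - t)^(9:ℕ) + (39209474324351040865/19608692998356)*(t - (9/20))^(3:ℕ)*(1 - t)^(8:ℕ) + (261118030448528350250/44119559246301)*(t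 - (9/20))^(4:ℕ)*(1 - t)^(7:ℕ) + (2754320273729682500/233436821409)*(t - (9/20))^(5:ℕ)*(1 - t)^(6:ℕ) + (309993085815653300000/18908382534129)*(t - (9/20))^(6:ℕ)*(1 - t)^(5:ℕ) + (2118538064638748800000/132358677738903)*(t - (9/20))^(7:ℕ)*(1 - t)^(4:ℕ) + (1431515173688648000000/132358677738903)*(t - (9/20))^(8:ℕ)*(1 - t)^(3:ℕ) + (639766404762160000000/132358677738903)*(t - (9/20))^(9:ℕ)*(1 - t)^(2:ℕ) + (170612257865600000000/132358677738903)*(t - (9/20))^(10:ℕ)*(1 - t) + (75556871161600000000/485315151709311)*(t - (9/20))^(11:ℕ) := by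
    ring
  rw [e]
  have a3 : 0 ≤ t - (9/20) := by linarith
  have a4 : 0 ≤ 1 - t := by linarith
  generalize t - (9/20) = t1 at a3 ⊢
  generalize 1 - t = t2 at a4 ⊢
  positivity

lemma pos_L1e_B2_b7 (t : ℝ) (h3 : (9/20) ≤ t) (h4 : t ≤ 1) :
    0 ≤ 1*(1 + 1*t + 5*t^(2:ℕ) + 5*t^(3:ℕ) + 10*t^(4:ℕ) + 10*t^(5:ℕ) + 10*t^(6:ℕ) + 10*t^(7:ℕ) + 5*t^(8:ℕ) + 5*t^(9:ℕ) + 1*t^(10:ℕ) + 1*t^(11:ℕ)) + (79/240)*((9/2) + (5/2)*t + (67/2)*t^(2:ℕ) + (53/2)*t^(3:ℕ) + 93*t^(4:ℕ) + 40*t^(5:ℕ) + 94*t^(6:ℕ) + 13*t^(7:ℕ) + (73/2)*t^(8:ℕ) + (-1/2)*t^(9:ℕ) + (13/2)*t^(10:ℕ) + (5/2)*t^(11:ℕ)) + (13/120)*(1 + (-1)*t + 47*t^(2:ℕ) + (113/2)*t^(3:ℕ) + (429/2)*t^(4:ℕ) + (81/2)*t^(5:ℕ) + (387/2)*t^(6:ℕ) +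 (-157/2)*t^(7:ℕ) + (53/2)*t^(8:ℕ) + (-139/2)*t^(9:ℕ) + (3/2)*t^(10:ℕ) + (-8)*t^(11:ℕ)) + (77/2160)*((181/4)*t^(2:ℕ) + (-81/4)*t^(3:ℕ) + (987/4)*t^(4:ℕ) + (-121)*t^(5:ℕ) + (387/2)*t^(6:ℕ) + (-447/4)*t^(7:ℕ) + (-113/4)*t^(8:ℕ) + (-39/2)*t^(9:ℕ) + (-81/4)*t^(10:ℕ) + (-17/2)*t^(11:ℕ)) + (19/1620)*((83/2)*t^(2:ℕ) + (-237/4)*t^(3:ℕ) + 137*t^(4:ℕ) + (-531/4)*t^(5:ℕ) + (329/4)*t^(6:ℕ) + (-155/4)*t^(7:ℕ) + (-39)*t^(8:ℕ) + (147/4)*t^(9:ℕ) + (-56)*t^(10:ℕ) + 2*t^(11:ℕ)) + (5/1296)*(14*t^(2:ℕ) + (-18)*t^(3:ℕ) + (69/4)*t^(4:ℕ) + (5/2)*t^(5:ℕ) + (-143/4)*t^(6:ℕ) + (67/2)*t^(7:ℕ) + (-91/4)*t^(8:ℕ) + 31*t^(9:ℕ) + (-47)*t^(10:ℕ) + 18*t^(11:ℕ)) + (37/29160)*((-273/16)*t^(4:ℕ) + (405/8)*t^(5:ℕ)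 + (-1147/16)*t^(6:ℕ) + (405/8)*t^(7:ℕ) + (-273/16)*t^(8:ℕ) + 8*t^(9:ℕ) + (-12)*t^(10:ℕ) + 8*t^(11:ℕ)) + (73/174960)*((-15/2)*t^(4:ℕ) + (91/4)*t^(5:ℕ) + (-129/4)*t^(6:ℕ) + (91/4)*t^(7:ℕ) + (-15/2)*t^(8:ℕ)) + (1/7290)*((-1)*t^(4:ℕ) + 3*t^(5:ℕ) + (-17/4)*t^(6:ℕ) + 3*t^(7:ℕ) + (-1)*t^(8:ℕ)) - (11313/1000) := by
  have e : 1*(1 + 1*t + 5*t^(2:ℕ) + 5*t^(3:ℕ) + 10*t^(4:ℕ) + 10*t^(5:ℕ) + 10*t^(6:ℕ) + 10*t^(7:ℕ) + 5*t^(8:ℕ) + 5*t^(9:ℕ) + 1*t^(10:ℕ) + 1*t^(11:ℕ)) + (79/240)*((9/2) + (5/2)*t + (67/2)*t^(2:ℕ) + (53/2)*t^(3:ℕ) + 93*t^(4:ℕ) + 40*t^(5:ℕ) + 94*t^(6:ℕ) + 13*t^(7:ℕ) + (73/2)*t^(8:ℕ) + (-1/2)*t^(9:ℕ) + (13/2)*t^(10:ℕ) + (5/2)*t^(11:ℕ)) + (13/120)*(1 + (-1)*t + 47*t^(2:ℕ) +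 (113/2)*t^(3:ℕ) + (429/2)*t^(4:ℕ) + (81/2)*t^(5:ℕ) + (387/2)*t^(6:ℕ) + (-157/2)*t^(7:ℕ) + (53/2)*t^(8:ℕ) + (-139/2)*t^(9:ℕ) + (3/2)*t^(10:ℕ) + (-8)*t^(11:ℕ)) + (77/2160)*((181/4)*t^(2:ℕ) + (-81/4)*t^(3:ℕ) + (987/4)*t^(4:ℕ) + (-121)*t^(5:ℕ) + (387/2)*t^(6:ℕ) + (-447/4)*t^(7:ℕ) + (-113/4)*t^(8:ℕ) + (-39/2)*t^(9:ℕ) + (-81/4)*t^(10:ℕ) + (-17/2)*t^(11:ℕ)) + (19/1620)*((83/2)*t^(2:ℕ) + (-237/4)*t^(3:ℕ) + 137*t^(4:ℕ) + (-531/4)*t^(5:ℕ) + (329/4)*t^(6:ℕ) + (-155/4)*t^(7:ℕ) + (-39)*t^(8:ℕ) + (147/4)*t^(9:ℕ) + (-56)*t^(10:ℕ) + 2*t^(11:ℕ)) + (5/1296)*(14*t^(2:ℕ) + (-18)*t^(3:ℕ) + (69/4)*t^(4:ℕ) + (5/2)*t^(5:ℕ) + (-143/4)*t^(6:ℕ) + (67/2)*t^(7:ℕ) + (-91/4)*t^(8:ℕ) + 31*t^(9:ℕ) + (-47)*t^(10:ℕ)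 + 18*t^(11:ℕ)) + (37/29160)*((-273/16)*t^(4:ℕ) + (405/8)*t^(5:ℕ) + (-1147/16)*t^(6:ℕ) + (405/8)*t^(7:ℕ) + (-273/16)*t^(8:ℕ) + 8*t^(9:ℕ) + (-12)*t^(10:ℕ) + 8*t^(11:ℕ)) + (73/174960)*((-15/2)*t^(4:ℕ) + (91/4)*t^(5:ℕ) + (-129/4)*t^(6:ℕ) + (91/4)*t^(7:ℕ) + (-15/2)*t^(8:ℕ)) + (1/7290)*((-1)*t^(4:ℕ) + 3*t^(5:ℕ) + (-17/4)*t^(6:ℕ) + 3*t^(7:ℕ) + (-1)*t^(8:ℕ)) - (11313/1000) = (61299942168206123/34237400473320)*(1 - t)^(11:ℕ) + (20242254489793269/414998793616)*(t - (9/20))*(1 - t)^(10:ℕ) + (101294520535020880/233436821409)*(t - (9/20))^(2:ℕ)*(1 - t)^(9:ℕ) + (260614785146724575/127329175314)*(t - (9/20))^(3:ℕ)*(1 - t)^(8:ℕ) + (12691293162639689500/2100931392681)*(t - (9/20))^(4:ℕ)*(1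 - t)^(7:ℕ) + (681876730090772015000/56725147602387)*(t - (9/20))^(5:ℕ)*(1 - t)^(6:ℕ) + (315402373963970000000/18908382534129)*(t - (9/20))^(6:ℕ)*(1 - t)^(5:ℕ) + (922841813422868000000/56725147602387)*(t - (9/20))^(7:ℕ)*(1 - t)^(4:ℕ) + (207676597110560000000/18908382534129)*(t - (9/20))^(8:ℕ)*(1 - t)^(3:ℕ) + (92739080453600000000/18908382534129)*(t - (9/20))^(9:ℕ)*(1 - t)^(2:ℕ) + (74134707987200000000/56725147602387)*(t - (9/20))^(10:ℕ)*(1 - t) + (98407936371200000000/623976623626257)*(t - (9/20))^(11:ℕ) := by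
    ring
  rw [e]
  have a3 : 0 ≤ t - (9/20) := by linarith
  have a4 : 0 ≤ 1 - t := by linarith
  generalize t - (9/20) = t1 at a3 ⊢
  generalize 1 - t = t2 at a4 ⊢
  positivity

lemma pos_L1e_B2_b8 (t : ℝ) (h3 : (9/20) ≤ t) (h4 : t ≤ 1) :
    0 ≤ 1*(1 + 1*t + 5*t^(2:ℕ) + 5*t^(3:ℕ) + 10*t^(4:ℕ) + 10*t^(5:ℕ) + 10*t^(6:ℕ) + 10*t^(7:ℕ) + 5*t^(8:ℕ) + 5*t^(9:ℕ) + 1*t^(10:ℕ) + 1*t^(11:ℕ)) + (1/3)*((9/2) + (5/2)*t + (67/2)*t^(2:ℕ) + (53/2)*t^(3:ℕ) + 93*t^(4:ℕ) + 40*t^(5:ℕ) + 94*t^(6:ℕ) + 13*t^(7:ℕ) + (73/2)*t^(8:ℕ) + (-1/2)*t^(9:ℕ) + (13/2)*t^(10:ℕ) + (5/2)*t^(11:ℕ)) + (1/9)*(1 + (-1)*t + 47*t^(2:ℕ) + (113/2)*t^(3:ℕ) + (429/2)*t^(4:ℕ) + (81/2)*t^(5:ℕ) + (387/2)*t^(6:ℕ) + (-157/2)*t^(7:ℕ)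 + (53/2)*t^(8:ℕ) + (-139/2)*t^(9:ℕ) + (3/2)*t^(10:ℕ) + (-8)*t^(11:ℕ)) + (1/27)*((181/4)*t^(2:ℕ) + (-81/4)*t^(3:ℕ) + (987/4)*t^(4:ℕ) + (-121)*t^(5:ℕ) + (387/2)*t^(6:ℕ) + (-447/4)*t^(7:ℕ) + (-113/4)*t^(8:ℕ) + (-39/2)*t^(9:ℕ) + (-81/4)*t^(10:ℕ) + (-17/2)*t^(11:ℕ)) + (1/81)*((83/2)*t^(2:ℕ) + (-237/4)*t^(3:ℕ) + 137*t^(4:ℕ) + (-531/4)*t^(5:ℕ) + (329/4)*t^(6:ℕ) + (-155/4)*t^(7:ℕ) + (-39)*t^(8:ℕ) + (147/4)*t^(9:ℕ) + (-56)*t^(10:ℕ) + 2*t^(11:ℕ)) + (1/243)*(14*t^(2:ℕ) + (-18)*t^(3:ℕ) + (69/4)*t^(4:ℕ) + (5/2)*t^(5:ℕ) + (-143/4)*t^(6:ℕ) + (67/2)*t^(7:ℕ) + (-91/4)*t^(8:ℕ) + 31*t^(9:ℕ) + (-47)*t^(10:ℕ) + 18*t^(11:ℕ)) + (1/729)*((-273/16)*t^(4:ℕ) + (405/8)*t^(5:ℕ) + (-1147/16)*t^(6:ℕ)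 + (405/8)*t^(7:ℕ) + (-273/16)*t^(8:ℕ) + 8*t^(9:ℕ) + (-12)*t^(10:ℕ) + 8*t^(11:ℕ)) + (1/2187)*((-15/2)*t^(4:ℕ) + (91/4)*t^(5:ℕ) + (-129/4)*t^(6:ℕ) + (91/4)*t^(7:ℕ) + (-15/2)*t^(8:ℕ)) + (1/6561)*((-1)*t^(4:ℕ) + 3*t^(5:ℕ) + (-17/4)*t^(6:ℕ) + 3*t^(7:ℕ) + (-1)*t^(8:ℕ)) - (11313/1000) := by
  have e : 1*(1 + 1*t + 5*t^(2:ℕ) + 5*t^(3:ℕ) + 10*t^(4:ℕ) + 10*t^(5:ℕ) + 10*t^(6:ℕ) + 10*t^(7:ℕ) + 5*t^(8:ℕ) + 5*t^(9:ℕ) + 1*t^(10:ℕ) + 1*t^(11:ℕ)) + (1/3)*((9/2) + (5/2)*t + (67/2)*t^(2:ℕ) + (53/2)*t^(3:ℕ) + 93*t^(4:ℕ) + 40*t^(5:ℕ) + 94*t^(6:ℕ) + 13*t^(7:ℕ) + (73/2)*t^(8:ℕ) + (-1/2)*t^(9:ℕ) + (13/2)*t^(10:ℕ) + (5/2)*t^(11:ℕ)) + (1/9)*(1 + (-1)*t + 47*t^(2:ℕ) + (113/2)*t^(3:ℕ) + (429/2)*t^(4:ℕ)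 + (81/2)*t^(5:ℕ) + (387/2)*t^(6:ℕ) + (-157/2)*t^(7:ℕ) + (53/2)*t^(8:ℕ) + (-139/2)*t^(9:ℕ) + (3/2)*t^(10:ℕ) + (-8)*t^(11:ℕ)) + (1/27)*((181/4)*t^(2:ℕ) + (-81/4)*t^(3:ℕ) + (987/4)*t^(4:ℕ) + (-121)*t^(5:ℕ) + (387/2)*t^(6:ℕ) + (-447/4)*t^(7:ℕ) + (-113/4)*t^(8:ℕ) + (-39/2)*t^(9:ℕ) + (-81/4)*t^(10:ℕ) + (-17/2)*t^(11:ℕ)) + (1/81)*((83/2)*t^(2:ℕ) + (-237/4)*t^(3:ℕ) + 137*t^(4:ℕ) + (-531/4)*t^(5:ℕ) + (329/4)*t^(6:ℕ) + (-155/4)*t^(7:ℕ) + (-39)*t^(8:ℕ) + (147/4)*t^(9:ℕ) + (-56)*t^(10:ℕ) + 2*t^(11:ℕ)) + (1/243)*(14*t^(2:ℕ) + (-18)*t^(3:ℕ) + (69/4)*t^(4:ℕ) + (5/2)*t^(5:ℕ) + (-143/4)*t^(6:ℕ) + (67/2)*t^(7:ℕ) + (-91/4)*t^(8:ℕ) + 31*t^(9:ℕ) + (-47)*t^(10:ℕ) + 18*t^(11:ℕ)) + (1/729)*((-273/16)*t^(4:ℕ)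 + (405/8)*t^(5:ℕ) + (-1147/16)*t^(6:ℕ) + (405/8)*t^(7:ℕ) + (-273/16)*t^(8:ℕ) + 8*t^(9:ℕ) + (-12)*t^(10:ℕ) + 8*t^(11:ℕ)) + (1/2187)*((-15/2)*t^(4:ℕ) + (91/4)*t^(5:ℕ) + (-129/4)*t^(6:ℕ) + (91/4)*t^(7:ℕ) + (-15/2)*t^(8:ℕ)) + (1/6561)*((-1)*t^(4:ℕ) + 3*t^(5:ℕ) + (-17/4)*t^(6:ℕ) + 3*t^(7:ℕ) + (-1)*t^(8:ℕ)) - (11313/1000) = (4936742147568896/2567805035499)*(1 - t)^(11:ℕ) + (35479247619518765/700310464227)*(t - (9/20))*(1 - t)^(10:ℕ) + (2812120054254221600/6302794178043)*(t - (9/20))^(2:ℕ)*(1 - t)^(9:ℕ) + (39603038038765694500/18908382534129)*(t - (9/20))^(3:ℕ)*(1 - t)^(8:ℕ) + (1049043386222721740000/170175442807161)*(t - (9/20))^(4:ℕ)*(1 - t)^(7:ℕ) + (2083762609766683400000/170175442807161)*(t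 - (9/20))^(5:ℕ)*(1 - t)^(6:ℕ) + (262528691453240000000/15470494800651)*(t - (9/20))^(6:ℕ)*(1 - t)^(5:ℕ) + (937891384568960000000/56725147602387)*(t - (9/20))^(7:ℕ)*(1 - t)^(4:ℕ) + (1897942134064000000000/170175442807161)*(t - (9/20))^(8:ℕ)*(1 - t)^(3:ℕ) + (846860655904000000000/170175442807161)*(t - (9/20))^(9:ℕ)*(1 - t)^(2:ℕ) + (225476354713600000000/170175442807161)*(t - (9/20))^(10:ℕ)*(1 - t) + (299043808153600000000/1871929870878771)*(t - (9/20))^(11:ℕ) := by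
    ring
  rw [e]
  have a3 : 0 ≤ t - (9/20) := by linarith
  have a4 : 0 ≤ 1 - t := by linarith
  generalize t - (9/20) = t1 at a3 ⊢
  generalize 1 - t = t2 at a4 ⊢
  positivity

lemma pos_L1e_B2_id (d : ℝ) (C0 C1 C2 C3 C4 C5 C6 C7 C8 : ℝ) :
    C0 + d*C1 + d^(2:ℕ)*C2 + d^(3:ℕ)*C3 + d^(4:ℕ)*C4 + d^(5:ℕ)*C5 + d^(6:ℕ)*C6 + d^(7:ℕ)*C7 + d^(8:ℕ)*C8 = (11313/1000) + (656100000000*((1/3) - d)^(8:ℕ)*(1*C0 + (3/10)*C1 + (9/100)*C2 + (27/1000)*C3 + (81/10000)*C4 + (243/100000)*C5 + (729/1000000)*C6 + (2187/10000000)*C7 + (6561/100000000)*C8 - (11313/1000)) + 5248800000000*(d - (3/10))*((1/3) - d)^(7:ℕ)*(1*C0 + (73/240)*C1 + (37/400)*C2 + (9/320)*C3 + (171/20000)*C4 + (2079/800000)*C5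 + (3159/4000000)*C6 + (19197/80000000)*C7 + (729/10000000)*C8 - (11313/1000)) + 18370800000000*(d - (3/10))^(2:ℕ)*((1/3) - d)^(6:ℕ)*(1*C0 + (37/120)*C1 + (479/5040)*C2 + (41/1400)*C3 + (1263/140000)*C4 + (7779/2800000)*C5 + (23949/28000000)*C6 + (1053/4000000)*C7 + (81/1000000)*C8 - (11313/1000)) + 36741600000000*(d - (3/10))^(3:ℕ)*((1/3) - d)^(5:ℕ)*(1*C0 + (5/16)*C1 + (41/420)*C2 + (4609/151200)*C3 + (11989/1260000)*C4 + (49879/16800000)*C5 + (2593/2800000)*C6 + (231/800000)*C7 + (9/100000)*C8 - (11313/1000)) + 45927000000000*(d - (3/10))^(4:ℕ)*((1/3) - d)^(4:ℕ)*(1*C0 + (19/60)*C1 + (421/4200)*C2 + (11989/378000)*C3 + (568801/56700000)*C4 + (11989/3780000)*C5 + (421/420000)*C6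 + (19/60000)*C7 + (1/10000)*C8 - (11313/1000)) + 36741600000000*(d - (3/10))^(5:ℕ)*((1/3) - d)^(3:ℕ)*(1*C0 + (77/240)*C1 + (2593/25200)*C2 + (49879/1512000)*C3 + (11989/1134000)*C4 + (4609/1360800)*C5 + (41/37800)*C6 + (1/2880)*C7 + (1/9000)*C8 - (11313/1000)) + 18370800000000*(d - (3/10))^(6:ℕ)*((1/3) - d)^(2:ℕ)*(1*C0 + (13/40)*C1 + (887/8400)*C2 + (2593/75600)*C3 + (421/37800)*C4 + (41/11340)*C5 + (479/408240)*C6 + (37/97200)*C7 + (1/8100)*C8 - (11313/1000)) + 5248800000000*(d - (3/10))^(7:ℕ)*((1/3) - d)*(1*C0 + (79/240)*C1 + (13/120)*C2 + (77/2160)*C3 + (19/1620)*C4 + (5/1296)*C5 + (37/29160)*C6 + (73/174960)*C7 + (1/7290)*C8 - (11313/1000)) + 656100000000*(d - (3/10))^(8:ℕ)*(1*C0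 + (1/3)*C1 + (1/9)*C2 + (1/27)*C3 + (1/81)*C4 + (1/243)*C5 + (1/729)*C6 + (1/2187)*C7 + (1/6561)*C8 - (11313/1000))) := by
  ring

lemma pos_L1e_B2_gen (d1 d2 B0 B1 B2 B3 B4 B5 B6 B7 B8 : ℝ) (a1 : 0 ≤ d1) (a2 : 0 ≤ d2) (b0 : 0 ≤ B0) (b1 : 0 ≤ B1) (b2 : 0 ≤ B2) (b3 : 0 ≤ B3) (b4 : 0 ≤ B4) (b5 : 0 ≤ B5) (b6 : 0 ≤ B6) (b7 : 0 ≤ B7) (b8 : 0 ≤ B8) :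
    0 < (11313/1000) + (656100000000*d2^(8:ℕ)*(B0) + 5248800000000*d1*d2^(7:ℕ)*(B1) + 18370800000000*d1^(2:ℕ)*d2^(6:ℕ)*(B2) + 36741600000000*d1^(3:ℕ)*d2^(5:ℕ)*(B3) + 45927000000000*d1^(4:ℕ)*d2^(4:ℕ)*(B4) + 36741600000000*d1^(5:ℕ)*d2^(3:ℕ)*(B5) + 18370800000000*d1^(6:ℕ)*d2^(2:ℕ)*(B6) + 5248800000000*d1^(7:ℕ)*d2*(B7) + 656100000000*d1^(8:ℕ)*(B8)) := by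
  positivity

lemma pos_L1e_B2_core (d C0 C1 C2 C3 C4 C5 C6 C7 C8 : ℝ) (h1 : (3/10) ≤ d) (h2 : d ≤ (1/3))
    (b0 : 0 ≤ 1*C0 + (3/10)*C1 + (9/100)*C2 + (27/1000)*C3 + (81/10000)*C4 + (243/100000)*C5 + (729/1000000)*C6 + (2187/10000000)*C7 + (6561/100000000)*C8 - (11313/1000))
    (b1 : 0 ≤ 1*C0 + (73/240)*C1 + (37/400)*C2 + (9/320)*C3 + (171/20000)*C4 + (2079/800000)*C5 + (3159/4000000)*C6 + (19197/80000000)*C7 + (729/10000000)*C8 - (11313/1000))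
    (b2 : 0 ≤ 1*C0 + (37/120)*C1 + (479/5040)*C2 + (41/1400)*C3 + (1263/140000)*C4 + (7779/2800000)*C5 + (23949/28000000)*C6 + (1053/4000000)*C7 + (81/1000000)*C8 - (11313/1000))
    (b3 : 0 ≤ 1*C0 + (5/16)*C1 + (41/420)*C2 + (4609/151200)*C3 + (11989/1260000)*C4 + (49879/16800000)*C5 + (2593/2800000)*C6 + (231/800000)*C7 + (9/100000)*C8 - (11313/1000))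
    (b4 : 0 ≤ 1*C0 + (19/60)*C1 + (421/4200)*C2 + (11989/378000)*C3 + (568801/56700000)*C4 + (11989/3780000)*C5 + (421/420000)*C6 + (19/60000)*C7 + (1/10000)*C8 - (11313/1000))
    (b5 : 0 ≤ 1*C0 + (77/240)*C1 + (2593/25200)*C2 + (49879/1512000)*C3 + (11989/1134000)*C4 + (4609/1360800)*C5 + (41/37800)*C6 + (1/2880)*C7 + (1/9000)*C8 - (11313/1000))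
    (b6 : 0 ≤ 1*C0 + (13/40)*C1 + (887/8400)*C2 + (2593/75600)*C3 + (421/37800)*C4 + (41/11340)*C5 + (479/408240)*C6 + (37/97200)*C7 + (1/8100)*C8 - (11313/1000))
    (b7 : 0 ≤ 1*C0 + (79/240)*C1 + (13/120)*C2 + (77/2160)*C3 + (19/1620)*C4 + (5/1296)*C5 + (37/29160)*C6 + (73/174960)*C7 + (1/7290)*C8 - (11313/1000))
    (b8 : 0 ≤ 1*C0 + (1/3)*C1 + (1/9)*C2 + (1/27)*C3 + (1/81)*C4 + (1/243)*C5 + (1/729)*C6 + (1/2187)*C7 + (1/6561)*C8 - (11313/1000)) :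
    0 < C0 + d*C1 + d^(2:ℕ)*C2 + d^(3:ℕ)*C3 + d^(4:ℕ)*C4 + d^(5:ℕ)*C5 + d^(6:ℕ)*C6 + d^(7:ℕ)*C7 + d^(8:ℕ)*C8 := by
  rw [pos_L1e_B2_id]
  exact pos_L1e_B2_gen _ _ _ _ _ _ _ _ _ _ _ (sub_nonneg.2 h1) (sub_nonneg.2 h2) b0 b1 b2 b3 b4 b5 b6 b7 b8

lemma pos_L1e_B2 (d t : ℝ) (h1 : (3/10) ≤ d) (h2 : d ≤ (1/3)) (h3 : (9/20) ≤ t) (h4 : t ≤ 1) :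
    0 < 1 + 1*t + 5*t^(2:ℕ) + 5*t^(3:ℕ) + 10*t^(4:ℕ) + 10*t^(5:ℕ) + 10*t^(6:ℕ) + 10*t^(7:ℕ) + 5*t^(8:ℕ) + 5*t^(9:ℕ) + 1*t^(10:ℕ) + 1*t^(11:ℕ) + (9/2)*d + (5/2)*d*t + (67/2)*d*t^(2:ℕ) + (53/2)*d*t^(3:ℕ) + 93*d*t^(4:ℕ) + 40*d*t^(5:ℕ) + 94*d*t^(6:ℕ) + 13*d*t^(7:ℕ) + (73/2)*d*t^(8:ℕ) + (-1/2)*d*t^(9:ℕ) + (13/2)*d*t^(10:ℕ) + (5/2)*d*t^(11:ℕ) + 1*d^(2:ℕ) + (-1)*d^(2:ℕ)*t + 47*d^(2:ℕ)*t^(2:ℕ) + (113/2)*d^(2:ℕ)*t^(3:ℕ) + (429/2)*d^(2:ℕ)*t^(4:ℕ) + (81/2)*d^(2:ℕ)*t^(5:ℕ) + (387/2)*d^(2:ℕ)*t^(6:ℕ) + (-157/2)*d^(2:ℕ)*t^(7:ℕ) + (53/2)*d^(2:ℕ)*t^(8:ℕ) + (-139/2)*d^(2:ℕ)*t^(9:ℕ) + (3/2)*d^(2:ℕ)*t^(10:ℕ) + (-8)*d^(2:ℕ)*t^(11:ℕ) + (181/4)*d^(3:ℕ)*t^(2:ℕ) + (-81/4)*d^(3:ℕ)*t^(3:ℕ) + (987/4)*d^(3:ℕ)*t^(4:ℕ)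 + (-121)*d^(3:ℕ)*t^(5:ℕ) + (387/2)*d^(3:ℕ)*t^(6:ℕ) + (-447/4)*d^(3:ℕ)*t^(7:ℕ) + (-113/4)*d^(3:ℕ)*t^(8:ℕ) + (-39/2)*d^(3:ℕ)*t^(9:ℕ) + (-81/4)*d^(3:ℕ)*t^(10:ℕ) + (-17/2)*d^(3:ℕ)*t^(11:ℕ) + (83/2)*d^(4:ℕ)*t^(2:ℕ) + (-237/4)*d^(4:ℕ)*t^(3:ℕ) + 137*d^(4:ℕ)*t^(4:ℕ) + (-531/4)*d^(4:ℕ)*t^(5:ℕ) + (329/4)*d^(4:ℕ)*t^(6:ℕ) + (-155/4)*d^(4:ℕ)*t^(7:ℕ) + (-39)*d^(4:ℕ)*t^(8:ℕ) + (147/4)*d^(4:ℕ)*t^(9:ℕ) + (-56)*d^(4:ℕ)*t^(10:ℕ) + 2*d^(4:ℕ)*t^(11:ℕ) + 14*d^(5:ℕ)*t^(2:ℕ) + (-18)*d^(5:ℕ)*t^(3:ℕ) + (69/4)*d^(5:ℕ)*t^(4:ℕ) + (5/2)*d^(5:ℕ)*t^(5:ℕ) + (-143/4)*d^(5:ℕ)*t^(6:ℕ) + (67/2)*d^(5:ℕ)*t^(7:ℕ) + (-91/4)*d^(5:ℕ)*t^(8:ℕ) + 31*d^(5:ℕ)*t^(9:ℕ) + (-47)*d^(5:ℕ)*t^(10:ℕ) + 18*d^(5:ℕ)*t^(11:ℕ) + (-273/16)*d^(6:ℕ)*t^(4:ℕ)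 + (405/8)*d^(6:ℕ)*t^(5:ℕ) + (-1147/16)*d^(6:ℕ)*t^(6:ℕ) + (405/8)*d^(6:ℕ)*t^(7:ℕ) + (-273/16)*d^(6:ℕ)*t^(8:ℕ) + 8*d^(6:ℕ)*t^(9:ℕ) + (-12)*d^(6:ℕ)*t^(10:ℕ) + 8*d^(6:ℕ)*t^(11:ℕ) + (-15/2)*d^(7:ℕ)*t^(4:ℕ) + (91/4)*d^(7:ℕ)*t^(5:ℕ) + (-129/4)*d^(7:ℕ)*t^(6:ℕ) + (91/4)*d^(7:ℕ)*t^(7:ℕ) + (-15/2)*d^(7:ℕ)*t^(8:ℕ) + (-1)*d^(8:ℕ)*t^(4:ℕ) + 3*d^(8:ℕ)*t^(5:ℕ) + (-17/4)*d^(8:ℕ)*t^(6:ℕ) + 3*d^(8:ℕ)*t^(7:ℕ) + (-1)*d^(8:ℕ)*t^(8:ℕ) := by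
  have e0 : 1 + 1*t + 5*t^(2:ℕ) + 5*t^(3:ℕ) + 10*t^(4:ℕ) + 10*t^(5:ℕ) + 10*t^(6:ℕ) + 10*t^(7:ℕ) + 5*t^(8:ℕ) + 5*t^(9:ℕ) + 1*t^(10:ℕ) + 1*t^(11:ℕ) + (9/2)*d + (5/2)*d*t + (67/2)*d*t^(2:ℕ) + (53/2)*d*t^(3:ℕ) + 93*d*t^(4:ℕ) + 40*d*t^(5:ℕ) + 94*d*t^(6:ℕ) + 13*d*t^(7:ℕ) + (73/2)*d*t^(8:ℕ) + (-1/2)*d*t^(9:ℕ) + (13/2)*d*t^(10:ℕ) + (5/2)*d*t^(11:ℕ) + 1*d^(2:ℕ) + (-1)*d^(2:ℕ)*t + 47*d^(2:ℕ)*t^(2:ℕ) + (113/2)*d^(2:ℕ)*t^(3:ℕ) + (429/2)*d^(2:ℕ)*t^(4:ℕ) + (81/2)*d^(2:ℕ)*t^(5:ℕ) + (387/2)*d^(2:ℕ)*t^(6:ℕ) + (-157/2)*d^(2:ℕ)*t^(7:ℕ) + (53/2)*d^(2:ℕ)*t^(8:ℕ) + (-139/2)*d^(2:ℕ)*t^(9:ℕ) + (3/2)*d^(2:ℕ)*t^(10:ℕ) + (-8)*d^(2:ℕ)*t^(11:ℕ) + (181/4)*d^(3:ℕ)*t^(2:ℕ) + (-81/4)*d^(3:ℕ)*t^(3:ℕ) + (987/4)*d^(3:ℕ)*t^(4:ℕ)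 + (-121)*d^(3:ℕ)*t^(5:ℕ) + (387/2)*d^(3:ℕ)*t^(6:ℕ) + (-447/4)*d^(3:ℕ)*t^(7:ℕ) + (-113/4)*d^(3:ℕ)*t^(8:ℕ) + (-39/2)*d^(3:ℕ)*t^(9:ℕ) + (-81/4)*d^(3:ℕ)*t^(10:ℕ) + (-17/2)*d^(3:ℕ)*t^(11:ℕ) + (83/2)*d^(4:ℕ)*t^(2:ℕ) + (-237/4)*d^(4:ℕ)*t^(3:ℕ) + 137*d^(4:ℕ)*t^(4:ℕ) + (-531/4)*d^(4:ℕ)*t^(5:ℕ) + (329/4)*d^(4:ℕ)*t^(6:ℕ) + (-155/4)*d^(4:ℕ)*t^(7:ℕ) + (-39)*d^(4:ℕ)*t^(8:ℕ) + (147/4)*d^(4:ℕ)*t^(9:ℕ) + (-56)*d^(4:ℕ)*t^(10:ℕ) + 2*d^(4:ℕ)*t^(11:ℕ) + 14*d^(5:ℕ)*t^(2:ℕ) + (-18)*d^(5:ℕ)*t^(3:ℕ) + (69/4)*d^(5:ℕ)*t^(4:ℕ) + (5/2)*d^(5:ℕ)*t^(5:ℕ) + (-143/4)*d^(5:ℕ)*t^(6:ℕ) + (67/2)*d^(5:ℕ)*t^(7:ℕ) + (-91/4)*d^(5:ℕ)*t^(8:ℕ) + 31*d^(5:ℕ)*t^(9:ℕ) + (-47)*d^(5:ℕ)*t^(10:ℕ) + 18*d^(5:ℕ)*t^(11:ℕ) + (-273/16)*d^(6:ℕ)*t^(4:ℕ)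 + (405/8)*d^(6:ℕ)*t^(5:ℕ) + (-1147/16)*d^(6:ℕ)*t^(6:ℕ) + (405/8)*d^(6:ℕ)*t^(7:ℕ) + (-273/16)*d^(6:ℕ)*t^(8:ℕ) + 8*d^(6:ℕ)*t^(9:ℕ) + (-12)*d^(6:ℕ)*t^(10:ℕ) + 8*d^(6:ℕ)*t^(11:ℕ) + (-15/2)*d^(7:ℕ)*t^(4:ℕ) + (91/4)*d^(7:ℕ)*t^(5:ℕ) + (-129/4)*d^(7:ℕ)*t^(6:ℕ) + (91/4)*d^(7:ℕ)*t^(7:ℕ) + (-15/2)*d^(7:ℕ)*t^(8:ℕ) + (-1)*d^(8:ℕ)*t^(4:ℕ) + 3*d^(8:ℕ)*t^(5:ℕ) + (-17/4)*d^(8:ℕ)*t^(6:ℕ) + 3*d^(8:ℕ)*t^(7:ℕ) + (-1)*d^(8:ℕ)*t^(8:ℕ) = (1 + 1*t + 5*t^(2:ℕ) + 5*t^(3:ℕ) + 10*t^(4:ℕ) + 10*t^(5:ℕ) + 10*t^(6:ℕ) + 10*t^(7:ℕ) + 5*t^(8:ℕ) + 5*t^(9:ℕ) + 1*t^(10:ℕ) + 1*t^(11:ℕ)) + d*((9/2) + (5/2)*t + (67/2)*t^(2:ℕ) + (53/2)*t^(3:ℕ) + 93*t^(4:ℕ) + 40*t^(5:ℕ) + 94*t^(6:ℕ) + 13*t^(7:ℕ) + (73/2)*t^(8:ℕ) +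 (-1/2)*t^(9:ℕ) + (13/2)*t^(10:ℕ) + (5/2)*t^(11:ℕ)) + d^(2:ℕ)*(1 + (-1)*t + 47*t^(2:ℕ) + (113/2)*t^(3:ℕ) + (429/2)*t^(4:ℕ) + (81/2)*t^(5:ℕ) + (387/2)*t^(6:ℕ) + (-157/2)*t^(7:ℕ) + (53/2)*t^(8:ℕ) + (-139/2)*t^(9:ℕ) + (3/2)*t^(10:ℕ) + (-8)*t^(11:ℕ)) + d^(3:ℕ)*((181/4)*t^(2:ℕ) + (-81/4)*t^(3:ℕ) + (987/4)*t^(4:ℕ) + (-121)*t^(5:ℕ) + (387/2)*t^(6:ℕ) + (-447/4)*t^(7:ℕ) + (-113/4)*t^(8:ℕ) + (-39/2)*t^(9:ℕ) + (-81/4)*t^(10:ℕ) + (-17/2)*t^(11:ℕ)) + d^(4:ℕ)*((83/2)*t^(2:ℕ) + (-237/4)*t^(3:ℕ) + 137*t^(4:ℕ) + (-531/4)*t^(5:ℕ) + (329/4)*t^(6:ℕ) + (-155/4)*t^(7:ℕ) + (-39)*t^(8:ℕ) + (147/4)*t^(9:ℕ) + (-56)*t^(10:ℕ) + 2*t^(11:ℕ)) + d^(5:ℕ)*(14*t^(2:ℕ) + (-18)*t^(3:ℕ) + (69/4)*t^(4:ℕ) + (5/2)*t^(5:ℕ)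 + (-143/4)*t^(6:ℕ) + (67/2)*t^(7:ℕ) + (-91/4)*t^(8:ℕ) + 31*t^(9:ℕ) + (-47)*t^(10:ℕ) + 18*t^(11:ℕ)) + d^(6:ℕ)*((-273/16)*t^(4:ℕ) + (405/8)*t^(5:ℕ) + (-1147/16)*t^(6:ℕ) + (405/8)*t^(7:ℕ) + (-273/16)*t^(8:ℕ) + 8*t^(9:ℕ) + (-12)*t^(10:ℕ) + 8*t^(11:ℕ)) + d^(7:ℕ)*((-15/2)*t^(4:ℕ) + (91/4)*t^(5:ℕ) + (-129/4)*t^(6:ℕ) + (91/4)*t^(7:ℕ) + (-15/2)*t^(8:ℕ)) + d^(8:ℕ)*((-1)*t^(4:ℕ) + 3*t^(5:ℕ) + (-17/4)*t^(6:ℕ) + 3*t^(7:ℕ) + (-1)*t^(8:ℕ)) := by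
    ring
  rw [e0]
  exact pos_L1e_B2_core d _ _ _ _ _ _ _ _ _ h1 h2 (pos_L1e_B2_b0 t h3 h4) (pos_L1e_B2_b1 t h3 h4) (pos_L1e_B2_b2 t h3 h4) (pos_L1e_B2_b3 t h3 h4) (pos_L1e_B2_b4 t h3 h4) (pos_L1e_B2_b5 t h3 h4) (pos_L1e_B2_b6 t h3 h4) (pos_L1e_B2_b7 t h3 h4) (pos_L1e_B2_b8 t h3 h4)

lemma pos_L2e_B2_b0 (t : ℝ) (h3 : (9/20) ≤ t) (h4 : t ≤ 1) :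
    0 ≤ 1*(1 + (13/2)*t^(2:ℕ) + 16*t^(4:ℕ) + 19*t^(6:ℕ) + 11*t^(8:ℕ) + (5/2)*t^(10:ℕ)) + (3/10)*((5/2) + (-1/2)*t + 8*t^(2:ℕ) + (5/2)*t^(3:ℕ) + 50*t^(4:ℕ) + 25*t^(5:ℕ) + 100*t^(6:ℕ) + 20*t^(7:ℕ) + (139/2)*t^(8:ℕ) + (-13/2)*t^(9:ℕ) + 14*t^(10:ℕ) + (-9/2)*t^(11:ℕ)) + (9/100)*((-7) + (-37/4)*t + (-469/8)*t^(2:ℕ) + (-159/4)*t^(3:ℕ) + (-14)*t^(4:ℕ) + 40*t^(5:ℕ) + (691/4)*t^(6:ℕ) + 32*t^(7:ℕ) + 166*t^(8:ℕ) + (-275/4)*t^(9:ℕ) + (247/8)*t^(10:ℕ) + (-121/4)*t^(11:ℕ)) + (27/1000)*((-4) + (-4)*t + (-20)*t^(2:ℕ) + (-56)*t^(3:ℕ) + (-67)*t^(4:ℕ) + (165/4)*t^(5:ℕ) + (125/4)*t^(6:ℕ) + 35*t^(7:ℕ) + (251/2)*t^(8:ℕ) + (-455/4)*t^(9:ℕ) + (173/4)*t^(10:ℕ) + (-111/2)*t^(11:ℕ)) + (81/10000)*((83/4)*t^(2:ℕ)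 + (-5/4)*t^(3:ℕ) + (-51/4)*t^(4:ℕ) + (-21/4)*t^(5:ℕ) + (-27/4)*t^(6:ℕ) + (25/4)*t^(7:ℕ) + (243/4)*t^(8:ℕ) + (-70)*t^(9:ℕ) + 34*t^(10:ℕ) + (-50)*t^(11:ℕ)) + (243/100000)*((-8)*t^(2:ℕ) + (119/4)*t^(3:ℕ) + 1*t^(4:ℕ) + (-18)*t^(5:ℕ) + (11/2)*t^(6:ℕ) + (23/4)*t^(7:ℕ) + (39/2)*t^(8:ℕ) + (-115/4)*t^(9:ℕ) + 23*t^(10:ℕ) + (-19)*t^(11:ℕ)) + (729/1000000)*((-8)*t^(2:ℕ) + (167/16)*t^(3:ℕ) + (-3)*t^(4:ℕ) + (1/8)*t^(5:ℕ) + (-127/8)*t^(6:ℕ) + (315/16)*t^(7:ℕ) + (31/8)*t^(8:ℕ) + (-445/16)*t^(9:ℕ) + (99/4)*t^(10:ℕ) + (-33/4)*t^(11:ℕ)) + (2187/10000000)*((5/2)*t^(5:ℕ) + (-31/4)*t^(6:ℕ) + 6*t^(7:ℕ) + (29/4)*t^(8:ℕ) + (-75/4)*t^(9:ℕ) + 15*t^(10:ℕ) + (-5)*t^(11:ℕ)) + (6561/100000000)*((-1)*t^(7:ℕ)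 + 3*t^(8:ℕ) + (-17/4)*t^(9:ℕ) + 3*t^(10:ℕ) + (-1)*t^(11:ℕ)) - (1077/500) := by
  have e : 1*(1 + (13/2)*t^(2:ℕ) + 16*t^(4:ℕ) + 19*t^(6:ℕ) + 11*t^(8:ℕ) + (5/2)*t^(10:ℕ)) + (3/10)*((5/2) + (-1/2)*t + 8*t^(2:ℕ) + (5/2)*t^(3:ℕ) + 50*t^(4:ℕ) + 25*t^(5:ℕ) + 100*t^(6:ℕ) + 20*t^(7:ℕ) + (139/2)*t^(8:ℕ) + (-13/2)*t^(9:ℕ) + 14*t^(10:ℕ) + (-9/2)*t^(11:ℕ)) + (9/100)*((-7) + (-37/4)*t + (-469/8)*t^(2:ℕ) + (-159/4)*t^(3:ℕ) + (-14)*t^(4:ℕ) + 40*t^(5:ℕ) + (691/4)*t^(6:ℕ) + 32*t^(7:ℕ) + 166*t^(8:ℕ) + (-275/4)*t^(9:ℕ) + (247/8)*t^(10:ℕ) + (-121/4)*t^(11:ℕ)) + (27/1000)*((-4) + (-4)*t + (-20)*t^(2:ℕ) + (-56)*t^(3:ℕ) + (-67)*t^(4:ℕ) + (165/4)*t^(5:ℕ) + (125/4)*t^(6:ℕ) + 35*t^(7:ℕ) + (251/2)*t^(8:ℕ)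 + (-455/4)*t^(9:ℕ) + (173/4)*t^(10:ℕ) + (-111/2)*t^(11:ℕ)) + (81/10000)*((83/4)*t^(2:ℕ) + (-5/4)*t^(3:ℕ) + (-51/4)*t^(4:ℕ) + (-21/4)*t^(5:ℕ) + (-27/4)*t^(6:ℕ) + (25/4)*t^(7:ℕ) + (243/4)*t^(8:ℕ) + (-70)*t^(9:ℕ) + 34*t^(10:ℕ) + (-50)*t^(11:ℕ)) + (243/100000)*((-8)*t^(2:ℕ) + (119/4)*t^(3:ℕ) + 1*t^(4:ℕ) + (-18)*t^(5:ℕ) + (11/2)*t^(6:ℕ) + (23/4)*t^(7:ℕ) + (39/2)*t^(8:ℕ) + (-115/4)*t^(9:ℕ) + 23*t^(10:ℕ) + (-19)*t^(11:ℕ)) + (729/1000000)*((-8)*t^(2:ℕ) + (167/16)*t^(3:ℕ) + (-3)*t^(4:ℕ) + (1/8)*t^(5:ℕ) + (-127/8)*t^(6:ℕ) + (315/16)*t^(7:ℕ) + (31/8)*t^(8:ℕ) + (-445/16)*t^(9:ℕ) + (99/4)*t^(10:ℕ) + (-33/4)*t^(11:ℕ)) + (2187/10000000)*((5/2)*t^(5:ℕ) + (-31/4)*t^(6:ℕ) + 6*t^(7:ℕ) + (29/4)*t^(8:ℕ)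 + (-75/4)*t^(9:ℕ) + 15*t^(10:ℕ) + (-5)*t^(11:ℕ)) + (6561/100000000)*((-1)*t^(7:ℕ) + 3*t^(8:ℕ) + (-17/4)*t^(9:ℕ) + 3*t^(10:ℕ) + (-1)*t^(11:ℕ)) - (1077/500) = (52414017677133956081/111449871332421875)*(1 - t)^(11:ℕ) + (27327914374288714258/2026361296953125)*(t - (9/20))*(1 - t)^(10:ℕ) + (52720424244666059358/405272259390625)*(t - (9/20))^(2:ℕ)*(1 - t)^(9:ℕ) + (54426522689524392879/81054451878125)*(t - (9/20))^(3:ℕ)*(1 - t)^(8:ℕ) + (2569145229420983731/1178973845500)*(t - (9/20))^(4:ℕ)*(1 - t)^(7:ℕ) + (15502162255353001787/3242178075125)*(t - (9/20))^(5:ℕ)*(1 - t)^(6:ℕ) + (4750782747087166732/648435615025)*(t - (9/20))^(6:ℕ)*(1 - t)^(5:ℕ) + (1023656324549080208/129687123005)*(t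 - (9/20))^(7:ℕ)*(1 - t)^(4:ℕ) + (152579264792513024/25937424601)*(t - (9/20))^(8:ℕ)*(1 - t)^(3:ℕ) + (75082632417766400/25937424601)*(t - (9/20))^(9:ℕ)*(1 - t)^(2:ℕ) + (21979241726054400/25937424601)*(t - (9/20))^(10:ℕ)*(1 - t) + (31896484968448000/285311670611)*(t - (9/20))^(11:ℕ) := by
    ring
  rw [e]
  have a3 : 0 ≤ t - (9/20) := by linarith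
  have a4 : 0 ≤ 1 - t := by linarith
  generalize t - (9/20) = t1 at a3 ⊢
  generalize 1 - t = t2 at a4 ⊢
  positivity

lemma pos_L2e_B2_b1 (t : ℝ) (h3 : (9/20) ≤ t) (h4 : t ≤ 1) :
    0 ≤ 1*(1 + (13/2)*t^(2:ℕ) + 16*t^(4:ℕ) + 19*t^(6:ℕ) + 11*t^(8:ℕ) + (5/2)*t^(10:ℕ)) + (73/240)*((5/2) + (-1/2)*t + 8*t^(2:ℕ) + (5/2)*t^(3:ℕ) + 50*t^(4:ℕ) + 25*t^(5:ℕ) + 100*t^(6:ℕ) + 20*t^(7:ℕ) + (139/2)*t^(8:ℕ) + (-13/2)*t^(9:ℕ) + 14*t^(10:ℕ) + (-9/2)*t^(11:ℕ)) + (37/400)*((-7) + (-37/4)*t + (-469/8)*t^(2:ℕ) + (-159/4)*t^(3:ℕ) + (-14)*t^(4:ℕ) + 40*t^(5:ℕ) + (691/4)*t^(6:ℕ) + 32*t^(7:ℕ) + 166*t^(8:ℕ) + (-275/4)*t^(9:ℕ) + (247/8)*t^(10:ℕ) + (-121/4)*t^(11:ℕ)) + (9/320)*((-4) + (-4)*t + (-20)*t^(2:ℕ)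 + (-56)*t^(3:ℕ) + (-67)*t^(4:ℕ) + (165/4)*t^(5:ℕ) + (125/4)*t^(6:ℕ) + 35*t^(7:ℕ) + (251/2)*t^(8:ℕ) + (-455/4)*t^(9:ℕ) + (173/4)*t^(10:ℕ) + (-111/2)*t^(11:ℕ)) + (171/20000)*((83/4)*t^(2:ℕ) + (-5/4)*t^(3:ℕ) + (-51/4)*t^(4:ℕ) + (-21/4)*t^(5:ℕ) + (-27/4)*t^(6:ℕ) + (25/4)*t^(7:ℕ) + (243/4)*t^(8:ℕ) + (-70)*t^(9:ℕ) + 34*t^(10:ℕ) + (-50)*t^(11:ℕ)) + (2079/800000)*((-8)*t^(2:ℕ) + (119/4)*t^(3:ℕ) + 1*t^(4:ℕ) + (-18)*t^(5:ℕ) + (11/2)*t^(6:ℕ) + (23/4)*t^(7:ℕ) + (39/2)*t^(8:ℕ) + (-115/4)*t^(9:ℕ) + 23*t^(10:ℕ) + (-19)*t^(11:ℕ)) + (3159/4000000)*((-8)*t^(2:ℕ) + (167/16)*t^(3:ℕ) + (-3)*t^(4:ℕ) + (1/8)*t^(5:ℕ) + (-127/8)*t^(6:ℕ) + (315/16)*t^(7:ℕ) + (31/8)*t^(8:ℕ) + (-445/16)*t^(9:ℕ) + (99/4)*t^(10:ℕ)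 + (-33/4)*t^(11:ℕ)) + (19197/80000000)*((5/2)*t^(5:ℕ) + (-31/4)*t^(6:ℕ) + 6*t^(7:ℕ) + (29/4)*t^(8:ℕ) + (-75/4)*t^(9:ℕ) + 15*t^(10:ℕ) + (-5)*t^(11:ℕ)) + (729/10000000)*((-1)*t^(7:ℕ) + 3*t^(8:ℕ) + (-17/4)*t^(9:ℕ) + 3*t^(10:ℕ) + (-1)*t^(11:ℕ)) - (1077/500) := by
  have e : 1*(1 + (13/2)*t^(2:ℕ) + 16*t^(4:ℕ) + 19*t^(6:ℕ) + 11*t^(8:ℕ) + (5/2)*t^(10:ℕ)) + (73/240)*((5/2) + (-1/2)*t + 8*t^(2:ℕ) + (5/2)*t^(3:ℕ) + 50*t^(4:ℕ) + 25*t^(5:ℕ) + 100*t^(6:ℕ) + 20*t^(7:ℕ) + (139/2)*t^(8:ℕ) + (-13/2)*t^(9:ℕ) + 14*t^(10:ℕ) + (-9/2)*t^(11:ℕ)) + (37/400)*((-7) + (-37/4)*t + (-469/8)*t^(2:ℕ) + (-159/4)*t^(3:ℕ) + (-14)*t^(4:ℕ) + 40*t^(5:ℕ) + (691/4)*t^(6:ℕ) + 32*t^(7:ℕ) + 166*t^(8:ℕ) + (-275/4)*t^(9:ℕ)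 + (247/8)*t^(10:ℕ) + (-121/4)*t^(11:ℕ)) + (9/320)*((-4) + (-4)*t + (-20)*t^(2:ℕ) + (-56)*t^(3:ℕ) + (-67)*t^(4:ℕ) + (165/4)*t^(5:ℕ) + (125/4)*t^(6:ℕ) + 35*t^(7:ℕ) + (251/2)*t^(8:ℕ) + (-455/4)*t^(9:ℕ) + (173/4)*t^(10:ℕ) + (-111/2)*t^(11:ℕ)) + (171/20000)*((83/4)*t^(2:ℕ) + (-5/4)*t^(3:ℕ) + (-51/4)*t^(4:ℕ) + (-21/4)*t^(5:ℕ) + (-27/4)*t^(6:ℕ) + (25/4)*t^(7:ℕ) + (243/4)*t^(8:ℕ) + (-70)*t^(9:ℕ) + 34*t^(10:ℕ) + (-50)*t^(11:ℕ)) + (2079/800000)*((-8)*t^(2:ℕ) + (119/4)*t^(3:ℕ) + 1*t^(4:ℕ) + (-18)*t^(5:ℕ) + (11/2)*t^(6:ℕ) + (23/4)*t^(7:ℕ) + (39/2)*t^(8:ℕ) + (-115/4)*t^(9:ℕ) + 23*t^(10:ℕ) + (-19)*t^(11:ℕ)) + (3159/4000000)*((-8)*t^(2:ℕ) + (167/16)*t^(3:ℕ) + (-3)*t^(4:ℕ) + (1/8)*t^(5:ℕ)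 + (-127/8)*t^(6:ℕ) + (315/16)*t^(7:ℕ) + (31/8)*t^(8:ℕ) + (-445/16)*t^(9:ℕ) + (99/4)*t^(10:ℕ) + (-33/4)*t^(11:ℕ)) + (19197/80000000)*((5/2)*t^(5:ℕ) + (-31/4)*t^(6:ℕ) + 6*t^(7:ℕ) + (29/4)*t^(8:ℕ) + (-75/4)*t^(9:ℕ) + 15*t^(10:ℕ) + (-5)*t^(11:ℕ)) + (729/10000000)*((-1)*t^(7:ℕ) + 3*t^(8:ℕ) + (-17/4)*t^(9:ℕ) + 3*t^(10:ℕ) + (-1)*t^(11:ℕ)) - (1077/500) = (1869335006839995526241/4279675059165000000)*(1 - t)^(11:ℕ) + (340041755154365267771/25937424601000000)*(t - (9/20))*(1 - t)^(10:ℕ) + (3994571522981795260361/31124909521200000)*(t - (9/20))^(2:ℕ)*(1 - t)^(9:ℕ) + (2077689878625546498833/3112490952120000)*(t - (9/20))^(3:ℕ)*(1 - t)^(8:ℕ) + (338751455867035920409/155624547606000)*(t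 - (9/20))^(4:ℕ)*(1 - t)^(7:ℕ) + (18644175229131655693/3890613690150)*(t - (9/20))^(5:ℕ)*(1 - t)^(6:ℕ) + (954636913025136977/129687123005)*(t - (9/20))^(6:ℕ)*(1 - t)^(5:ℕ) + (206084834216669304/25937424601)*(t - (9/20))^(7:ℕ)*(1 - t)^(4:ℕ) + (461434005396354560/77812273803)*(t - (9/20))^(8:ℕ)*(1 - t)^(3:ℕ) + (227318440491233600/77812273803)*(t - (9/20))^(9:ℕ)*(1 - t)^(2:ℕ) + (22199268302400000/25937424601)*(t - (9/20))^(10:ℕ)*(1 - t) + (96698793475840000/855935011833)*(t - (9/20))^(11:ℕ) := by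
    ring
  rw [e]
  have a3 : 0 ≤ t - (9/20) := by linarith
  have a4 : 0 ≤ 1 - t := by linarith
  generalize t - (9/20) = t1 at a3 ⊢
  generalize 1 - t = t2 at a4 ⊢
  positivity

lemma pos_L2e_B2_b2 (t : ℝ) (h3 : (9/20) ≤ t) (h4 : t ≤ 1) :
    0 ≤ 1*(1 + (13/2)*t^(2:ℕ) + 16*t^(4:ℕ) + 19*t^(6:ℕ) + 11*t^(8:ℕ) + (5/2)*t^(10:ℕ)) + (37/120)*((5/2) + (-1/2)*t + 8*t^(2:ℕ) + (5/2)*t^(3:ℕ) + 50*t^(4:ℕ) + 25*t^(5:ℕ) + 100*t^(6:ℕ) + 20*t^(7:ℕ) + (139/2)*t^(8:ℕ) + (-13/2)*t^(9:ℕ) + 14*t^(10:ℕ) + (-9/2)*t^(11:ℕ)) + (479/5040)*((-7) + (-37/4)*t + (-469/8)*t^(2:ℕ) + (-159/4)*t^(3:ℕ) + (-14)*t^(4:ℕ) + 40*t^(5:ℕ) + (691/4)*t^(6:ℕ) + 32*t^(7:ℕ) + 166*t^(8:ℕ) + (-275/4)*t^(9:ℕ) + (247/8)*t^(10:ℕ)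 + (-121/4)*t^(11:ℕ)) + (41/1400)*((-4) + (-4)*t + (-20)*t^(2:ℕ) + (-56)*t^(3:ℕ) + (-67)*t^(4:ℕ) + (165/4)*t^(5:ℕ) + (125/4)*t^(6:ℕ) + 35*t^(7:ℕ) + (251/2)*t^(8:ℕ) + (-455/4)*t^(9:ℕ) + (173/4)*t^(10:ℕ) + (-111/2)*t^(11:ℕ)) + (1263/140000)*((83/4)*t^(2:ℕ) + (-5/4)*t^(3:ℕ) + (-51/4)*t^(4:ℕ) + (-21/4)*t^(5:ℕ) + (-27/4)*t^(6:ℕ) + (25/4)*t^(7:ℕ) + (243/4)*t^(8:ℕ) + (-70)*t^(9:ℕ) + 34*t^(10:ℕ) + (-50)*t^(11:ℕ)) + (7779/2800000)*((-8)*t^(2:ℕ) + (119/4)*t^(3:ℕ) + 1*t^(4:ℕ) + (-18)*t^(5:ℕ) + (11/2)*t^(6:ℕ) + (23/4)*t^(7:ℕ) + (39/2)*t^(8:ℕ) + (-115/4)*t^(9:ℕ) + 23*t^(10:ℕ) + (-19)*t^(11:ℕ)) + (23949/28000000)*((-8)*t^(2:ℕ) + (167/16)*t^(3:ℕ) + (-3)*t^(4:ℕ) + (1/8)*t^(5:ℕ) + (-127/8)*t^(6:ℕ)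 + (315/16)*t^(7:ℕ) + (31/8)*t^(8:ℕ) + (-445/16)*t^(9:ℕ) + (99/4)*t^(10:ℕ) + (-33/4)*t^(11:ℕ)) + (1053/4000000)*((5/2)*t^(5:ℕ) + (-31/4)*t^(6:ℕ) + 6*t^(7:ℕ) + (29/4)*t^(8:ℕ) + (-75/4)*t^(9:ℕ) + 15*t^(10:ℕ) + (-5)*t^(11:ℕ)) + (81/1000000)*((-1)*t^(7:ℕ) + 3*t^(8:ℕ) + (-17/4)*t^(9:ℕ) + 3*t^(10:ℕ) + (-1)*t^(11:ℕ)) - (1077/500) := by
  have e : 1*(1 + (13/2)*t^(2:ℕ) + 16*t^(4:ℕ) + 19*t^(6:ℕ) + 11*t^(8:ℕ) + (5/2)*t^(10:ℕ)) + (37/120)*((5/2) + (-1/2)*t + 8*t^(2:ℕ) + (5/2)*t^(3:ℕ) + 50*t^(4:ℕ) + 25*t^(5:ℕ) + 100*t^(6:ℕ) + 20*t^(7:ℕ) + (139/2)*t^(8:ℕ) + (-13/2)*t^(9:ℕ) + 14*t^(10:ℕ) + (-9/2)*t^(11:ℕ)) + (479/5040)*((-7) + (-37/4)*t + (-469/8)*t^(2:ℕ) + (-159/4)*t^(3:ℕ) + (-14)*t^(4:ℕ)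 + 40*t^(5:ℕ) + (691/4)*t^(6:ℕ) + 32*t^(7:ℕ) + 166*t^(8:ℕ) + (-275/4)*t^(9:ℕ) + (247/8)*t^(10:ℕ) + (-121/4)*t^(11:ℕ)) + (41/1400)*((-4) + (-4)*t + (-20)*t^(2:ℕ) + (-56)*t^(3:ℕ) + (-67)*t^(4:ℕ) + (165/4)*t^(5:ℕ) + (125/4)*t^(6:ℕ) + 35*t^(7:ℕ) + (251/2)*t^(8:ℕ) + (-455/4)*t^(9:ℕ) + (173/4)*t^(10:ℕ) + (-111/2)*t^(11:ℕ)) + (1263/140000)*((83/4)*t^(2:ℕ) + (-5/4)*t^(3:ℕ) + (-51/4)*t^(4:ℕ) + (-21/4)*t^(5:ℕ) + (-27/4)*t^(6:ℕ) + (25/4)*t^(7:ℕ) + (243/4)*t^(8:ℕ) + (-70)*t^(9:ℕ) + 34*t^(10:ℕ) + (-50)*t^(11:ℕ)) + (7779/2800000)*((-8)*t^(2:ℕ) + (119/4)*t^(3:ℕ) + 1*t^(4:ℕ) + (-18)*t^(5:ℕ) + (11/2)*t^(6:ℕ) + (23/4)*t^(7:ℕ) + (39/2)*t^(8:ℕ) + (-115/4)*t^(9:ℕ) + 23*t^(10:ℕ) + (-19)*t^(11:ℕ))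 + (23949/28000000)*((-8)*t^(2:ℕ) + (167/16)*t^(3:ℕ) + (-3)*t^(4:ℕ) + (1/8)*t^(5:ℕ) + (-127/8)*t^(6:ℕ) + (315/16)*t^(7:ℕ) + (31/8)*t^(8:ℕ) + (-445/16)*t^(9:ℕ) + (99/4)*t^(10:ℕ) + (-33/4)*t^(11:ℕ)) + (1053/4000000)*((5/2)*t^(5:ℕ) + (-31/4)*t^(6:ℕ) + 6*t^(7:ℕ) + (29/4)*t^(8:ℕ) + (-75/4)*t^(9:ℕ) + 15*t^(10:ℕ) + (-5)*t^(11:ℕ)) + (81/1000000)*((-1)*t^(7:ℕ) + 3*t^(8:ℕ) + (-17/4)*t^(9:ℕ) + 3*t^(10:ℕ) + (-1)*t^(11:ℕ)) - (1077/500) = (115678407391342538031991/287594163975888000000)*(1 - t)^(11:ℕ) + (2771481181246924005317/217874366648400000)*(t - (9/20))*(1 - t)^(10:ℕ) + (33078028526230468175621/261449239978080000)*(t - (9/20))^(2:ℕ)*(1 - t)^(9:ℕ) + (2890470839515354835381/4357487332968000)*(t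 - (9/20))^(3:ℕ)*(1 - t)^(8:ℕ) + (129166245324554772443/59420281813200)*(t - (9/20))^(4:ℕ)*(1 - t)^(7:ℕ) + (156935565283331165833/32681154997260)*(t - (9/20))^(5:ℕ)*(1 - t)^(6:ℕ) + (12083729868709728409/1634057749863)*(t - (9/20))^(6:ℕ)*(1 - t)^(5:ℕ) + (4355995958727387340/544685916621)*(t - (9/20))^(7:ℕ)*(1 - t)^(4:ℕ) + (9767604501919332800/1634057749863)*(t - (9/20))^(8:ℕ)*(1 - t)^(3:ℕ) + (4817229133868176000/1634057749863)*(t - (9/20))^(9:ℕ)*(1 - t)^(2:ℕ) + (470819557263200000/544685916621)*(t - (9/20))^(10:ℕ)*(1 - t) + (2051954572284800000/17974635248493)*(t - (9/20))^(11:ℕ) := by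
    ring
  rw [e]
  have a3 : 0 ≤ t - (9/20) := by linarith
  have a4 : 0 ≤ 1 - t := by linarith
  generalize t - (9/20) = t1 at a3 ⊢
  generalize 1 - t = t2 at a4 ⊢
  positivity

lemma pos_L2e_B2_b3 (t : ℝ) (h3 : (9/20) ≤ t) (h4 : t ≤ 1) :
    0 ≤ 1*(1 + (13/2)*t^(2:ℕ) + 16*t^(4:ℕ) + 19*t^(6:ℕ) + 11*t^(8:ℕ) + (5/2)*t^(10:ℕ)) + (5/16)*((5/2) + (-1/2)*t + 8*t^(2:ℕ) + (5/2)*t^(3:ℕ) + 50*t^(4:ℕ) + 25*t^(5:ℕ) + 100*t^(6:ℕ) + 20*t^(7:ℕ) + (139/2)*t^(8:ℕ) + (-13/2)*t^(9:ℕ) + 14*t^(10:ℕ) + (-9/2)*t^(11:ℕ)) + (41/420)*((-7) + (-37/4)*t + (-469/8)*t^(2:ℕ) + (-159/4)*t^(3:ℕ) + (-14)*t^(4:ℕ) + 40*t^(5:ℕ) + (691/4)*t^(6:ℕ) + 32*t^(7:ℕ) + 166*t^(8:ℕ) + (-275/4)*t^(9:ℕ) + (247/8)*t^(10:ℕ)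 + (-121/4)*t^(11:ℕ)) + (4609/151200)*((-4) + (-4)*t + (-20)*t^(2:ℕ) + (-56)*t^(3:ℕ) + (-67)*t^(4:ℕ) + (165/4)*t^(5:ℕ) + (125/4)*t^(6:ℕ) + 35*t^(7:ℕ) + (251/2)*t^(8:ℕ) + (-455/4)*t^(9:ℕ) + (173/4)*t^(10:ℕ) + (-111/2)*t^(11:ℕ)) + (11989/1260000)*((83/4)*t^(2:ℕ) + (-5/4)*t^(3:ℕ) + (-51/4)*t^(4:ℕ) + (-21/4)*t^(5:ℕ) + (-27/4)*t^(6:ℕ) + (25/4)*t^(7:ℕ) + (243/4)*t^(8:ℕ) + (-70)*t^(9:ℕ) + 34*t^(10:ℕ) + (-50)*t^(11:ℕ)) + (49879/16800000)*((-8)*t^(2:ℕ) + (119/4)*t^(3:ℕ) + 1*t^(4:ℕ) + (-18)*t^(5:ℕ) + (11/2)*t^(6:ℕ) + (23/4)*t^(7:ℕ) + (39/2)*t^(8:ℕ) + (-115/4)*t^(9:ℕ) + 23*t^(10:ℕ) + (-19)*t^(11:ℕ)) + (2593/2800000)*((-8)*t^(2:ℕ) + (167/16)*t^(3:ℕ) + (-3)*t^(4:ℕ) + (1/8)*t^(5:ℕ) + (-127/8)*t^(6:ℕ)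 + (315/16)*t^(7:ℕ) + (31/8)*t^(8:ℕ) + (-445/16)*t^(9:ℕ) + (99/4)*t^(10:ℕ) + (-33/4)*t^(11:ℕ)) + (231/800000)*((5/2)*t^(5:ℕ) + (-31/4)*t^(6:ℕ) + 6*t^(7:ℕ) + (29/4)*t^(8:ℕ) + (-75/4)*t^(9:ℕ) + 15*t^(10:ℕ) + (-5)*t^(11:ℕ)) + (9/100000)*((-1)*t^(7:ℕ) + 3*t^(8:ℕ) + (-17/4)*t^(9:ℕ) + 3*t^(10:ℕ) + (-1)*t^(11:ℕ)) - (1077/500) := by
  have e : 1*(1 + (13/2)*t^(2:ℕ) + 16*t^(4:ℕ) + 19*t^(6:ℕ) + 11*t^(8:ℕ) + (5/2)*t^(10:ℕ)) + (5/16)*((5/2) + (-1/2)*t + 8*t^(2:ℕ) + (5/2)*t^(3:ℕ) + 50*t^(4:ℕ) + 25*t^(5:ℕ) + 100*t^(6:ℕ) + 20*t^(7:ℕ) + (139/2)*t^(8:ℕ) + (-13/2)*t^(9:ℕ) + 14*t^(10:ℕ) + (-9/2)*t^(11:ℕ)) + (41/420)*((-7) + (-37/4)*t + (-469/8)*t^(2:ℕ) + (-159/4)*t^(3:ℕ) + (-14)*t^(4:ℕ) + 40*t^(5:ℕ)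 + (691/4)*t^(6:ℕ) + 32*t^(7:ℕ) + 166*t^(8:ℕ) + (-275/4)*t^(9:ℕ) + (247/8)*t^(10:ℕ) + (-121/4)*t^(11:ℕ)) + (4609/151200)*((-4) + (-4)*t + (-20)*t^(2:ℕ) + (-56)*t^(3:ℕ) + (-67)*t^(4:ℕ) + (165/4)*t^(5:ℕ) + (125/4)*t^(6:ℕ) + 35*t^(7:ℕ) + (251/2)*t^(8:ℕ) + (-455/4)*t^(9:ℕ) + (173/4)*t^(10:ℕ) + (-111/2)*t^(11:ℕ)) + (11989/1260000)*((83/4)*t^(2:ℕ) + (-5/4)*t^(3:ℕ) + (-51/4)*t^(4:ℕ) + (-21/4)*t^(5:ℕ) + (-27/4)*t^(6:ℕ) + (25/4)*t^(7:ℕ) + (243/4)*t^(8:ℕ) + (-70)*t^(9:ℕ) + 34*t^(10:ℕ) + (-50)*t^(11:ℕ)) + (49879/16800000)*((-8)*t^(2:ℕ) + (119/4)*t^(3:ℕ) + 1*t^(4:ℕ) + (-18)*t^(5:ℕ) + (11/2)*t^(6:ℕ) + (23/4)*t^(7:ℕ) + (39/2)*t^(8:ℕ) + (-115/4)*t^(9:ℕ) + 23*t^(10:ℕ) + (-19)*t^(11:ℕ)) +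 (2593/2800000)*((-8)*t^(2:ℕ) + (167/16)*t^(3:ℕ) + (-3)*t^(4:ℕ) + (1/8)*t^(5:ℕ) + (-127/8)*t^(6:ℕ) + (315/16)*t^(7:ℕ) + (31/8)*t^(8:ℕ) + (-445/16)*t^(9:ℕ) + (99/4)*t^(10:ℕ) + (-33/4)*t^(11:ℕ)) + (231/800000)*((5/2)*t^(5:ℕ) + (-31/4)*t^(6:ℕ) + 6*t^(7:ℕ) + (29/4)*t^(8:ℕ) + (-75/4)*t^(9:ℕ) + 15*t^(10:ℕ) + (-5)*t^(11:ℕ)) + (9/100000)*((-1)*t^(7:ℕ) + 3*t^(8:ℕ) + (-17/4)*t^(9:ℕ) + 3*t^(10:ℕ) + (-1)*t^(11:ℕ)) - (1077/500) = (31628695444389822389477/86278249192766400000)*(1 - t)^(11:ℕ) + (73191073609312299041/5942028181320000)*(t - (9/20))*(1 - t)^(10:ℕ) + (9774531101286325140667/78434771993424000)*(t - (9/20))^(2:ℕ)*(1 - t)^(9:ℕ) + (2583970448100969250579/3921738599671200)*(t -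 (9/20))^(3:ℕ)*(1 - t)^(8:ℕ) + (425564872828003060637/196086929983560)*(t - (9/20))^(4:ℕ)*(1 - t)^(7:ℕ) + (1747056603682556921/363123944414)*(t - (9/20))^(5:ℕ)*(1 - t)^(6:ℕ) + (36413630591131216130/4902173249589)*(t - (9/20))^(6:ℕ)*(1 - t)^(5:ℕ) + (39455976327042496600/4902173249589)*(t - (9/20))^(7:ℕ)*(1 - t)^(4:ℕ) + (29534882877395344000/4902173249589)*(t - (9/20))^(8:ℕ)*(1 - t)^(3:ℕ) + (540092236978240000/181561972207)*(t - (9/20))^(9:ℕ)*(1 - t)^(2:ℕ) + (611316943835200000/700310464227)*(t - (9/20))^(10:ℕ)*(1 - t) + (6219953156512000000/53923905745479)*(t - (9/20))^(11:ℕ) := by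
    ring
  rw [e]
  have a3 : 0 ≤ t - (9/20) := by linarith
  have a4 : 0 ≤ 1 - t := by linarith
  generalize t - (9/20) = t1 at a3 ⊢
  generalize 1 - t = t2 at a4 ⊢
  positivity

lemma pos_L2e_B2_b4 (t : ℝ) (h3 : (9/20) ≤ t) (h4 : t ≤ 1) :
    0 ≤ 1*(1 + (13/2)*t^(2:ℕ) + 16*t^(4:ℕ) + 19*t^(6:ℕ) + 11*t^(8:ℕ) + (5/2)*t^(10:ℕ)) + (19/60)*((5/2) + (-1/2)*t + 8*t^(2:ℕ) + (5/2)*t^(3:ℕ) + 50*t^(4:ℕ) + 25*t^(5:ℕ) + 100*t^(6:ℕ) + 20*t^(7:ℕ) + (139/2)*t^(8:ℕ) + (-13/2)*t^(9:ℕ) + 14*t^(10:ℕ) + (-9/2)*t^(11:ℕ)) + (421/4200)*((-7) + (-37/4)*t + (-469/8)*t^(2:ℕ) + (-159/4)*t^(3:ℕ) + (-14)*t^(4:ℕ) + 40*t^(5:ℕ) + (691/4)*t^(6:ℕ) + 32*t^(7:ℕ) + 166*t^(8:ℕ) + (-275/4)*t^(9:ℕ) + (247/8)*t^(10:ℕ)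 + (-121/4)*t^(11:ℕ)) + (11989/378000)*((-4) + (-4)*t + (-20)*t^(2:ℕ) + (-56)*t^(3:ℕ) + (-67)*t^(4:ℕ) + (165/4)*t^(5:ℕ) + (125/4)*t^(6:ℕ) + 35*t^(7:ℕ) + (251/2)*t^(8:ℕ) + (-455/4)*t^(9:ℕ) + (173/4)*t^(10:ℕ) + (-111/2)*t^(11:ℕ)) + (568801/56700000)*((83/4)*t^(2:ℕ) + (-5/4)*t^(3:ℕ) + (-51/4)*t^(4:ℕ) + (-21/4)*t^(5:ℕ) + (-27/4)*t^(6:ℕ) + (25/4)*t^(7:ℕ) + (243/4)*t^(8:ℕ) + (-70)*t^(9:ℕ) + 34*t^(10:ℕ) + (-50)*t^(11:ℕ)) + (11989/3780000)*((-8)*t^(2:ℕ) + (119/4)*t^(3:ℕ) + 1*t^(4:ℕ) + (-18)*t^(5:ℕ) + (11/2)*t^(6:ℕ) + (23/4)*t^(7:ℕ) + (39/2)*t^(8:ℕ) + (-115/4)*t^(9:ℕ) + 23*t^(10:ℕ) + (-19)*t^(11:ℕ)) + (421/420000)*((-8)*t^(2:ℕ) + (167/16)*t^(3:ℕ) + (-3)*t^(4:ℕ) + (1/8)*t^(5:ℕ) + (-127/8)*t^(6:ℕ)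 + (315/16)*t^(7:ℕ) + (31/8)*t^(8:ℕ) + (-445/16)*t^(9:ℕ) + (99/4)*t^(10:ℕ) + (-33/4)*t^(11:ℕ)) + (19/60000)*((5/2)*t^(5:ℕ) + (-31/4)*t^(6:ℕ) + 6*t^(7:ℕ) + (29/4)*t^(8:ℕ) + (-75/4)*t^(9:ℕ) + 15*t^(10:ℕ) + (-5)*t^(11:ℕ)) + (1/10000)*((-1)*t^(7:ℕ) + 3*t^(8:ℕ) + (-17/4)*t^(9:ℕ) + 3*t^(10:ℕ) + (-1)*t^(11:ℕ)) - (1077/500) := by
  have e : 1*(1 + (13/2)*t^(2:ℕ) + 16*t^(4:ℕ) + 19*t^(6:ℕ) + 11*t^(8:ℕ) + (5/2)*t^(10:ℕ)) + (19/60)*((5/2) + (-1/2)*t + 8*t^(2:ℕ) + (5/2)*t^(3:ℕ) + 50*t^(4:ℕ) + 25*t^(5:ℕ) + 100*t^(6:ℕ) + 20*t^(7:ℕ) + (139/2)*t^(8:ℕ) + (-13/2)*t^(9:ℕ) + 14*t^(10:ℕ) + (-9/2)*t^(11:ℕ)) + (421/4200)*((-7) + (-37/4)*t + (-469/8)*t^(2:ℕ) + (-159/4)*t^(3:ℕ) + (-14)*t^(4:ℕ) + 40*t^(5:ℕ)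 + (691/4)*t^(6:ℕ) + 32*t^(7:ℕ) + 166*t^(8:ℕ) + (-275/4)*t^(9:ℕ) + (247/8)*t^(10:ℕ) + (-121/4)*t^(11:ℕ)) + (11989/378000)*((-4) + (-4)*t + (-20)*t^(2:ℕ) + (-56)*t^(3:ℕ) + (-67)*t^(4:ℕ) + (165/4)*t^(5:ℕ) + (125/4)*t^(6:ℕ) + 35*t^(7:ℕ) + (251/2)*t^(8:ℕ) + (-455/4)*t^(9:ℕ) + (173/4)*t^(10:ℕ) + (-111/2)*t^(11:ℕ)) + (568801/56700000)*((83/4)*t^(2:ℕ) + (-5/4)*t^(3:ℕ) + (-51/4)*t^(4:ℕ) + (-21/4)*t^(5:ℕ) + (-27/4)*t^(6:ℕ) + (25/4)*t^(7:ℕ) + (243/4)*t^(8:ℕ) + (-70)*t^(9:ℕ) + 34*t^(10:ℕ) + (-50)*t^(11:ℕ)) + (11989/3780000)*((-8)*t^(2:ℕ) + (119/4)*t^(3:ℕ) + 1*t^(4:ℕ) + (-18)*t^(5:ℕ) + (11/2)*t^(6:ℕ) + (23/4)*t^(7:ℕ) + (39/2)*t^(8:ℕ) + (-115/4)*t^(9:ℕ) + 23*t^(10:ℕ) + (-19)*t^(11:ℕ))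 + (421/420000)*((-8)*t^(2:ℕ) + (167/16)*t^(3:ℕ) + (-3)*t^(4:ℕ) + (1/8)*t^(5:ℕ) + (-127/8)*t^(6:ℕ) + (315/16)*t^(7:ℕ) + (31/8)*t^(8:ℕ) + (-445/16)*t^(9:ℕ) + (99/4)*t^(10:ℕ) + (-33/4)*t^(11:ℕ)) + (19/60000)*((5/2)*t^(5:ℕ) + (-31/4)*t^(6:ℕ) + 6*t^(7:ℕ) + (29/4)*t^(8:ℕ) + (-75/4)*t^(9:ℕ) + 15*t^(10:ℕ) + (-5)*t^(11:ℕ)) + (1/10000)*((-1)*t^(7:ℕ) + 3*t^(8:ℕ) + (-17/4)*t^(9:ℕ) + 3*t^(10:ℕ) + (-1)*t^(11:ℕ)) - (1077/500) = (129367409664861758921/392173859967120000)*(1 - t)^(11:ℕ) + (64822736824226923439/5446859166210000)*(t - (9/20))*(1 - t)^(10:ℕ) + (1442948147275272796747/11765215799013600)*(t - (9/20))^(2:ℕ)*(1 - t)^(9:ℕ) + (1924142576812245876497/2941303949753400)*(t - (9/20))^(3:ℕ)*(1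 - t)^(8:ℕ) + (318581208399509376719/147065197487670)*(t - (9/20))^(4:ℕ)*(1 - t)^(7:ℕ) + (70879265970529530406/14706519748767)*(t - (9/20))^(5:ℕ)*(1 - t)^(6:ℕ) + (109717706364825201080/14706519748767)*(t - (9/20))^(6:ℕ)*(1 - t)^(5:ℕ) + (17016878334232666400/2100931392681)*(t - (9/20))^(7:ℕ)*(1 - t)^(4:ℕ) + (9922179652150336000/1634057749863)*(t - (9/20))^(8:ℕ)*(1 - t)^(3:ℕ) + (2101923816158080000/700310464227)*(t - (9/20))^(9:ℕ)*(1 - t)^(2:ℕ) + (12963565473401600000/14706519748767)*(t - (9/20))^(10:ℕ)*(1 - t) + (1713897439616000000/14706519748767)*(t - (9/20))^(11:ℕ) := by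
    ring
  rw [e]
  have a3 : 0 ≤ t - (9/20) := by linarith
  have a4 : 0 ≤ 1 - t := by linarith
  generalize t - (9/20) = t1 at a3 ⊢
  generalize 1 - t = t2 at a4 ⊢
  positivity

lemma pos_L2e_B2_b5 (t : ℝ) (h3 : (9/20) ≤ t) (h4 : t ≤ 1) :
    0 ≤ 1*(1 + (13/2)*t^(2:ℕ) + 16*t^(4:ℕ) + 19*t^(6:ℕ) + 11*t^(8:ℕ) + (5/2)*t^(10:ℕ)) + (77/240)*((5/2) + (-1/2)*t + 8*t^(2:ℕ) + (5/2)*t^(3:ℕ) + 50*t^(4:ℕ) + 25*t^(5:ℕ) + 100*t^(6:ℕ) + 20*t^(7:ℕ) + (139/2)*t^(8:ℕ) + (-13/2)*t^(9:ℕ) + 14*t^(10:ℕ) + (-9/2)*t^(11:ℕ)) + (2593/25200)*((-7) + (-37/4)*t + (-469/8)*t^(2:ℕ) + (-159/4)*t^(3:ℕ) + (-14)*t^(4:ℕ) + 40*t^(5:ℕ) + (691/4)*t^(6:ℕ) + 32*t^(7:ℕ) + 166*t^(8:ℕ) + (-275/4)*t^(9:ℕ) + (247/8)*t^(10:ℕ)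 + (-121/4)*t^(11:ℕ)) + (49879/1512000)*((-4) + (-4)*t + (-20)*t^(2:ℕ) + (-56)*t^(3:ℕ) + (-67)*t^(4:ℕ) + (165/4)*t^(5:ℕ) + (125/4)*t^(6:ℕ) + 35*t^(7:ℕ) + (251/2)*t^(8:ℕ) + (-455/4)*t^(9:ℕ) + (173/4)*t^(10:ℕ) + (-111/2)*t^(11:ℕ)) + (11989/1134000)*((83/4)*t^(2:ℕ) + (-5/4)*t^(3:ℕ) + (-51/4)*t^(4:ℕ) + (-21/4)*t^(5:ℕ) + (-27/4)*t^(6:ℕ) + (25/4)*t^(7:ℕ) + (243/4)*t^(8:ℕ) + (-70)*t^(9:ℕ) + 34*t^(10:ℕ) + (-50)*t^(11:ℕ)) + (4609/1360800)*((-8)*t^(2:ℕ) + (119/4)*t^(3:ℕ) + 1*t^(4:ℕ) + (-18)*t^(5:ℕ) + (11/2)*t^(6:ℕ) + (23/4)*t^(7:ℕ) + (39/2)*t^(8:ℕ) + (-115/4)*t^(9:ℕ) + 23*t^(10:ℕ) + (-19)*t^(11:ℕ)) + (41/37800)*((-8)*t^(2:ℕ) + (167/16)*t^(3:ℕ) + (-3)*t^(4:ℕ) + (1/8)*t^(5:ℕ) + (-127/8)*t^(6:ℕ)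 + (315/16)*t^(7:ℕ) + (31/8)*t^(8:ℕ) + (-445/16)*t^(9:ℕ) + (99/4)*t^(10:ℕ) + (-33/4)*t^(11:ℕ)) + (1/2880)*((5/2)*t^(5:ℕ) + (-31/4)*t^(6:ℕ) + 6*t^(7:ℕ) + (29/4)*t^(8:ℕ) + (-75/4)*t^(9:ℕ) + 15*t^(10:ℕ) + (-5)*t^(11:ℕ)) + (1/9000)*((-1)*t^(7:ℕ) + 3*t^(8:ℕ) + (-17/4)*t^(9:ℕ) + 3*t^(10:ℕ) + (-1)*t^(11:ℕ)) - (1077/500) := by
  have e : 1*(1 + (13/2)*t^(2:ℕ) + 16*t^(4:ℕ) + 19*t^(6:ℕ) + 11*t^(8:ℕ) + (5/2)*t^(10:ℕ)) + (77/240)*((5/2) + (-1/2)*t + 8*t^(2:ℕ) + (5/2)*t^(3:ℕ) + 50*t^(4:ℕ) + 25*t^(5:ℕ) + 100*t^(6:ℕ) + 20*t^(7:ℕ) + (139/2)*t^(8:ℕ) + (-13/2)*t^(9:ℕ) + 14*t^(10:ℕ) + (-9/2)*t^(11:ℕ)) + (2593/25200)*((-7) + (-37/4)*t + (-469/8)*t^(2:ℕ) + (-159/4)*t^(3:ℕ) + (-14)*t^(4:ℕ) + 40*t^(5:ℕ)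 + (691/4)*t^(6:ℕ) + 32*t^(7:ℕ) + 166*t^(8:ℕ) + (-275/4)*t^(9:ℕ) + (247/8)*t^(10:ℕ) + (-121/4)*t^(11:ℕ)) + (49879/1512000)*((-4) + (-4)*t + (-20)*t^(2:ℕ) + (-56)*t^(3:ℕ) + (-67)*t^(4:ℕ) + (165/4)*t^(5:ℕ) + (125/4)*t^(6:ℕ) + 35*t^(7:ℕ) + (251/2)*t^(8:ℕ) + (-455/4)*t^(9:ℕ) + (173/4)*t^(10:ℕ) + (-111/2)*t^(11:ℕ)) + (11989/1134000)*((83/4)*t^(2:ℕ) + (-5/4)*t^(3:ℕ) + (-51/4)*t^(4:ℕ) + (-21/4)*t^(5:ℕ) + (-27/4)*t^(6:ℕ) + (25/4)*t^(7:ℕ) + (243/4)*t^(8:ℕ) + (-70)*t^(9:ℕ) + 34*t^(10:ℕ) + (-50)*t^(11:ℕ)) + (4609/1360800)*((-8)*t^(2:ℕ) + (119/4)*t^(3:ℕ) + 1*t^(4:ℕ) + (-18)*t^(5:ℕ) + (11/2)*t^(6:ℕ) + (23/4)*t^(7:ℕ) + (39/2)*t^(8:ℕ) + (-115/4)*t^(9:ℕ) + 23*t^(10:ℕ) + (-19)*t^(11:ℕ)) +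 (41/37800)*((-8)*t^(2:ℕ) + (167/16)*t^(3:ℕ) + (-3)*t^(4:ℕ) + (1/8)*t^(5:ℕ) + (-127/8)*t^(6:ℕ) + (315/16)*t^(7:ℕ) + (31/8)*t^(8:ℕ) + (-445/16)*t^(9:ℕ) + (99/4)*t^(10:ℕ) + (-33/4)*t^(11:ℕ)) + (1/2880)*((5/2)*t^(5:ℕ) + (-31/4)*t^(6:ℕ) + 6*t^(7:ℕ) + (29/4)*t^(8:ℕ) + (-75/4)*t^(9:ℕ) + 15*t^(10:ℕ) + (-5)*t^(11:ℕ)) + (1/9000)*((-1)*t^(7:ℕ) + 3*t^(8:ℕ) + (-17/4)*t^(9:ℕ) + 3*t^(10:ℕ) + (-1)*t^(11:ℕ)) - (1077/500) = (50398893886536457657/172556498385532800)*(1 - t)^(11:ℕ) + (17994065930685603877/1568695439868480)*(t - (9/20))*(1 - t)^(10:ℕ) + (53205440503625786273/441195592463010)*(t - (9/20))^(2:ℕ)*(1 - t)^(9:ℕ) + (743983507390188061/1145962577826)*(t - (9/20))^(3:ℕ)*(1 - t)^(8:ℕ)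 + (95372584362073989760/44119559246301)*(t - (9/20))^(4:ℕ)*(1 - t)^(7:ℕ) + (3380540252471797400/700310464227)*(t - (9/20))^(5:ℕ)*(1 - t)^(6:ℕ) + (330551775905886022000/44119559246301)*(t - (9/20))^(6:ℕ)*(1 - t)^(5:ℕ) + (359587448856093400000/44119559246301)*(t - (9/20))^(7:ℕ)*(1 - t)^(4:ℕ) + (89993311241334400000/14706519748767)*(t - (9/20))^(8:ℕ)*(1 - t)^(3:ℕ) + (133601511333904000000/44119559246301)*(t - (9/20))^(9:ℕ)*(1 - t)^(2:ℕ) + (13089854044480000000/14706519748767)*(t - (9/20))^(10:ℕ)*(1 - t) + (57139869395200000000/485315151709311)*(t - (9/20))^(11:ℕ) := by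
    ring
  rw [e]
  have a3 : 0 ≤ t - (9/20) := by linarith
  have a4 : 0 ≤ 1 - t := by linarith
  generalize t - (9/20) = t1 at a3 ⊢
  generalize 1 - t = t2 at a4 ⊢
  positivity

lemma pos_L2e_B2_b6 (t : ℝ) (h3 : (9/20) ≤ t) (h4 : t ≤ 1) :
    0 ≤ 1*(1 + (13/2)*t^(2:ℕ) + 16*t^(4:ℕ) + 19*t^(6:ℕ) + 11*t^(8:ℕ) + (5/2)*t^(10:ℕ)) + (13/40)*((5/2) + (-1/2)*t + 8*t^(2:ℕ) + (5/2)*t^(3:ℕ) + 50*t^(4:ℕ) + 25*t^(5:ℕ) + 100*t^(6:ℕ) + 20*t^(7:ℕ) + (139/2)*t^(8:ℕ) + (-13/2)*t^(9:ℕ) + 14*t^(10:ℕ) + (-9/2)*t^(11:ℕ)) + (887/8400)*((-7) + (-37/4)*t + (-469/8)*t^(2:ℕ) + (-159/4)*t^(3:ℕ) + (-14)*t^(4:ℕ) + 40*t^(5:ℕ) + (691/4)*t^(6:ℕ) + 32*t^(7:ℕ) + 166*t^(8:ℕ) + (-275/4)*t^(9:ℕ) + (247/8)*t^(10:ℕ)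 + (-121/4)*t^(11:ℕ)) + (2593/75600)*((-4) + (-4)*t + (-20)*t^(2:ℕ) + (-56)*t^(3:ℕ) + (-67)*t^(4:ℕ) + (165/4)*t^(5:ℕ) + (125/4)*t^(6:ℕ) + 35*t^(7:ℕ) + (251/2)*t^(8:ℕ) + (-455/4)*t^(9:ℕ) + (173/4)*t^(10:ℕ) + (-111/2)*t^(11:ℕ)) + (421/37800)*((83/4)*t^(2:ℕ) + (-5/4)*t^(3:ℕ) + (-51/4)*t^(4:ℕ) + (-21/4)*t^(5:ℕ) + (-27/4)*t^(6:ℕ) + (25/4)*t^(7:ℕ) + (243/4)*t^(8:ℕ) + (-70)*t^(9:ℕ) + 34*t^(10:ℕ) + (-50)*t^(11:ℕ)) + (41/11340)*((-8)*t^(2:ℕ) + (119/4)*t^(3:ℕ) + 1*t^(4:ℕ) + (-18)*t^(5:ℕ) + (11/2)*t^(6:ℕ) + (23/4)*t^(7:ℕ) + (39/2)*t^(8:ℕ) + (-115/4)*t^(9:ℕ) + 23*t^(10:ℕ) + (-19)*t^(11:ℕ)) + (479/408240)*((-8)*t^(2:ℕ) + (167/16)*t^(3:ℕ) + (-3)*t^(4:ℕ) + (1/8)*t^(5:ℕ) + (-127/8)*t^(6:ℕ)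 + (315/16)*t^(7:ℕ) + (31/8)*t^(8:ℕ) + (-445/16)*t^(9:ℕ) + (99/4)*t^(10:ℕ) + (-33/4)*t^(11:ℕ)) + (37/97200)*((5/2)*t^(5:ℕ) + (-31/4)*t^(6:ℕ) + 6*t^(7:ℕ) + (29/4)*t^(8:ℕ) + (-75/4)*t^(9:ℕ) + 15*t^(10:ℕ) + (-5)*t^(11:ℕ)) + (1/8100)*((-1)*t^(7:ℕ) + 3*t^(8:ℕ) + (-17/4)*t^(9:ℕ) + 3*t^(10:ℕ) + (-1)*t^(11:ℕ)) - (1077/500) := by
  have e : 1*(1 + (13/2)*t^(2:ℕ) + 16*t^(4:ℕ) + 19*t^(6:ℕ) + 11*t^(8:ℕ) + (5/2)*t^(10:ℕ)) + (13/40)*((5/2) + (-1/2)*t + 8*t^(2:ℕ) + (5/2)*t^(3:ℕ) + 50*t^(4:ℕ) + 25*t^(5:ℕ) + 100*t^(6:ℕ) + 20*t^(7:ℕ) + (139/2)*t^(8:ℕ) + (-13/2)*t^(9:ℕ) + 14*t^(10:ℕ) + (-9/2)*t^(11:ℕ)) + (887/8400)*((-7) + (-37/4)*t + (-469/8)*t^(2:ℕ) + (-159/4)*t^(3:ℕ) + (-14)*t^(4:ℕ) + 40*t^(5:ℕ)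 + (691/4)*t^(6:ℕ) + 32*t^(7:ℕ) + 166*t^(8:ℕ) + (-275/4)*t^(9:ℕ) + (247/8)*t^(10:ℕ) + (-121/4)*t^(11:ℕ)) + (2593/75600)*((-4) + (-4)*t + (-20)*t^(2:ℕ) + (-56)*t^(3:ℕ) + (-67)*t^(4:ℕ) + (165/4)*t^(5:ℕ) + (125/4)*t^(6:ℕ) + 35*t^(7:ℕ) + (251/2)*t^(8:ℕ) + (-455/4)*t^(9:ℕ) + (173/4)*t^(10:ℕ) + (-111/2)*t^(11:ℕ)) + (421/37800)*((83/4)*t^(2:ℕ) + (-5/4)*t^(3:ℕ) + (-51/4)*t^(4:ℕ) + (-21/4)*t^(5:ℕ) + (-27/4)*t^(6:ℕ) + (25/4)*t^(7:ℕ) + (243/4)*t^(8:ℕ) + (-70)*t^(9:ℕ) + 34*t^(10:ℕ) + (-50)*t^(11:ℕ)) + (41/11340)*((-8)*t^(2:ℕ) + (119/4)*t^(3:ℕ) + 1*t^(4:ℕ) + (-18)*t^(5:ℕ) + (11/2)*t^(6:ℕ) + (23/4)*t^(7:ℕ) + (39/2)*t^(8:ℕ) + (-115/4)*t^(9:ℕ) + 23*t^(10:ℕ) + (-19)*t^(11:ℕ)) + (479/408240)*((-8)*t^(2:ℕ)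 + (167/16)*t^(3:ℕ) + (-3)*t^(4:ℕ) + (1/8)*t^(5:ℕ) + (-127/8)*t^(6:ℕ) + (315/16)*t^(7:ℕ) + (31/8)*t^(8:ℕ) + (-445/16)*t^(9:ℕ) + (99/4)*t^(10:ℕ) + (-33/4)*t^(11:ℕ)) + (37/97200)*((5/2)*t^(5:ℕ) + (-31/4)*t^(6:ℕ) + 6*t^(7:ℕ) + (29/4)*t^(8:ℕ) + (-75/4)*t^(9:ℕ) + 15*t^(10:ℕ) + (-5)*t^(11:ℕ)) + (1/8100)*((-1)*t^(7:ℕ) + 3*t^(8:ℕ) + (-17/4)*t^(9:ℕ) + 3*t^(10:ℕ) + (-1)*t^(11:ℕ)) - (1077/500) = (682627203639944069/2696195287273950)*(1 - t)^(11:ℕ) + (25946527125612433393/2353043159802720)*(t - (9/20))*(1 - t)^(10:ℕ) + (250877795437690029451/2117738843822448)*(t - (9/20))^(2:ℕ)*(1 - t)^(9:ℕ) + (48708483157916685065/75633530136516)*(t - (9/20))^(3:ℕ)*(1 - t)^(8:ℕ) + (285439837356412015975/132358677738903)*(t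 - (9/20))^(4:ℕ)*(1 - t)^(7:ℕ) + (58166142365391600500/12032607067173)*(t - (9/20))^(5:ℕ)*(1 - t)^(6:ℕ) + (142250737434903890000/18908382534129)*(t - (9/20))^(6:ℕ)*(1 - t)^(5:ℕ) + (1085407809809229400000/132358677738903)*(t - (9/20))^(7:ℕ)*(1 - t)^(4:ℕ) + (816171284467856000000/132358677738903)*(t - (9/20))^(8:ℕ)*(1 - t)^(3:ℕ) + (404349933119840000000/132358677738903)*(t - (9/20))^(9:ℕ)*(1 - t)^(2:ℕ) + (16992666760000000000/18908382534129)*(t - (9/20))^(10:ℕ)*(1 - t) + (24738567699200000000/207992207875419)*(t - (9/20))^(11:ℕ) := by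
    ring
  rw [e]
  have a3 : 0 ≤ t - (9/20) := by linarith
  have a4 : 0 ≤ 1 - t := by linarith
  generalize t - (9/20) = t1 at a3 ⊢
  generalize 1 - t = t2 at a4 ⊢
  positivity

lemma pos_L2e_B2_b7 (t : ℝ) (h3 : (9/20) ≤ t) (h4 : t ≤ 1) :
    0 ≤ 1*(1 + (13/2)*t^(2:ℕ) + 16*t^(4:ℕ) + 19*t^(6:ℕ) + 11*t^(8:ℕ) + (5/2)*t^(10:ℕ)) + (79/240)*((5/2) + (-1/2)*t + 8*t^(2:ℕ) + (5/2)*t^(3:ℕ) + 50*t^(4:ℕ) + 25*t^(5:ℕ) + 100*t^(6:ℕ) + 20*t^(7:ℕ) + (139/2)*t^(8:ℕ) + (-13/2)*t^(9:ℕ) + 14*t^(10:ℕ) + (-9/2)*t^(11:ℕ)) + (13/120)*((-7) + (-37/4)*t + (-469/8)*t^(2:ℕ) + (-159/4)*t^(3:ℕ) + (-14)*t^(4:ℕ) + 40*t^(5:ℕ) + (691/4)*t^(6:ℕ) + 32*t^(7:ℕ) + 166*t^(8:ℕ) + (-275/4)*t^(9:ℕ) + (247/8)*t^(10:ℕ)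 + (-121/4)*t^(11:ℕ)) + (77/2160)*((-4) + (-4)*t + (-20)*t^(2:ℕ) + (-56)*t^(3:ℕ) + (-67)*t^(4:ℕ) + (165/4)*t^(5:ℕ) + (125/4)*t^(6:ℕ) + 35*t^(7:ℕ) + (251/2)*t^(8:ℕ) + (-455/4)*t^(9:ℕ) + (173/4)*t^(10:ℕ) + (-111/2)*t^(11:ℕ)) + (19/1620)*((83/4)*t^(2:ℕ) + (-5/4)*t^(3:ℕ) + (-51/4)*t^(4:ℕ) + (-21/4)*t^(5:ℕ) + (-27/4)*t^(6:ℕ) + (25/4)*t^(7:ℕ) + (243/4)*t^(8:ℕ) + (-70)*t^(9:ℕ) + 34*t^(10:ℕ) + (-50)*t^(11:ℕ)) + (5/1296)*((-8)*t^(2:ℕ) + (119/4)*t^(3:ℕ) + 1*t^(4:ℕ) + (-18)*t^(5:ℕ) + (11/2)*t^(6:ℕ) + (23/4)*t^(7:ℕ) + (39/2)*t^(8:ℕ) + (-115/4)*t^(9:ℕ) + 23*t^(10:ℕ) + (-19)*t^(11:ℕ)) + (37/29160)*((-8)*t^(2:ℕ) + (167/16)*t^(3:ℕ) + (-3)*t^(4:ℕ) + (1/8)*t^(5:ℕ) + (-127/8)*t^(6:ℕ) + (315/16)*t^(7:ℕ)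 + (31/8)*t^(8:ℕ) + (-445/16)*t^(9:ℕ) + (99/4)*t^(10:ℕ) + (-33/4)*t^(11:ℕ)) + (73/174960)*((5/2)*t^(5:ℕ) + (-31/4)*t^(6:ℕ) + 6*t^(7:ℕ) + (29/4)*t^(8:ℕ) + (-75/4)*t^(9:ℕ) + 15*t^(10:ℕ) + (-5)*t^(11:ℕ)) + (1/7290)*((-1)*t^(7:ℕ) + 3*t^(8:ℕ) + (-17/4)*t^(9:ℕ) + 3*t^(10:ℕ) + (-1)*t^(11:ℕ)) - (1077/500) := by
  have e : 1*(1 + (13/2)*t^(2:ℕ) + 16*t^(4:ℕ) + 19*t^(6:ℕ) + 11*t^(8:ℕ) + (5/2)*t^(10:ℕ)) + (79/240)*((5/2) + (-1/2)*t + 8*t^(2:ℕ) + (5/2)*t^(3:ℕ) + 50*t^(4:ℕ) + 25*t^(5:ℕ) + 100*t^(6:ℕ) + 20*t^(7:ℕ) + (139/2)*t^(8:ℕ) + (-13/2)*t^(9:ℕ) + 14*t^(10:ℕ) + (-9/2)*t^(11:ℕ)) + (13/120)*((-7) + (-37/4)*t + (-469/8)*t^(2:ℕ) + (-159/4)*t^(3:ℕ) + (-14)*t^(4:ℕ) + 40*t^(5:ℕ) + (691/4)*t^(6:ℕ)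 + 32*t^(7:ℕ) + 166*t^(8:ℕ) + (-275/4)*t^(9:ℕ) + (247/8)*t^(10:ℕ) + (-121/4)*t^(11:ℕ)) + (77/2160)*((-4) + (-4)*t + (-20)*t^(2:ℕ) + (-56)*t^(3:ℕ) + (-67)*t^(4:ℕ) + (165/4)*t^(5:ℕ) + (125/4)*t^(6:ℕ) + 35*t^(7:ℕ) + (251/2)*t^(8:ℕ) + (-455/4)*t^(9:ℕ) + (173/4)*t^(10:ℕ) + (-111/2)*t^(11:ℕ)) + (19/1620)*((83/4)*t^(2:ℕ) + (-5/4)*t^(3:ℕ) + (-51/4)*t^(4:ℕ) + (-21/4)*t^(5:ℕ) + (-27/4)*t^(6:ℕ) + (25/4)*t^(7:ℕ) + (243/4)*t^(8:ℕ) + (-70)*t^(9:ℕ) + 34*t^(10:ℕ) + (-50)*t^(11:ℕ)) + (5/1296)*((-8)*t^(2:ℕ) + (119/4)*t^(3:ℕ) + 1*t^(4:ℕ) + (-18)*t^(5:ℕ) + (11/2)*t^(6:ℕ) + (23/4)*t^(7:ℕ) + (39/2)*t^(8:ℕ) + (-115/4)*t^(9:ℕ) + 23*t^(10:ℕ) + (-19)*t^(11:ℕ)) + (37/29160)*((-8)*t^(2:ℕ) + (167/16)*t^(3:ℕ)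 + (-3)*t^(4:ℕ) + (1/8)*t^(5:ℕ) + (-127/8)*t^(6:ℕ) + (315/16)*t^(7:ℕ) + (31/8)*t^(8:ℕ) + (-445/16)*t^(9:ℕ) + (99/4)*t^(10:ℕ) + (-33/4)*t^(11:ℕ)) + (73/174960)*((5/2)*t^(5:ℕ) + (-31/4)*t^(6:ℕ) + 6*t^(7:ℕ) + (29/4)*t^(8:ℕ) + (-75/4)*t^(9:ℕ) + 15*t^(10:ℕ) + (-5)*t^(11:ℕ)) + (1/7290)*((-1)*t^(7:ℕ) + 3*t^(8:ℕ) + (-17/4)*t^(9:ℕ) + 3*t^(10:ℕ) + (-1)*t^(11:ℕ)) - (1077/500) = (131387352666806207/616273208519760)*(1 - t)^(11:ℕ) + (177639576796870259/16807451141448)*(t - (9/20))*(1 - t)^(10:ℕ) + (1598732665465261705/13751550933912)*(t - (9/20))^(2:ℕ)*(1 - t)^(9:ℕ) + (24147278513336738275/37816765068258)*(t - (9/20))^(3:ℕ)*(1 - t)^(8:ℕ) + (40669842456904654750/18908382534129)*(t - (9/20))^(4:ℕ)*(1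 - t)^(7:ℕ) + (274555315502399465000/56725147602387)*(t - (9/20))^(5:ℕ)*(1 - t)^(6:ℕ) + (428467755221525500000/56725147602387)*(t - (9/20))^(6:ℕ)*(1 - t)^(5:ℕ) + (467999634782390000000/56725147602387)*(t - (9/20))^(7:ℕ)*(1 - t)^(4:ℕ) + (117484386445280000000/18908382534129)*(t - (9/20))^(8:ℕ)*(1 - t)^(3:ℕ) + (174814154656000000000/56725147602387)*(t - (9/20))^(9:ℕ)*(1 - t)^(2:ℕ) + (51468002441600000000/56725147602387)*(t - (9/20))^(10:ℕ)*(1 - t) + (24989556723200000000/207992207875419)*(t - (9/20))^(11:ℕ) := by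
    ring
  rw [e]
  have a3 : 0 ≤ t - (9/20) := by linarith
  have a4 : 0 ≤ 1 - t := by linarith
  generalize t - (9/20) = t1 at a3 ⊢
  generalize 1 - t = t2 at a4 ⊢
  positivity

lemma pos_L2e_B2_b8 (t : ℝ) (h3 : (9/20) ≤ t) (h4 : t ≤ 1) :
    0 ≤ 1*(1 + (13/2)*t^(2:ℕ) + 16*t^(4:ℕ) + 19*t^(6:ℕ) + 11*t^(8:ℕ) + (5/2)*t^(10:ℕ)) + (1/3)*((5/2) + (-1/2)*t + 8*t^(2:ℕ) + (5/2)*t^(3:ℕ) + 50*t^(4:ℕ) + 25*t^(5:ℕ) + 100*t^(6:ℕ) + 20*t^(7:ℕ) + (139/2)*t^(8:ℕ) + (-13/2)*t^(9:ℕ) + 14*t^(10:ℕ) + (-9/2)*t^(11:ℕ)) + (1/9)*((-7) + (-37/4)*t + (-469/8)*t^(2:ℕ) + (-159/4)*t^(3:ℕ) + (-14)*t^(4:ℕ) + 40*t^(5:ℕ) + (691/4)*t^(6:ℕ) + 32*t^(7:ℕ) + 166*t^(8:ℕ) + (-275/4)*t^(9:ℕ) + (247/8)*t^(10:ℕ)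 + (-121/4)*t^(11:ℕ)) + (1/27)*((-4) + (-4)*t + (-20)*t^(2:ℕ) + (-56)*t^(3:ℕ) + (-67)*t^(4:ℕ) + (165/4)*t^(5:ℕ) + (125/4)*t^(6:ℕ) + 35*t^(7:ℕ) + (251/2)*t^(8:ℕ) + (-455/4)*t^(9:ℕ) + (173/4)*t^(10:ℕ) + (-111/2)*t^(11:ℕ)) + (1/81)*((83/4)*t^(2:ℕ) + (-5/4)*t^(3:ℕ) + (-51/4)*t^(4:ℕ) + (-21/4)*t^(5:ℕ) + (-27/4)*t^(6:ℕ) + (25/4)*t^(7:ℕ) + (243/4)*t^(8:ℕ) + (-70)*t^(9:ℕ) + 34*t^(10:ℕ) + (-50)*t^(11:ℕ)) + (1/243)*((-8)*t^(2:ℕ) + (119/4)*t^(3:ℕ) + 1*t^(4:ℕ) + (-18)*t^(5:ℕ) + (11/2)*t^(6:ℕ) + (23/4)*t^(7:ℕ) + (39/2)*t^(8:ℕ) + (-115/4)*t^(9:ℕ) + 23*t^(10:ℕ) + (-19)*t^(11:ℕ)) + (1/729)*((-8)*t^(2:ℕ) + (167/16)*t^(3:ℕ) + (-3)*t^(4:ℕ) + (1/8)*t^(5:ℕ) + (-127/8)*t^(6:ℕ) + (315/16)*t^(7:ℕ)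 + (31/8)*t^(8:ℕ) + (-445/16)*t^(9:ℕ) + (99/4)*t^(10:ℕ) + (-33/4)*t^(11:ℕ)) + (1/2187)*((5/2)*t^(5:ℕ) + (-31/4)*t^(6:ℕ) + 6*t^(7:ℕ) + (29/4)*t^(8:ℕ) + (-75/4)*t^(9:ℕ) + 15*t^(10:ℕ) + (-5)*t^(11:ℕ)) + (1/6561)*((-1)*t^(7:ℕ) + 3*t^(8:ℕ) + (-17/4)*t^(9:ℕ) + 3*t^(10:ℕ) + (-1)*t^(11:ℕ)) - (1077/500) := by
  have e : 1*(1 + (13/2)*t^(2:ℕ) + 16*t^(4:ℕ) + 19*t^(6:ℕ) + 11*t^(8:ℕ) + (5/2)*t^(10:ℕ)) + (1/3)*((5/2) + (-1/2)*t + 8*t^(2:ℕ) + (5/2)*t^(3:ℕ) + 50*t^(4:ℕ) + 25*t^(5:ℕ) + 100*t^(6:ℕ) + 20*t^(7:ℕ) + (139/2)*t^(8:ℕ) + (-13/2)*t^(9:ℕ) + 14*t^(10:ℕ) + (-9/2)*t^(11:ℕ)) + (1/9)*((-7) + (-37/4)*t + (-469/8)*t^(2:ℕ) + (-159/4)*t^(3:ℕ) + (-14)*t^(4:ℕ) + 40*t^(5:ℕ) + (691/4)*t^(6:ℕ) +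 32*t^(7:ℕ) + 166*t^(8:ℕ) + (-275/4)*t^(9:ℕ) + (247/8)*t^(10:ℕ) + (-121/4)*t^(11:ℕ)) + (1/27)*((-4) + (-4)*t + (-20)*t^(2:ℕ) + (-56)*t^(3:ℕ) + (-67)*t^(4:ℕ) + (165/4)*t^(5:ℕ) + (125/4)*t^(6:ℕ) + 35*t^(7:ℕ) + (251/2)*t^(8:ℕ) + (-455/4)*t^(9:ℕ) + (173/4)*t^(10:ℕ) + (-111/2)*t^(11:ℕ)) + (1/81)*((83/4)*t^(2:ℕ) + (-5/4)*t^(3:ℕ) + (-51/4)*t^(4:ℕ) + (-21/4)*t^(5:ℕ) + (-27/4)*t^(6:ℕ) + (25/4)*t^(7:ℕ) + (243/4)*t^(8:ℕ) + (-70)*t^(9:ℕ) + 34*t^(10:ℕ) + (-50)*t^(11:ℕ)) + (1/243)*((-8)*t^(2:ℕ) + (119/4)*t^(3:ℕ) + 1*t^(4:ℕ) + (-18)*t^(5:ℕ) + (11/2)*t^(6:ℕ) + (23/4)*t^(7:ℕ) + (39/2)*t^(8:ℕ) + (-115/4)*t^(9:ℕ) + 23*t^(10:ℕ) + (-19)*t^(11:ℕ)) + (1/729)*((-8)*t^(2:ℕ) + (167/16)*t^(3:ℕ) + (-3)*t^(4:ℕ)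 + (1/8)*t^(5:ℕ) + (-127/8)*t^(6:ℕ) + (315/16)*t^(7:ℕ) + (31/8)*t^(8:ℕ) + (-445/16)*t^(9:ℕ) + (99/4)*t^(10:ℕ) + (-33/4)*t^(11:ℕ)) + (1/2187)*((5/2)*t^(5:ℕ) + (-31/4)*t^(6:ℕ) + 6*t^(7:ℕ) + (29/4)*t^(8:ℕ) + (-75/4)*t^(9:ℕ) + 15*t^(10:ℕ) + (-5)*t^(11:ℕ)) + (1/6561)*((-1)*t^(7:ℕ) + 3*t^(8:ℕ) + (-17/4)*t^(9:ℕ) + 3*t^(10:ℕ) + (-1)*t^(11:ℕ)) - (1077/500) = (1325844277735957/7703415106497)*(1 - t)^(11:ℕ) + (42428526896665865/4201862785362)*(t - (9/20))*(1 - t)^(10:ℕ) + (2155056690810142225/18908382534129)*(t - (9/20))^(2:ℕ)*(1 - t)^(9:ℕ) + (11965256085288660500/18908382534129)*(t - (9/20))^(3:ℕ)*(1 - t)^(8:ℕ) + (3686551878774470000/1718943866739)*(t - (9/20))^(4:ℕ)*(1 - t)^(7:ℕ)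 + (274853969107977400000/56725147602387)*(t - (9/20))^(5:ℕ)*(1 - t)^(6:ℕ) + (430141445970812000000/56725147602387)*(t - (9/20))^(6:ℕ)*(1 - t)^(5:ℕ) + (1412403161576720000000/170175442807161)*(t - (9/20))^(7:ℕ)*(1 - t)^(4:ℕ) + (1065339991596800000000/170175442807161)*(t - (9/20))^(8:ℕ)*(1 - t)^(3:ℕ) + (529011918400000000000/170175442807161)*(t - (9/20))^(9:ℕ)*(1 - t)^(2:ℕ) + (155878296908800000000/170175442807161)*(t - (9/20))^(10:ℕ)*(1 - t) + (227173282508800000000/1871929870878771)*(t - (9/20))^(11:ℕ) := by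
    ring
  rw [e]
  have a3 : 0 ≤ t - (9/20) := by linarith
  have a4 : 0 ≤ 1 - t := by linarith
  generalize t - (9/20) = t1 at a3 ⊢
  generalize 1 - t = t2 at a4 ⊢
  positivity

lemma pos_L2e_B2_id (d : ℝ) (C0 C1 C2 C3 C4 C5 C6 C7 C8 : ℝ) :
    C0 + d*C1 + d^(2:ℕ)*C2 + d^(3:ℕ)*C3 + d^(4:ℕ)*C4 + d^(5:ℕ)*C5 + d^(6:ℕ)*C6 + d^(7:ℕ)*C7 + d^(8:ℕ)*C8 = (1077/500) + (656100000000*((1/3) - d)^(8:ℕ)*(1*C0 + (3/10)*C1 + (9/100)*C2 + (27/1000)*C3 + (81/10000)*C4 + (243/100000)*C5 + (729/1000000)*C6 + (2187/10000000)*C7 + (6561/100000000)*C8 - (1077/500)) + 5248800000000*(d - (3/10))*((1/3) - d)^(7:ℕ)*(1*C0 + (73/240)*C1 + (37/400)*C2 + (9/320)*C3 + (171/20000)*C4 + (2079/800000)*C5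 + (3159/4000000)*C6 + (19197/80000000)*C7 + (729/10000000)*C8 - (1077/500)) + 18370800000000*(d - (3/10))^(2:ℕ)*((1/3) - d)^(6:ℕ)*(1*C0 + (37/120)*C1 + (479/5040)*C2 + (41/1400)*C3 + (1263/140000)*C4 + (7779/2800000)*C5 + (23949/28000000)*C6 + (1053/4000000)*C7 + (81/1000000)*C8 - (1077/500)) + 36741600000000*(d - (3/10))^(3:ℕ)*((1/3) - d)^(5:ℕ)*(1*C0 + (5/16)*C1 + (41/420)*C2 + (4609/151200)*C3 + (11989/1260000)*C4 + (49879/16800000)*C5 + (2593/2800000)*C6 + (231/800000)*C7 + (9/100000)*C8 - (1077/500)) + 45927000000000*(d - (3/10))^(4:ℕ)*((1/3) - d)^(4:ℕ)*(1*C0 + (19/60)*C1 + (421/4200)*C2 + (11989/378000)*C3 + (568801/56700000)*C4 + (11989/3780000)*C5 + (421/420000)*C6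 + (19/60000)*C7 + (1/10000)*C8 - (1077/500)) + 36741600000000*(d - (3/10))^(5:ℕ)*((1/3) - d)^(3:ℕ)*(1*C0 + (77/240)*C1 + (2593/25200)*C2 + (49879/1512000)*C3 + (11989/1134000)*C4 + (4609/1360800)*C5 + (41/37800)*C6 + (1/2880)*C7 + (1/9000)*C8 - (1077/500)) + 18370800000000*(d - (3/10))^(6:ℕ)*((1/3) - d)^(2:ℕ)*(1*C0 + (13/40)*C1 + (887/8400)*C2 + (2593/75600)*C3 + (421/37800)*C4 + (41/11340)*C5 + (479/408240)*C6 + (37/97200)*C7 + (1/8100)*C8 - (1077/500)) + 5248800000000*(d - (3/10))^(7:ℕ)*((1/3) - d)*(1*C0 + (79/240)*C1 + (13/120)*C2 + (77/2160)*C3 + (19/1620)*C4 + (5/1296)*C5 + (37/29160)*C6 + (73/174960)*C7 + (1/7290)*C8 - (1077/500)) + 656100000000*(d - (3/10))^(8:ℕ)*(1*C0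 + (1/3)*C1 + (1/9)*C2 + (1/27)*C3 + (1/81)*C4 + (1/243)*C5 + (1/729)*C6 + (1/2187)*C7 + (1/6561)*C8 - (1077/500))) := by
  ring

lemma pos_L2e_B2_gen (d1 d2 B0 B1 B2 B3 B4 B5 B6 B7 B8 : ℝ) (a1 : 0 ≤ d1) (a2 : 0 ≤ d2) (b0 : 0 ≤ B0) (b1 : 0 ≤ B1) (b2 : 0 ≤ B2) (b3 : 0 ≤ B3) (b4 : 0 ≤ B4) (b5 : 0 ≤ B5) (b6 : 0 ≤ B6) (b7 : 0 ≤ B7) (b8 : 0 ≤ B8) :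
    0 < (1077/500) + (656100000000*d2^(8:ℕ)*(B0) + 5248800000000*d1*d2^(7:ℕ)*(B1) + 18370800000000*d1^(2:ℕ)*d2^(6:ℕ)*(B2) + 36741600000000*d1^(3:ℕ)*d2^(5:ℕ)*(B3) + 45927000000000*d1^(4:ℕ)*d2^(4:ℕ)*(B4) + 36741600000000*d1^(5:ℕ)*d2^(3:ℕ)*(B5) + 18370800000000*d1^(6:ℕ)*d2^(2:ℕ)*(B6) + 5248800000000*d1^(7:ℕ)*d2*(B7) + 656100000000*d1^(8:ℕ)*(B8)) := by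
  positivity

lemma pos_L2e_B2_core (d C0 C1 C2 C3 C4 C5 C6 C7 C8 : ℝ) (h1 : (3/10) ≤ d) (h2 : d ≤ (1/3))
    (b0 : 0 ≤ 1*C0 + (3/10)*C1 + (9/100)*C2 + (27/1000)*C3 + (81/10000)*C4 + (243/100000)*C5 + (729/1000000)*C6 + (2187/10000000)*C7 + (6561/100000000)*C8 - (1077/500))
    (b1 : 0 ≤ 1*C0 + (73/240)*C1 + (37/400)*C2 + (9/320)*C3 + (171/20000)*C4 + (2079/800000)*C5 + (3159/4000000)*C6 + (19197/80000000)*C7 + (729/10000000)*C8 - (1077/500))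
    (b2 : 0 ≤ 1*C0 + (37/120)*C1 + (479/5040)*C2 + (41/1400)*C3 + (1263/140000)*C4 + (7779/2800000)*C5 + (23949/28000000)*C6 + (1053/4000000)*C7 + (81/1000000)*C8 - (1077/500))
    (b3 : 0 ≤ 1*C0 + (5/16)*C1 + (41/420)*C2 + (4609/151200)*C3 + (11989/1260000)*C4 + (49879/16800000)*C5 + (2593/2800000)*C6 + (231/800000)*C7 + (9/100000)*C8 - (1077/500))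
    (b4 : 0 ≤ 1*C0 + (19/60)*C1 + (421/4200)*C2 + (11989/378000)*C3 + (568801/56700000)*C4 + (11989/3780000)*C5 + (421/420000)*C6 + (19/60000)*C7 + (1/10000)*C8 - (1077/500))
    (b5 : 0 ≤ 1*C0 + (77/240)*C1 + (2593/25200)*C2 + (49879/1512000)*C3 + (11989/1134000)*C4 + (4609/1360800)*C5 + (41/37800)*C6 + (1/2880)*C7 + (1/9000)*C8 - (1077/500))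
    (b6 : 0 ≤ 1*C0 + (13/40)*C1 + (887/8400)*C2 + (2593/75600)*C3 + (421/37800)*C4 + (41/11340)*C5 + (479/408240)*C6 + (37/97200)*C7 + (1/8100)*C8 - (1077/500))
    (b7 : 0 ≤ 1*C0 + (79/240)*C1 + (13/120)*C2 + (77/2160)*C3 + (19/1620)*C4 + (5/1296)*C5 + (37/29160)*C6 + (73/174960)*C7 + (1/7290)*C8 - (1077/500))
    (b8 : 0 ≤ 1*C0 + (1/3)*C1 + (1/9)*C2 + (1/27)*C3 + (1/81)*C4 + (1/243)*C5 + (1/729)*C6 + (1/2187)*C7 + (1/6561)*C8 - (1077/500)) :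
    0 < C0 + d*C1 + d^(2:ℕ)*C2 + d^(3:ℕ)*C3 + d^(4:ℕ)*C4 + d^(5:ℕ)*C5 + d^(6:ℕ)*C6 + d^(7:ℕ)*C7 + d^(8:ℕ)*C8 := by
  rw [pos_L2e_B2_id]
  exact pos_L2e_B2_gen _ _ _ _ _ _ _ _ _ _ _ (sub_nonneg.2 h1) (sub_nonneg.2 h2) b0 b1 b2 b3 b4 b5 b6 b7 b8

lemma pos_L2e_B2 (d t : ℝ) (h1 : (3/10) ≤ d) (h2 : d ≤ (1/3)) (h3 : (9/20) ≤ t) (h4 : t ≤ 1) :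
    0 < 1 + (13/2)*t^(2:ℕ) + 16*t^(4:ℕ) + 19*t^(6:ℕ) + 11*t^(8:ℕ) + (5/2)*t^(10:ℕ) + (5/2)*d + (-1/2)*d*t + 8*d*t^(2:ℕ) + (5/2)*d*t^(3:ℕ) + 50*d*t^(4:ℕ) + 25*d*t^(5:ℕ) + 100*d*t^(6:ℕ) + 20*d*t^(7:ℕ) + (139/2)*d*t^(8:ℕ) + (-13/2)*d*t^(9:ℕ) + 14*d*t^(10:ℕ) + (-9/2)*d*t^(11:ℕ) + (-7)*d^(2:ℕ) + (-37/4)*d^(2:ℕ)*t + (-469/8)*d^(2:ℕ)*t^(2:ℕ) + (-159/4)*d^(2:ℕ)*t^(3:ℕ) + (-14)*d^(2:ℕ)*t^(4:ℕ) + 40*d^(2:ℕ)*t^(5:ℕ) + (691/4)*d^(2:ℕ)*t^(6:ℕ) + 32*d^(2:ℕ)*t^(7:ℕ) + 166*d^(2:ℕ)*t^(8:ℕ) + (-275/4)*d^(2:ℕ)*t^(9:ℕ) + (247/8)*d^(2:ℕ)*t^(10:ℕ) + (-121/4)*d^(2:ℕ)*t^(11:ℕ) + (-4)*d^(3:ℕ) + (-4)*d^(3:ℕ)*t + (-20)*d^(3:ℕ)*t^(2:ℕ) + (-56)*d^(3:ℕ)*t^(3:ℕ) + (-67)*d^(3:ℕ)*t^(4:ℕ) + (165/4)*d^(3:ℕ)*t^(5:ℕ)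 + (125/4)*d^(3:ℕ)*t^(6:ℕ) + 35*d^(3:ℕ)*t^(7:ℕ) + (251/2)*d^(3:ℕ)*t^(8:ℕ) + (-455/4)*d^(3:ℕ)*t^(9:ℕ) + (173/4)*d^(3:ℕ)*t^(10:ℕ) + (-111/2)*d^(3:ℕ)*t^(11:ℕ) + (83/4)*d^(4:ℕ)*t^(2:ℕ) + (-5/4)*d^(4:ℕ)*t^(3:ℕ) + (-51/4)*d^(4:ℕ)*t^(4:ℕ) + (-21/4)*d^(4:ℕ)*t^(5:ℕ) + (-27/4)*d^(4:ℕ)*t^(6:ℕ) + (25/4)*d^(4:ℕ)*t^(7:ℕ) + (243/4)*d^(4:ℕ)*t^(8:ℕ) + (-70)*d^(4:ℕ)*t^(9:ℕ) + 34*d^(4:ℕ)*t^(10:ℕ) + (-50)*d^(4:ℕ)*t^(11:ℕ) + (-8)*d^(5:ℕ)*t^(2:ℕ) + (119/4)*d^(5:ℕ)*t^(3:ℕ) + 1*d^(5:ℕ)*t^(4:ℕ) + (-18)*d^(5:ℕ)*t^(5:ℕ) + (11/2)*d^(5:ℕ)*t^(6:ℕ) + (23/4)*d^(5:ℕ)*t^(7:ℕ) + (39/2)*d^(5:ℕ)*t^(8:ℕ) + (-115/4)*d^(5:ℕ)*t^(9:ℕ) + 23*d^(5:ℕ)*t^(10:ℕ) + (-19)*d^(5:ℕ)*t^(11:ℕ) + (-8)*d^(6:ℕ)*t^(2:ℕ) + (167/16)*d^(6:ℕ)*t^(3:ℕ)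 + (-3)*d^(6:ℕ)*t^(4:ℕ) + (1/8)*d^(6:ℕ)*t^(5:ℕ) + (-127/8)*d^(6:ℕ)*t^(6:ℕ) + (315/16)*d^(6:ℕ)*t^(7:ℕ) + (31/8)*d^(6:ℕ)*t^(8:ℕ) + (-445/16)*d^(6:ℕ)*t^(9:ℕ) + (99/4)*d^(6:ℕ)*t^(10:ℕ) + (-33/4)*d^(6:ℕ)*t^(11:ℕ) + (5/2)*d^(7:ℕ)*t^(5:ℕ) + (-31/4)*d^(7:ℕ)*t^(6:ℕ) + 6*d^(7:ℕ)*t^(7:ℕ) + (29/4)*d^(7:ℕ)*t^(8:ℕ) + (-75/4)*d^(7:ℕ)*t^(9:ℕ) + 15*d^(7:ℕ)*t^(10:ℕ) + (-5)*d^(7:ℕ)*t^(11:ℕ) + (-1)*d^(8:ℕ)*t^(7:ℕ) + 3*d^(8:ℕ)*t^(8:ℕ) + (-17/4)*d^(8:ℕ)*t^(9:ℕ) + 3*d^(8:ℕ)*t^(10:ℕ) + (-1)*d^(8:ℕ)*t^(11:ℕ) := by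
  have e0 : 1 + (13/2)*t^(2:ℕ) + 16*t^(4:ℕ) + 19*t^(6:ℕ) + 11*t^(8:ℕ) + (5/2)*t^(10:ℕ) + (5/2)*d + (-1/2)*d*t + 8*d*t^(2:ℕ) + (5/2)*d*t^(3:ℕ) + 50*d*t^(4:ℕ) + 25*d*t^(5:ℕ) + 100*d*t^(6:ℕ) + 20*d*t^(7:ℕ) + (139/2)*d*t^(8:ℕ) + (-13/2)*d*t^(9:ℕ) + 14*d*t^(10:ℕ) + (-9/2)*d*t^(11:ℕ) + (-7)*d^(2:ℕ) + (-37/4)*d^(2:ℕ)*t + (-469/8)*d^(2:ℕ)*t^(2:ℕ) + (-159/4)*d^(2:ℕ)*t^(3:ℕ) + (-14)*d^(2:ℕ)*t^(4:ℕ) + 40*d^(2:ℕ)*t^(5:ℕ) + (691/4)*d^(2:ℕ)*t^(6:ℕ) + 32*d^(2:ℕ)*t^(7:ℕ) + 166*d^(2:ℕ)*t^(8:ℕ) + (-275/4)*d^(2:ℕ)*t^(9:ℕ) + (247/8)*d^(2:ℕ)*t^(10:ℕ) + (-121/4)*d^(2:ℕ)*t^(11:ℕ) + (-4)*d^(3:ℕ) + (-4)*d^(3:ℕ)*t + (-20)*d^(3:ℕ)*t^(2:ℕ) + (-56)*d^(3:ℕ)*t^(3:ℕ) + (-67)*d^(3:ℕ)*t^(4:ℕ) + (165/4)*d^(3:ℕ)*t^(5:ℕ)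 + (125/4)*d^(3:ℕ)*t^(6:ℕ) + 35*d^(3:ℕ)*t^(7:ℕ) + (251/2)*d^(3:ℕ)*t^(8:ℕ) + (-455/4)*d^(3:ℕ)*t^(9:ℕ) + (173/4)*d^(3:ℕ)*t^(10:ℕ) + (-111/2)*d^(3:ℕ)*t^(11:ℕ) + (83/4)*d^(4:ℕ)*t^(2:ℕ) + (-5/4)*d^(4:ℕ)*t^(3:ℕ) + (-51/4)*d^(4:ℕ)*t^(4:ℕ) + (-21/4)*d^(4:ℕ)*t^(5:ℕ) + (-27/4)*d^(4:ℕ)*t^(6:ℕ) + (25/4)*d^(4:ℕ)*t^(7:ℕ) + (243/4)*d^(4:ℕ)*t^(8:ℕ) + (-70)*d^(4:ℕ)*t^(9:ℕ) + 34*d^(4:ℕ)*t^(10:ℕ) + (-50)*d^(4:ℕ)*t^(11:ℕ) + (-8)*d^(5:ℕ)*t^(2:ℕ) + (119/4)*d^(5:ℕ)*t^(3:ℕ) + 1*d^(5:ℕ)*t^(4:ℕ) + (-18)*d^(5:ℕ)*t^(5:ℕ) + (11/2)*d^(5:ℕ)*t^(6:ℕ) + (23/4)*d^(5:ℕ)*t^(7:ℕ) + (39/2)*d^(5:ℕ)*t^(8:ℕ) + (-115/4)*d^(5:ℕ)*t^(9:ℕ) + 23*d^(5:ℕ)*t^(10:ℕ) + (-19)*d^(5:ℕ)*t^(11:ℕ) + (-8)*d^(6:ℕ)*t^(2:ℕ) + (167/16)*d^(6:ℕ)*t^(3:ℕ)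 + (-3)*d^(6:ℕ)*t^(4:ℕ) + (1/8)*d^(6:ℕ)*t^(5:ℕ) + (-127/8)*d^(6:ℕ)*t^(6:ℕ) + (315/16)*d^(6:ℕ)*t^(7:ℕ) + (31/8)*d^(6:ℕ)*t^(8:ℕ) + (-445/16)*d^(6:ℕ)*t^(9:ℕ) + (99/4)*d^(6:ℕ)*t^(10:ℕ) + (-33/4)*d^(6:ℕ)*t^(11:ℕ) + (5/2)*d^(7:ℕ)*t^(5:ℕ) + (-31/4)*d^(7:ℕ)*t^(6:ℕ) + 6*d^(7:ℕ)*t^(7:ℕ) + (29/4)*d^(7:ℕ)*t^(8:ℕ) + (-75/4)*d^(7:ℕ)*t^(9:ℕ) + 15*d^(7:ℕ)*t^(10:ℕ) + (-5)*d^(7:ℕ)*t^(11:ℕ) + (-1)*d^(8:ℕ)*t^(7:ℕ) + 3*d^(8:ℕ)*t^(8:ℕ) + (-17/4)*d^(8:ℕ)*t^(9:ℕ) + 3*d^(8:ℕ)*t^(10:ℕ) + (-1)*d^(8:ℕ)*t^(11:ℕ) = (1 + (13/2)*t^(2:ℕ) + 16*t^(4:ℕ) + 19*t^(6:ℕ) + 11*t^(8:ℕ) + (5/2)*t^(10:ℕ)) + d*((5/2) + (-1/2)*t + 8*t^(2:ℕ) + (5/2)*t^(3:ℕ) + 50*t^(4:ℕ) + 25*t^(5:ℕ) + 100*t^(6:ℕ) + 20*t^(7:ℕ) + (139/2)*t^(8:ℕ)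 + (-13/2)*t^(9:ℕ) + 14*t^(10:ℕ) + (-9/2)*t^(11:ℕ)) + d^(2:ℕ)*((-7) + (-37/4)*t + (-469/8)*t^(2:ℕ) + (-159/4)*t^(3:ℕ) + (-14)*t^(4:ℕ) + 40*t^(5:ℕ) + (691/4)*t^(6:ℕ) + 32*t^(7:ℕ) + 166*t^(8:ℕ) + (-275/4)*t^(9:ℕ) + (247/8)*t^(10:ℕ) + (-121/4)*t^(11:ℕ)) + d^(3:ℕ)*((-4) + (-4)*t + (-20)*t^(2:ℕ) + (-56)*t^(3:ℕ) + (-67)*t^(4:ℕ) + (165/4)*t^(5:ℕ) + (125/4)*t^(6:ℕ) + 35*t^(7:ℕ) + (251/2)*t^(8:ℕ) + (-455/4)*t^(9:ℕ) + (173/4)*t^(10:ℕ) + (-111/2)*t^(11:ℕ)) + d^(4:ℕ)*((83/4)*t^(2:ℕ) + (-5/4)*t^(3:ℕ) + (-51/4)*t^(4:ℕ) + (-21/4)*t^(5:ℕ) + (-27/4)*t^(6:ℕ) + (25/4)*t^(7:ℕ) + (243/4)*t^(8:ℕ) + (-70)*t^(9:ℕ) + 34*t^(10:ℕ) + (-50)*t^(11:ℕ)) + d^(5:ℕ)*((-8)*t^(2:ℕ) + (119/4)*t^(3:ℕ) + 1*t^(4:ℕ)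 + (-18)*t^(5:ℕ) + (11/2)*t^(6:ℕ) + (23/4)*t^(7:ℕ) + (39/2)*t^(8:ℕ) + (-115/4)*t^(9:ℕ) + 23*t^(10:ℕ) + (-19)*t^(11:ℕ)) + d^(6:ℕ)*((-8)*t^(2:ℕ) + (167/16)*t^(3:ℕ) + (-3)*t^(4:ℕ) + (1/8)*t^(5:ℕ) + (-127/8)*t^(6:ℕ) + (315/16)*t^(7:ℕ) + (31/8)*t^(8:ℕ) + (-445/16)*t^(9:ℕ) + (99/4)*t^(10:ℕ) + (-33/4)*t^(11:ℕ)) + d^(7:ℕ)*((5/2)*t^(5:ℕ) + (-31/4)*t^(6:ℕ) + 6*t^(7:ℕ) + (29/4)*t^(8:ℕ) + (-75/4)*t^(9:ℕ) + 15*t^(10:ℕ) + (-5)*t^(11:ℕ)) + d^(8:ℕ)*((-1)*t^(7:ℕ) + 3*t^(8:ℕ) + (-17/4)*t^(9:ℕ) + 3*t^(10:ℕ) + (-1)*t^(11:ℕ)) := by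
    ring
  rw [e0]
  exact pos_L2e_B2_core d _ _ _ _ _ _ _ _ _ h1 h2 (pos_L2e_B2_b0 t h3 h4) (pos_L2e_B2_b1 t h3 h4) (pos_L2e_B2_b2 t h3 h4) (pos_L2e_B2_b3 t h3 h4) (pos_L2e_B2_b4 t h3 h4) (pos_L2e_B2_b5 t h3 h4) (pos_L2e_B2_b6 t h3 h4) (pos_L2e_B2_b7 t h3 h4) (pos_L2e_B2_b8 t h3 h4)

end Vale.Agent.Lib.P100.AB.V1X
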