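import Mathlib

/-!
# P100: polynomial inequalities of the unequal-exponent family, box B3 (Bernstein coefficients).
-/

namespace Vale.Agent.Lib.P100.AB.V1X

lemma pos_r1_B3_b0 (t : ℝ) (h3 : (1/2) ≤ t) (h4 : t ≤ 1) :
    0 ≤ 1*(1 + 1*t^(2:ℕ)) + (1/3)*(2 + (-3)*t^(2:ℕ)) + (1/9)*((-1)*t^(2:ℕ)) - (162/125) := by
  have e : 1*(1 + 1*t^(2:ℕ)) + (1/3)*(2 + (-3)*t^(2:ℕ)) + (1/9)*((-1)*t^(2:ℕ)) - (162/125) = (1543/1125)*(1 - t)^(2:ℕ) + (2836/1125)*(t - (1/2))*(1 - t) + (1168/1125)*(t - (1/2))^(2:ℕ) := by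
    ring
  rw [e]
  have a3 : 0 ≤ t - (1/2) := by linarith
  have a4 : 0 ≤ 1 - t := by linarith
  generalize t - (1/2) = t1 at a3 ⊢
  generalize 1 - t = t2 at a4 ⊢
  positivity

lemma pos_r1_B3_b1 (t : ℝ) (h3 : (1/2) ≤ t) (h4 : t ≤ 1) :
    0 ≤ 1*(1 + 1*t^(2:ℕ)) + (11/30)*(2 + (-3)*t^(2:ℕ)) + (2/15)*((-1)*t^(2:ℕ)) - (162/125) := by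
  have e : 1*(1 + 1*t^(2:ℕ)) + (11/30)*(2 + (-3)*t^(2:ℕ)) + (2/15)*((-1)*t^(2:ℕ)) - (162/125) = (379/250)*(1 - t)^(2:ℕ) + (962/375)*(t - (1/2))*(1 - t) + (102/125)*(t - (1/2))^(2:ℕ) := by
    ring
  rw [e]
  have a3 : 0 ≤ t - (1/2) := by linarith
  have a4 : 0 ≤ 1 - t := by linarith
  generalize t - (1/2) = t1 at a3 ⊢
  generalize 1 - t = t2 at a4 ⊢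
  positivity

lemma pos_r1_B3_b2 (t : ℝ) (h3 : (1/2) ≤ t) (h4 : t ≤ 1) :
    0 ≤ 1*(1 + 1*t^(2:ℕ)) + (2/5)*(2 + (-3)*t^(2:ℕ)) + (4/25)*((-1)*t^(2:ℕ)) - (162/125) := by
  have e : 1*(1 + 1*t^(2:ℕ)) + (2/5)*(2 + (-3)*t^(2:ℕ)) + (4/25)*((-1)*t^(2:ℕ)) - (162/125) = (207/125)*(1 - t)^(2:ℕ) + (324/125)*(t - (1/2))*(1 - t) + (72/125)*(t - (1/2))^(2:ℕ) := by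
    ring
  rw [e]
  have a3 : 0 ≤ t - (1/2) := by linarith
  have a4 : 0 ≤ 1 - t := by linarith
  generalize t - (1/2) = t1 at a3 ⊢
  generalize 1 - t = t2 at a4 ⊢
  positivity

lemma pos_r1_B3_id (d : ℝ) (C0 C1 C2 : ℝ) :
    C0 + d*C1 + d^(2:ℕ)*C2 = (162/125) + (225*((2/5) - d)^(2:ℕ)*(1*C0 + (1/3)*C1 + (1/9)*C2 - (162/125)) + 450*(d - (1/3))*((2/5) - d)*(1*C0 + (11/30)*C1 + (2/15)*C2 - (162/125)) + 225*(d - (1/3))^(2:ℕ)*(1*C0 + (2/5)*C1 + (4/25)*C2 - (162/125))) := by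
  ring

lemma pos_r1_B3_gen (d1 d2 B0 B1 B2 : ℝ) (a1 : 0 ≤ d1) (a2 : 0 ≤ d2) (b0 : 0 ≤ B0) (b1 : 0 ≤ B1) (b2 : 0 ≤ B2) :
    0 < (162/125) + (225*d2^(2:ℕ)*(B0) + 450*d1*d2*(B1) + 225*d1^(2:ℕ)*(B2)) := by
  positivity

lemma pos_r1_B3_core (d C0 C1 C2 : ℝ) (h1 : (1/3) ≤ d) (h2 : d ≤ (2/5))
    (b0 : 0 ≤ 1*C0 + (1/3)*C1 + (1/9)*C2 - (162/125))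
    (b1 : 0 ≤ 1*C0 + (11/30)*C1 + (2/15)*C2 - (162/125))
    (b2 : 0 ≤ 1*C0 + (2/5)*C1 + (4/25)*C2 - (162/125)) :
    0 < C0 + d*C1 + d^(2:ℕ)*C2 := by
  rw [pos_r1_B3_id]
  exact pos_r1_B3_gen _ _ _ _ _ (sub_nonneg.2 h1) (sub_nonneg.2 h2) b0 b1 b2

lemma pos_r1_B3 (d t : ℝ) (h1 : (1/3) ≤ d) (h2 : d ≤ (2/5)) (h3 : (1/2) ≤ t) (h4 : t ≤ 1) :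
    0 < 1 + 1*t^(2:ℕ) + 2*d + (-3)*d*t^(2:ℕ) + (-1)*d^(2:ℕ)*t^(2:ℕ) := by
  have e0 : 1 + 1*t^(2:ℕ) + 2*d + (-3)*d*t^(2:ℕ) + (-1)*d^(2:ℕ)*t^(2:ℕ) = (1 + 1*t^(2:ℕ)) + d*(2 + (-3)*t^(2:ℕ)) + d^(2:ℕ)*((-1)*t^(2:ℕ)) := by
    ring
  rw [e0]
  exact pos_r1_B3_core d _ _ _ h1 h2 (pos_r1_B3_b0 t h3 h4) (pos_r1_B3_b1 t h3 h4) (pos_r1_B3_b2 t h3 h4)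

lemma pos_r6_B3_b0 (t : ℝ) (h3 : (1/2) ≤ t) (h4 : t ≤ 1) :
    0 ≤ 1*(1 + 1*t^(2:ℕ)) + (1/3)*((-3) + 2*t^(2:ℕ)) + (1/9)*((-1)) - (81/1000) := by
  have e : 1*(1 + 1*t^(2:ℕ)) + (1/3)*((-3) + 2*t^(2:ℕ)) + (1/9)*((-1)) - (81/1000) = (2021/2250)*(1 - t)^(2:ℕ) + (5771/1125)*(t - (1/2))*(1 - t) + (13271/2250)*(t - (1/2))^(2:ℕ) := by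
    ring
  rw [e]
  have a3 : 0 ≤ t - (1/2) := by linarith
  have a4 : 0 ≤ 1 - t := by linarith
  generalize t - (1/2) = t1 at a3 ⊢
  generalize 1 - t = t2 at a4 ⊢
  positivity

lemma pos_r6_B3_b1 (t : ℝ) (h3 : (1/2) ≤ t) (h4 : t ≤ 1) :
    0 ≤ 1*(1 + 1*t^(2:ℕ)) + (11/30)*((-3) + 2*t^(2:ℕ)) + (2/15)*((-1)) - (81/1000) := by
  have e : 1*(1 + 1*t^(2:ℕ)) + (11/30)*((-3) + 2*t^(2:ℕ)) + (2/15)*((-1)) - (81/1000) = (119/250)*(1 - t)^(2:ℕ) + (1657/375)*(t - (1/2))*(1 - t) + (1419/250)*(t - (1/2))^(2:ℕ) := by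
    ring
  rw [e]
  have a3 : 0 ≤ t - (1/2) := by linarith
  have a4 : 0 ≤ 1 - t := by linarith
  generalize t - (1/2) = t1 at a3 ⊢
  generalize 1 - t = t2 at a4 ⊢
  positivity

lemma pos_r6_B3_b2 (t : ℝ) (h3 : (1/2) ≤ t) (h4 : t ≤ 1) :
    0 ≤ 1*(1 + 1*t^(2:ℕ)) + (2/5)*((-3) + 2*t^(2:ℕ)) + (4/25)*((-1)) - (81/1000) := by
  have e : 1*(1 + 1*t^(2:ℕ)) + (2/5)*((-3) + 2*t^(2:ℕ)) + (4/25)*((-1)) - (81/1000) = (9/250)*(1 - t)^(2:ℕ) + (459/125)*(t - (1/2))*(1 - t) + (1359/250)*(t - (1/2))^(2:ℕ) := by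
    ring
  rw [e]
  have a3 : 0 ≤ t - (1/2) := by linarith
  have a4 : 0 ≤ 1 - t := by linarith
  generalize t - (1/2) = t1 at a3 ⊢
  generalize 1 - t = t2 at a4 ⊢
  positivity

lemma pos_r6_B3_id (d : ℝ) (C0 C1 C2 : ℝ) :
    C0 + d*C1 + d^(2:ℕ)*C2 = (81/1000) + (225*((2/5) - d)^(2:ℕ)*(1*C0 + (1/3)*C1 + (1/9)*C2 - (81/1000)) + 450*(d - (1/3))*((2/5) - d)*(1*C0 + (11/30)*C1 + (2/15)*C2 - (81/1000)) + 225*(d - (1/3))^(2:ℕ)*(1*C0 + (2/5)*C1 + (4/25)*C2 - (81/1000))) := by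
  ring

lemma pos_r6_B3_gen (d1 d2 B0 B1 B2 : ℝ) (a1 : 0 ≤ d1) (a2 : 0 ≤ d2) (b0 : 0 ≤ B0) (b1 : 0 ≤ B1) (b2 : 0 ≤ B2) :
    0 < (81/1000) + (225*d2^(2:ℕ)*(B0) + 450*d1*d2*(B1) + 225*d1^(2:ℕ)*(B2)) := by
  positivity

lemma pos_r6_B3_core (d C0 C1 C2 : ℝ) (h1 : (1/3) ≤ d) (h2 : d ≤ (2/5))
    (b0 : 0 ≤ 1*C0 + (1/3)*C1 + (1/9)*C2 - (81/1000))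
    (b1 : 0 ≤ 1*C0 + (11/30)*C1 + (2/15)*C2 - (81/1000))
    (b2 : 0 ≤ 1*C0 + (2/5)*C1 + (4/25)*C2 - (81/1000)) :
    0 < C0 + d*C1 + d^(2:ℕ)*C2 := by
  rw [pos_r6_B3_id]
  exact pos_r6_B3_gen _ _ _ _ _ (sub_nonneg.2 h1) (sub_nonneg.2 h2) b0 b1 b2

lemma pos_r6_B3 (d t : ℝ) (h1 : (1/3) ≤ d) (h2 : d ≤ (2/5)) (h3 : (1/2) ≤ t) (h4 : t ≤ 1) :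
    0 < 1 + 1*t^(2:ℕ) + (-3)*d + 2*d*t^(2:ℕ) + (-1)*d^(2:ℕ) := by
  have e0 : 1 + 1*t^(2:ℕ) + (-3)*d + 2*d*t^(2:ℕ) + (-1)*d^(2:ℕ) = (1 + 1*t^(2:ℕ)) + d*((-3) + 2*t^(2:ℕ)) + d^(2:ℕ)*((-1)) := by
    ring
  rw [e0]
  exact pos_r6_B3_core d _ _ _ h1 h2 (pos_r6_B3_b0 t h3 h4) (pos_r6_B3_b1 t h3 h4) (pos_r6_B3_b2 t h3 h4)

lemma pos_DP_B3_b0 (t : ℝ) (h3 : (1/2) ≤ t) (h4 : t ≤ 1) :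
    0 ≤ 1*(1 + 6*t^(2:ℕ) + 15*t^(4:ℕ) + 20*t^(6:ℕ) + 15*t^(8:ℕ) + 6*t^(10:ℕ) + 1*t^(12:ℕ)) + (1/3)*((-9/16) + (149/8)*t^(2:ℕ) + (-32)*t^(3:ℕ) + (1273/16)*t^(4:ℕ) + (-96)*t^(5:ℕ) + (483/4)*t^(6:ℕ) + (-96)*t^(7:ℕ) + (1273/16)*t^(8:ℕ) + (-32)*t^(9:ℕ) + (149/8)*t^(10:ℕ) + (-9/16)*t^(12:ℕ)) + (1/9)*((-233/16) + 8*t + (-73/2)*t^(2:ℕ) + 12*t^(3:ℕ) + (-623/16)*t^(4:ℕ) + (-4)*t^(5:ℕ) + (-34)*t^(6:ℕ) + (-4)*t^(7:ℕ) + (-623/16)*t^(8:ℕ) + 12*t^(9:ℕ) + (-73/2)*t^(10:ℕ) + 8*t^(11:ℕ) + (-233/16)*t^(12:ℕ)) + (1/27)*((-287/16) + 27*t + (-625/4)*t^(2:ℕ) + 213*t^(3:ℕ) + (-3321/16)*t^(4:ℕ) + 184*t^(5:ℕ) + (-277/2)*t^(6:ℕ) + 184*t^(7:ℕ) + (-3321/16)*t^(8:ℕ) + 213*t^(9:ℕ)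 + (-625/4)*t^(10:ℕ) + 27*t^(11:ℕ) + (-287/16)*t^(12:ℕ)) + (1/81)*(5 + 12*t + (-347/4)*t^(2:ℕ) + 62*t^(3:ℕ) + (419/2)*t^(4:ℕ) + (-378)*t^(5:ℕ) + (885/2)*t^(6:ℕ) + (-378)*t^(7:ℕ) + (419/2)*t^(8:ℕ) + 62*t^(9:ℕ) + (-347/4)*t^(10:ℕ) + 12*t^(11:ℕ) + 5*t^(12:ℕ)) + (1/243)*((25/4) + (-20)*t + (107/2)*t^(2:ℕ) + (-120)*t^(3:ℕ) + (529/4)*t^(4:ℕ) + 52*t^(5:ℕ) + (-182)*t^(6:ℕ) + 52*t^(7:ℕ) + (529/4)*t^(8:ℕ) + (-120)*t^(9:ℕ) + (107/2)*t^(10:ℕ) + (-20)*t^(11:ℕ) + (25/4)*t^(12:ℕ)) + (1/729)*((-25)*t^(4:ℕ) + 80*t^(5:ℕ) + (-114)*t^(6:ℕ) + 80*t^(7:ℕ) + (-25)*t^(8:ℕ)) - (223/1000) := by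
  have e : 1*(1 + 6*t^(2:ℕ) + 15*t^(4:ℕ) + 20*t^(6:ℕ) + 15*t^(8:ℕ) + 6*t^(10:ℕ) + 1*t^(12:ℕ)) + (1/3)*((-9/16) + (149/8)*t^(2:ℕ) + (-32)*t^(3:ℕ) + (1273/16)*t^(4:ℕ) + (-96)*t^(5:ℕ) + (483/4)*t^(6:ℕ) + (-96)*t^(7:ℕ) + (1273/16)*t^(8:ℕ) + (-32)*t^(9:ℕ) + (149/8)*t^(10:ℕ) + (-9/16)*t^(12:ℕ)) + (1/9)*((-233/16) + 8*t + (-73/2)*t^(2:ℕ) + 12*t^(3:ℕ) + (-623/16)*t^(4:ℕ) + (-4)*t^(5:ℕ) + (-34)*t^(6:ℕ) + (-4)*t^(7:ℕ) + (-623/16)*t^(8:ℕ) + 12*t^(9:ℕ) + (-73/2)*t^(10:ℕ) + 8*t^(11:ℕ) + (-233/16)*t^(12:ℕ)) + (1/27)*((-287/16) + 27*t + (-625/4)*t^(2:ℕ) + 213*t^(3:ℕ) + (-3321/16)*t^(4:ℕ) + 184*t^(5:ℕ) + (-277/2)*t^(6:ℕ) + 184*t^(7:ℕ) + (-3321/16)*t^(8:ℕ) + 213*t^(9:ℕ)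 + (-625/4)*t^(10:ℕ) + 27*t^(11:ℕ) + (-287/16)*t^(12:ℕ)) + (1/81)*(5 + 12*t + (-347/4)*t^(2:ℕ) + 62*t^(3:ℕ) + (419/2)*t^(4:ℕ) + (-378)*t^(5:ℕ) + (885/2)*t^(6:ℕ) + (-378)*t^(7:ℕ) + (419/2)*t^(8:ℕ) + 62*t^(9:ℕ) + (-347/4)*t^(10:ℕ) + 12*t^(11:ℕ) + 5*t^(12:ℕ)) + (1/243)*((25/4) + (-20)*t + (107/2)*t^(2:ℕ) + (-120)*t^(3:ℕ) + (529/4)*t^(4:ℕ) + 52*t^(5:ℕ) + (-182)*t^(6:ℕ) + 52*t^(7:ℕ) + (529/4)*t^(8:ℕ) + (-120)*t^(9:ℕ) + (107/2)*t^(10:ℕ) + (-20)*t^(11:ℕ) + (25/4)*t^(12:ℕ)) + (1/729)*((-25)*t^(4:ℕ) + 80*t^(5:ℕ) + (-114)*t^(6:ℕ) + 80*t^(7:ℕ) + (-25)*t^(8:ℕ)) - (223/1000) = (976442279/162000)*(1 - t)^(12:ℕ) + (249219859/2250)*(t - (1/2))*(1 - t)^(11:ℕ) + (8912526979/10125)*(t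 - (1/2))^(2:ℕ)*(1 - t)^(10:ℕ) + (24897679208/6075)*(t - (1/2))^(3:ℕ)*(1 - t)^(9:ℕ) + (229876294904/18225)*(t - (1/2))^(4:ℕ)*(1 - t)^(8:ℕ) + (275838341248/10125)*(t - (1/2))^(5:ℕ)*(1 - t)^(7:ℕ) + (3878318463104/91125)*(t - (1/2))^(6:ℕ)*(1 - t)^(6:ℕ) + (492335861248/10125)*(t - (1/2))^(7:ℕ)*(1 - t)^(5:ℕ) + (245577011968/6075)*(t - (1/2))^(8:ℕ)*(1 - t)^(4:ℕ) + (145128030208/6075)*(t - (1/2))^(9:ℕ)*(1 - t)^(3:ℕ) + (869102375936/91125)*(t - (1/2))^(10:ℕ)*(1 - t)^(2:ℕ) + (23400060928/10125)*(t - (1/2))^(11:ℕ)*(1 - t) + (23427805696/91125)*(t - (1/2))^(12:ℕ) := by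
    ring
  rw [e]
  have a3 : 0 ≤ t - (1/2) := by linarith
  have a4 : 0 ≤ 1 - t := by linarith
  generalize t - (1/2) = t1 at a3 ⊢
  generalize 1 - t = t2 at a4 ⊢
  positivity

lemma pos_DP_B3_b1 (t : ℝ) (h3 : (1/2) ≤ t) (h4 : t ≤ 1) :
    0 ≤ 1*(1 + 6*t^(2:ℕ) + 15*t^(4:ℕ) + 20*t^(6:ℕ) + 15*t^(8:ℕ) + 6*t^(10:ℕ) + 1*t^(12:ℕ)) + (31/90)*((-9/16) + (149/8)*t^(2:ℕ) + (-32)*t^(3:ℕ) + (1273/16)*t^(4:ℕ) + (-96)*t^(5:ℕ) + (483/4)*t^(6:ℕ) + (-96)*t^(7:ℕ) + (1273/16)*t^(8:ℕ) + (-32)*t^(9:ℕ) + (149/8)*t^(10:ℕ) + (-9/16)*t^(12:ℕ)) + (16/135)*((-233/16) + 8*t + (-73/2)*t^(2:ℕ) + 12*t^(3:ℕ) + (-623/16)*t^(4:ℕ) + (-4)*t^(5:ℕ) + (-34)*t^(6:ℕ) + (-4)*t^(7:ℕ) + (-623/16)*t^(8:ℕ)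 + 12*t^(9:ℕ) + (-73/2)*t^(10:ℕ) + 8*t^(11:ℕ) + (-233/16)*t^(12:ℕ)) + (11/270)*((-287/16) + 27*t + (-625/4)*t^(2:ℕ) + 213*t^(3:ℕ) + (-3321/16)*t^(4:ℕ) + 184*t^(5:ℕ) + (-277/2)*t^(6:ℕ) + 184*t^(7:ℕ) + (-3321/16)*t^(8:ℕ) + 213*t^(9:ℕ) + (-625/4)*t^(10:ℕ) + 27*t^(11:ℕ) + (-287/16)*t^(12:ℕ)) + (17/1215)*(5 + 12*t + (-347/4)*t^(2:ℕ) + 62*t^(3:ℕ) + (419/2)*t^(4:ℕ) + (-378)*t^(5:ℕ) + (885/2)*t^(6:ℕ) + (-378)*t^(7:ℕ) + (419/2)*t^(8:ℕ) + 62*t^(9:ℕ) + (-347/4)*t^(10:ℕ) + 12*t^(11:ℕ) + 5*t^(12:ℕ)) + (7/1458)*((25/4) + (-20)*t + (107/2)*t^(2:ℕ) + (-120)*t^(3:ℕ) + (529/4)*t^(4:ℕ) + 52*t^(5:ℕ) + (-182)*t^(6:ℕ) + 52*t^(7:ℕ) + (529/4)*t^(8:ℕ) + (-120)*t^(9:ℕ) + (107/2)*t^(10:ℕ)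 + (-20)*t^(11:ℕ) + (25/4)*t^(12:ℕ)) + (2/1215)*((-25)*t^(4:ℕ) + 80*t^(5:ℕ) + (-114)*t^(6:ℕ) + 80*t^(7:ℕ) + (-25)*t^(8:ℕ)) - (223/1000) := by
  have e : 1*(1 + 6*t^(2:ℕ) + 15*t^(4:ℕ) + 20*t^(6:ℕ) + 15*t^(8:ℕ) + 6*t^(10:ℕ) + 1*t^(12:ℕ)) + (31/90)*((-9/16) + (149/8)*t^(2:ℕ) + (-32)*t^(3:ℕ) + (1273/16)*t^(4:ℕ) + (-96)*t^(5:ℕ) + (483/4)*t^(6:ℕ) + (-96)*t^(7:ℕ) + (1273/16)*t^(8:ℕ) + (-32)*t^(9:ℕ) + (149/8)*t^(10:ℕ) + (-9/16)*t^(12:ℕ)) + (16/135)*((-233/16) + 8*t + (-73/2)*t^(2:ℕ) + 12*t^(3:ℕ) + (-623/16)*t^(4:ℕ) + (-4)*t^(5:ℕ) + (-34)*t^(6:ℕ) + (-4)*t^(7:ℕ) + (-623/16)*t^(8:ℕ) + 12*t^(9:ℕ) + (-73/2)*t^(10:ℕ) + 8*t^(11:ℕ) + (-233/16)*t^(12:ℕ)) + (11/270)*((-287/16)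 + 27*t + (-625/4)*t^(2:ℕ) + 213*t^(3:ℕ) + (-3321/16)*t^(4:ℕ) + 184*t^(5:ℕ) + (-277/2)*t^(6:ℕ) + 184*t^(7:ℕ) + (-3321/16)*t^(8:ℕ) + 213*t^(9:ℕ) + (-625/4)*t^(10:ℕ) + 27*t^(11:ℕ) + (-287/16)*t^(12:ℕ)) + (17/1215)*(5 + 12*t + (-347/4)*t^(2:ℕ) + 62*t^(3:ℕ) + (419/2)*t^(4:ℕ) + (-378)*t^(5:ℕ) + (885/2)*t^(6:ℕ) + (-378)*t^(7:ℕ) + (419/2)*t^(8:ℕ) + 62*t^(9:ℕ) + (-347/4)*t^(10:ℕ) + 12*t^(11:ℕ) + 5*t^(12:ℕ)) + (7/1458)*((25/4) + (-20)*t + (107/2)*t^(2:ℕ) + (-120)*t^(3:ℕ) + (529/4)*t^(4:ℕ) + 52*t^(5:ℕ) + (-182)*t^(6:ℕ) + 52*t^(7:ℕ) + (529/4)*t^(8:ℕ) + (-120)*t^(9:ℕ) + (107/2)*t^(10:ℕ) + (-20)*t^(11:ℕ) + (25/4)*t^(12:ℕ)) + (2/1215)*((-25)*t^(4:ℕ) + 80*t^(5:ℕ)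 + (-114)*t^(6:ℕ) + 80*t^(7:ℕ) + (-25)*t^(8:ℕ)) - (223/1000) = (2515931537/486000)*(1 - t)^(12:ℕ) + (337823551/3375)*(t - (1/2))*(1 - t)^(11:ℕ) + (11054193697/13500)*(t - (1/2))^(2:ℕ)*(1 - t)^(10:ℕ) + (23593629203/6075)*(t - (1/2))^(3:ℕ)*(1 - t)^(9:ℕ) + (220625527859/18225)*(t - (1/2))^(4:ℕ)*(1 - t)^(8:ℕ) + (9894930224/375)*(t - (1/2))^(5:ℕ)*(1 - t)^(7:ℕ) + (420176870656/10125)*(t - (1/2))^(6:ℕ)*(1 - t)^(6:ℕ) + (482447179648/10125)*(t - (1/2))^(7:ℕ)*(1 - t)^(5:ℕ) + (241525338688/6075)*(t - (1/2))^(8:ℕ)*(1 - t)^(4:ℕ) + (143104798208/6075)*(t - (1/2))^(9:ℕ)*(1 - t)^(3:ℕ) + (858436059136/91125)*(t - (1/2))^(10:ℕ)*(1 - t)^(2:ℕ) + (23132592128/10125)*(t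 - (1/2))^(11:ℕ)*(1 - t) + (23160336896/91125)*(t - (1/2))^(12:ℕ) := by
    ring
  rw [e]
  have a3 : 0 ≤ t - (1/2) := by linarith
  have a4 : 0 ≤ 1 - t := by linarith
  generalize t - (1/2) = t1 at a3 ⊢
  generalize 1 - t = t2 at a4 ⊢
  positivity

lemma pos_DP_B3_b2 (t : ℝ) (h3 : (1/2) ≤ t) (h4 : t ≤ 1) :
    0 ≤ 1*(1 + 6*t^(2:ℕ) + 15*t^(4:ℕ) + 20*t^(6:ℕ) + 15*t^(8:ℕ) + 6*t^(10:ℕ) + 1*t^(12:ℕ)) + (16/45)*((-9/16) + (149/8)*t^(2:ℕ) + (-32)*t^(3:ℕ) + (1273/16)*t^(4:ℕ) + (-96)*t^(5:ℕ) + (483/4)*t^(6:ℕ) + (-96)*t^(7:ℕ) + (1273/16)*t^(8:ℕ) + (-32)*t^(9:ℕ) + (149/8)*t^(10:ℕ) + (-9/16)*t^(12:ℕ)) + (142/1125)*((-233/16) + 8*t + (-73/2)*t^(2:ℕ) + 12*t^(3:ℕ)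 + (-623/16)*t^(4:ℕ) + (-4)*t^(5:ℕ) + (-34)*t^(6:ℕ) + (-4)*t^(7:ℕ) + (-623/16)*t^(8:ℕ) + 12*t^(9:ℕ) + (-73/2)*t^(10:ℕ) + 8*t^(11:ℕ) + (-233/16)*t^(12:ℕ)) + (151/3375)*((-287/16) + 27*t + (-625/4)*t^(2:ℕ) + 213*t^(3:ℕ) + (-3321/16)*t^(4:ℕ) + 184*t^(5:ℕ) + (-277/2)*t^(6:ℕ) + 184*t^(7:ℕ) + (-3321/16)*t^(8:ℕ) + 213*t^(9:ℕ) + (-625/4)*t^(10:ℕ) + 27*t^(11:ℕ) + (-287/16)*t^(12:ℕ)) + (481/30375)*(5 + 12*t + (-347/4)*t^(2:ℕ) + 62*t^(3:ℕ) + (419/2)*t^(4:ℕ) + (-378)*t^(5:ℕ) + (885/2)*t^(6:ℕ) + (-378)*t^(7:ℕ) + (419/2)*t^(8:ℕ) + 62*t^(9:ℕ) + (-347/4)*t^(10:ℕ) + 12*t^(11:ℕ) + 5*t^(12:ℕ)) + (34/6075)*((25/4) + (-20)*t + (107/2)*t^(2:ℕ) + (-120)*t^(3:ℕ) + (529/4)*t^(4:ℕ)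 + 52*t^(5:ℕ) + (-182)*t^(6:ℕ) + 52*t^(7:ℕ) + (529/4)*t^(8:ℕ) + (-120)*t^(9:ℕ) + (107/2)*t^(10:ℕ) + (-20)*t^(11:ℕ) + (25/4)*t^(12:ℕ)) + (4/2025)*((-25)*t^(4:ℕ) + 80*t^(5:ℕ) + (-114)*t^(6:ℕ) + 80*t^(7:ℕ) + (-25)*t^(8:ℕ)) - (223/1000) := by
  have e : 1*(1 + 6*t^(2:ℕ) + 15*t^(4:ℕ) + 20*t^(6:ℕ) + 15*t^(8:ℕ) + 6*t^(10:ℕ) + 1*t^(12:ℕ)) + (16/45)*((-9/16) + (149/8)*t^(2:ℕ) + (-32)*t^(3:ℕ) + (1273/16)*t^(4:ℕ) + (-96)*t^(5:ℕ) + (483/4)*t^(6:ℕ) + (-96)*t^(7:ℕ) + (1273/16)*t^(8:ℕ) + (-32)*t^(9:ℕ) + (149/8)*t^(10:ℕ) + (-9/16)*t^(12:ℕ)) + (142/1125)*((-233/16) + 8*t + (-73/2)*t^(2:ℕ) + 12*t^(3:ℕ) + (-623/16)*t^(4:ℕ) + (-4)*t^(5:ℕ) + (-34)*t^(6:ℕ) + (-4)*t^(7:ℕ)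 + (-623/16)*t^(8:ℕ) + 12*t^(9:ℕ) + (-73/2)*t^(10:ℕ) + 8*t^(11:ℕ) + (-233/16)*t^(12:ℕ)) + (151/3375)*((-287/16) + 27*t + (-625/4)*t^(2:ℕ) + 213*t^(3:ℕ) + (-3321/16)*t^(4:ℕ) + 184*t^(5:ℕ) + (-277/2)*t^(6:ℕ) + 184*t^(7:ℕ) + (-3321/16)*t^(8:ℕ) + 213*t^(9:ℕ) + (-625/4)*t^(10:ℕ) + 27*t^(11:ℕ) + (-287/16)*t^(12:ℕ)) + (481/30375)*(5 + 12*t + (-347/4)*t^(2:ℕ) + 62*t^(3:ℕ) + (419/2)*t^(4:ℕ) + (-378)*t^(5:ℕ) + (885/2)*t^(6:ℕ) + (-378)*t^(7:ℕ) + (419/2)*t^(8:ℕ) + 62*t^(9:ℕ) + (-347/4)*t^(10:ℕ) + 12*t^(11:ℕ) + 5*t^(12:ℕ)) + (34/6075)*((25/4) + (-20)*t + (107/2)*t^(2:ℕ) + (-120)*t^(3:ℕ) + (529/4)*t^(4:ℕ) + 52*t^(5:ℕ) + (-182)*t^(6:ℕ) + 52*t^(7:ℕ) + (529/4)*t^(8:ℕ)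 + (-120)*t^(9:ℕ) + (107/2)*t^(10:ℕ) + (-20)*t^(11:ℕ) + (25/4)*t^(12:ℕ)) + (4/2025)*((-25)*t^(4:ℕ) + 80*t^(5:ℕ) + (-114)*t^(6:ℕ) + 80*t^(7:ℕ) + (-25)*t^(8:ℕ)) - (223/1000) = (2076647437/486000)*(1 - t)^(12:ℕ) + (1797099137/20250)*(t - (1/2))*(1 - t)^(11:ℕ) + (45769953157/60750)*(t - (1/2))^(2:ℕ)*(1 - t)^(10:ℕ) + (37005862606/10125)*(t - (1/2))^(3:ℕ)*(1 - t)^(9:ℕ) + (351261169774/30375)*(t - (1/2))^(4:ℕ)*(1 - t)^(8:ℕ) + (85967500384/3375)*(t - (1/2))^(5:ℕ)*(1 - t)^(7:ℕ) + (1226095801088/30375)*(t - (1/2))^(6:ℕ)*(1 - t)^(6:ℕ) + (471882103552/10125)*(t - (1/2))^(7:ℕ)*(1 - t)^(5:ℕ) + (1185976865408/30375)*(t - (1/2))^(8:ℕ)*(1 - t)^(4:ℕ) + (46980733952/2025)*(t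 - (1/2))^(9:ℕ)*(1 - t)^(3:ℕ) + (56468907008/6075)*(t - (1/2))^(10:ℕ)*(1 - t)^(2:ℕ) + (7615547392/3375)*(t - (1/2))^(11:ℕ)*(1 - t) + (7624795648/30375)*(t - (1/2))^(12:ℕ) := by
    ring
  rw [e]
  have a3 : 0 ≤ t - (1/2) := by linarith
  have a4 : 0 ≤ 1 - t := by linarith
  generalize t - (1/2) = t1 at a3 ⊢
  generalize 1 - t = t2 at a4 ⊢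
  positivity

lemma pos_DP_B3_b3 (t : ℝ) (h3 : (1/2) ≤ t) (h4 : t ≤ 1) :
    0 ≤ 1*(1 + 6*t^(2:ℕ) + 15*t^(4:ℕ) + 20*t^(6:ℕ) + 15*t^(8:ℕ) + 6*t^(10:ℕ) + 1*t^(12:ℕ)) + (11/30)*((-9/16) + (149/8)*t^(2:ℕ) + (-32)*t^(3:ℕ) + (1273/16)*t^(4:ℕ) + (-96)*t^(5:ℕ) + (483/4)*t^(6:ℕ) + (-96)*t^(7:ℕ) + (1273/16)*t^(8:ℕ) + (-32)*t^(9:ℕ) + (149/8)*t^(10:ℕ) + (-9/16)*t^(12:ℕ)) + (151/1125)*((-233/16) + 8*t + (-73/2)*t^(2:ℕ) + 12*t^(3:ℕ) + (-623/16)*t^(4:ℕ) + (-4)*t^(5:ℕ) + (-34)*t^(6:ℕ) + (-4)*t^(7:ℕ) + (-623/16)*t^(8:ℕ) + 12*t^(9:ℕ) + (-73/2)*t^(10:ℕ) + 8*t^(11:ℕ) + (-233/16)*t^(12:ℕ)) + (3311/67500)*((-287/16) + 27*t + (-625/4)*t^(2:ℕ) + 213*t^(3:ℕ) + (-3321/16)*t^(4:ℕ)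 + 184*t^(5:ℕ) + (-277/2)*t^(6:ℕ) + 184*t^(7:ℕ) + (-3321/16)*t^(8:ℕ) + 213*t^(9:ℕ) + (-625/4)*t^(10:ℕ) + 27*t^(11:ℕ) + (-287/16)*t^(12:ℕ)) + (302/16875)*(5 + 12*t + (-347/4)*t^(2:ℕ) + 62*t^(3:ℕ) + (419/2)*t^(4:ℕ) + (-378)*t^(5:ℕ) + (885/2)*t^(6:ℕ) + (-378)*t^(7:ℕ) + (419/2)*t^(8:ℕ) + 62*t^(9:ℕ) + (-347/4)*t^(10:ℕ) + 12*t^(11:ℕ) + 5*t^(12:ℕ)) + (22/3375)*((25/4) + (-20)*t + (107/2)*t^(2:ℕ) + (-120)*t^(3:ℕ) + (529/4)*t^(4:ℕ) + 52*t^(5:ℕ) + (-182)*t^(6:ℕ) + 52*t^(7:ℕ) + (529/4)*t^(8:ℕ) + (-120)*t^(9:ℕ) + (107/2)*t^(10:ℕ) + (-20)*t^(11:ℕ) + (25/4)*t^(12:ℕ)) + (8/3375)*((-25)*t^(4:ℕ) + 80*t^(5:ℕ) + (-114)*t^(6:ℕ) + 80*t^(7:ℕ) + (-25)*t^(8:ℕ)) - (223/1000)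 := by
  have e : 1*(1 + 6*t^(2:ℕ) + 15*t^(4:ℕ) + 20*t^(6:ℕ) + 15*t^(8:ℕ) + 6*t^(10:ℕ) + 1*t^(12:ℕ)) + (11/30)*((-9/16) + (149/8)*t^(2:ℕ) + (-32)*t^(3:ℕ) + (1273/16)*t^(4:ℕ) + (-96)*t^(5:ℕ) + (483/4)*t^(6:ℕ) + (-96)*t^(7:ℕ) + (1273/16)*t^(8:ℕ) + (-32)*t^(9:ℕ) + (149/8)*t^(10:ℕ) + (-9/16)*t^(12:ℕ)) + (151/1125)*((-233/16) + 8*t + (-73/2)*t^(2:ℕ) + 12*t^(3:ℕ) + (-623/16)*t^(4:ℕ) + (-4)*t^(5:ℕ) + (-34)*t^(6:ℕ) + (-4)*t^(7:ℕ) + (-623/16)*t^(8:ℕ) + 12*t^(9:ℕ) + (-73/2)*t^(10:ℕ) + 8*t^(11:ℕ) + (-233/16)*t^(12:ℕ)) + (3311/67500)*((-287/16) + 27*t + (-625/4)*t^(2:ℕ) + 213*t^(3:ℕ) + (-3321/16)*t^(4:ℕ) + 184*t^(5:ℕ) + (-277/2)*t^(6:ℕ) + 184*t^(7:ℕ) + (-3321/16)*t^(8:ℕ)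 + 213*t^(9:ℕ) + (-625/4)*t^(10:ℕ) + 27*t^(11:ℕ) + (-287/16)*t^(12:ℕ)) + (302/16875)*(5 + 12*t + (-347/4)*t^(2:ℕ) + 62*t^(3:ℕ) + (419/2)*t^(4:ℕ) + (-378)*t^(5:ℕ) + (885/2)*t^(6:ℕ) + (-378)*t^(7:ℕ) + (419/2)*t^(8:ℕ) + 62*t^(9:ℕ) + (-347/4)*t^(10:ℕ) + 12*t^(11:ℕ) + 5*t^(12:ℕ)) + (22/3375)*((25/4) + (-20)*t + (107/2)*t^(2:ℕ) + (-120)*t^(3:ℕ) + (529/4)*t^(4:ℕ) + 52*t^(5:ℕ) + (-182)*t^(6:ℕ) + 52*t^(7:ℕ) + (529/4)*t^(8:ℕ) + (-120)*t^(9:ℕ) + (107/2)*t^(10:ℕ) + (-20)*t^(11:ℕ) + (25/4)*t^(12:ℕ)) + (8/3375)*((-25)*t^(4:ℕ) + 80*t^(5:ℕ) + (-114)*t^(6:ℕ) + 80*t^(7:ℕ) + (-25)*t^(8:ℕ)) - (223/1000) = (238655251/72000)*(1 - t)^(12:ℕ) + (1150496371/15000)*(t - (1/2))*(1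 - t)^(11:ℕ) + (6155381983/9000)*(t - (1/2))^(2:ℕ)*(1 - t)^(10:ℕ) + (12793779497/3750)*(t - (1/2))^(3:ℕ)*(1 - t)^(9:ℕ) + (123618273701/11250)*(t - (1/2))^(4:ℕ)*(1 - t)^(8:ℕ) + (45935403176/1875)*(t - (1/2))^(5:ℕ)*(1 - t)^(7:ℕ) + (132162220592/3375)*(t - (1/2))^(6:ℕ)*(1 - t)^(6:ℕ) + (85304130688/1875)*(t - (1/2))^(7:ℕ)*(1 - t)^(5:ℕ) + (215360920832/5625)*(t - (1/2))^(8:ℕ)*(1 - t)^(4:ℕ) + (25674558464/1125)*(t - (1/2))^(9:ℕ)*(1 - t)^(3:ℕ) + (154613396992/16875)*(t - (1/2))^(10:ℕ)*(1 - t)^(2:ℕ) + (1391525888/625)*(t - (1/2))^(11:ℕ)*(1 - t) + (1393238528/5625)*(t - (1/2))^(12:ℕ) := by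
    ring
  rw [e]
  have a3 : 0 ≤ t - (1/2) := by linarith
  have a4 : 0 ≤ 1 - t := by linarith
  generalize t - (1/2) = t1 at a3 ⊢
  generalize 1 - t = t2 at a4 ⊢
  positivity

lemma pos_DP_B3_b4 (t : ℝ) (h3 : (1/2) ≤ t) (h4 : t ≤ 1) :
    0 ≤ 1*(1 + 6*t^(2:ℕ) + 15*t^(4:ℕ) + 20*t^(6:ℕ) + 15*t^(8:ℕ) + 6*t^(10:ℕ) + 1*t^(12:ℕ)) + (17/45)*((-9/16) + (149/8)*t^(2:ℕ) + (-32)*t^(3:ℕ) + (1273/16)*t^(4:ℕ) + (-96)*t^(5:ℕ) + (483/4)*t^(6:ℕ) + (-96)*t^(7:ℕ) + (1273/16)*t^(8:ℕ) + (-32)*t^(9:ℕ) + (149/8)*t^(10:ℕ) + (-9/16)*t^(12:ℕ)) + (481/3375)*((-233/16) + 8*t + (-73/2)*t^(2:ℕ) + 12*t^(3:ℕ) + (-623/16)*t^(4:ℕ) + (-4)*t^(5:ℕ) + (-34)*t^(6:ℕ) + (-4)*t^(7:ℕ) + (-623/16)*t^(8:ℕ)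 + 12*t^(9:ℕ) + (-73/2)*t^(10:ℕ) + 8*t^(11:ℕ) + (-233/16)*t^(12:ℕ)) + (302/5625)*((-287/16) + 27*t + (-625/4)*t^(2:ℕ) + 213*t^(3:ℕ) + (-3321/16)*t^(4:ℕ) + 184*t^(5:ℕ) + (-277/2)*t^(6:ℕ) + 184*t^(7:ℕ) + (-3321/16)*t^(8:ℕ) + 213*t^(9:ℕ) + (-625/4)*t^(10:ℕ) + 27*t^(11:ℕ) + (-287/16)*t^(12:ℕ)) + (568/28125)*(5 + 12*t + (-347/4)*t^(2:ℕ) + 62*t^(3:ℕ) + (419/2)*t^(4:ℕ) + (-378)*t^(5:ℕ) + (885/2)*t^(6:ℕ) + (-378)*t^(7:ℕ) + (419/2)*t^(8:ℕ) + 62*t^(9:ℕ) + (-347/4)*t^(10:ℕ) + 12*t^(11:ℕ) + 5*t^(12:ℕ)) + (128/16875)*((25/4) + (-20)*t + (107/2)*t^(2:ℕ) + (-120)*t^(3:ℕ) + (529/4)*t^(4:ℕ) + 52*t^(5:ℕ) + (-182)*t^(6:ℕ) + 52*t^(7:ℕ) + (529/4)*t^(8:ℕ) + (-120)*t^(9:ℕ)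 + (107/2)*t^(10:ℕ) + (-20)*t^(11:ℕ) + (25/4)*t^(12:ℕ)) + (16/5625)*((-25)*t^(4:ℕ) + 80*t^(5:ℕ) + (-114)*t^(6:ℕ) + 80*t^(7:ℕ) + (-25)*t^(8:ℕ)) - (223/1000) := by
  have e : 1*(1 + 6*t^(2:ℕ) + 15*t^(4:ℕ) + 20*t^(6:ℕ) + 15*t^(8:ℕ) + 6*t^(10:ℕ) + 1*t^(12:ℕ)) + (17/45)*((-9/16) + (149/8)*t^(2:ℕ) + (-32)*t^(3:ℕ) + (1273/16)*t^(4:ℕ) + (-96)*t^(5:ℕ) + (483/4)*t^(6:ℕ) + (-96)*t^(7:ℕ) + (1273/16)*t^(8:ℕ) + (-32)*t^(9:ℕ) + (149/8)*t^(10:ℕ) + (-9/16)*t^(12:ℕ)) + (481/3375)*((-233/16) + 8*t + (-73/2)*t^(2:ℕ) + 12*t^(3:ℕ) + (-623/16)*t^(4:ℕ) + (-4)*t^(5:ℕ) + (-34)*t^(6:ℕ) + (-4)*t^(7:ℕ) + (-623/16)*t^(8:ℕ) + 12*t^(9:ℕ) + (-73/2)*t^(10:ℕ) + 8*t^(11:ℕ) + (-233/16)*t^(12:ℕ))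 + (302/5625)*((-287/16) + 27*t + (-625/4)*t^(2:ℕ) + 213*t^(3:ℕ) + (-3321/16)*t^(4:ℕ) + 184*t^(5:ℕ) + (-277/2)*t^(6:ℕ) + 184*t^(7:ℕ) + (-3321/16)*t^(8:ℕ) + 213*t^(9:ℕ) + (-625/4)*t^(10:ℕ) + 27*t^(11:ℕ) + (-287/16)*t^(12:ℕ)) + (568/28125)*(5 + 12*t + (-347/4)*t^(2:ℕ) + 62*t^(3:ℕ) + (419/2)*t^(4:ℕ) + (-378)*t^(5:ℕ) + (885/2)*t^(6:ℕ) + (-378)*t^(7:ℕ) + (419/2)*t^(8:ℕ) + 62*t^(9:ℕ) + (-347/4)*t^(10:ℕ) + 12*t^(11:ℕ) + 5*t^(12:ℕ)) + (128/16875)*((25/4) + (-20)*t + (107/2)*t^(2:ℕ) + (-120)*t^(3:ℕ) + (529/4)*t^(4:ℕ) + 52*t^(5:ℕ) + (-182)*t^(6:ℕ) + 52*t^(7:ℕ) + (529/4)*t^(8:ℕ) + (-120)*t^(9:ℕ) + (107/2)*t^(10:ℕ) + (-20)*t^(11:ℕ) + (25/4)*t^(12:ℕ)) + (16/5625)*((-25)*t^(4:ℕ)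 + 80*t^(5:ℕ) + (-114)*t^(6:ℕ) + 80*t^(7:ℕ) + (-25)*t^(8:ℕ)) - (223/1000) = (11504361/5000)*(1 - t)^(12:ℕ) + (1798446662/28125)*(t - (1/2))*(1 - t)^(11:ℕ) + (102989174441/168750)*(t - (1/2))^(2:ℕ)*(1 - t)^(10:ℕ) + (88701383194/28125)*(t - (1/2))^(3:ℕ)*(1 - t)^(9:ℕ) + (35024568418/3375)*(t - (1/2))^(4:ℕ)*(1 - t)^(8:ℕ) + (220004239904/9375)*(t - (1/2))^(5:ℕ)*(1 - t)^(7:ℕ) + (3196161783616/84375)*(t - (1/2))^(6:ℕ)*(1 - t)^(6:ℕ) + (1246474376192/28125)*(t - (1/2))^(7:ℕ)*(1 - t)^(5:ℕ) + (3162665794816/84375)*(t - (1/2))^(8:ℕ)*(1 - t)^(4:ℕ) + (25223852032/1125)*(t - (1/2))^(9:ℕ)*(1 - t)^(3:ℕ) + (152239244288/16875)*(t - (1/2))^(10:ℕ)*(1 - t)^(2:ℕ) + (1371691008/625)*(t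 - (1/2))^(11:ℕ)*(1 - t) + (457801216/1875)*(t - (1/2))^(12:ℕ) := by
    ring
  rw [e]
  have a3 : 0 ≤ t - (1/2) := by linarith
  have a4 : 0 ≤ 1 - t := by linarith
  generalize t - (1/2) = t1 at a3 ⊢
  generalize 1 - t = t2 at a4 ⊢
  positivity

lemma pos_DP_B3_b5 (t : ℝ) (h3 : (1/2) ≤ t) (h4 : t ≤ 1) :
    0 ≤ 1*(1 + 6*t^(2:ℕ) + 15*t^(4:ℕ) + 20*t^(6:ℕ) + 15*t^(8:ℕ) + 6*t^(10:ℕ) + 1*t^(12:ℕ)) + (7/18)*((-9/16) + (149/8)*t^(2:ℕ) + (-32)*t^(3:ℕ) + (1273/16)*t^(4:ℕ) + (-96)*t^(5:ℕ) + (483/4)*t^(6:ℕ) + (-96)*t^(7:ℕ) + (1273/16)*t^(8:ℕ) + (-32)*t^(9:ℕ) + (149/8)*t^(10:ℕ) + (-9/16)*t^(12:ℕ)) + (34/225)*((-233/16) + 8*t + (-73/2)*t^(2:ℕ) + 12*t^(3:ℕ) + (-623/16)*t^(4:ℕ)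 + (-4)*t^(5:ℕ) + (-34)*t^(6:ℕ) + (-4)*t^(7:ℕ) + (-623/16)*t^(8:ℕ) + 12*t^(9:ℕ) + (-73/2)*t^(10:ℕ) + 8*t^(11:ℕ) + (-233/16)*t^(12:ℕ)) + (22/375)*((-287/16) + 27*t + (-625/4)*t^(2:ℕ) + 213*t^(3:ℕ) + (-3321/16)*t^(4:ℕ) + 184*t^(5:ℕ) + (-277/2)*t^(6:ℕ) + 184*t^(7:ℕ) + (-3321/16)*t^(8:ℕ) + 213*t^(9:ℕ) + (-625/4)*t^(10:ℕ) + 27*t^(11:ℕ) + (-287/16)*t^(12:ℕ)) + (128/5625)*(5 + 12*t + (-347/4)*t^(2:ℕ) + 62*t^(3:ℕ) + (419/2)*t^(4:ℕ) + (-378)*t^(5:ℕ) + (885/2)*t^(6:ℕ) + (-378)*t^(7:ℕ) + (419/2)*t^(8:ℕ) + 62*t^(9:ℕ) + (-347/4)*t^(10:ℕ) + 12*t^(11:ℕ) + 5*t^(12:ℕ)) + (248/28125)*((25/4) + (-20)*t + (107/2)*t^(2:ℕ) + (-120)*t^(3:ℕ) + (529/4)*t^(4:ℕ) + 52*t^(5:ℕ)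 + (-182)*t^(6:ℕ) + 52*t^(7:ℕ) + (529/4)*t^(8:ℕ) + (-120)*t^(9:ℕ) + (107/2)*t^(10:ℕ) + (-20)*t^(11:ℕ) + (25/4)*t^(12:ℕ)) + (32/9375)*((-25)*t^(4:ℕ) + 80*t^(5:ℕ) + (-114)*t^(6:ℕ) + 80*t^(7:ℕ) + (-25)*t^(8:ℕ)) - (223/1000) := by
  have e : 1*(1 + 6*t^(2:ℕ) + 15*t^(4:ℕ) + 20*t^(6:ℕ) + 15*t^(8:ℕ) + 6*t^(10:ℕ) + 1*t^(12:ℕ)) + (7/18)*((-9/16) + (149/8)*t^(2:ℕ) + (-32)*t^(3:ℕ) + (1273/16)*t^(4:ℕ) + (-96)*t^(5:ℕ) + (483/4)*t^(6:ℕ) + (-96)*t^(7:ℕ) + (1273/16)*t^(8:ℕ) + (-32)*t^(9:ℕ) + (149/8)*t^(10:ℕ) + (-9/16)*t^(12:ℕ)) + (34/225)*((-233/16) + 8*t + (-73/2)*t^(2:ℕ) + 12*t^(3:ℕ) + (-623/16)*t^(4:ℕ) + (-4)*t^(5:ℕ) + (-34)*t^(6:ℕ) + (-4)*t^(7:ℕ) + (-623/16)*t^(8:ℕ)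 + 12*t^(9:ℕ) + (-73/2)*t^(10:ℕ) + 8*t^(11:ℕ) + (-233/16)*t^(12:ℕ)) + (22/375)*((-287/16) + 27*t + (-625/4)*t^(2:ℕ) + 213*t^(3:ℕ) + (-3321/16)*t^(4:ℕ) + 184*t^(5:ℕ) + (-277/2)*t^(6:ℕ) + 184*t^(7:ℕ) + (-3321/16)*t^(8:ℕ) + 213*t^(9:ℕ) + (-625/4)*t^(10:ℕ) + 27*t^(11:ℕ) + (-287/16)*t^(12:ℕ)) + (128/5625)*(5 + 12*t + (-347/4)*t^(2:ℕ) + 62*t^(3:ℕ) + (419/2)*t^(4:ℕ) + (-378)*t^(5:ℕ) + (885/2)*t^(6:ℕ) + (-378)*t^(7:ℕ) + (419/2)*t^(8:ℕ) + 62*t^(9:ℕ) + (-347/4)*t^(10:ℕ) + 12*t^(11:ℕ) + 5*t^(12:ℕ)) + (248/28125)*((25/4) + (-20)*t + (107/2)*t^(2:ℕ) + (-120)*t^(3:ℕ) + (529/4)*t^(4:ℕ) + 52*t^(5:ℕ) + (-182)*t^(6:ℕ) + 52*t^(7:ℕ) + (529/4)*t^(8:ℕ) + (-120)*t^(9:ℕ) +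 (107/2)*t^(10:ℕ) + (-20)*t^(11:ℕ) + (25/4)*t^(12:ℕ)) + (32/9375)*((-25)*t^(4:ℕ) + 80*t^(5:ℕ) + (-114)*t^(6:ℕ) + 80*t^(7:ℕ) + (-25)*t^(8:ℕ)) - (223/1000) = (4922093/4000)*(1 - t)^(12:ℕ) + (630846249/12500)*(t - (1/2))*(1 - t)^(11:ℕ) + (332793949/625)*(t - (1/2))^(2:ℕ)*(1 - t)^(10:ℕ) + (1800717818/625)*(t - (1/2))^(3:ℕ)*(1 - t)^(9:ℕ) + (30412038102/3125)*(t - (1/2))^(4:ℕ)*(1 - t)^(8:ℕ) + (69925591584/3125)*(t - (1/2))^(5:ℕ)*(1 - t)^(7:ℕ) + (114153211776/3125)*(t - (1/2))^(6:ℕ)*(1 - t)^(6:ℕ) + (134614768896/3125)*(t - (1/2))^(7:ℕ)*(1 - t)^(5:ℕ) + (114488583552/3125)*(t - (1/2))^(8:ℕ)*(1 - t)^(4:ℕ) + (13749373952/625)*(t - (1/2))^(9:ℕ)*(1 - t)^(3:ℕ) +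 (27729572864/3125)*(t - (1/2))^(10:ℕ)*(1 - t)^(2:ℕ) + (6754105344/3125)*(t - (1/2))^(11:ℕ)*(1 - t) + (751407616/3125)*(t - (1/2))^(12:ℕ) := by
    ring
  rw [e]
  have a3 : 0 ≤ t - (1/2) := by linarith
  have a4 : 0 ≤ 1 - t := by linarith
  generalize t - (1/2) = t1 at a3 ⊢
  generalize 1 - t = t2 at a4 ⊢
  positivity

lemma pos_DP_B3_b6 (t : ℝ) (h3 : (1/2) ≤ t) (h4 : t ≤ 1) :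
    0 ≤ 1*(1 + 6*t^(2:ℕ) + 15*t^(4:ℕ) + 20*t^(6:ℕ) + 15*t^(8:ℕ) + 6*t^(10:ℕ) + 1*t^(12:ℕ)) + (2/5)*((-9/16) + (149/8)*t^(2:ℕ) + (-32)*t^(3:ℕ) + (1273/16)*t^(4:ℕ) + (-96)*t^(5:ℕ) + (483/4)*t^(6:ℕ) + (-96)*t^(7:ℕ) + (1273/16)*t^(8:ℕ) + (-32)*t^(9:ℕ) + (149/8)*t^(10:ℕ) + (-9/16)*t^(12:ℕ)) + (4/25)*((-233/16) + 8*t + (-73/2)*t^(2:ℕ) + 12*t^(3:ℕ) + (-623/16)*t^(4:ℕ) + (-4)*t^(5:ℕ) + (-34)*t^(6:ℕ) + (-4)*t^(7:ℕ) + (-623/16)*t^(8:ℕ) + 12*t^(9:ℕ) + (-73/2)*t^(10:ℕ) + 8*t^(11:ℕ) + (-233/16)*t^(12:ℕ)) + (8/125)*((-287/16) + 27*t + (-625/4)*t^(2:ℕ) + 213*t^(3:ℕ) + (-3321/16)*t^(4:ℕ) + 184*t^(5:ℕ) + (-277/2)*t^(6:ℕ) + 184*t^(7:ℕ) + (-3321/16)*t^(8:ℕ) + 213*t^(9:ℕ)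 + (-625/4)*t^(10:ℕ) + 27*t^(11:ℕ) + (-287/16)*t^(12:ℕ)) + (16/625)*(5 + 12*t + (-347/4)*t^(2:ℕ) + 62*t^(3:ℕ) + (419/2)*t^(4:ℕ) + (-378)*t^(5:ℕ) + (885/2)*t^(6:ℕ) + (-378)*t^(7:ℕ) + (419/2)*t^(8:ℕ) + 62*t^(9:ℕ) + (-347/4)*t^(10:ℕ) + 12*t^(11:ℕ) + 5*t^(12:ℕ)) + (32/3125)*((25/4) + (-20)*t + (107/2)*t^(2:ℕ) + (-120)*t^(3:ℕ) + (529/4)*t^(4:ℕ) + 52*t^(5:ℕ) + (-182)*t^(6:ℕ) + 52*t^(7:ℕ) + (529/4)*t^(8:ℕ) + (-120)*t^(9:ℕ) + (107/2)*t^(10:ℕ) + (-20)*t^(11:ℕ) + (25/4)*t^(12:ℕ)) + (64/15625)*((-25)*t^(4:ℕ) + 80*t^(5:ℕ) + (-114)*t^(6:ℕ) + 80*t^(7:ℕ) + (-25)*t^(8:ℕ)) - (223/1000) := by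
  have e : 1*(1 + 6*t^(2:ℕ) + 15*t^(4:ℕ) + 20*t^(6:ℕ) + 15*t^(8:ℕ) + 6*t^(10:ℕ) + 1*t^(12:ℕ)) + (2/5)*((-9/16) + (149/8)*t^(2:ℕ) + (-32)*t^(3:ℕ) + (1273/16)*t^(4:ℕ) + (-96)*t^(5:ℕ) + (483/4)*t^(6:ℕ) + (-96)*t^(7:ℕ) + (1273/16)*t^(8:ℕ) + (-32)*t^(9:ℕ) + (149/8)*t^(10:ℕ) + (-9/16)*t^(12:ℕ)) + (4/25)*((-233/16) + 8*t + (-73/2)*t^(2:ℕ) + 12*t^(3:ℕ) + (-623/16)*t^(4:ℕ) + (-4)*t^(5:ℕ) + (-34)*t^(6:ℕ) + (-4)*t^(7:ℕ) + (-623/16)*t^(8:ℕ) + 12*t^(9:ℕ) + (-73/2)*t^(10:ℕ) + 8*t^(11:ℕ) + (-233/16)*t^(12:ℕ)) + (8/125)*((-287/16) + 27*t + (-625/4)*t^(2:ℕ) + 213*t^(3:ℕ) + (-3321/16)*t^(4:ℕ) + 184*t^(5:ℕ) + (-277/2)*t^(6:ℕ) + 184*t^(7:ℕ) + (-3321/16)*t^(8:ℕ) + 213*t^(9:ℕ)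 + (-625/4)*t^(10:ℕ) + 27*t^(11:ℕ) + (-287/16)*t^(12:ℕ)) + (16/625)*(5 + 12*t + (-347/4)*t^(2:ℕ) + 62*t^(3:ℕ) + (419/2)*t^(4:ℕ) + (-378)*t^(5:ℕ) + (885/2)*t^(6:ℕ) + (-378)*t^(7:ℕ) + (419/2)*t^(8:ℕ) + 62*t^(9:ℕ) + (-347/4)*t^(10:ℕ) + 12*t^(11:ℕ) + 5*t^(12:ℕ)) + (32/3125)*((25/4) + (-20)*t + (107/2)*t^(2:ℕ) + (-120)*t^(3:ℕ) + (529/4)*t^(4:ℕ) + 52*t^(5:ℕ) + (-182)*t^(6:ℕ) + 52*t^(7:ℕ) + (529/4)*t^(8:ℕ) + (-120)*t^(9:ℕ) + (107/2)*t^(10:ℕ) + (-20)*t^(11:ℕ) + (25/4)*t^(12:ℕ)) + (64/15625)*((-25)*t^(4:ℕ) + 80*t^(5:ℕ) + (-114)*t^(6:ℕ) + 80*t^(7:ℕ) + (-25)*t^(8:ℕ)) - (223/1000) = (12823333/125000)*(1 - t)^(12:ℕ) + (566501253/15625)*(t - (1/2))*(1 - t)^(11:ℕ)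 + (7036838142/15625)*(t - (1/2))^(2:ℕ)*(1 - t)^(10:ℕ) + (8104511104/3125)*(t - (1/2))^(3:ℕ)*(1 - t)^(9:ℕ) + (28282991328/3125)*(t - (1/2))^(4:ℕ)*(1 - t)^(8:ℕ) + (331653074688/15625)*(t - (1/2))^(5:ℕ)*(1 - t)^(7:ℕ) + (548516054784/15625)*(t - (1/2))^(6:ℕ)*(1 - t)^(6:ℕ) + (652640818176/15625)*(t - (1/2))^(7:ℕ)*(1 - t)^(5:ℕ) + (111705808896/3125)*(t - (1/2))^(8:ℕ)*(1 - t)^(4:ℕ) + (67361892352/3125)*(t - (1/2))^(9:ℕ)*(1 - t)^(3:ℕ) + (136221545472/15625)*(t - (1/2))^(10:ℕ)*(1 - t)^(2:ℕ) + (33223981056/15625)*(t - (1/2))^(11:ℕ)*(1 - t) + (3696310784/15625)*(t - (1/2))^(12:ℕ) := by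
    ring
  rw [e]
  have a3 : 0 ≤ t - (1/2) := by linarith
  have a4 : 0 ≤ 1 - t := by linarith
  generalize t - (1/2) = t1 at a3 ⊢
  generalize 1 - t = t2 at a4 ⊢
  positivity

lemma pos_DP_B3_id (d : ℝ) (C0 C1 C2 C3 C4 C5 C6 : ℝ) :
    C0 + d*C1 + d^(2:ℕ)*C2 + d^(3:ℕ)*C3 + d^(4:ℕ)*C4 + d^(5:ℕ)*C5 + d^(6:ℕ)*C6 = (223/1000) + (11390625*((2/5) - d)^(6:ℕ)*(1*C0 + (1/3)*C1 + (1/9)*C2 + (1/27)*C3 + (1/81)*C4 + (1/243)*C5 + (1/729)*C6 - (223/1000)) + 68343750*(d - (1/3))*((2/5) - d)^(5:ℕ)*(1*C0 + (31/90)*C1 + (16/135)*C2 + (11/270)*C3 + (17/1215)*C4 + (7/1458)*C5 + (2/1215)*C6 - (223/1000)) + 170859375*(d - (1/3))^(2:ℕ)*((2/5) - d)^(4:ℕ)*(1*C0 + (16/45)*C1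 + (142/1125)*C2 + (151/3375)*C3 + (481/30375)*C4 + (34/6075)*C5 + (4/2025)*C6 - (223/1000)) + 227812500*(d - (1/3))^(3:ℕ)*((2/5) - d)^(3:ℕ)*(1*C0 + (11/30)*C1 + (151/1125)*C2 + (3311/67500)*C3 + (302/16875)*C4 + (22/3375)*C5 + (8/3375)*C6 - (223/1000)) + 170859375*(d - (1/3))^(4:ℕ)*((2/5) - d)^(2:ℕ)*(1*C0 + (17/45)*C1 + (481/3375)*C2 + (302/5625)*C3 + (568/28125)*C4 + (128/16875)*C5 + (16/5625)*C6 - (223/1000)) + 68343750*(d - (1/3))^(5:ℕ)*((2/5) - d)*(1*C0 + (7/18)*C1 + (34/225)*C2 + (22/375)*C3 + (128/5625)*C4 + (248/28125)*C5 + (32/9375)*C6 - (223/1000)) + 11390625*(d - (1/3))^(6:ℕ)*(1*C0 + (2/5)*C1 + (4/25)*C2 + (8/125)*C3 + (16/625)*C4 + (32/3125)*C5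 + (64/15625)*C6 - (223/1000))) := by
  ring

lemma pos_DP_B3_gen (d1 d2 B0 B1 B2 B3 B4 B5 B6 : ℝ) (a1 : 0 ≤ d1) (a2 : 0 ≤ d2) (b0 : 0 ≤ B0) (b1 : 0 ≤ B1) (b2 : 0 ≤ B2) (b3 : 0 ≤ B3) (b4 : 0 ≤ B4) (b5 : 0 ≤ B5) (b6 : 0 ≤ B6) :
    0 < (223/1000) + (11390625*d2^(6:ℕ)*(B0) + 68343750*d1*d2^(5:ℕ)*(B1) + 170859375*d1^(2:ℕ)*d2^(4:ℕ)*(B2) + 227812500*d1^(3:ℕ)*d2^(3:ℕ)*(B3) + 170859375*d1^(4:ℕ)*d2^(2:ℕ)*(B4) + 68343750*d1^(5:ℕ)*d2*(B5) + 11390625*d1^(6:ℕ)*(B6)) := by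
  positivity

lemma pos_DP_B3_core (d C0 C1 C2 C3 C4 C5 C6 : ℝ) (h1 : (1/3) ≤ d) (h2 : d ≤ (2/5))
    (b0 : 0 ≤ 1*C0 + (1/3)*C1 + (1/9)*C2 + (1/27)*C3 + (1/81)*C4 + (1/243)*C5 + (1/729)*C6 - (223/1000))
    (b1 : 0 ≤ 1*C0 + (31/90)*C1 + (16/135)*C2 + (11/270)*C3 + (17/1215)*C4 + (7/1458)*C5 + (2/1215)*C6 - (223/1000))
    (b2 : 0 ≤ 1*C0 + (16/45)*C1 + (142/1125)*C2 + (151/3375)*C3 + (481/30375)*C4 + (34/6075)*C5 + (4/2025)*C6 - (223/1000))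
    (b3 : 0 ≤ 1*C0 + (11/30)*C1 + (151/1125)*C2 + (3311/67500)*C3 + (302/16875)*C4 + (22/3375)*C5 + (8/3375)*C6 - (223/1000))
    (b4 : 0 ≤ 1*C0 + (17/45)*C1 + (481/3375)*C2 + (302/5625)*C3 + (568/28125)*C4 + (128/16875)*C5 + (16/5625)*C6 - (223/1000))
    (b5 : 0 ≤ 1*C0 + (7/18)*C1 + (34/225)*C2 + (22/375)*C3 + (128/5625)*C4 + (248/28125)*C5 + (32/9375)*C6 - (223/1000))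
    (b6 : 0 ≤ 1*C0 + (2/5)*C1 + (4/25)*C2 + (8/125)*C3 + (16/625)*C4 + (32/3125)*C5 + (64/15625)*C6 - (223/1000)) :
    0 < C0 + d*C1 + d^(2:ℕ)*C2 + d^(3:ℕ)*C3 + d^(4:ℕ)*C4 + d^(5:ℕ)*C5 + d^(6:ℕ)*C6 := by
  rw [pos_DP_B3_id]
  exact pos_DP_B3_gen _ _ _ _ _ _ _ _ _ (sub_nonneg.2 h1) (sub_nonneg.2 h2) b0 b1 b2 b3 b4 b5 b6

lemma pos_DP_B3 (d t : ℝ) (h1 : (1/3) ≤ d) (h2 : d ≤ (2/5)) (h3 : (1/2) ≤ t) (h4 : t ≤ 1) :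
    0 < 1 + 6*t^(2:ℕ) + 15*t^(4:ℕ) + 20*t^(6:ℕ) + 15*t^(8:ℕ) + 6*t^(10:ℕ) + 1*t^(12:ℕ) + (-9/16)*d + (149/8)*d*t^(2:ℕ) + (-32)*d*t^(3:ℕ) + (1273/16)*d*t^(4:ℕ) + (-96)*d*t^(5:ℕ) + (483/4)*d*t^(6:ℕ) + (-96)*d*t^(7:ℕ) + (1273/16)*d*t^(8:ℕ) + (-32)*d*t^(9:ℕ) + (149/8)*d*t^(10:ℕ) + (-9/16)*d*t^(12:ℕ) + (-233/16)*d^(2:ℕ) + 8*d^(2:ℕ)*t + (-73/2)*d^(2:ℕ)*t^(2:ℕ) + 12*d^(2:ℕ)*t^(3:ℕ) + (-623/16)*d^(2:ℕ)*t^(4:ℕ) + (-4)*d^(2:ℕ)*t^(5:ℕ) + (-34)*d^(2:ℕ)*t^(6:ℕ) + (-4)*d^(2:ℕ)*t^(7:ℕ) + (-623/16)*d^(2:ℕ)*t^(8:ℕ) + 12*d^(2:ℕ)*t^(9:ℕ) + (-73/2)*d^(2:ℕ)*t^(10:ℕ) + 8*d^(2:ℕ)*t^(11:ℕ) + (-233/16)*d^(2:ℕ)*t^(12:ℕ) + (-287/16)*d^(3:ℕ) + 27*d^(3:ℕ)*t + (-625/4)*d^(3:ℕ)*t^(2:ℕ)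 + 213*d^(3:ℕ)*t^(3:ℕ) + (-3321/16)*d^(3:ℕ)*t^(4:ℕ) + 184*d^(3:ℕ)*t^(5:ℕ) + (-277/2)*d^(3:ℕ)*t^(6:ℕ) + 184*d^(3:ℕ)*t^(7:ℕ) + (-3321/16)*d^(3:ℕ)*t^(8:ℕ) + 213*d^(3:ℕ)*t^(9:ℕ) + (-625/4)*d^(3:ℕ)*t^(10:ℕ) + 27*d^(3:ℕ)*t^(11:ℕ) + (-287/16)*d^(3:ℕ)*t^(12:ℕ) + 5*d^(4:ℕ) + 12*d^(4:ℕ)*t + (-347/4)*d^(4:ℕ)*t^(2:ℕ) + 62*d^(4:ℕ)*t^(3:ℕ) + (419/2)*d^(4:ℕ)*t^(4:ℕ) + (-378)*d^(4:ℕ)*t^(5:ℕ) + (885/2)*d^(4:ℕ)*t^(6:ℕ) + (-378)*d^(4:ℕ)*t^(7:ℕ) + (419/2)*d^(4:ℕ)*t^(8:ℕ) + 62*d^(4:ℕ)*t^(9:ℕ) + (-347/4)*d^(4:ℕ)*t^(10:ℕ) + 12*d^(4:ℕ)*t^(11:ℕ) + 5*d^(4:ℕ)*t^(12:ℕ) + (25/4)*d^(5:ℕ) + (-20)*d^(5:ℕ)*t + (107/2)*d^(5:ℕ)*t^(2:ℕ) + (-120)*d^(5:ℕ)*t^(3:ℕ) + (529/4)*d^(5:ℕ)*t^(4:ℕ)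 + 52*d^(5:ℕ)*t^(5:ℕ) + (-182)*d^(5:ℕ)*t^(6:ℕ) + 52*d^(5:ℕ)*t^(7:ℕ) + (529/4)*d^(5:ℕ)*t^(8:ℕ) + (-120)*d^(5:ℕ)*t^(9:ℕ) + (107/2)*d^(5:ℕ)*t^(10:ℕ) + (-20)*d^(5:ℕ)*t^(11:ℕ) + (25/4)*d^(5:ℕ)*t^(12:ℕ) + (-25)*d^(6:ℕ)*t^(4:ℕ) + 80*d^(6:ℕ)*t^(5:ℕ) + (-114)*d^(6:ℕ)*t^(6:ℕ) + 80*d^(6:ℕ)*t^(7:ℕ) + (-25)*d^(6:ℕ)*t^(8:ℕ) := by
  have e0 : 1 + 6*t^(2:ℕ) + 15*t^(4:ℕ) + 20*t^(6:ℕ) + 15*t^(8:ℕ) + 6*t^(10:ℕ) + 1*t^(12:ℕ) + (-9/16)*d + (149/8)*d*t^(2:ℕ) + (-32)*d*t^(3:ℕ) + (1273/16)*d*t^(4:ℕ) + (-96)*d*t^(5:ℕ) + (483/4)*d*t^(6:ℕ) + (-96)*d*t^(7:ℕ) + (1273/16)*d*t^(8:ℕ) + (-32)*d*t^(9:ℕ) + (149/8)*d*t^(10:ℕ) + (-9/16)*d*t^(12:ℕ) + (-233/16)*d^(2:ℕ) + 8*d^(2:ℕ)*t + (-73/2)*d^(2:ℕ)*t^(2:ℕ)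 + 12*d^(2:ℕ)*t^(3:ℕ) + (-623/16)*d^(2:ℕ)*t^(4:ℕ) + (-4)*d^(2:ℕ)*t^(5:ℕ) + (-34)*d^(2:ℕ)*t^(6:ℕ) + (-4)*d^(2:ℕ)*t^(7:ℕ) + (-623/16)*d^(2:ℕ)*t^(8:ℕ) + 12*d^(2:ℕ)*t^(9:ℕ) + (-73/2)*d^(2:ℕ)*t^(10:ℕ) + 8*d^(2:ℕ)*t^(11:ℕ) + (-233/16)*d^(2:ℕ)*t^(12:ℕ) + (-287/16)*d^(3:ℕ) + 27*d^(3:ℕ)*t + (-625/4)*d^(3:ℕ)*t^(2:ℕ) + 213*d^(3:ℕ)*t^(3:ℕ) + (-3321/16)*d^(3:ℕ)*t^(4:ℕ) + 184*d^(3:ℕ)*t^(5:ℕ) + (-277/2)*d^(3:ℕ)*t^(6:ℕ) + 184*d^(3:ℕ)*t^(7:ℕ) + (-3321/16)*d^(3:ℕ)*t^(8:ℕ) + 213*d^(3:ℕ)*t^(9:ℕ) + (-625/4)*d^(3:ℕ)*t^(10:ℕ) + 27*d^(3:ℕ)*t^(11:ℕ) + (-287/16)*d^(3:ℕ)*t^(12:ℕ) + 5*d^(4:ℕ) + 12*d^(4:ℕ)*t + (-347/4)*d^(4:ℕ)*t^(2:ℕ) + 62*d^(4:ℕ)*t^(3:ℕ) + (419/2)*d^(4:ℕ)*t^(4:ℕ)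 + (-378)*d^(4:ℕ)*t^(5:ℕ) + (885/2)*d^(4:ℕ)*t^(6:ℕ) + (-378)*d^(4:ℕ)*t^(7:ℕ) + (419/2)*d^(4:ℕ)*t^(8:ℕ) + 62*d^(4:ℕ)*t^(9:ℕ) + (-347/4)*d^(4:ℕ)*t^(10:ℕ) + 12*d^(4:ℕ)*t^(11:ℕ) + 5*d^(4:ℕ)*t^(12:ℕ) + (25/4)*d^(5:ℕ) + (-20)*d^(5:ℕ)*t + (107/2)*d^(5:ℕ)*t^(2:ℕ) + (-120)*d^(5:ℕ)*t^(3:ℕ) + (529/4)*d^(5:ℕ)*t^(4:ℕ) + 52*d^(5:ℕ)*t^(5:ℕ) + (-182)*d^(5:ℕ)*t^(6:ℕ) + 52*d^(5:ℕ)*t^(7:ℕ) + (529/4)*d^(5:ℕ)*t^(8:ℕ) + (-120)*d^(5:ℕ)*t^(9:ℕ) + (107/2)*d^(5:ℕ)*t^(10:ℕ) + (-20)*d^(5:ℕ)*t^(11:ℕ) + (25/4)*d^(5:ℕ)*t^(12:ℕ) + (-25)*d^(6:ℕ)*t^(4:ℕ) + 80*d^(6:ℕ)*t^(5:ℕ) + (-114)*d^(6:ℕ)*t^(6:ℕ) + 80*d^(6:ℕ)*t^(7:ℕ) + (-25)*d^(6:ℕ)*t^(8:ℕ) = (1 + 6*t^(2:ℕ) + 15*t^(4:ℕ) + 20*t^(6:ℕ)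 + 15*t^(8:ℕ) + 6*t^(10:ℕ) + 1*t^(12:ℕ)) + d*((-9/16) + (149/8)*t^(2:ℕ) + (-32)*t^(3:ℕ) + (1273/16)*t^(4:ℕ) + (-96)*t^(5:ℕ) + (483/4)*t^(6:ℕ) + (-96)*t^(7:ℕ) + (1273/16)*t^(8:ℕ) + (-32)*t^(9:ℕ) + (149/8)*t^(10:ℕ) + (-9/16)*t^(12:ℕ)) + d^(2:ℕ)*((-233/16) + 8*t + (-73/2)*t^(2:ℕ) + 12*t^(3:ℕ) + (-623/16)*t^(4:ℕ) + (-4)*t^(5:ℕ) + (-34)*t^(6:ℕ) + (-4)*t^(7:ℕ) + (-623/16)*t^(8:ℕ) + 12*t^(9:ℕ) + (-73/2)*t^(10:ℕ) + 8*t^(11:ℕ) + (-233/16)*t^(12:ℕ)) + d^(3:ℕ)*((-287/16) + 27*t + (-625/4)*t^(2:ℕ) + 213*t^(3:ℕ) + (-3321/16)*t^(4:ℕ) + 184*t^(5:ℕ) + (-277/2)*t^(6:ℕ) + 184*t^(7:ℕ) + (-3321/16)*t^(8:ℕ) + 213*t^(9:ℕ) + (-625/4)*t^(10:ℕ) + 27*t^(11:ℕ) + (-287/16)*t^(12:ℕ))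 + d^(4:ℕ)*(5 + 12*t + (-347/4)*t^(2:ℕ) + 62*t^(3:ℕ) + (419/2)*t^(4:ℕ) + (-378)*t^(5:ℕ) + (885/2)*t^(6:ℕ) + (-378)*t^(7:ℕ) + (419/2)*t^(8:ℕ) + 62*t^(9:ℕ) + (-347/4)*t^(10:ℕ) + 12*t^(11:ℕ) + 5*t^(12:ℕ)) + d^(5:ℕ)*((25/4) + (-20)*t + (107/2)*t^(2:ℕ) + (-120)*t^(3:ℕ) + (529/4)*t^(4:ℕ) + 52*t^(5:ℕ) + (-182)*t^(6:ℕ) + 52*t^(7:ℕ) + (529/4)*t^(8:ℕ) + (-120)*t^(9:ℕ) + (107/2)*t^(10:ℕ) + (-20)*t^(11:ℕ) + (25/4)*t^(12:ℕ)) + d^(6:ℕ)*((-25)*t^(4:ℕ) + 80*t^(5:ℕ) + (-114)*t^(6:ℕ) + 80*t^(7:ℕ) + (-25)*t^(8:ℕ)) := by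
    ring
  rw [e0]
  exact pos_DP_B3_core d _ _ _ _ _ _ _ h1 h2 (pos_DP_B3_b0 t h3 h4) (pos_DP_B3_b1 t h3 h4) (pos_DP_B3_b2 t h3 h4) (pos_DP_B3_b3 t h3 h4) (pos_DP_B3_b4 t h3 h4) (pos_DP_B3_b5 t h3 h4) (pos_DP_B3_b6 t h3 h4)

lemma pos_L10_B3_b0 (t : ℝ) (h3 : (1/2) ≤ t) (h4 : t ≤ 1) :
    0 ≤ 1*(2 + 2*t + 10*t^(2:ℕ) + 10*t^(3:ℕ) + 20*t^(4:ℕ) + 20*t^(5:ℕ) + 20*t^(6:ℕ) + 20*t^(7:ℕ) + 10*t^(8:ℕ) + 10*t^(9:ℕ) + 2*t^(10:ℕ) + 2*t^(11:ℕ)) + (1/3)*(4 + 4*t + 28*t^(2:ℕ) + 28*t^(3:ℕ) + 64*t^(4:ℕ) + 64*t^(5:ℕ) + 64*t^(6:ℕ) + 64*t^(7:ℕ) + 28*t^(8:ℕ) + 28*t^(9:ℕ) + 4*t^(10:ℕ) + 4*t^(11:ℕ)) + (1/9)*(33*t^(2:ℕ) + 35*t^(3:ℕ) + 103*t^(4:ℕ) + 60*t^(5:ℕ) + 82*t^(6:ℕ)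 + (-3)*t^(7:ℕ) + 3*t^(8:ℕ) + (-46)*t^(9:ℕ) + (-9)*t^(10:ℕ) + (-18)*t^(11:ℕ)) + (1/27)*(2*t^(2:ℕ) + 19*t^(3:ℕ) + 69*t^(4:ℕ) + (-41)*t^(5:ℕ) + 56*t^(6:ℕ) + (-125)*t^(7:ℕ) + (-3)*t^(8:ℕ) + (-73)*t^(9:ℕ) + 8*t^(10:ℕ) + (-8)*t^(11:ℕ)) + (1/81)*(8*t^(2:ℕ) + (-48)*t^(3:ℕ) + 102*t^(4:ℕ) + (-124)*t^(5:ℕ) + 96*t^(6:ℕ) + (-40)*t^(7:ℕ) + (-26)*t^(8:ℕ) + 44*t^(9:ℕ) + (-28)*t^(10:ℕ) + 8*t^(11:ℕ)) + (1/243)*((15/4)*t^(4:ℕ) + (-35/2)*t^(5:ℕ) + (101/4)*t^(6:ℕ) + (-35/2)*t^(7:ℕ) + (15/4)*t^(8:ℕ) + 32*t^(9:ℕ) + (-48)*t^(10:ℕ) + 32*t^(11:ℕ)) + (1/729)*((-14)*t^(4:ℕ) + 43*t^(5:ℕ) + (-61)*t^(6:ℕ) + 43*t^(7:ℕ) + (-14)*t^(8:ℕ)) + (1/2187)*((-4)*t^(4:ℕ) + 12*t^(5:ℕ) + (-17)*t^(6:ℕ)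 + 12*t^(7:ℕ) + (-4)*t^(8:ℕ)) - (4471/250) := by
  have e : 1*(2 + 2*t + 10*t^(2:ℕ) + 10*t^(3:ℕ) + 20*t^(4:ℕ) + 20*t^(5:ℕ) + 20*t^(6:ℕ) + 20*t^(7:ℕ) + 10*t^(8:ℕ) + 10*t^(9:ℕ) + 2*t^(10:ℕ) + 2*t^(11:ℕ)) + (1/3)*(4 + 4*t + 28*t^(2:ℕ) + 28*t^(3:ℕ) + 64*t^(4:ℕ) + 64*t^(5:ℕ) + 64*t^(6:ℕ) + 64*t^(7:ℕ) + 28*t^(8:ℕ) + 28*t^(9:ℕ) + 4*t^(10:ℕ) + 4*t^(11:ℕ)) + (1/9)*(33*t^(2:ℕ) + 35*t^(3:ℕ) + 103*t^(4:ℕ) + 60*t^(5:ℕ) + 82*t^(6:ℕ) + (-3)*t^(7:ℕ) + 3*t^(8:ℕ) + (-46)*t^(9:ℕ) + (-9)*t^(10:ℕ) + (-18)*t^(11:ℕ)) + (1/27)*(2*t^(2:ℕ) + 19*t^(3:ℕ) + 69*t^(4:ℕ) + (-41)*t^(5:ℕ) + 56*t^(6:ℕ) + (-125)*t^(7:ℕ) + (-3)*t^(8:ℕ) + (-73)*t^(9:ℕ) + 8*t^(10:ℕ) + (-8)*t^(11:ℕ)) + (1/81)*(8*t^(2:ℕ)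 + (-48)*t^(3:ℕ) + 102*t^(4:ℕ) + (-124)*t^(5:ℕ) + 96*t^(6:ℕ) + (-40)*t^(7:ℕ) + (-26)*t^(8:ℕ) + 44*t^(9:ℕ) + (-28)*t^(10:ℕ) + 8*t^(11:ℕ)) + (1/243)*((15/4)*t^(4:ℕ) + (-35/2)*t^(5:ℕ) + (101/4)*t^(6:ℕ) + (-35/2)*t^(7:ℕ) + (15/4)*t^(8:ℕ) + 32*t^(9:ℕ) + (-48)*t^(10:ℕ) + 32*t^(11:ℕ)) + (1/729)*((-14)*t^(4:ℕ) + 43*t^(5:ℕ) + (-61)*t^(6:ℕ) + 43*t^(7:ℕ) + (-14)*t^(8:ℕ)) + (1/2187)*((-4)*t^(4:ℕ) + 12*t^(5:ℕ) + (-17)*t^(6:ℕ) + 12*t^(7:ℕ) + (-4)*t^(8:ℕ)) - (4471/250) = (1113115652/273375)*(1 - t)^(11:ℕ) + (40804513672/273375)*(t - (1/2))*(1 - t)^(10:ℕ) + (77356230422/54675)*(t - (1/2))^(2:ℕ)*(1 - t)^(9:ℕ) + (372893271166/54675)*(t - (1/2))^(3:ℕ)*(1 - t)^(8:ℕ) +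 (1108850412832/54675)*(t - (1/2))^(4:ℕ)*(1 - t)^(7:ℕ) + (11051017895224/273375)*(t - (1/2))^(5:ℕ)*(1 - t)^(6:ℕ) + (15325248104224/273375)*(t - (1/2))^(6:ℕ)*(1 - t)^(5:ℕ) + (2986235890432/54675)*(t - (1/2))^(7:ℕ)*(1 - t)^(4:ℕ) + (2015483938816/54675)*(t - (1/2))^(8:ℕ)*(1 - t)^(3:ℕ) + (901162777472/54675)*(t - (1/2))^(9:ℕ)*(1 - t)^(2:ℕ) + (1204695196672/273375)*(t - (1/2))^(10:ℕ)*(1 - t) + (146227569152/273375)*(t - (1/2))^(11:ℕ) := by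
    ring
  rw [e]
  have a3 : 0 ≤ t - (1/2) := by linarith
  have a4 : 0 ≤ 1 - t := by linarith
  generalize t - (1/2) = t1 at a3 ⊢
  generalize 1 - t = t2 at a4 ⊢
  positivity

lemma pos_L10_B3_b1 (t : ℝ) (h3 : (1/2) ≤ t) (h4 : t ≤ 1) :
    0 ≤ 1*(2 + 2*t + 10*t^(2:ℕ) + 10*t^(3:ℕ) + 20*t^(4:ℕ) + 20*t^(5:ℕ) + 20*t^(6:ℕ) + 20*t^(7:ℕ) + 10*t^(8:ℕ) + 10*t^(9:ℕ) + 2*t^(10:ℕ) + 2*t^(11:ℕ)) + (12/35)*(4 + 4*t + 28*t^(2:ℕ) + 28*t^(3:ℕ) + 64*t^(4:ℕ) + 64*t^(5:ℕ) + 64*t^(6:ℕ) + 64*t^(7:ℕ) + 28*t^(8:ℕ) + 28*t^(9:ℕ) + 4*t^(10:ℕ) + 4*t^(11:ℕ)) + (37/315)*(33*t^(2:ℕ) + 35*t^(3:ℕ) + 103*t^(4:ℕ) + 60*t^(5:ℕ) + 82*t^(6:ℕ) + (-3)*t^(7:ℕ) + 3*t^(8:ℕ) + (-46)*t^(9:ℕ)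 + (-9)*t^(10:ℕ) + (-18)*t^(11:ℕ)) + (38/945)*(2*t^(2:ℕ) + 19*t^(3:ℕ) + 69*t^(4:ℕ) + (-41)*t^(5:ℕ) + 56*t^(6:ℕ) + (-125)*t^(7:ℕ) + (-3)*t^(8:ℕ) + (-73)*t^(9:ℕ) + 8*t^(10:ℕ) + (-8)*t^(11:ℕ)) + (13/945)*(8*t^(2:ℕ) + (-48)*t^(3:ℕ) + 102*t^(4:ℕ) + (-124)*t^(5:ℕ) + 96*t^(6:ℕ) + (-40)*t^(7:ℕ) + (-26)*t^(8:ℕ) + 44*t^(9:ℕ) + (-28)*t^(10:ℕ) + 8*t^(11:ℕ)) + (8/1701)*((15/4)*t^(4:ℕ) + (-35/2)*t^(5:ℕ) + (101/4)*t^(6:ℕ) + (-35/2)*t^(7:ℕ) + (15/4)*t^(8:ℕ) + 32*t^(9:ℕ) + (-48)*t^(10:ℕ) + 32*t^(11:ℕ)) + (41/25515)*((-14)*t^(4:ℕ) + 43*t^(5:ℕ) + (-61)*t^(6:ℕ) + 43*t^(7:ℕ) + (-14)*t^(8:ℕ)) + (2/3645)*((-4)*t^(4:ℕ) + 12*t^(5:ℕ) + (-17)*t^(6:ℕ) + 12*t^(7:ℕ) + (-4)*t^(8:ℕ))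 - (4471/250) := by
  have e : 1*(2 + 2*t + 10*t^(2:ℕ) + 10*t^(3:ℕ) + 20*t^(4:ℕ) + 20*t^(5:ℕ) + 20*t^(6:ℕ) + 20*t^(7:ℕ) + 10*t^(8:ℕ) + 10*t^(9:ℕ) + 2*t^(10:ℕ) + 2*t^(11:ℕ)) + (12/35)*(4 + 4*t + 28*t^(2:ℕ) + 28*t^(3:ℕ) + 64*t^(4:ℕ) + 64*t^(5:ℕ) + 64*t^(6:ℕ) + 64*t^(7:ℕ) + 28*t^(8:ℕ) + 28*t^(9:ℕ) + 4*t^(10:ℕ) + 4*t^(11:ℕ)) + (37/315)*(33*t^(2:ℕ) + 35*t^(3:ℕ) + 103*t^(4:ℕ) + 60*t^(5:ℕ) + 82*t^(6:ℕ) + (-3)*t^(7:ℕ) + 3*t^(8:ℕ) + (-46)*t^(9:ℕ) + (-9)*t^(10:ℕ) + (-18)*t^(11:ℕ)) + (38/945)*(2*t^(2:ℕ) + 19*t^(3:ℕ) + 69*t^(4:ℕ) + (-41)*t^(5:ℕ) + 56*t^(6:ℕ) + (-125)*t^(7:ℕ) + (-3)*t^(8:ℕ) + (-73)*t^(9:ℕ) + 8*t^(10:ℕ) + (-8)*t^(11:ℕ)) + (13/945)*(8*t^(2:ℕ) + (-48)*t^(3:ℕ)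 + 102*t^(4:ℕ) + (-124)*t^(5:ℕ) + 96*t^(6:ℕ) + (-40)*t^(7:ℕ) + (-26)*t^(8:ℕ) + 44*t^(9:ℕ) + (-28)*t^(10:ℕ) + 8*t^(11:ℕ)) + (8/1701)*((15/4)*t^(4:ℕ) + (-35/2)*t^(5:ℕ) + (101/4)*t^(6:ℕ) + (-35/2)*t^(7:ℕ) + (15/4)*t^(8:ℕ) + 32*t^(9:ℕ) + (-48)*t^(10:ℕ) + 32*t^(11:ℕ)) + (41/25515)*((-14)*t^(4:ℕ) + 43*t^(5:ℕ) + (-61)*t^(6:ℕ) + 43*t^(7:ℕ) + (-14)*t^(8:ℕ)) + (2/3645)*((-4)*t^(4:ℕ) + 12*t^(5:ℕ) + (-17)*t^(6:ℕ) + 12*t^(7:ℕ) + (-4)*t^(8:ℕ)) - (4471/250) = (443430034/91125)*(1 - t)^(11:ℕ) + (102229688018/637875)*(t - (1/2))*(1 - t)^(10:ℕ) + (63117773056/42525)*(t - (1/2))^(2:ℕ)*(1 - t)^(9:ℕ) + (301213853408/42525)*(t - (1/2))^(3:ℕ)*(1 - t)^(8:ℕ) + (2672146583488/127575)*(t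 - (1/2))^(4:ℕ)*(1 - t)^(7:ℕ) + (26536289623456/637875)*(t - (1/2))^(5:ℕ)*(1 - t)^(6:ℕ) + (36707171329856/637875)*(t - (1/2))^(6:ℕ)*(1 - t)^(5:ℕ) + (1019832174464/18225)*(t - (1/2))^(7:ℕ)*(1 - t)^(4:ℕ) + (178164389632/4725)*(t - (1/2))^(8:ℕ)*(1 - t)^(3:ℕ) + (26515662848/1575)*(t - (1/2))^(9:ℕ)*(1 - t)^(2:ℕ) + (2867290989568/637875)*(t - (1/2))^(10:ℕ)*(1 - t) + (347562533888/637875)*(t - (1/2))^(11:ℕ) := by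
    ring
  rw [e]
  have a3 : 0 ≤ t - (1/2) := by linarith
  have a4 : 0 ≤ 1 - t := by linarith
  generalize t - (1/2) = t1 at a3 ⊢
  generalize 1 - t = t2 at a4 ⊢
  positivity

lemma pos_L10_B3_b2 (t : ℝ) (h3 : (1/2) ≤ t) (h4 : t ≤ 1) :
    0 ≤ 1*(2 + 2*t + 10*t^(2:ℕ) + 10*t^(3:ℕ) + 20*t^(4:ℕ) + 20*t^(5:ℕ) + 20*t^(6:ℕ) + 20*t^(7:ℕ) + 10*t^(8:ℕ) + 10*t^(9:ℕ) + 2*t^(10:ℕ) + 2*t^(11:ℕ)) + (37/105)*(4 + 4*t + 28*t^(2:ℕ) + 28*t^(3:ℕ) + 64*t^(4:ℕ) + 64*t^(5:ℕ) + 64*t^(6:ℕ) + 64*t^(7:ℕ) + 28*t^(8:ℕ) + 28*t^(9:ℕ) + 4*t^(10:ℕ) + 4*t^(11:ℕ)) + (586/4725)*(33*t^(2:ℕ) + 35*t^(3:ℕ) + 103*t^(4:ℕ) + 60*t^(5:ℕ) + 82*t^(6:ℕ) + (-3)*t^(7:ℕ) + 3*t^(8:ℕ) + (-46)*t^(9:ℕ)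 + (-9)*t^(10:ℕ) + (-18)*t^(11:ℕ)) + (206/4725)*(2*t^(2:ℕ) + 19*t^(3:ℕ) + 69*t^(4:ℕ) + (-41)*t^(5:ℕ) + 56*t^(6:ℕ) + (-125)*t^(7:ℕ) + (-3)*t^(8:ℕ) + (-73)*t^(9:ℕ) + 8*t^(10:ℕ) + (-8)*t^(11:ℕ)) + (31/2025)*(8*t^(2:ℕ) + (-48)*t^(3:ℕ) + 102*t^(4:ℕ) + (-124)*t^(5:ℕ) + 96*t^(6:ℕ) + (-40)*t^(7:ℕ) + (-26)*t^(8:ℕ) + 44*t^(9:ℕ) + (-28)*t^(10:ℕ) + 8*t^(11:ℕ)) + (137/25515)*((15/4)*t^(4:ℕ) + (-35/2)*t^(5:ℕ) + (101/4)*t^(6:ℕ) + (-35/2)*t^(7:ℕ) + (15/4)*t^(8:ℕ) + 32*t^(9:ℕ) + (-48)*t^(10:ℕ) + 32*t^(11:ℕ)) + (16/8505)*((-14)*t^(4:ℕ) + 43*t^(5:ℕ) + (-61)*t^(6:ℕ) + 43*t^(7:ℕ) + (-14)*t^(8:ℕ)) + (4/6075)*((-4)*t^(4:ℕ) + 12*t^(5:ℕ) + (-17)*t^(6:ℕ) + 12*t^(7:ℕ) + (-4)*t^(8:ℕ))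 - (4471/250) := by
  have e : 1*(2 + 2*t + 10*t^(2:ℕ) + 10*t^(3:ℕ) + 20*t^(4:ℕ) + 20*t^(5:ℕ) + 20*t^(6:ℕ) + 20*t^(7:ℕ) + 10*t^(8:ℕ) + 10*t^(9:ℕ) + 2*t^(10:ℕ) + 2*t^(11:ℕ)) + (37/105)*(4 + 4*t + 28*t^(2:ℕ) + 28*t^(3:ℕ) + 64*t^(4:ℕ) + 64*t^(5:ℕ) + 64*t^(6:ℕ) + 64*t^(7:ℕ) + 28*t^(8:ℕ) + 28*t^(9:ℕ) + 4*t^(10:ℕ) + 4*t^(11:ℕ)) + (586/4725)*(33*t^(2:ℕ) + 35*t^(3:ℕ) + 103*t^(4:ℕ) + 60*t^(5:ℕ) + 82*t^(6:ℕ) + (-3)*t^(7:ℕ) + 3*t^(8:ℕ) + (-46)*t^(9:ℕ) + (-9)*t^(10:ℕ) + (-18)*t^(11:ℕ)) + (206/4725)*(2*t^(2:ℕ) + 19*t^(3:ℕ) + 69*t^(4:ℕ) + (-41)*t^(5:ℕ) + 56*t^(6:ℕ) + (-125)*t^(7:ℕ) + (-3)*t^(8:ℕ) + (-73)*t^(9:ℕ) + 8*t^(10:ℕ) + (-8)*t^(11:ℕ)) + (31/2025)*(8*t^(2:ℕ)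 + (-48)*t^(3:ℕ) + 102*t^(4:ℕ) + (-124)*t^(5:ℕ) + 96*t^(6:ℕ) + (-40)*t^(7:ℕ) + (-26)*t^(8:ℕ) + 44*t^(9:ℕ) + (-28)*t^(10:ℕ) + 8*t^(11:ℕ)) + (137/25515)*((15/4)*t^(4:ℕ) + (-35/2)*t^(5:ℕ) + (101/4)*t^(6:ℕ) + (-35/2)*t^(7:ℕ) + (15/4)*t^(8:ℕ) + 32*t^(9:ℕ) + (-48)*t^(10:ℕ) + 32*t^(11:ℕ)) + (16/8505)*((-14)*t^(4:ℕ) + 43*t^(5:ℕ) + (-61)*t^(6:ℕ) + 43*t^(7:ℕ) + (-14)*t^(8:ℕ)) + (4/6075)*((-4)*t^(4:ℕ) + 12*t^(5:ℕ) + (-17)*t^(6:ℕ) + 12*t^(7:ℕ) + (-4)*t^(8:ℕ)) - (4471/250) = (402038492/70875)*(1 - t)^(11:ℕ) + (109356286118/637875)*(t - (1/2))*(1 - t)^(10:ℕ) + (198345671642/127575)*(t - (1/2))^(2:ℕ)*(1 - t)^(9:ℕ) + (937716950054/127575)*(t - (1/2))^(3:ℕ)*(1 - t)^(8:ℕ)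 + (919422673424/42525)*(t - (1/2))^(4:ℕ)*(1 - t)^(7:ℕ) + (144433884184/3375)*(t - (1/2))^(5:ℕ)*(1 - t)^(6:ℕ) + (37668903708896/637875)*(t - (1/2))^(6:ℕ)*(1 - t)^(5:ℕ) + (1044577999232/18225)*(t - (1/2))^(7:ℕ)*(1 - t)^(4:ℕ) + (4919391014144/127575)*(t - (1/2))^(8:ℕ)*(1 - t)^(3:ℕ) + (81233492608/4725)*(t - (1/2))^(9:ℕ)*(1 - t)^(2:ℕ) + (46414560256/10125)*(t - (1/2))^(10:ℕ)*(1 - t) + (50566710784/91125)*(t - (1/2))^(11:ℕ) := by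
    ring
  rw [e]
  have a3 : 0 ≤ t - (1/2) := by linarith
  have a4 : 0 ≤ 1 - t := by linarith
  generalize t - (1/2) = t1 at a3 ⊢
  generalize 1 - t = t2 at a4 ⊢
  positivity

lemma pos_L10_B3_b3 (t : ℝ) (h3 : (1/2) ≤ t) (h4 : t ≤ 1) :
    0 ≤ 1*(2 + 2*t + 10*t^(2:ℕ) + 10*t^(3:ℕ) + 20*t^(4:ℕ) + 20*t^(5:ℕ) + 20*t^(6:ℕ) + 20*t^(7:ℕ) + 10*t^(8:ℕ) + 10*t^(9:ℕ) + 2*t^(10:ℕ) + 2*t^(11:ℕ)) + (38/105)*(4 + 4*t + 28*t^(2:ℕ) + 28*t^(3:ℕ) + 64*t^(4:ℕ) + 64*t^(5:ℕ) + 64*t^(6:ℕ) + 64*t^(7:ℕ) + 28*t^(8:ℕ) + 28*t^(9:ℕ) + 4*t^(10:ℕ) + 4*t^(11:ℕ)) + (206/1575)*(33*t^(2:ℕ) + 35*t^(3:ℕ) + 103*t^(4:ℕ) + 60*t^(5:ℕ) + 82*t^(6:ℕ) + (-3)*t^(7:ℕ) + 3*t^(8:ℕ) + (-46)*t^(9:ℕ)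 + (-9)*t^(10:ℕ) + (-18)*t^(11:ℕ)) + (5576/118125)*(2*t^(2:ℕ) + 19*t^(3:ℕ) + 69*t^(4:ℕ) + (-41)*t^(5:ℕ) + 56*t^(6:ℕ) + (-125)*t^(7:ℕ) + (-3)*t^(8:ℕ) + (-73)*t^(9:ℕ) + 8*t^(10:ℕ) + (-8)*t^(11:ℕ)) + (6029/354375)*(8*t^(2:ℕ) + (-48)*t^(3:ℕ) + 102*t^(4:ℕ) + (-124)*t^(5:ℕ) + 96*t^(6:ℕ) + (-40)*t^(7:ℕ) + (-26)*t^(8:ℕ) + 44*t^(9:ℕ) + (-28)*t^(10:ℕ) + 8*t^(11:ℕ)) + (62/10125)*((15/4)*t^(4:ℕ) + (-35/2)*t^(5:ℕ) + (101/4)*t^(6:ℕ) + (-35/2)*t^(7:ℕ) + (15/4)*t^(8:ℕ) + 32*t^(9:ℕ) + (-48)*t^(10:ℕ) + 32*t^(11:ℕ)) + (52/23625)*((-14)*t^(4:ℕ) + 43*t^(5:ℕ) + (-61)*t^(6:ℕ) + 43*t^(7:ℕ) + (-14)*t^(8:ℕ)) + (8/10125)*((-4)*t^(4:ℕ) + 12*t^(5:ℕ) + (-17)*t^(6:ℕ) + 12*t^(7:ℕ)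 + (-4)*t^(8:ℕ)) - (4471/250) := by
  have e : 1*(2 + 2*t + 10*t^(2:ℕ) + 10*t^(3:ℕ) + 20*t^(4:ℕ) + 20*t^(5:ℕ) + 20*t^(6:ℕ) + 20*t^(7:ℕ) + 10*t^(8:ℕ) + 10*t^(9:ℕ) + 2*t^(10:ℕ) + 2*t^(11:ℕ)) + (38/105)*(4 + 4*t + 28*t^(2:ℕ) + 28*t^(3:ℕ) + 64*t^(4:ℕ) + 64*t^(5:ℕ) + 64*t^(6:ℕ) + 64*t^(7:ℕ) + 28*t^(8:ℕ) + 28*t^(9:ℕ) + 4*t^(10:ℕ) + 4*t^(11:ℕ)) + (206/1575)*(33*t^(2:ℕ) + 35*t^(3:ℕ) + 103*t^(4:ℕ) + 60*t^(5:ℕ) + 82*t^(6:ℕ) + (-3)*t^(7:ℕ) + 3*t^(8:ℕ) + (-46)*t^(9:ℕ) + (-9)*t^(10:ℕ) + (-18)*t^(11:ℕ)) + (5576/118125)*(2*t^(2:ℕ) + 19*t^(3:ℕ) + 69*t^(4:ℕ) + (-41)*t^(5:ℕ) + 56*t^(6:ℕ) + (-125)*t^(7:ℕ) + (-3)*t^(8:ℕ) + (-73)*t^(9:ℕ) + 8*t^(10:ℕ) + (-8)*t^(11:ℕ)) +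 (6029/354375)*(8*t^(2:ℕ) + (-48)*t^(3:ℕ) + 102*t^(4:ℕ) + (-124)*t^(5:ℕ) + 96*t^(6:ℕ) + (-40)*t^(7:ℕ) + (-26)*t^(8:ℕ) + 44*t^(9:ℕ) + (-28)*t^(10:ℕ) + 8*t^(11:ℕ)) + (62/10125)*((15/4)*t^(4:ℕ) + (-35/2)*t^(5:ℕ) + (101/4)*t^(6:ℕ) + (-35/2)*t^(7:ℕ) + (15/4)*t^(8:ℕ) + 32*t^(9:ℕ) + (-48)*t^(10:ℕ) + 32*t^(11:ℕ)) + (52/23625)*((-14)*t^(4:ℕ) + 43*t^(5:ℕ) + (-61)*t^(6:ℕ) + 43*t^(7:ℕ) + (-14)*t^(8:ℕ)) + (8/10125)*((-4)*t^(4:ℕ) + 12*t^(5:ℕ) + (-17)*t^(6:ℕ) + 12*t^(7:ℕ) + (-4)*t^(8:ℕ)) - (4471/250) = (460037078/70875)*(1 - t)^(11:ℕ) + (64772825704/354375)*(t - (1/2))*(1 - t)^(10:ℕ) + (576321816772/354375)*(t - (1/2))^(2:ℕ)*(1 - t)^(9:ℕ) + (2700871481276/354375)*(t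 - (1/2))^(3:ℕ)*(1 - t)^(8:ℕ) + (7904692315264/354375)*(t - (1/2))^(4:ℕ)*(1 - t)^(7:ℕ) + (577590626512/13125)*(t - (1/2))^(5:ℕ)*(1 - t)^(6:ℕ) + (340777386944/5625)*(t - (1/2))^(6:ℕ)*(1 - t)^(5:ℕ) + (20798749362688/354375)*(t - (1/2))^(7:ℕ)*(1 - t)^(4:ℕ) + (13971255638528/354375)*(t - (1/2))^(8:ℕ)*(1 - t)^(3:ℕ) + (6220326560512/354375)*(t - (1/2))^(9:ℕ)*(1 - t)^(2:ℕ) + (331269837824/70875)*(t - (1/2))^(10:ℕ)*(1 - t) + (40045549568/70875)*(t - (1/2))^(11:ℕ) := by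
    ring
  rw [e]
  have a3 : 0 ≤ t - (1/2) := by linarith
  have a4 : 0 ≤ 1 - t := by linarith
  generalize t - (1/2) = t1 at a3 ⊢
  generalize 1 - t = t2 at a4 ⊢
  positivity

lemma pos_L10_B3_b4 (t : ℝ) (h3 : (1/2) ≤ t) (h4 : t ≤ 1) :
    0 ≤ 1*(2 + 2*t + 10*t^(2:ℕ) + 10*t^(3:ℕ) + 20*t^(4:ℕ) + 20*t^(5:ℕ) + 20*t^(6:ℕ) + 20*t^(7:ℕ) + 10*t^(8:ℕ) + 10*t^(9:ℕ) + 2*t^(10:ℕ) + 2*t^(11:ℕ)) + (13/35)*(4 + 4*t + 28*t^(2:ℕ) + 28*t^(3:ℕ) + 64*t^(4:ℕ) + 64*t^(5:ℕ) + 64*t^(6:ℕ) + 64*t^(7:ℕ) + 28*t^(8:ℕ) + 28*t^(9:ℕ) + 4*t^(10:ℕ) + 4*t^(11:ℕ)) + (31/225)*(33*t^(2:ℕ) + 35*t^(3:ℕ) + 103*t^(4:ℕ) + 60*t^(5:ℕ) + 82*t^(6:ℕ) + (-3)*t^(7:ℕ) + 3*t^(8:ℕ) + (-46)*t^(9:ℕ)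 + (-9)*t^(10:ℕ) + (-18)*t^(11:ℕ)) + (6029/118125)*(2*t^(2:ℕ) + 19*t^(3:ℕ) + 69*t^(4:ℕ) + (-41)*t^(5:ℕ) + 56*t^(6:ℕ) + (-125)*t^(7:ℕ) + (-3)*t^(8:ℕ) + (-73)*t^(9:ℕ) + 8*t^(10:ℕ) + (-8)*t^(11:ℕ)) + (11152/590625)*(8*t^(2:ℕ) + (-48)*t^(3:ℕ) + 102*t^(4:ℕ) + (-124)*t^(5:ℕ) + 96*t^(6:ℕ) + (-40)*t^(7:ℕ) + (-26)*t^(8:ℕ) + 44*t^(9:ℕ) + (-28)*t^(10:ℕ) + 8*t^(11:ℕ)) + (824/118125)*((15/4)*t^(4:ℕ) + (-35/2)*t^(5:ℕ) + (101/4)*t^(6:ℕ) + (-35/2)*t^(7:ℕ) + (15/4)*t^(8:ℕ) + 32*t^(9:ℕ) + (-48)*t^(10:ℕ) + 32*t^(11:ℕ)) + (304/118125)*((-14)*t^(4:ℕ) + 43*t^(5:ℕ) + (-61)*t^(6:ℕ) + 43*t^(7:ℕ) + (-14)*t^(8:ℕ)) + (16/16875)*((-4)*t^(4:ℕ) + 12*t^(5:ℕ) + (-17)*t^(6:ℕ) + 12*t^(7:ℕ)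 + (-4)*t^(8:ℕ)) - (4471/250) := by
  have e : 1*(2 + 2*t + 10*t^(2:ℕ) + 10*t^(3:ℕ) + 20*t^(4:ℕ) + 20*t^(5:ℕ) + 20*t^(6:ℕ) + 20*t^(7:ℕ) + 10*t^(8:ℕ) + 10*t^(9:ℕ) + 2*t^(10:ℕ) + 2*t^(11:ℕ)) + (13/35)*(4 + 4*t + 28*t^(2:ℕ) + 28*t^(3:ℕ) + 64*t^(4:ℕ) + 64*t^(5:ℕ) + 64*t^(6:ℕ) + 64*t^(7:ℕ) + 28*t^(8:ℕ) + 28*t^(9:ℕ) + 4*t^(10:ℕ) + 4*t^(11:ℕ)) + (31/225)*(33*t^(2:ℕ) + 35*t^(3:ℕ) + 103*t^(4:ℕ) + 60*t^(5:ℕ) + 82*t^(6:ℕ) + (-3)*t^(7:ℕ) + 3*t^(8:ℕ) + (-46)*t^(9:ℕ) + (-9)*t^(10:ℕ) + (-18)*t^(11:ℕ)) + (6029/118125)*(2*t^(2:ℕ) + 19*t^(3:ℕ) + 69*t^(4:ℕ) + (-41)*t^(5:ℕ) + 56*t^(6:ℕ) + (-125)*t^(7:ℕ) + (-3)*t^(8:ℕ) + (-73)*t^(9:ℕ) + 8*t^(10:ℕ) + (-8)*t^(11:ℕ)) + (11152/590625)*(8*t^(2:ℕ)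 + (-48)*t^(3:ℕ) + 102*t^(4:ℕ) + (-124)*t^(5:ℕ) + 96*t^(6:ℕ) + (-40)*t^(7:ℕ) + (-26)*t^(8:ℕ) + 44*t^(9:ℕ) + (-28)*t^(10:ℕ) + 8*t^(11:ℕ)) + (824/118125)*((15/4)*t^(4:ℕ) + (-35/2)*t^(5:ℕ) + (101/4)*t^(6:ℕ) + (-35/2)*t^(7:ℕ) + (15/4)*t^(8:ℕ) + 32*t^(9:ℕ) + (-48)*t^(10:ℕ) + 32*t^(11:ℕ)) + (304/118125)*((-14)*t^(4:ℕ) + 43*t^(5:ℕ) + (-61)*t^(6:ℕ) + 43*t^(7:ℕ) + (-14)*t^(8:ℕ)) + (16/16875)*((-4)*t^(4:ℕ) + 12*t^(5:ℕ) + (-17)*t^(6:ℕ) + 12*t^(7:ℕ) + (-4)*t^(8:ℕ)) - (4471/250) = (172963954/23625)*(1 - t)^(11:ℕ) + (114754481734/590625)*(t - (1/2))*(1 - t)^(10:ℕ) + (200689612556/118125)*(t - (1/2))^(2:ℕ)*(1 - t)^(9:ℕ) + (1554683851328/196875)*(t - (1/2))^(3:ℕ)*(1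 - t)^(8:ℕ) + (1509473983264/65625)*(t - (1/2))^(4:ℕ)*(1 - t)^(7:ℕ) + (26717631886976/590625)*(t - (1/2))^(5:ℕ)*(1 - t)^(6:ℕ) + (36697196923328/590625)*(t - (1/2))^(6:ℕ)*(1 - t)^(5:ℕ) + (3943076195456/65625)*(t - (1/2))^(7:ℕ)*(1 - t)^(4:ℕ) + (23801945354752/590625)*(t - (1/2))^(8:ℕ)*(1 - t)^(3:ℕ) + (10582435406848/590625)*(t - (1/2))^(9:ℕ)*(1 - t)^(2:ℕ) + (938030523392/196875)*(t - (1/2))^(10:ℕ)*(1 - t) + (37745927168/65625)*(t - (1/2))^(11:ℕ) := by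
    ring
  rw [e]
  have a3 : 0 ≤ t - (1/2) := by linarith
  have a4 : 0 ≤ 1 - t := by linarith
  generalize t - (1/2) = t1 at a3 ⊢
  generalize 1 - t = t2 at a4 ⊢
  positivity

lemma pos_L10_B3_b5 (t : ℝ) (h3 : (1/2) ≤ t) (h4 : t ≤ 1) :
    0 ≤ 1*(2 + 2*t + 10*t^(2:ℕ) + 10*t^(3:ℕ) + 20*t^(4:ℕ) + 20*t^(5:ℕ) + 20*t^(6:ℕ) + 20*t^(7:ℕ) + 10*t^(8:ℕ) + 10*t^(9:ℕ) + 2*t^(10:ℕ) + 2*t^(11:ℕ)) + (8/21)*(4 + 4*t + 28*t^(2:ℕ) + 28*t^(3:ℕ) + 64*t^(4:ℕ) + 64*t^(5:ℕ) + 64*t^(6:ℕ) + 64*t^(7:ℕ) + 28*t^(8:ℕ) + 28*t^(9:ℕ) + 4*t^(10:ℕ) + 4*t^(11:ℕ)) + (137/945)*(33*t^(2:ℕ) + 35*t^(3:ℕ) + 103*t^(4:ℕ) + 60*t^(5:ℕ) + 82*t^(6:ℕ) + (-3)*t^(7:ℕ) + 3*t^(8:ℕ) + (-46)*t^(9:ℕ)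 + (-9)*t^(10:ℕ) + (-18)*t^(11:ℕ)) + (62/1125)*(2*t^(2:ℕ) + 19*t^(3:ℕ) + 69*t^(4:ℕ) + (-41)*t^(5:ℕ) + 56*t^(6:ℕ) + (-125)*t^(7:ℕ) + (-3)*t^(8:ℕ) + (-73)*t^(9:ℕ) + 8*t^(10:ℕ) + (-8)*t^(11:ℕ)) + (824/39375)*(8*t^(2:ℕ) + (-48)*t^(3:ℕ) + 102*t^(4:ℕ) + (-124)*t^(5:ℕ) + 96*t^(6:ℕ) + (-40)*t^(7:ℕ) + (-26)*t^(8:ℕ) + 44*t^(9:ℕ) + (-28)*t^(10:ℕ) + 8*t^(11:ℕ)) + (4688/590625)*((15/4)*t^(4:ℕ) + (-35/2)*t^(5:ℕ) + (101/4)*t^(6:ℕ) + (-35/2)*t^(7:ℕ) + (15/4)*t^(8:ℕ) + 32*t^(9:ℕ) + (-48)*t^(10:ℕ) + 32*t^(11:ℕ)) + (592/196875)*((-14)*t^(4:ℕ) + 43*t^(5:ℕ) + (-61)*t^(6:ℕ) + 43*t^(7:ℕ) + (-14)*t^(8:ℕ)) + (32/28125)*((-4)*t^(4:ℕ) + 12*t^(5:ℕ) + (-17)*t^(6:ℕ) + 12*t^(7:ℕ)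 + (-4)*t^(8:ℕ)) - (4471/250) := by
  have e : 1*(2 + 2*t + 10*t^(2:ℕ) + 10*t^(3:ℕ) + 20*t^(4:ℕ) + 20*t^(5:ℕ) + 20*t^(6:ℕ) + 20*t^(7:ℕ) + 10*t^(8:ℕ) + 10*t^(9:ℕ) + 2*t^(10:ℕ) + 2*t^(11:ℕ)) + (8/21)*(4 + 4*t + 28*t^(2:ℕ) + 28*t^(3:ℕ) + 64*t^(4:ℕ) + 64*t^(5:ℕ) + 64*t^(6:ℕ) + 64*t^(7:ℕ) + 28*t^(8:ℕ) + 28*t^(9:ℕ) + 4*t^(10:ℕ) + 4*t^(11:ℕ)) + (137/945)*(33*t^(2:ℕ) + 35*t^(3:ℕ) + 103*t^(4:ℕ) + 60*t^(5:ℕ) + 82*t^(6:ℕ) + (-3)*t^(7:ℕ) + 3*t^(8:ℕ) + (-46)*t^(9:ℕ) + (-9)*t^(10:ℕ) + (-18)*t^(11:ℕ)) + (62/1125)*(2*t^(2:ℕ) + 19*t^(3:ℕ) + 69*t^(4:ℕ) + (-41)*t^(5:ℕ) + 56*t^(6:ℕ) + (-125)*t^(7:ℕ) + (-3)*t^(8:ℕ) + (-73)*t^(9:ℕ) + 8*t^(10:ℕ) + (-8)*t^(11:ℕ)) + (824/39375)*(8*t^(2:ℕ)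 + (-48)*t^(3:ℕ) + 102*t^(4:ℕ) + (-124)*t^(5:ℕ) + 96*t^(6:ℕ) + (-40)*t^(7:ℕ) + (-26)*t^(8:ℕ) + 44*t^(9:ℕ) + (-28)*t^(10:ℕ) + 8*t^(11:ℕ)) + (4688/590625)*((15/4)*t^(4:ℕ) + (-35/2)*t^(5:ℕ) + (101/4)*t^(6:ℕ) + (-35/2)*t^(7:ℕ) + (15/4)*t^(8:ℕ) + 32*t^(9:ℕ) + (-48)*t^(10:ℕ) + 32*t^(11:ℕ)) + (592/196875)*((-14)*t^(4:ℕ) + 43*t^(5:ℕ) + (-61)*t^(6:ℕ) + 43*t^(7:ℕ) + (-14)*t^(8:ℕ)) + (32/28125)*((-4)*t^(4:ℕ) + 12*t^(5:ℕ) + (-17)*t^(6:ℕ) + 12*t^(7:ℕ) + (-4)*t^(8:ℕ)) - (4471/250) = (688820062/84375)*(1 - t)^(11:ℕ) + (121655825042/590625)*(t - (1/2))*(1 - t)^(10:ℕ) + (349002095984/196875)*(t - (1/2))^(2:ℕ)*(1 - t)^(9:ℕ) + (4829094174224/590625)*(t - (1/2))^(3:ℕ)*(1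 - t)^(8:ℕ) + (4667376065936/196875)*(t - (1/2))^(4:ℕ)*(1 - t)^(7:ℕ) + (27454138020128/590625)*(t - (1/2))^(5:ℕ)*(1 - t)^(6:ℕ) + (37625369640896/590625)*(t - (1/2))^(6:ℕ)*(1 - t)^(5:ℕ) + (2421426076928/39375)*(t - (1/2))^(7:ℕ)*(1 - t)^(4:ℕ) + (8108169874432/196875)*(t - (1/2))^(8:ℕ)*(1 - t)^(3:ℕ) + (2159969739776/118125)*(t - (1/2))^(9:ℕ)*(1 - t)^(2:ℕ) + (2868039396352/590625)*(t - (1/2))^(10:ℕ)*(1 - t) + (69149508608/118125)*(t - (1/2))^(11:ℕ) := by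
    ring
  rw [e]
  have a3 : 0 ≤ t - (1/2) := by linarith
  have a4 : 0 ≤ 1 - t := by linarith
  generalize t - (1/2) = t1 at a3 ⊢
  generalize 1 - t = t2 at a4 ⊢
  positivity

lemma pos_L10_B3_b6 (t : ℝ) (h3 : (1/2) ≤ t) (h4 : t ≤ 1) :
    0 ≤ 1*(2 + 2*t + 10*t^(2:ℕ) + 10*t^(3:ℕ) + 20*t^(4:ℕ) + 20*t^(5:ℕ) + 20*t^(6:ℕ) + 20*t^(7:ℕ) + 10*t^(8:ℕ) + 10*t^(9:ℕ) + 2*t^(10:ℕ) + 2*t^(11:ℕ)) + (41/105)*(4 + 4*t + 28*t^(2:ℕ) + 28*t^(3:ℕ) + 64*t^(4:ℕ) + 64*t^(5:ℕ) + 64*t^(6:ℕ) + 64*t^(7:ℕ) + 28*t^(8:ℕ) + 28*t^(9:ℕ) + 4*t^(10:ℕ) + 4*t^(11:ℕ)) + (16/105)*(33*t^(2:ℕ) + 35*t^(3:ℕ) + 103*t^(4:ℕ) + 60*t^(5:ℕ) + 82*t^(6:ℕ) + (-3)*t^(7:ℕ) + 3*t^(8:ℕ) + (-46)*t^(9:ℕ)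 + (-9)*t^(10:ℕ) + (-18)*t^(11:ℕ)) + (52/875)*(2*t^(2:ℕ) + 19*t^(3:ℕ) + 69*t^(4:ℕ) + (-41)*t^(5:ℕ) + 56*t^(6:ℕ) + (-125)*t^(7:ℕ) + (-3)*t^(8:ℕ) + (-73)*t^(9:ℕ) + 8*t^(10:ℕ) + (-8)*t^(11:ℕ)) + (304/13125)*(8*t^(2:ℕ) + (-48)*t^(3:ℕ) + 102*t^(4:ℕ) + (-124)*t^(5:ℕ) + 96*t^(6:ℕ) + (-40)*t^(7:ℕ) + (-26)*t^(8:ℕ) + 44*t^(9:ℕ) + (-28)*t^(10:ℕ) + 8*t^(11:ℕ)) + (592/65625)*((15/4)*t^(4:ℕ) + (-35/2)*t^(5:ℕ) + (101/4)*t^(6:ℕ) + (-35/2)*t^(7:ℕ) + (15/4)*t^(8:ℕ) + 32*t^(9:ℕ) + (-48)*t^(10:ℕ) + 32*t^(11:ℕ)) + (384/109375)*((-14)*t^(4:ℕ) + 43*t^(5:ℕ) + (-61)*t^(6:ℕ) + 43*t^(7:ℕ) + (-14)*t^(8:ℕ)) + (64/46875)*((-4)*t^(4:ℕ) + 12*t^(5:ℕ) + (-17)*t^(6:ℕ) + 12*t^(7:ℕ) +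 (-4)*t^(8:ℕ)) - (4471/250) := by
  have e : 1*(2 + 2*t + 10*t^(2:ℕ) + 10*t^(3:ℕ) + 20*t^(4:ℕ) + 20*t^(5:ℕ) + 20*t^(6:ℕ) + 20*t^(7:ℕ) + 10*t^(8:ℕ) + 10*t^(9:ℕ) + 2*t^(10:ℕ) + 2*t^(11:ℕ)) + (41/105)*(4 + 4*t + 28*t^(2:ℕ) + 28*t^(3:ℕ) + 64*t^(4:ℕ) + 64*t^(5:ℕ) + 64*t^(6:ℕ) + 64*t^(7:ℕ) + 28*t^(8:ℕ) + 28*t^(9:ℕ) + 4*t^(10:ℕ) + 4*t^(11:ℕ)) + (16/105)*(33*t^(2:ℕ) + 35*t^(3:ℕ) + 103*t^(4:ℕ) + 60*t^(5:ℕ) + 82*t^(6:ℕ) + (-3)*t^(7:ℕ) + 3*t^(8:ℕ) + (-46)*t^(9:ℕ) + (-9)*t^(10:ℕ) + (-18)*t^(11:ℕ)) + (52/875)*(2*t^(2:ℕ) + 19*t^(3:ℕ) + 69*t^(4:ℕ) + (-41)*t^(5:ℕ) + 56*t^(6:ℕ) + (-125)*t^(7:ℕ) + (-3)*t^(8:ℕ) + (-73)*t^(9:ℕ) + 8*t^(10:ℕ) + (-8)*t^(11:ℕ)) + (304/13125)*(8*t^(2:ℕ)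 + (-48)*t^(3:ℕ) + 102*t^(4:ℕ) + (-124)*t^(5:ℕ) + 96*t^(6:ℕ) + (-40)*t^(7:ℕ) + (-26)*t^(8:ℕ) + 44*t^(9:ℕ) + (-28)*t^(10:ℕ) + 8*t^(11:ℕ)) + (592/65625)*((15/4)*t^(4:ℕ) + (-35/2)*t^(5:ℕ) + (101/4)*t^(6:ℕ) + (-35/2)*t^(7:ℕ) + (15/4)*t^(8:ℕ) + 32*t^(9:ℕ) + (-48)*t^(10:ℕ) + 32*t^(11:ℕ)) + (384/109375)*((-14)*t^(4:ℕ) + 43*t^(5:ℕ) + (-61)*t^(6:ℕ) + 43*t^(7:ℕ) + (-14)*t^(8:ℕ)) + (64/46875)*((-4)*t^(4:ℕ) + 12*t^(5:ℕ) + (-17)*t^(6:ℕ) + 12*t^(7:ℕ) + (-4)*t^(8:ℕ)) - (4471/250) = (422747342/46875)*(1 - t)^(11:ℕ) + (23825818224/109375)*(t - (1/2))*(1 - t)^(10:ℕ) + (606230647712/328125)*(t - (1/2))^(2:ℕ)*(1 - t)^(9:ℕ) + (925295345376/109375)*(t - (1/2))^(3:ℕ)*(1 -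 t)^(8:ℕ) + (1144849731136/46875)*(t - (1/2))^(4:ℕ)*(1 - t)^(7:ℕ) + (1044486777088/21875)*(t - (1/2))^(5:ℕ)*(1 - t)^(6:ℕ) + (3060808259584/46875)*(t - (1/2))^(6:ℕ)*(1 - t)^(5:ℕ) + (6882539565568/109375)*(t - (1/2))^(7:ℕ)*(1 - t)^(4:ℕ) + (13807284386816/328125)*(t - (1/2))^(8:ℕ)*(1 - t)^(3:ℕ) + (2040636935168/109375)*(t - (1/2))^(9:ℕ)*(1 - t)^(2:ℕ) + (231938102272/46875)*(t - (1/2))^(10:ℕ)*(1 - t) + (195452535808/328125)*(t - (1/2))^(11:ℕ) := by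
    ring
  rw [e]
  have a3 : 0 ≤ t - (1/2) := by linarith
  have a4 : 0 ≤ 1 - t := by linarith
  generalize t - (1/2) = t1 at a3 ⊢
  generalize 1 - t = t2 at a4 ⊢
  positivity

lemma pos_L10_B3_b7 (t : ℝ) (h3 : (1/2) ≤ t) (h4 : t ≤ 1) :
    0 ≤ 1*(2 + 2*t + 10*t^(2:ℕ) + 10*t^(3:ℕ) + 20*t^(4:ℕ) + 20*t^(5:ℕ) + 20*t^(6:ℕ) + 20*t^(7:ℕ) + 10*t^(8:ℕ) + 10*t^(9:ℕ) + 2*t^(10:ℕ) + 2*t^(11:ℕ)) + (2/5)*(4 + 4*t + 28*t^(2:ℕ) + 28*t^(3:ℕ) + 64*t^(4:ℕ) + 64*t^(5:ℕ) + 64*t^(6:ℕ) + 64*t^(7:ℕ) + 28*t^(8:ℕ) + 28*t^(9:ℕ) + 4*t^(10:ℕ) + 4*t^(11:ℕ)) + (4/25)*(33*t^(2:ℕ) + 35*t^(3:ℕ) + 103*t^(4:ℕ) + 60*t^(5:ℕ) + 82*t^(6:ℕ) + (-3)*t^(7:ℕ) + 3*t^(8:ℕ) + (-46)*t^(9:ℕ) + (-9)*t^(10:ℕ)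 + (-18)*t^(11:ℕ)) + (8/125)*(2*t^(2:ℕ) + 19*t^(3:ℕ) + 69*t^(4:ℕ) + (-41)*t^(5:ℕ) + 56*t^(6:ℕ) + (-125)*t^(7:ℕ) + (-3)*t^(8:ℕ) + (-73)*t^(9:ℕ) + 8*t^(10:ℕ) + (-8)*t^(11:ℕ)) + (16/625)*(8*t^(2:ℕ) + (-48)*t^(3:ℕ) + 102*t^(4:ℕ) + (-124)*t^(5:ℕ) + 96*t^(6:ℕ) + (-40)*t^(7:ℕ) + (-26)*t^(8:ℕ) + 44*t^(9:ℕ) + (-28)*t^(10:ℕ) + 8*t^(11:ℕ)) + (32/3125)*((15/4)*t^(4:ℕ) + (-35/2)*t^(5:ℕ) + (101/4)*t^(6:ℕ) + (-35/2)*t^(7:ℕ) + (15/4)*t^(8:ℕ) + 32*t^(9:ℕ) + (-48)*t^(10:ℕ) + 32*t^(11:ℕ)) + (64/15625)*((-14)*t^(4:ℕ) + 43*t^(5:ℕ) + (-61)*t^(6:ℕ) + 43*t^(7:ℕ) + (-14)*t^(8:ℕ)) + (128/78125)*((-4)*t^(4:ℕ) + 12*t^(5:ℕ) + (-17)*t^(6:ℕ) + 12*t^(7:ℕ) + (-4)*t^(8:ℕ)) - (4471/250)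 := by
  have e : 1*(2 + 2*t + 10*t^(2:ℕ) + 10*t^(3:ℕ) + 20*t^(4:ℕ) + 20*t^(5:ℕ) + 20*t^(6:ℕ) + 20*t^(7:ℕ) + 10*t^(8:ℕ) + 10*t^(9:ℕ) + 2*t^(10:ℕ) + 2*t^(11:ℕ)) + (2/5)*(4 + 4*t + 28*t^(2:ℕ) + 28*t^(3:ℕ) + 64*t^(4:ℕ) + 64*t^(5:ℕ) + 64*t^(6:ℕ) + 64*t^(7:ℕ) + 28*t^(8:ℕ) + 28*t^(9:ℕ) + 4*t^(10:ℕ) + 4*t^(11:ℕ)) + (4/25)*(33*t^(2:ℕ) + 35*t^(3:ℕ) + 103*t^(4:ℕ) + 60*t^(5:ℕ) + 82*t^(6:ℕ) + (-3)*t^(7:ℕ) + 3*t^(8:ℕ) + (-46)*t^(9:ℕ) + (-9)*t^(10:ℕ) + (-18)*t^(11:ℕ)) + (8/125)*(2*t^(2:ℕ) + 19*t^(3:ℕ) + 69*t^(4:ℕ) + (-41)*t^(5:ℕ) + 56*t^(6:ℕ) + (-125)*t^(7:ℕ) + (-3)*t^(8:ℕ) + (-73)*t^(9:ℕ) + 8*t^(10:ℕ) + (-8)*t^(11:ℕ)) + (16/625)*(8*t^(2:ℕ) + (-48)*t^(3:ℕ) + 102*t^(4:ℕ)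 + (-124)*t^(5:ℕ) + 96*t^(6:ℕ) + (-40)*t^(7:ℕ) + (-26)*t^(8:ℕ) + 44*t^(9:ℕ) + (-28)*t^(10:ℕ) + 8*t^(11:ℕ)) + (32/3125)*((15/4)*t^(4:ℕ) + (-35/2)*t^(5:ℕ) + (101/4)*t^(6:ℕ) + (-35/2)*t^(7:ℕ) + (15/4)*t^(8:ℕ) + 32*t^(9:ℕ) + (-48)*t^(10:ℕ) + 32*t^(11:ℕ)) + (64/15625)*((-14)*t^(4:ℕ) + 43*t^(5:ℕ) + (-61)*t^(6:ℕ) + 43*t^(7:ℕ) + (-14)*t^(8:ℕ)) + (128/78125)*((-4)*t^(4:ℕ) + 12*t^(5:ℕ) + (-17)*t^(6:ℕ) + 12*t^(7:ℕ) + (-4)*t^(8:ℕ)) - (4471/250) = (772324846/78125)*(1 - t)^(11:ℕ) + (17958456504/78125)*(t - (1/2))*(1 - t)^(10:ℕ) + (150274968912/78125)*(t - (1/2))^(2:ℕ)*(1 - t)^(9:ℕ) + (683408457408/78125)*(t - (1/2))^(3:ℕ)*(1 - t)^(8:ℕ) + (1964845625536/78125)*(t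 - (1/2))^(4:ℕ)*(1 - t)^(7:ℕ) + (153220594048/3125)*(t - (1/2))^(5:ℕ)*(1 - t)^(6:ℕ) + (5227470833408/78125)*(t - (1/2))^(6:ℕ)*(1 - t)^(5:ℕ) + (1005837769728/15625)*(t - (1/2))^(7:ℕ)*(1 - t)^(4:ℕ) + (3358167307264/78125)*(t - (1/2))^(8:ℕ)*(1 - t)^(3:ℕ) + (1486930717696/78125)*(t - (1/2))^(9:ℕ)*(1 - t)^(2:ℕ) + (393813265408/78125)*(t - (1/2))^(10:ℕ)*(1 - t) + (47343051776/78125)*(t - (1/2))^(11:ℕ) := by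
    ring
  rw [e]
  have a3 : 0 ≤ t - (1/2) := by linarith
  have a4 : 0 ≤ 1 - t := by linarith
  generalize t - (1/2) = t1 at a3 ⊢
  generalize 1 - t = t2 at a4 ⊢
  positivity

lemma pos_L10_B3_id (d : ℝ) (C0 C1 C2 C3 C4 C5 C6 C7 : ℝ) :
    C0 + d*C1 + d^(2:ℕ)*C2 + d^(3:ℕ)*C3 + d^(4:ℕ)*C4 + d^(5:ℕ)*C5 + d^(6:ℕ)*C6 + d^(7:ℕ)*C7 = (4471/250) + (170859375*((2/5) - d)^(7:ℕ)*(1*C0 + (1/3)*C1 + (1/9)*C2 + (1/27)*C3 + (1/81)*C4 + (1/243)*C5 + (1/729)*C6 + (1/2187)*C7 - (4471/250)) + 1196015625*(d - (1/3))*((2/5) - d)^(6:ℕ)*(1*C0 + (12/35)*C1 + (37/315)*C2 + (38/945)*C3 + (13/945)*C4 + (8/1701)*C5 + (41/25515)*C6 + (2/3645)*C7 - (4471/250)) + 3588046875*(d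 - (1/3))^(2:ℕ)*((2/5) - d)^(5:ℕ)*(1*C0 + (37/105)*C1 + (586/4725)*C2 + (206/4725)*C3 + (31/2025)*C4 + (137/25515)*C5 + (16/8505)*C6 + (4/6075)*C7 - (4471/250)) + 5980078125*(d - (1/3))^(3:ℕ)*((2/5) - d)^(4:ℕ)*(1*C0 + (38/105)*C1 + (206/1575)*C2 + (5576/118125)*C3 + (6029/354375)*C4 + (62/10125)*C5 + (52/23625)*C6 + (8/10125)*C7 - (4471/250)) + 5980078125*(d - (1/3))^(4:ℕ)*((2/5) - d)^(3:ℕ)*(1*C0 + (13/35)*C1 + (31/225)*C2 + (6029/118125)*C3 + (11152/590625)*C4 + (824/118125)*C5 + (304/118125)*C6 + (16/16875)*C7 - (4471/250)) + 3588046875*(d - (1/3))^(5:ℕ)*((2/5) - d)^(2:ℕ)*(1*C0 + (8/21)*C1 + (137/945)*C2 + (62/1125)*C3 + (824/39375)*C4 + (4688/590625)*C5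 + (592/196875)*C6 + (32/28125)*C7 - (4471/250)) + 1196015625*(d - (1/3))^(6:ℕ)*((2/5) - d)*(1*C0 + (41/105)*C1 + (16/105)*C2 + (52/875)*C3 + (304/13125)*C4 + (592/65625)*C5 + (384/109375)*C6 + (64/46875)*C7 - (4471/250)) + 170859375*(d - (1/3))^(7:ℕ)*(1*C0 + (2/5)*C1 + (4/25)*C2 + (8/125)*C3 + (16/625)*C4 + (32/3125)*C5 + (64/15625)*C6 + (128/78125)*C7 - (4471/250))) := by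
  ring

lemma pos_L10_B3_gen (d1 d2 B0 B1 B2 B3 B4 B5 B6 B7 : ℝ) (a1 : 0 ≤ d1) (a2 : 0 ≤ d2) (b0 : 0 ≤ B0) (b1 : 0 ≤ B1) (b2 : 0 ≤ B2) (b3 : 0 ≤ B3) (b4 : 0 ≤ B4) (b5 : 0 ≤ B5) (b6 : 0 ≤ B6) (b7 : 0 ≤ B7) :
    0 < (4471/250) + (170859375*d2^(7:ℕ)*(B0) + 1196015625*d1*d2^(6:ℕ)*(B1) + 3588046875*d1^(2:ℕ)*d2^(5:ℕ)*(B2) + 5980078125*d1^(3:ℕ)*d2^(4:ℕ)*(B3) + 5980078125*d1^(4:ℕ)*d2^(3:ℕ)*(B4) + 3588046875*d1^(5:ℕ)*d2^(2:ℕ)*(B5) + 1196015625*d1^(6:ℕ)*d2*(B6) + 170859375*d1^(7:ℕ)*(B7)) := by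
  positivity

lemma pos_L10_B3_core (d C0 C1 C2 C3 C4 C5 C6 C7 : ℝ) (h1 : (1/3) ≤ d) (h2 : d ≤ (2/5))
    (b0 : 0 ≤ 1*C0 + (1/3)*C1 + (1/9)*C2 + (1/27)*C3 + (1/81)*C4 + (1/243)*C5 + (1/729)*C6 + (1/2187)*C7 - (4471/250))
    (b1 : 0 ≤ 1*C0 + (12/35)*C1 + (37/315)*C2 + (38/945)*C3 + (13/945)*C4 + (8/1701)*C5 + (41/25515)*C6 + (2/3645)*C7 - (4471/250))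
    (b2 : 0 ≤ 1*C0 + (37/105)*C1 + (586/4725)*C2 + (206/4725)*C3 + (31/2025)*C4 + (137/25515)*C5 + (16/8505)*C6 + (4/6075)*C7 - (4471/250))
    (b3 : 0 ≤ 1*C0 + (38/105)*C1 + (206/1575)*C2 + (5576/118125)*C3 + (6029/354375)*C4 + (62/10125)*C5 + (52/23625)*C6 + (8/10125)*C7 - (4471/250))
    (b4 : 0 ≤ 1*C0 + (13/35)*C1 + (31/225)*C2 + (6029/118125)*C3 + (11152/590625)*C4 + (824/118125)*C5 + (304/118125)*C6 + (16/16875)*C7 - (4471/250))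
    (b5 : 0 ≤ 1*C0 + (8/21)*C1 + (137/945)*C2 + (62/1125)*C3 + (824/39375)*C4 + (4688/590625)*C5 + (592/196875)*C6 + (32/28125)*C7 - (4471/250))
    (b6 : 0 ≤ 1*C0 + (41/105)*C1 + (16/105)*C2 + (52/875)*C3 + (304/13125)*C4 + (592/65625)*C5 + (384/109375)*C6 + (64/46875)*C7 - (4471/250))
    (b7 : 0 ≤ 1*C0 + (2/5)*C1 + (4/25)*C2 + (8/125)*C3 + (16/625)*C4 + (32/3125)*C5 + (64/15625)*C6 + (128/78125)*C7 - (4471/250)) :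
    0 < C0 + d*C1 + d^(2:ℕ)*C2 + d^(3:ℕ)*C3 + d^(4:ℕ)*C4 + d^(5:ℕ)*C5 + d^(6:ℕ)*C6 + d^(7:ℕ)*C7 := by
  rw [pos_L10_B3_id]
  exact pos_L10_B3_gen _ _ _ _ _ _ _ _ _ _ (sub_nonneg.2 h1) (sub_nonneg.2 h2) b0 b1 b2 b3 b4 b5 b6 b7

lemma pos_L10_B3 (d t : ℝ) (h1 : (1/3) ≤ d) (h2 : d ≤ (2/5)) (h3 : (1/2) ≤ t) (h4 : t ≤ 1) :
    0 < 2 + 2*t + 10*t^(2:ℕ) + 10*t^(3:ℕ) + 20*t^(4:ℕ) + 20*t^(5:ℕ) + 20*t^(6:ℕ) + 20*t^(7:ℕ) + 10*t^(8:ℕ) + 10*t^(9:ℕ) + 2*t^(10:ℕ) + 2*t^(11:ℕ) + 4*d + 4*d*t + 28*d*t^(2:ℕ) + 28*d*t^(3:ℕ) + 64*d*t^(4:ℕ) + 64*d*t^(5:ℕ) + 64*d*t^(6:ℕ) + 64*d*t^(7:ℕ) + 28*d*t^(8:ℕ) + 28*d*t^(9:ℕ) + 4*d*t^(10:ℕ) + 4*d*t^(11:ℕ) + 33*d^(2:ℕ)*t^(2:ℕ) + 35*d^(2:ℕ)*t^(3:ℕ)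 + 103*d^(2:ℕ)*t^(4:ℕ) + 60*d^(2:ℕ)*t^(5:ℕ) + 82*d^(2:ℕ)*t^(6:ℕ) + (-3)*d^(2:ℕ)*t^(7:ℕ) + 3*d^(2:ℕ)*t^(8:ℕ) + (-46)*d^(2:ℕ)*t^(9:ℕ) + (-9)*d^(2:ℕ)*t^(10:ℕ) + (-18)*d^(2:ℕ)*t^(11:ℕ) + 2*d^(3:ℕ)*t^(2:ℕ) + 19*d^(3:ℕ)*t^(3:ℕ) + 69*d^(3:ℕ)*t^(4:ℕ) + (-41)*d^(3:ℕ)*t^(5:ℕ) + 56*d^(3:ℕ)*t^(6:ℕ) + (-125)*d^(3:ℕ)*t^(7:ℕ) + (-3)*d^(3:ℕ)*t^(8:ℕ) + (-73)*d^(3:ℕ)*t^(9:ℕ) + 8*d^(3:ℕ)*t^(10:ℕ) + (-8)*d^(3:ℕ)*t^(11:ℕ) + 8*d^(4:ℕ)*t^(2:ℕ) + (-48)*d^(4:ℕ)*t^(3:ℕ) + 102*d^(4:ℕ)*t^(4:ℕ) + (-124)*d^(4:ℕ)*t^(5:ℕ) + 96*d^(4:ℕ)*t^(6:ℕ) + (-40)*d^(4:ℕ)*t^(7:ℕ) + (-26)*d^(4:ℕ)*t^(8:ℕ) + 44*d^(4:ℕ)*t^(9:ℕ) + (-28)*d^(4:ℕ)*t^(10:ℕ) + 8*d^(4:ℕ)*t^(11:ℕ) + (15/4)*d^(5:ℕ)*t^(4:ℕ)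 + (-35/2)*d^(5:ℕ)*t^(5:ℕ) + (101/4)*d^(5:ℕ)*t^(6:ℕ) + (-35/2)*d^(5:ℕ)*t^(7:ℕ) + (15/4)*d^(5:ℕ)*t^(8:ℕ) + 32*d^(5:ℕ)*t^(9:ℕ) + (-48)*d^(5:ℕ)*t^(10:ℕ) + 32*d^(5:ℕ)*t^(11:ℕ) + (-14)*d^(6:ℕ)*t^(4:ℕ) + 43*d^(6:ℕ)*t^(5:ℕ) + (-61)*d^(6:ℕ)*t^(6:ℕ) + 43*d^(6:ℕ)*t^(7:ℕ) + (-14)*d^(6:ℕ)*t^(8:ℕ) + (-4)*d^(7:ℕ)*t^(4:ℕ) + 12*d^(7:ℕ)*t^(5:ℕ) + (-17)*d^(7:ℕ)*t^(6:ℕ) + 12*d^(7:ℕ)*t^(7:ℕ) + (-4)*d^(7:ℕ)*t^(8:ℕ) := by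
  have e0 : 2 + 2*t + 10*t^(2:ℕ) + 10*t^(3:ℕ) + 20*t^(4:ℕ) + 20*t^(5:ℕ) + 20*t^(6:ℕ) + 20*t^(7:ℕ) + 10*t^(8:ℕ) + 10*t^(9:ℕ) + 2*t^(10:ℕ) + 2*t^(11:ℕ) + 4*d + 4*d*t + 28*d*t^(2:ℕ) + 28*d*t^(3:ℕ) + 64*d*t^(4:ℕ) + 64*d*t^(5:ℕ) + 64*d*t^(6:ℕ) + 64*d*t^(7:ℕ) + 28*d*t^(8:ℕ) + 28*d*t^(9:ℕ) + 4*d*t^(10:ℕ) + 4*d*t^(11:ℕ) + 33*d^(2:ℕ)*t^(2:ℕ) + 35*d^(2:ℕ)*t^(3:ℕ) + 103*d^(2:ℕ)*t^(4:ℕ) + 60*d^(2:ℕ)*t^(5:ℕ) + 82*d^(2:ℕ)*t^(6:ℕ) + (-3)*d^(2:ℕ)*t^(7:ℕ) + 3*d^(2:ℕ)*t^(8:ℕ) + (-46)*d^(2:ℕ)*t^(9:ℕ) + (-9)*d^(2:ℕ)*t^(10:ℕ) + (-18)*d^(2:ℕ)*t^(11:ℕ) + 2*d^(3:ℕ)*t^(2:ℕ) + 19*d^(3:ℕ)*t^(3:ℕ) + 69*d^(3:ℕ)*t^(4:ℕ) + (-41)*d^(3:ℕ)*t^(5:ℕ) + 56*d^(3:ℕ)*t^(6:ℕ) + (-125)*d^(3:ℕ)*t^(7:ℕ)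 + (-3)*d^(3:ℕ)*t^(8:ℕ) + (-73)*d^(3:ℕ)*t^(9:ℕ) + 8*d^(3:ℕ)*t^(10:ℕ) + (-8)*d^(3:ℕ)*t^(11:ℕ) + 8*d^(4:ℕ)*t^(2:ℕ) + (-48)*d^(4:ℕ)*t^(3:ℕ) + 102*d^(4:ℕ)*t^(4:ℕ) + (-124)*d^(4:ℕ)*t^(5:ℕ) + 96*d^(4:ℕ)*t^(6:ℕ) + (-40)*d^(4:ℕ)*t^(7:ℕ) + (-26)*d^(4:ℕ)*t^(8:ℕ) + 44*d^(4:ℕ)*t^(9:ℕ) + (-28)*d^(4:ℕ)*t^(10:ℕ) + 8*d^(4:ℕ)*t^(11:ℕ) + (15/4)*d^(5:ℕ)*t^(4:ℕ) + (-35/2)*d^(5:ℕ)*t^(5:ℕ) + (101/4)*d^(5:ℕ)*t^(6:ℕ) + (-35/2)*d^(5:ℕ)*t^(7:ℕ) + (15/4)*d^(5:ℕ)*t^(8:ℕ) + 32*d^(5:ℕ)*t^(9:ℕ) + (-48)*d^(5:ℕ)*t^(10:ℕ) + 32*d^(5:ℕ)*t^(11:ℕ) + (-14)*d^(6:ℕ)*t^(4:ℕ) + 43*d^(6:ℕ)*t^(5:ℕ) + (-61)*d^(6:ℕ)*t^(6:ℕ) + 43*d^(6:ℕ)*t^(7:ℕ) + (-14)*d^(6:ℕ)*t^(8:ℕ) + (-4)*d^(7:ℕ)*t^(4:ℕ) + 12*d^(7:ℕ)*t^(5:ℕ)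 + (-17)*d^(7:ℕ)*t^(6:ℕ) + 12*d^(7:ℕ)*t^(7:ℕ) + (-4)*d^(7:ℕ)*t^(8:ℕ) = (2 + 2*t + 10*t^(2:ℕ) + 10*t^(3:ℕ) + 20*t^(4:ℕ) + 20*t^(5:ℕ) + 20*t^(6:ℕ) + 20*t^(7:ℕ) + 10*t^(8:ℕ) + 10*t^(9:ℕ) + 2*t^(10:ℕ) + 2*t^(11:ℕ)) + d*(4 + 4*t + 28*t^(2:ℕ) + 28*t^(3:ℕ) + 64*t^(4:ℕ) + 64*t^(5:ℕ) + 64*t^(6:ℕ) + 64*t^(7:ℕ) + 28*t^(8:ℕ) + 28*t^(9:ℕ) + 4*t^(10:ℕ) + 4*t^(11:ℕ)) + d^(2:ℕ)*(33*t^(2:ℕ) + 35*t^(3:ℕ) + 103*t^(4:ℕ) + 60*t^(5:ℕ) + 82*t^(6:ℕ) + (-3)*t^(7:ℕ) + 3*t^(8:ℕ) + (-46)*t^(9:ℕ) + (-9)*t^(10:ℕ) + (-18)*t^(11:ℕ)) + d^(3:ℕ)*(2*t^(2:ℕ) + 19*t^(3:ℕ) + 69*t^(4:ℕ) + (-41)*t^(5:ℕ) + 56*t^(6:ℕ) + (-125)*t^(7:ℕ) + (-3)*t^(8:ℕ) + (-73)*t^(9:ℕ) + 8*t^(10:ℕ) + (-8)*t^(11:ℕ))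 + d^(4:ℕ)*(8*t^(2:ℕ) + (-48)*t^(3:ℕ) + 102*t^(4:ℕ) + (-124)*t^(5:ℕ) + 96*t^(6:ℕ) + (-40)*t^(7:ℕ) + (-26)*t^(8:ℕ) + 44*t^(9:ℕ) + (-28)*t^(10:ℕ) + 8*t^(11:ℕ)) + d^(5:ℕ)*((15/4)*t^(4:ℕ) + (-35/2)*t^(5:ℕ) + (101/4)*t^(6:ℕ) + (-35/2)*t^(7:ℕ) + (15/4)*t^(8:ℕ) + 32*t^(9:ℕ) + (-48)*t^(10:ℕ) + 32*t^(11:ℕ)) + d^(6:ℕ)*((-14)*t^(4:ℕ) + 43*t^(5:ℕ) + (-61)*t^(6:ℕ) + 43*t^(7:ℕ) + (-14)*t^(8:ℕ)) + d^(7:ℕ)*((-4)*t^(4:ℕ) + 12*t^(5:ℕ) + (-17)*t^(6:ℕ) + 12*t^(7:ℕ) + (-4)*t^(8:ℕ)) := by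
    ring
  rw [e0]
  exact pos_L10_B3_core d _ _ _ _ _ _ _ _ h1 h2 (pos_L10_B3_b0 t h3 h4) (pos_L10_B3_b1 t h3 h4) (pos_L10_B3_b2 t h3 h4) (pos_L10_B3_b3 t h3 h4) (pos_L10_B3_b4 t h3 h4) (pos_L10_B3_b5 t h3 h4) (pos_L10_B3_b6 t h3 h4) (pos_L10_B3_b7 t h3 h4)

lemma pos_L20_B3_b0 (t : ℝ) (h3 : (1/2) ≤ t) (h4 : t ≤ 1) :
    0 ≤ 1*(2 + 2*t + 10*t^(2:ℕ) + 10*t^(3:ℕ) + 20*t^(4:ℕ) + 20*t^(5:ℕ) + 20*t^(6:ℕ) + 20*t^(7:ℕ) + 10*t^(8:ℕ) + 10*t^(9:ℕ) + 2*t^(10:ℕ) + 2*t^(11:ℕ)) + (1/3)*(4 + 3*t + (59/2)*t^(2:ℕ) + 23*t^(3:ℕ) + 70*t^(4:ℕ) + 54*t^(5:ℕ) + 73*t^(6:ℕ) + 54*t^(7:ℕ) + 34*t^(8:ℕ) + 23*t^(9:ℕ) + (11/2)*t^(10:ℕ) + 3*t^(11:ℕ)) + (1/9)*((-16) + (-16)*t + (-32)*t^(2:ℕ)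 + (-28)*t^(3:ℕ) + 36*t^(4:ℕ) + 25*t^(5:ℕ) + 113*t^(6:ℕ) + 48*t^(7:ℕ) + 70*t^(8:ℕ) + 5*t^(9:ℕ) + 9*t^(10:ℕ) + (-6)*t^(11:ℕ)) + (1/27)*((-41)*t^(2:ℕ) + (-48)*t^(3:ℕ) + (-55)*t^(4:ℕ) + (-31)*t^(5:ℕ) + 51*t^(6:ℕ) + (-14)*t^(7:ℕ) + 81*t^(8:ℕ) + (-43)*t^(9:ℕ) + 16*t^(10:ℕ) + (-12)*t^(11:ℕ)) + (1/81)*(32*t^(2:ℕ) + (-16)*t^(3:ℕ) + 4*t^(4:ℕ) + 22*t^(5:ℕ) + (-24)*t^(6:ℕ) + 28*t^(7:ℕ) + 12*t^(8:ℕ) + (-18)*t^(9:ℕ) + 8*t^(10:ℕ) + (-8)*t^(11:ℕ)) + (1/243)*((-32)*t^(2:ℕ) + (167/4)*t^(3:ℕ) + (-12)*t^(4:ℕ) + (-79/2)*t^(5:ℕ) + (121/2)*t^(6:ℕ) + (-261/4)*t^(7:ℕ) + (87/2)*t^(8:ℕ) + (-61/4)*t^(9:ℕ) + 3*t^(10:ℕ) + (-1)*t^(11:ℕ)) + (1/729)*(10*t^(5:ℕ) + (-31)*t^(6:ℕ) + 40*t^(7:ℕ)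 + (-19)*t^(8:ℕ) + (-7)*t^(9:ℕ) + 12*t^(10:ℕ) + (-4)*t^(11:ℕ)) + (1/2187)*((-4)*t^(7:ℕ) + 12*t^(8:ℕ) + (-17)*t^(9:ℕ) + 12*t^(10:ℕ) + (-4)*t^(11:ℕ)) - (11377/1000) := by
  have e : 1*(2 + 2*t + 10*t^(2:ℕ) + 10*t^(3:ℕ) + 20*t^(4:ℕ) + 20*t^(5:ℕ) + 20*t^(6:ℕ) + 20*t^(7:ℕ) + 10*t^(8:ℕ) + 10*t^(9:ℕ) + 2*t^(10:ℕ) + 2*t^(11:ℕ)) + (1/3)*(4 + 3*t + (59/2)*t^(2:ℕ) + 23*t^(3:ℕ) + 70*t^(4:ℕ) + 54*t^(5:ℕ) + 73*t^(6:ℕ) + 54*t^(7:ℕ) + 34*t^(8:ℕ) + 23*t^(9:ℕ) + (11/2)*t^(10:ℕ) + 3*t^(11:ℕ)) + (1/9)*((-16) + (-16)*t + (-32)*t^(2:ℕ) + (-28)*t^(3:ℕ) + 36*t^(4:ℕ) + 25*t^(5:ℕ) + 113*t^(6:ℕ) + 48*t^(7:ℕ) + 70*t^(8:ℕ) + 5*t^(9:ℕ) + 9*t^(10:ℕ) + (-6)*t^(11:ℕ)) + (1/27)*((-41)*t^(2:ℕ)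 + (-48)*t^(3:ℕ) + (-55)*t^(4:ℕ) + (-31)*t^(5:ℕ) + 51*t^(6:ℕ) + (-14)*t^(7:ℕ) + 81*t^(8:ℕ) + (-43)*t^(9:ℕ) + 16*t^(10:ℕ) + (-12)*t^(11:ℕ)) + (1/81)*(32*t^(2:ℕ) + (-16)*t^(3:ℕ) + 4*t^(4:ℕ) + 22*t^(5:ℕ) + (-24)*t^(6:ℕ) + 28*t^(7:ℕ) + 12*t^(8:ℕ) + (-18)*t^(9:ℕ) + 8*t^(10:ℕ) + (-8)*t^(11:ℕ)) + (1/243)*((-32)*t^(2:ℕ) + (167/4)*t^(3:ℕ) + (-12)*t^(4:ℕ) + (-79/2)*t^(5:ℕ) + (121/2)*t^(6:ℕ) + (-261/4)*t^(7:ℕ) + (87/2)*t^(8:ℕ) + (-61/4)*t^(9:ℕ) + 3*t^(10:ℕ) + (-1)*t^(11:ℕ)) + (1/729)*(10*t^(5:ℕ) + (-31)*t^(6:ℕ) + 40*t^(7:ℕ) + (-19)*t^(8:ℕ) + (-7)*t^(9:ℕ) + 12*t^(10:ℕ) + (-4)*t^(11:ℕ)) + (1/2187)*((-4)*t^(7:ℕ) + 12*t^(8:ℕ) + (-17)*t^(9:ℕ) + 12*t^(10:ℕ) + (-4)*t^(11:ℕ))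 - (11377/1000) = (912556756/273375)*(1 - t)^(11:ℕ) + (32239446191/273375)*(t - (1/2))*(1 - t)^(10:ℕ) + (61577212591/54675)*(t - (1/2))^(2:ℕ)*(1 - t)^(9:ℕ) + (301543267798/54675)*(t - (1/2))^(3:ℕ)*(1 - t)^(8:ℕ) + (304851428932/18225)*(t - (1/2))^(4:ℕ)*(1 - t)^(7:ℕ) + (9322020365272/273375)*(t - (1/2))^(5:ℕ)*(1 - t)^(6:ℕ) + (13251308412272/273375)*(t - (1/2))^(6:ℕ)*(1 - t)^(5:ℕ) + (294655998944/6075)*(t - (1/2))^(7:ℕ)*(1 - t)^(4:ℕ) + (1841339752448/54675)*(t - (1/2))^(8:ℕ)*(1 - t)^(3:ℕ) + (848257327616/54675)*(t - (1/2))^(9:ℕ)*(1 - t)^(2:ℕ) + (1169857762816/273375)*(t - (1/2))^(10:ℕ)*(1 - t) + (146652736256/273375)*(t - (1/2))^(11:ℕ) := by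
    ring
  rw [e]
  have a3 : 0 ≤ t - (1/2) := by linarith
  have a4 : 0 ≤ 1 - t := by linarith
  generalize t - (1/2) = t1 at a3 ⊢
  generalize 1 - t = t2 at a4 ⊢
  positivity

lemma pos_L20_B3_b1 (t : ℝ) (h3 : (1/2) ≤ t) (h4 : t ≤ 1) :
    0 ≤ 1*(2 + 2*t + 10*t^(2:ℕ) + 10*t^(3:ℕ) + 20*t^(4:ℕ) + 20*t^(5:ℕ) + 20*t^(6:ℕ) + 20*t^(7:ℕ) + 10*t^(8:ℕ) + 10*t^(9:ℕ) + 2*t^(10:ℕ) + 2*t^(11:ℕ)) + (12/35)*(4 + 3*t + (59/2)*t^(2:ℕ) + 23*t^(3:ℕ) + 70*t^(4:ℕ) + 54*t^(5:ℕ) + 73*t^(6:ℕ) + 54*t^(7:ℕ) + 34*t^(8:ℕ) + 23*t^(9:ℕ) + (11/2)*t^(10:ℕ) + 3*t^(11:ℕ)) + (37/315)*((-16) + (-16)*t + (-32)*t^(2:ℕ) + (-28)*t^(3:ℕ) + 36*t^(4:ℕ) + 25*t^(5:ℕ) + 113*t^(6:ℕ) + 48*t^(7:ℕ)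 + 70*t^(8:ℕ) + 5*t^(9:ℕ) + 9*t^(10:ℕ) + (-6)*t^(11:ℕ)) + (38/945)*((-41)*t^(2:ℕ) + (-48)*t^(3:ℕ) + (-55)*t^(4:ℕ) + (-31)*t^(5:ℕ) + 51*t^(6:ℕ) + (-14)*t^(7:ℕ) + 81*t^(8:ℕ) + (-43)*t^(9:ℕ) + 16*t^(10:ℕ) + (-12)*t^(11:ℕ)) + (13/945)*(32*t^(2:ℕ) + (-16)*t^(3:ℕ) + 4*t^(4:ℕ) + 22*t^(5:ℕ) + (-24)*t^(6:ℕ) + 28*t^(7:ℕ) + 12*t^(8:ℕ) + (-18)*t^(9:ℕ) + 8*t^(10:ℕ) + (-8)*t^(11:ℕ)) + (8/1701)*((-32)*t^(2:ℕ) + (167/4)*t^(3:ℕ) + (-12)*t^(4:ℕ) + (-79/2)*t^(5:ℕ) + (121/2)*t^(6:ℕ) + (-261/4)*t^(7:ℕ) + (87/2)*t^(8:ℕ) + (-61/4)*t^(9:ℕ) + 3*t^(10:ℕ) + (-1)*t^(11:ℕ)) + (41/25515)*(10*t^(5:ℕ) + (-31)*t^(6:ℕ) + 40*t^(7:ℕ) + (-19)*t^(8:ℕ) + (-7)*t^(9:ℕ) + 12*t^(10:ℕ) + (-4)*t^(11:ℕ))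 + (2/3645)*((-4)*t^(7:ℕ) + 12*t^(8:ℕ) + (-17)*t^(9:ℕ) + 12*t^(10:ℕ) + (-4)*t^(11:ℕ)) - (11377/1000) := by
  have e : 1*(2 + 2*t + 10*t^(2:ℕ) + 10*t^(3:ℕ) + 20*t^(4:ℕ) + 20*t^(5:ℕ) + 20*t^(6:ℕ) + 20*t^(7:ℕ) + 10*t^(8:ℕ) + 10*t^(9:ℕ) + 2*t^(10:ℕ) + 2*t^(11:ℕ)) + (12/35)*(4 + 3*t + (59/2)*t^(2:ℕ) + 23*t^(3:ℕ) + 70*t^(4:ℕ) + 54*t^(5:ℕ) + 73*t^(6:ℕ) + 54*t^(7:ℕ) + 34*t^(8:ℕ) + 23*t^(9:ℕ) + (11/2)*t^(10:ℕ) + 3*t^(11:ℕ)) + (37/315)*((-16) + (-16)*t + (-32)*t^(2:ℕ) + (-28)*t^(3:ℕ) + 36*t^(4:ℕ) + 25*t^(5:ℕ) + 113*t^(6:ℕ) + 48*t^(7:ℕ) + 70*t^(8:ℕ) + 5*t^(9:ℕ) + 9*t^(10:ℕ) + (-6)*t^(11:ℕ)) + (38/945)*((-41)*t^(2:ℕ) + (-48)*t^(3:ℕ) + (-55)*t^(4:ℕ) + (-31)*t^(5:ℕ)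 + 51*t^(6:ℕ) + (-14)*t^(7:ℕ) + 81*t^(8:ℕ) + (-43)*t^(9:ℕ) + 16*t^(10:ℕ) + (-12)*t^(11:ℕ)) + (13/945)*(32*t^(2:ℕ) + (-16)*t^(3:ℕ) + 4*t^(4:ℕ) + 22*t^(5:ℕ) + (-24)*t^(6:ℕ) + 28*t^(7:ℕ) + 12*t^(8:ℕ) + (-18)*t^(9:ℕ) + 8*t^(10:ℕ) + (-8)*t^(11:ℕ)) + (8/1701)*((-32)*t^(2:ℕ) + (167/4)*t^(3:ℕ) + (-12)*t^(4:ℕ) + (-79/2)*t^(5:ℕ) + (121/2)*t^(6:ℕ) + (-261/4)*t^(7:ℕ) + (87/2)*t^(8:ℕ) + (-61/4)*t^(9:ℕ) + 3*t^(10:ℕ) + (-1)*t^(11:ℕ)) + (41/25515)*(10*t^(5:ℕ) + (-31)*t^(6:ℕ) + 40*t^(7:ℕ) + (-19)*t^(8:ℕ) + (-7)*t^(9:ℕ) + 12*t^(10:ℕ) + (-4)*t^(11:ℕ)) + (2/3645)*((-4)*t^(7:ℕ) + 12*t^(8:ℕ) + (-17)*t^(9:ℕ) + 12*t^(10:ℕ) + (-4)*t^(11:ℕ)) - (11377/1000) = (2100782114/637875)*(1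 - t)^(11:ℕ) + (75443056354/637875)*(t - (1/2))*(1 - t)^(10:ℕ) + (144698192104/127575)*(t - (1/2))^(2:ℕ)*(1 - t)^(9:ℕ) + (710206637792/127575)*(t - (1/2))^(3:ℕ)*(1 - t)^(8:ℕ) + (308219793952/18225)*(t - (1/2))^(4:ℕ)*(1 - t)^(7:ℕ) + (22021271623168/637875)*(t - (1/2))^(5:ℕ)*(1 - t)^(6:ℕ) + (10446621547456/212625)*(t - (1/2))^(6:ℕ)*(1 - t)^(5:ℕ) + (6278362050944/127575)*(t - (1/2))^(7:ℕ)*(1 - t)^(4:ℕ) + (1454466183424/42525)*(t - (1/2))^(8:ℕ)*(1 - t)^(3:ℕ) + (95797746944/6075)*(t - (1/2))^(9:ℕ)*(1 - t)^(2:ℕ) + (2776434831104/637875)*(t - (1/2))^(10:ℕ)*(1 - t) + (116085433088/212625)*(t - (1/2))^(11:ℕ) := by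
    ring
  rw [e]
  have a3 : 0 ≤ t - (1/2) := by linarith
  have a4 : 0 ≤ 1 - t := by linarith
  generalize t - (1/2) = t1 at a3 ⊢
  generalize 1 - t = t2 at a4 ⊢
  positivity

lemma pos_L20_B3_b2 (t : ℝ) (h3 : (1/2) ≤ t) (h4 : t ≤ 1) :
    0 ≤ 1*(2 + 2*t + 10*t^(2:ℕ) + 10*t^(3:ℕ) + 20*t^(4:ℕ) + 20*t^(5:ℕ) + 20*t^(6:ℕ) + 20*t^(7:ℕ) + 10*t^(8:ℕ) + 10*t^(9:ℕ) + 2*t^(10:ℕ) + 2*t^(11:ℕ)) + (37/105)*(4 + 3*t + (59/2)*t^(2:ℕ) + 23*t^(3:ℕ) + 70*t^(4:ℕ) + 54*t^(5:ℕ) + 73*t^(6:ℕ) + 54*t^(7:ℕ) + 34*t^(8:ℕ) + 23*t^(9:ℕ) + (11/2)*t^(10:ℕ) + 3*t^(11:ℕ)) + (586/4725)*((-16) + (-16)*t + (-32)*t^(2:ℕ) + (-28)*t^(3:ℕ) + 36*t^(4:ℕ) + 25*t^(5:ℕ) + 113*t^(6:ℕ) + 48*t^(7:ℕ)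 + 70*t^(8:ℕ) + 5*t^(9:ℕ) + 9*t^(10:ℕ) + (-6)*t^(11:ℕ)) + (206/4725)*((-41)*t^(2:ℕ) + (-48)*t^(3:ℕ) + (-55)*t^(4:ℕ) + (-31)*t^(5:ℕ) + 51*t^(6:ℕ) + (-14)*t^(7:ℕ) + 81*t^(8:ℕ) + (-43)*t^(9:ℕ) + 16*t^(10:ℕ) + (-12)*t^(11:ℕ)) + (31/2025)*(32*t^(2:ℕ) + (-16)*t^(3:ℕ) + 4*t^(4:ℕ) + 22*t^(5:ℕ) + (-24)*t^(6:ℕ) + 28*t^(7:ℕ) + 12*t^(8:ℕ) + (-18)*t^(9:ℕ) + 8*t^(10:ℕ) + (-8)*t^(11:ℕ)) + (137/25515)*((-32)*t^(2:ℕ) + (167/4)*t^(3:ℕ) + (-12)*t^(4:ℕ) + (-79/2)*t^(5:ℕ) + (121/2)*t^(6:ℕ) + (-261/4)*t^(7:ℕ) + (87/2)*t^(8:ℕ) + (-61/4)*t^(9:ℕ) + 3*t^(10:ℕ) + (-1)*t^(11:ℕ)) + (16/8505)*(10*t^(5:ℕ) + (-31)*t^(6:ℕ) + 40*t^(7:ℕ) + (-19)*t^(8:ℕ) + (-7)*t^(9:ℕ) + 12*t^(10:ℕ) +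 (-4)*t^(11:ℕ)) + (4/6075)*((-4)*t^(7:ℕ) + 12*t^(8:ℕ) + (-17)*t^(9:ℕ) + 12*t^(10:ℕ) + (-4)*t^(11:ℕ)) - (11377/1000) := by
  have e : 1*(2 + 2*t + 10*t^(2:ℕ) + 10*t^(3:ℕ) + 20*t^(4:ℕ) + 20*t^(5:ℕ) + 20*t^(6:ℕ) + 20*t^(7:ℕ) + 10*t^(8:ℕ) + 10*t^(9:ℕ) + 2*t^(10:ℕ) + 2*t^(11:ℕ)) + (37/105)*(4 + 3*t + (59/2)*t^(2:ℕ) + 23*t^(3:ℕ) + 70*t^(4:ℕ) + 54*t^(5:ℕ) + 73*t^(6:ℕ) + 54*t^(7:ℕ) + 34*t^(8:ℕ) + 23*t^(9:ℕ) + (11/2)*t^(10:ℕ) + 3*t^(11:ℕ)) + (586/4725)*((-16) + (-16)*t + (-32)*t^(2:ℕ) + (-28)*t^(3:ℕ) + 36*t^(4:ℕ) + 25*t^(5:ℕ) + 113*t^(6:ℕ) + 48*t^(7:ℕ) + 70*t^(8:ℕ) + 5*t^(9:ℕ) + 9*t^(10:ℕ) + (-6)*t^(11:ℕ)) + (206/4725)*((-41)*t^(2:ℕ) + (-48)*t^(3:ℕ) + (-55)*t^(4:ℕ)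 + (-31)*t^(5:ℕ) + 51*t^(6:ℕ) + (-14)*t^(7:ℕ) + 81*t^(8:ℕ) + (-43)*t^(9:ℕ) + 16*t^(10:ℕ) + (-12)*t^(11:ℕ)) + (31/2025)*(32*t^(2:ℕ) + (-16)*t^(3:ℕ) + 4*t^(4:ℕ) + 22*t^(5:ℕ) + (-24)*t^(6:ℕ) + 28*t^(7:ℕ) + 12*t^(8:ℕ) + (-18)*t^(9:ℕ) + 8*t^(10:ℕ) + (-8)*t^(11:ℕ)) + (137/25515)*((-32)*t^(2:ℕ) + (167/4)*t^(3:ℕ) + (-12)*t^(4:ℕ) + (-79/2)*t^(5:ℕ) + (121/2)*t^(6:ℕ) + (-261/4)*t^(7:ℕ) + (87/2)*t^(8:ℕ) + (-61/4)*t^(9:ℕ) + 3*t^(10:ℕ) + (-1)*t^(11:ℕ)) + (16/8505)*(10*t^(5:ℕ) + (-31)*t^(6:ℕ) + 40*t^(7:ℕ) + (-19)*t^(8:ℕ) + (-7)*t^(9:ℕ) + 12*t^(10:ℕ) + (-4)*t^(11:ℕ)) + (4/6075)*((-4)*t^(7:ℕ) + 12*t^(8:ℕ) + (-17)*t^(9:ℕ) + 12*t^(10:ℕ) + (-4)*t^(11:ℕ)) - (11377/1000)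 = (2059332944/637875)*(1 - t)^(11:ℕ) + (25168188593/212625)*(t - (1/2))*(1 - t)^(10:ℕ) + (20792370757/18225)*(t - (1/2))^(2:ℕ)*(1 - t)^(9:ℕ) + (28650747086/5103)*(t - (1/2))^(3:ℕ)*(1 - t)^(8:ℕ) + (726661490356/42525)*(t - (1/2))^(4:ℕ)*(1 - t)^(7:ℕ) + (22283221242328/637875)*(t - (1/2))^(5:ℕ)*(1 - t)^(6:ℕ) + (31752558810928/637875)*(t - (1/2))^(6:ℕ)*(1 - t)^(5:ℕ) + (6368065999712/127575)*(t - (1/2))^(7:ℕ)*(1 - t)^(4:ℕ) + (4430072049152/127575)*(t - (1/2))^(8:ℕ)*(1 - t)^(3:ℕ) + (2044249078784/127575)*(t - (1/2))^(9:ℕ)*(1 - t)^(2:ℕ) + (2823369393664/637875)*(t - (1/2))^(10:ℕ)*(1 - t) + (354359582464/637875)*(t - (1/2))^(11:ℕ) := by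
    ring
  rw [e]
  have a3 : 0 ≤ t - (1/2) := by linarith
  have a4 : 0 ≤ 1 - t := by linarith
  generalize t - (1/2) = t1 at a3 ⊢
  generalize 1 - t = t2 at a4 ⊢
  positivity

lemma pos_L20_B3_b3 (t : ℝ) (h3 : (1/2) ≤ t) (h4 : t ≤ 1) :
    0 ≤ 1*(2 + 2*t + 10*t^(2:ℕ) + 10*t^(3:ℕ) + 20*t^(4:ℕ) + 20*t^(5:ℕ) + 20*t^(6:ℕ) + 20*t^(7:ℕ) + 10*t^(8:ℕ) + 10*t^(9:ℕ) + 2*t^(10:ℕ) + 2*t^(11:ℕ)) + (38/105)*(4 + 3*t + (59/2)*t^(2:ℕ) + 23*t^(3:ℕ) + 70*t^(4:ℕ) + 54*t^(5:ℕ) + 73*t^(6:ℕ) + 54*t^(7:ℕ) + 34*t^(8:ℕ) + 23*t^(9:ℕ) + (11/2)*t^(10:ℕ) + 3*t^(11:ℕ)) + (206/1575)*((-16) + (-16)*t + (-32)*t^(2:ℕ) + (-28)*t^(3:ℕ) + 36*t^(4:ℕ) + 25*t^(5:ℕ) + 113*t^(6:ℕ) + 48*t^(7:ℕ)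 + 70*t^(8:ℕ) + 5*t^(9:ℕ) + 9*t^(10:ℕ) + (-6)*t^(11:ℕ)) + (5576/118125)*((-41)*t^(2:ℕ) + (-48)*t^(3:ℕ) + (-55)*t^(4:ℕ) + (-31)*t^(5:ℕ) + 51*t^(6:ℕ) + (-14)*t^(7:ℕ) + 81*t^(8:ℕ) + (-43)*t^(9:ℕ) + 16*t^(10:ℕ) + (-12)*t^(11:ℕ)) + (6029/354375)*(32*t^(2:ℕ) + (-16)*t^(3:ℕ) + 4*t^(4:ℕ) + 22*t^(5:ℕ) + (-24)*t^(6:ℕ) + 28*t^(7:ℕ) + 12*t^(8:ℕ) + (-18)*t^(9:ℕ) + 8*t^(10:ℕ) + (-8)*t^(11:ℕ)) + (62/10125)*((-32)*t^(2:ℕ) + (167/4)*t^(3:ℕ) + (-12)*t^(4:ℕ) + (-79/2)*t^(5:ℕ) + (121/2)*t^(6:ℕ) + (-261/4)*t^(7:ℕ) + (87/2)*t^(8:ℕ) + (-61/4)*t^(9:ℕ) + 3*t^(10:ℕ) + (-1)*t^(11:ℕ)) + (52/23625)*(10*t^(5:ℕ) + (-31)*t^(6:ℕ) + 40*t^(7:ℕ) + (-19)*t^(8:ℕ) + (-7)*t^(9:ℕ) + 12*t^(10:ℕ)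 + (-4)*t^(11:ℕ)) + (8/10125)*((-4)*t^(7:ℕ) + 12*t^(8:ℕ) + (-17)*t^(9:ℕ) + 12*t^(10:ℕ) + (-4)*t^(11:ℕ)) - (11377/1000) := by
  have e : 1*(2 + 2*t + 10*t^(2:ℕ) + 10*t^(3:ℕ) + 20*t^(4:ℕ) + 20*t^(5:ℕ) + 20*t^(6:ℕ) + 20*t^(7:ℕ) + 10*t^(8:ℕ) + 10*t^(9:ℕ) + 2*t^(10:ℕ) + 2*t^(11:ℕ)) + (38/105)*(4 + 3*t + (59/2)*t^(2:ℕ) + 23*t^(3:ℕ) + 70*t^(4:ℕ) + 54*t^(5:ℕ) + 73*t^(6:ℕ) + 54*t^(7:ℕ) + 34*t^(8:ℕ) + 23*t^(9:ℕ) + (11/2)*t^(10:ℕ) + 3*t^(11:ℕ)) + (206/1575)*((-16) + (-16)*t + (-32)*t^(2:ℕ) + (-28)*t^(3:ℕ) + 36*t^(4:ℕ) + 25*t^(5:ℕ) + 113*t^(6:ℕ) + 48*t^(7:ℕ) + 70*t^(8:ℕ) + 5*t^(9:ℕ) + 9*t^(10:ℕ) + (-6)*t^(11:ℕ)) + (5576/118125)*((-41)*t^(2:ℕ) + (-48)*t^(3:ℕ) +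 (-55)*t^(4:ℕ) + (-31)*t^(5:ℕ) + 51*t^(6:ℕ) + (-14)*t^(7:ℕ) + 81*t^(8:ℕ) + (-43)*t^(9:ℕ) + 16*t^(10:ℕ) + (-12)*t^(11:ℕ)) + (6029/354375)*(32*t^(2:ℕ) + (-16)*t^(3:ℕ) + 4*t^(4:ℕ) + 22*t^(5:ℕ) + (-24)*t^(6:ℕ) + 28*t^(7:ℕ) + 12*t^(8:ℕ) + (-18)*t^(9:ℕ) + 8*t^(10:ℕ) + (-8)*t^(11:ℕ)) + (62/10125)*((-32)*t^(2:ℕ) + (167/4)*t^(3:ℕ) + (-12)*t^(4:ℕ) + (-79/2)*t^(5:ℕ) + (121/2)*t^(6:ℕ) + (-261/4)*t^(7:ℕ) + (87/2)*t^(8:ℕ) + (-61/4)*t^(9:ℕ) + 3*t^(10:ℕ) + (-1)*t^(11:ℕ)) + (52/23625)*(10*t^(5:ℕ) + (-31)*t^(6:ℕ) + 40*t^(7:ℕ) + (-19)*t^(8:ℕ) + (-7)*t^(9:ℕ) + 12*t^(10:ℕ) + (-4)*t^(11:ℕ)) + (8/10125)*((-4)*t^(7:ℕ) + 12*t^(8:ℕ) + (-17)*t^(9:ℕ) + 12*t^(10:ℕ) + (-4)*t^(11:ℕ))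 - (11377/1000) = (14850242/4725)*(1 - t)^(11:ℕ) + (13964371514/118125)*(t - (1/2))*(1 - t)^(10:ℕ) + (406173796054/354375)*(t - (1/2))^(2:ℕ)*(1 - t)^(9:ℕ) + (2004935889212/354375)*(t - (1/2))^(3:ℕ)*(1 - t)^(8:ℕ) + (6114648801976/354375)*(t - (1/2))^(4:ℕ)*(1 - t)^(7:ℕ) + (12520573024304/354375)*(t - (1/2))^(5:ℕ)*(1 - t)^(6:ℕ) + (220559492576/4375)*(t - (1/2))^(6:ℕ)*(1 - t)^(5:ℕ) + (17935697573824/354375)*(t - (1/2))^(7:ℕ)*(1 - t)^(4:ℕ) + (12490166051584/354375)*(t - (1/2))^(8:ℕ)*(1 - t)^(3:ℕ) + (1922915858176/118125)*(t - (1/2))^(9:ℕ)*(1 - t)^(2:ℕ) + (531567488768/118125)*(t - (1/2))^(10:ℕ)*(1 - t) + (200277166336/354375)*(t - (1/2))^(11:ℕ) := by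
    ring
  rw [e]
  have a3 : 0 ≤ t - (1/2) := by linarith
  have a4 : 0 ≤ 1 - t := by linarith
  generalize t - (1/2) = t1 at a3 ⊢
  generalize 1 - t = t2 at a4 ⊢
  positivity

lemma pos_L20_B3_b4 (t : ℝ) (h3 : (1/2) ≤ t) (h4 : t ≤ 1) :
    0 ≤ 1*(2 + 2*t + 10*t^(2:ℕ) + 10*t^(3:ℕ) + 20*t^(4:ℕ) + 20*t^(5:ℕ) + 20*t^(6:ℕ) + 20*t^(7:ℕ) + 10*t^(8:ℕ) + 10*t^(9:ℕ) + 2*t^(10:ℕ) + 2*t^(11:ℕ)) + (13/35)*(4 + 3*t + (59/2)*t^(2:ℕ) + 23*t^(3:ℕ) + 70*t^(4:ℕ) + 54*t^(5:ℕ) + 73*t^(6:ℕ) + 54*t^(7:ℕ) + 34*t^(8:ℕ) + 23*t^(9:ℕ) + (11/2)*t^(10:ℕ) + 3*t^(11:ℕ)) + (31/225)*((-16) + (-16)*t + (-32)*t^(2:ℕ) + (-28)*t^(3:ℕ) + 36*t^(4:ℕ) + 25*t^(5:ℕ) + 113*t^(6:ℕ) + 48*t^(7:ℕ)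 + 70*t^(8:ℕ) + 5*t^(9:ℕ) + 9*t^(10:ℕ) + (-6)*t^(11:ℕ)) + (6029/118125)*((-41)*t^(2:ℕ) + (-48)*t^(3:ℕ) + (-55)*t^(4:ℕ) + (-31)*t^(5:ℕ) + 51*t^(6:ℕ) + (-14)*t^(7:ℕ) + 81*t^(8:ℕ) + (-43)*t^(9:ℕ) + 16*t^(10:ℕ) + (-12)*t^(11:ℕ)) + (11152/590625)*(32*t^(2:ℕ) + (-16)*t^(3:ℕ) + 4*t^(4:ℕ) + 22*t^(5:ℕ) + (-24)*t^(6:ℕ) + 28*t^(7:ℕ) + 12*t^(8:ℕ) + (-18)*t^(9:ℕ) + 8*t^(10:ℕ) + (-8)*t^(11:ℕ)) + (824/118125)*((-32)*t^(2:ℕ) + (167/4)*t^(3:ℕ) + (-12)*t^(4:ℕ) + (-79/2)*t^(5:ℕ) + (121/2)*t^(6:ℕ) + (-261/4)*t^(7:ℕ) + (87/2)*t^(8:ℕ) + (-61/4)*t^(9:ℕ) + 3*t^(10:ℕ) + (-1)*t^(11:ℕ)) + (304/118125)*(10*t^(5:ℕ) + (-31)*t^(6:ℕ) + 40*t^(7:ℕ) + (-19)*t^(8:ℕ) + (-7)*t^(9:ℕ) + 12*t^(10:ℕ)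 + (-4)*t^(11:ℕ)) + (16/16875)*((-4)*t^(7:ℕ) + 12*t^(8:ℕ) + (-17)*t^(9:ℕ) + 12*t^(10:ℕ) + (-4)*t^(11:ℕ)) - (11377/1000) := by
  have e : 1*(2 + 2*t + 10*t^(2:ℕ) + 10*t^(3:ℕ) + 20*t^(4:ℕ) + 20*t^(5:ℕ) + 20*t^(6:ℕ) + 20*t^(7:ℕ) + 10*t^(8:ℕ) + 10*t^(9:ℕ) + 2*t^(10:ℕ) + 2*t^(11:ℕ)) + (13/35)*(4 + 3*t + (59/2)*t^(2:ℕ) + 23*t^(3:ℕ) + 70*t^(4:ℕ) + 54*t^(5:ℕ) + 73*t^(6:ℕ) + 54*t^(7:ℕ) + 34*t^(8:ℕ) + 23*t^(9:ℕ) + (11/2)*t^(10:ℕ) + 3*t^(11:ℕ)) + (31/225)*((-16) + (-16)*t + (-32)*t^(2:ℕ) + (-28)*t^(3:ℕ) + 36*t^(4:ℕ) + 25*t^(5:ℕ) + 113*t^(6:ℕ) + 48*t^(7:ℕ) + 70*t^(8:ℕ) + 5*t^(9:ℕ) + 9*t^(10:ℕ) + (-6)*t^(11:ℕ)) + (6029/118125)*((-41)*t^(2:ℕ) + (-48)*t^(3:ℕ) + (-55)*t^(4:ℕ)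 + (-31)*t^(5:ℕ) + 51*t^(6:ℕ) + (-14)*t^(7:ℕ) + 81*t^(8:ℕ) + (-43)*t^(9:ℕ) + 16*t^(10:ℕ) + (-12)*t^(11:ℕ)) + (11152/590625)*(32*t^(2:ℕ) + (-16)*t^(3:ℕ) + 4*t^(4:ℕ) + 22*t^(5:ℕ) + (-24)*t^(6:ℕ) + 28*t^(7:ℕ) + 12*t^(8:ℕ) + (-18)*t^(9:ℕ) + 8*t^(10:ℕ) + (-8)*t^(11:ℕ)) + (824/118125)*((-32)*t^(2:ℕ) + (167/4)*t^(3:ℕ) + (-12)*t^(4:ℕ) + (-79/2)*t^(5:ℕ) + (121/2)*t^(6:ℕ) + (-261/4)*t^(7:ℕ) + (87/2)*t^(8:ℕ) + (-61/4)*t^(9:ℕ) + 3*t^(10:ℕ) + (-1)*t^(11:ℕ)) + (304/118125)*(10*t^(5:ℕ) + (-31)*t^(6:ℕ) + 40*t^(7:ℕ) + (-19)*t^(8:ℕ) + (-7)*t^(9:ℕ) + 12*t^(10:ℕ) + (-4)*t^(11:ℕ)) + (16/16875)*((-4)*t^(7:ℕ) + 12*t^(8:ℕ) + (-17)*t^(9:ℕ) + 12*t^(10:ℕ) + (-4)*t^(11:ℕ)) - (11377/1000)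 = (358696724/118125)*(1 - t)^(11:ℕ) + (69583224961/590625)*(t - (1/2))*(1 - t)^(10:ℕ) + (226424854688/196875)*(t - (1/2))^(2:ℕ)*(1 - t)^(9:ℕ) + (160211913956/28125)*(t - (1/2))^(3:ℕ)*(1 - t)^(8:ℕ) + (1142686098496/65625)*(t - (1/2))^(4:ℕ)*(1 - t)^(7:ℕ) + (21094912014592/590625)*(t - (1/2))^(5:ℕ)*(1 - t)^(6:ℕ) + (30143225520256/590625)*(t - (1/2))^(6:ℕ)*(1 - t)^(5:ℕ) + (30299449108352/590625)*(t - (1/2))^(7:ℕ)*(1 - t)^(4:ℕ) + (21122878601984/590625)*(t - (1/2))^(8:ℕ)*(1 - t)^(3:ℕ) + (1395003807488/84375)*(t - (1/2))^(9:ℕ)*(1 - t)^(2:ℕ) + (540317166848/118125)*(t - (1/2))^(10:ℕ)*(1 - t) + (67902516992/118125)*(t - (1/2))^(11:ℕ) := by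
    ring
  rw [e]
  have a3 : 0 ≤ t - (1/2) := by linarith
  have a4 : 0 ≤ 1 - t := by linarith
  generalize t - (1/2) = t1 at a3 ⊢
  generalize 1 - t = t2 at a4 ⊢
  positivity

lemma pos_L20_B3_b5 (t : ℝ) (h3 : (1/2) ≤ t) (h4 : t ≤ 1) :
    0 ≤ 1*(2 + 2*t + 10*t^(2:ℕ) + 10*t^(3:ℕ) + 20*t^(4:ℕ) + 20*t^(5:ℕ) + 20*t^(6:ℕ) + 20*t^(7:ℕ) + 10*t^(8:ℕ) + 10*t^(9:ℕ) + 2*t^(10:ℕ) + 2*t^(11:ℕ)) + (8/21)*(4 + 3*t + (59/2)*t^(2:ℕ) + 23*t^(3:ℕ) + 70*t^(4:ℕ) + 54*t^(5:ℕ) + 73*t^(6:ℕ) + 54*t^(7:ℕ) + 34*t^(8:ℕ) + 23*t^(9:ℕ) + (11/2)*t^(10:ℕ) + 3*t^(11:ℕ)) + (137/945)*((-16) + (-16)*t + (-32)*t^(2:ℕ) + (-28)*t^(3:ℕ) + 36*t^(4:ℕ) + 25*t^(5:ℕ) + 113*t^(6:ℕ) + 48*t^(7:ℕ)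 + 70*t^(8:ℕ) + 5*t^(9:ℕ) + 9*t^(10:ℕ) + (-6)*t^(11:ℕ)) + (62/1125)*((-41)*t^(2:ℕ) + (-48)*t^(3:ℕ) + (-55)*t^(4:ℕ) + (-31)*t^(5:ℕ) + 51*t^(6:ℕ) + (-14)*t^(7:ℕ) + 81*t^(8:ℕ) + (-43)*t^(9:ℕ) + 16*t^(10:ℕ) + (-12)*t^(11:ℕ)) + (824/39375)*(32*t^(2:ℕ) + (-16)*t^(3:ℕ) + 4*t^(4:ℕ) + 22*t^(5:ℕ) + (-24)*t^(6:ℕ) + 28*t^(7:ℕ) + 12*t^(8:ℕ) + (-18)*t^(9:ℕ) + 8*t^(10:ℕ) + (-8)*t^(11:ℕ)) + (4688/590625)*((-32)*t^(2:ℕ) + (167/4)*t^(3:ℕ) + (-12)*t^(4:ℕ) + (-79/2)*t^(5:ℕ) + (121/2)*t^(6:ℕ) + (-261/4)*t^(7:ℕ) + (87/2)*t^(8:ℕ) + (-61/4)*t^(9:ℕ) + 3*t^(10:ℕ) + (-1)*t^(11:ℕ)) + (592/196875)*(10*t^(5:ℕ) + (-31)*t^(6:ℕ) + 40*t^(7:ℕ) + (-19)*t^(8:ℕ) + (-7)*t^(9:ℕ) + 12*t^(10:ℕ)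 + (-4)*t^(11:ℕ)) + (32/28125)*((-4)*t^(7:ℕ) + 12*t^(8:ℕ) + (-17)*t^(9:ℕ) + 12*t^(10:ℕ) + (-4)*t^(11:ℕ)) - (11377/1000) := by
  have e : 1*(2 + 2*t + 10*t^(2:ℕ) + 10*t^(3:ℕ) + 20*t^(4:ℕ) + 20*t^(5:ℕ) + 20*t^(6:ℕ) + 20*t^(7:ℕ) + 10*t^(8:ℕ) + 10*t^(9:ℕ) + 2*t^(10:ℕ) + 2*t^(11:ℕ)) + (8/21)*(4 + 3*t + (59/2)*t^(2:ℕ) + 23*t^(3:ℕ) + 70*t^(4:ℕ) + 54*t^(5:ℕ) + 73*t^(6:ℕ) + 54*t^(7:ℕ) + 34*t^(8:ℕ) + 23*t^(9:ℕ) + (11/2)*t^(10:ℕ) + 3*t^(11:ℕ)) + (137/945)*((-16) + (-16)*t + (-32)*t^(2:ℕ) + (-28)*t^(3:ℕ) + 36*t^(4:ℕ) + 25*t^(5:ℕ) + 113*t^(6:ℕ) + 48*t^(7:ℕ) + 70*t^(8:ℕ) + 5*t^(9:ℕ) + 9*t^(10:ℕ) + (-6)*t^(11:ℕ)) + (62/1125)*((-41)*t^(2:ℕ) + (-48)*t^(3:ℕ) + (-55)*t^(4:ℕ)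 + (-31)*t^(5:ℕ) + 51*t^(6:ℕ) + (-14)*t^(7:ℕ) + 81*t^(8:ℕ) + (-43)*t^(9:ℕ) + 16*t^(10:ℕ) + (-12)*t^(11:ℕ)) + (824/39375)*(32*t^(2:ℕ) + (-16)*t^(3:ℕ) + 4*t^(4:ℕ) + 22*t^(5:ℕ) + (-24)*t^(6:ℕ) + 28*t^(7:ℕ) + 12*t^(8:ℕ) + (-18)*t^(9:ℕ) + 8*t^(10:ℕ) + (-8)*t^(11:ℕ)) + (4688/590625)*((-32)*t^(2:ℕ) + (167/4)*t^(3:ℕ) + (-12)*t^(4:ℕ) + (-79/2)*t^(5:ℕ) + (121/2)*t^(6:ℕ) + (-261/4)*t^(7:ℕ) + (87/2)*t^(8:ℕ) + (-61/4)*t^(9:ℕ) + 3*t^(10:ℕ) + (-1)*t^(11:ℕ)) + (592/196875)*(10*t^(5:ℕ) + (-31)*t^(6:ℕ) + 40*t^(7:ℕ) + (-19)*t^(8:ℕ) + (-7)*t^(9:ℕ) + 12*t^(10:ℕ) + (-4)*t^(11:ℕ)) + (32/28125)*((-4)*t^(7:ℕ) + 12*t^(8:ℕ) + (-17)*t^(9:ℕ) + 12*t^(10:ℕ) + (-4)*t^(11:ℕ)) - (11377/1000)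 = (1718243038/590625)*(1 - t)^(11:ℕ) + (69193610494/590625)*(t - (1/2))*(1 - t)^(10:ℕ) + (680768582852/590625)*(t - (1/2))^(2:ℕ)*(1 - t)^(9:ℕ) + (3384683020336/590625)*(t - (1/2))^(3:ℕ)*(1 - t)^(8:ℕ) + (1481670026528/84375)*(t - (1/2))^(4:ℕ)*(1 - t)^(7:ℕ) + (21314301228832/590625)*(t - (1/2))^(5:ℕ)*(1 - t)^(6:ℕ) + (30503390604352/590625)*(t - (1/2))^(6:ℕ)*(1 - t)^(5:ℕ) + (30701478898432/590625)*(t - (1/2))^(7:ℕ)*(1 - t)^(4:ℕ) + (21427306661632/590625)*(t - (1/2))^(8:ℕ)*(1 - t)^(3:ℕ) + (1416489392896/84375)*(t - (1/2))^(9:ℕ)*(1 - t)^(2:ℕ) + (392209919744/84375)*(t - (1/2))^(10:ℕ)*(1 - t) + (345262045952/590625)*(t - (1/2))^(11:ℕ) := by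
    ring
  rw [e]
  have a3 : 0 ≤ t - (1/2) := by linarith
  have a4 : 0 ≤ 1 - t := by linarith
  generalize t - (1/2) = t1 at a3 ⊢
  generalize 1 - t = t2 at a4 ⊢
  positivity

lemma pos_L20_B3_b6 (t : ℝ) (h3 : (1/2) ≤ t) (h4 : t ≤ 1) :
    0 ≤ 1*(2 + 2*t + 10*t^(2:ℕ) + 10*t^(3:ℕ) + 20*t^(4:ℕ) + 20*t^(5:ℕ) + 20*t^(6:ℕ) + 20*t^(7:ℕ) + 10*t^(8:ℕ) + 10*t^(9:ℕ) + 2*t^(10:ℕ) + 2*t^(11:ℕ)) + (41/105)*(4 + 3*t + (59/2)*t^(2:ℕ) + 23*t^(3:ℕ) + 70*t^(4:ℕ) + 54*t^(5:ℕ) + 73*t^(6:ℕ) + 54*t^(7:ℕ) + 34*t^(8:ℕ) + 23*t^(9:ℕ) + (11/2)*t^(10:ℕ) + 3*t^(11:ℕ)) + (16/105)*((-16) + (-16)*t + (-32)*t^(2:ℕ) + (-28)*t^(3:ℕ) + 36*t^(4:ℕ) + 25*t^(5:ℕ) + 113*t^(6:ℕ) + 48*t^(7:ℕ)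 + 70*t^(8:ℕ) + 5*t^(9:ℕ) + 9*t^(10:ℕ) + (-6)*t^(11:ℕ)) + (52/875)*((-41)*t^(2:ℕ) + (-48)*t^(3:ℕ) + (-55)*t^(4:ℕ) + (-31)*t^(5:ℕ) + 51*t^(6:ℕ) + (-14)*t^(7:ℕ) + 81*t^(8:ℕ) + (-43)*t^(9:ℕ) + 16*t^(10:ℕ) + (-12)*t^(11:ℕ)) + (304/13125)*(32*t^(2:ℕ) + (-16)*t^(3:ℕ) + 4*t^(4:ℕ) + 22*t^(5:ℕ) + (-24)*t^(6:ℕ) + 28*t^(7:ℕ) + 12*t^(8:ℕ) + (-18)*t^(9:ℕ) + 8*t^(10:ℕ) + (-8)*t^(11:ℕ)) + (592/65625)*((-32)*t^(2:ℕ) + (167/4)*t^(3:ℕ) + (-12)*t^(4:ℕ) + (-79/2)*t^(5:ℕ) + (121/2)*t^(6:ℕ) + (-261/4)*t^(7:ℕ) + (87/2)*t^(8:ℕ) + (-61/4)*t^(9:ℕ) + 3*t^(10:ℕ) + (-1)*t^(11:ℕ)) + (384/109375)*(10*t^(5:ℕ) + (-31)*t^(6:ℕ) + 40*t^(7:ℕ) + (-19)*t^(8:ℕ) + (-7)*t^(9:ℕ) + 12*t^(10:ℕ)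 + (-4)*t^(11:ℕ)) + (64/46875)*((-4)*t^(7:ℕ) + 12*t^(8:ℕ) + (-17)*t^(9:ℕ) + 12*t^(10:ℕ) + (-4)*t^(11:ℕ)) - (11377/1000) := by
  have e : 1*(2 + 2*t + 10*t^(2:ℕ) + 10*t^(3:ℕ) + 20*t^(4:ℕ) + 20*t^(5:ℕ) + 20*t^(6:ℕ) + 20*t^(7:ℕ) + 10*t^(8:ℕ) + 10*t^(9:ℕ) + 2*t^(10:ℕ) + 2*t^(11:ℕ)) + (41/105)*(4 + 3*t + (59/2)*t^(2:ℕ) + 23*t^(3:ℕ) + 70*t^(4:ℕ) + 54*t^(5:ℕ) + 73*t^(6:ℕ) + 54*t^(7:ℕ) + 34*t^(8:ℕ) + 23*t^(9:ℕ) + (11/2)*t^(10:ℕ) + 3*t^(11:ℕ)) + (16/105)*((-16) + (-16)*t + (-32)*t^(2:ℕ) + (-28)*t^(3:ℕ) + 36*t^(4:ℕ) + 25*t^(5:ℕ) + 113*t^(6:ℕ) + 48*t^(7:ℕ) + 70*t^(8:ℕ) + 5*t^(9:ℕ) + 9*t^(10:ℕ) + (-6)*t^(11:ℕ)) + (52/875)*((-41)*t^(2:ℕ) + (-48)*t^(3:ℕ) + (-55)*t^(4:ℕ)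 + (-31)*t^(5:ℕ) + 51*t^(6:ℕ) + (-14)*t^(7:ℕ) + 81*t^(8:ℕ) + (-43)*t^(9:ℕ) + 16*t^(10:ℕ) + (-12)*t^(11:ℕ)) + (304/13125)*(32*t^(2:ℕ) + (-16)*t^(3:ℕ) + 4*t^(4:ℕ) + 22*t^(5:ℕ) + (-24)*t^(6:ℕ) + 28*t^(7:ℕ) + 12*t^(8:ℕ) + (-18)*t^(9:ℕ) + 8*t^(10:ℕ) + (-8)*t^(11:ℕ)) + (592/65625)*((-32)*t^(2:ℕ) + (167/4)*t^(3:ℕ) + (-12)*t^(4:ℕ) + (-79/2)*t^(5:ℕ) + (121/2)*t^(6:ℕ) + (-261/4)*t^(7:ℕ) + (87/2)*t^(8:ℕ) + (-61/4)*t^(9:ℕ) + 3*t^(10:ℕ) + (-1)*t^(11:ℕ)) + (384/109375)*(10*t^(5:ℕ) + (-31)*t^(6:ℕ) + 40*t^(7:ℕ) + (-19)*t^(8:ℕ) + (-7)*t^(9:ℕ) + 12*t^(10:ℕ) + (-4)*t^(11:ℕ)) + (64/46875)*((-4)*t^(7:ℕ) + 12*t^(8:ℕ) + (-17)*t^(9:ℕ) + 12*t^(10:ℕ) + (-4)*t^(11:ℕ)) - (11377/1000)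 = (129396904/46875)*(1 - t)^(11:ℕ) + (38139378677/328125)*(t - (1/2))*(1 - t)^(10:ℕ) + (3605425432/3125)*(t - (1/2))^(2:ℕ)*(1 - t)^(9:ℕ) + (630039165348/109375)*(t - (1/2))^(3:ℕ)*(1 - t)^(8:ℕ) + (5807509002752/328125)*(t - (1/2))^(4:ℕ)*(1 - t)^(7:ℕ) + (11958671015296/328125)*(t - (1/2))^(5:ℕ)*(1 - t)^(6:ℕ) + (1142808096768/21875)*(t - (1/2))^(6:ℕ)*(1 - t)^(5:ℕ) + (493630982144/9375)*(t - (1/2))^(7:ℕ)*(1 - t)^(4:ℕ) + (12072298035968/328125)*(t - (1/2))^(8:ℕ)*(1 - t)^(3:ℕ) + (5592080222464/328125)*(t - (1/2))^(9:ℕ)*(1 - t)^(2:ℕ) + (103314135808/21875)*(t - (1/2))^(10:ℕ)*(1 - t) + (195023924992/328125)*(t - (1/2))^(11:ℕ) := by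
    ring
  rw [e]
  have a3 : 0 ≤ t - (1/2) := by linarith
  have a4 : 0 ≤ 1 - t := by linarith
  generalize t - (1/2) = t1 at a3 ⊢
  generalize 1 - t = t2 at a4 ⊢
  positivity

lemma pos_L20_B3_b7 (t : ℝ) (h3 : (1/2) ≤ t) (h4 : t ≤ 1) :
    0 ≤ 1*(2 + 2*t + 10*t^(2:ℕ) + 10*t^(3:ℕ) + 20*t^(4:ℕ) + 20*t^(5:ℕ) + 20*t^(6:ℕ) + 20*t^(7:ℕ) + 10*t^(8:ℕ) + 10*t^(9:ℕ) + 2*t^(10:ℕ) + 2*t^(11:ℕ)) + (2/5)*(4 + 3*t + (59/2)*t^(2:ℕ) + 23*t^(3:ℕ) + 70*t^(4:ℕ) + 54*t^(5:ℕ) + 73*t^(6:ℕ) + 54*t^(7:ℕ) + 34*t^(8:ℕ) + 23*t^(9:ℕ) + (11/2)*t^(10:ℕ) + 3*t^(11:ℕ)) + (4/25)*((-16) + (-16)*t + (-32)*t^(2:ℕ) + (-28)*t^(3:ℕ) + 36*t^(4:ℕ) + 25*t^(5:ℕ) + 113*t^(6:ℕ) + 48*t^(7:ℕ)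 + 70*t^(8:ℕ) + 5*t^(9:ℕ) + 9*t^(10:ℕ) + (-6)*t^(11:ℕ)) + (8/125)*((-41)*t^(2:ℕ) + (-48)*t^(3:ℕ) + (-55)*t^(4:ℕ) + (-31)*t^(5:ℕ) + 51*t^(6:ℕ) + (-14)*t^(7:ℕ) + 81*t^(8:ℕ) + (-43)*t^(9:ℕ) + 16*t^(10:ℕ) + (-12)*t^(11:ℕ)) + (16/625)*(32*t^(2:ℕ) + (-16)*t^(3:ℕ) + 4*t^(4:ℕ) + 22*t^(5:ℕ) + (-24)*t^(6:ℕ) + 28*t^(7:ℕ) + 12*t^(8:ℕ) + (-18)*t^(9:ℕ) + 8*t^(10:ℕ) + (-8)*t^(11:ℕ)) + (32/3125)*((-32)*t^(2:ℕ) + (167/4)*t^(3:ℕ) + (-12)*t^(4:ℕ) + (-79/2)*t^(5:ℕ) + (121/2)*t^(6:ℕ) + (-261/4)*t^(7:ℕ) + (87/2)*t^(8:ℕ) + (-61/4)*t^(9:ℕ) + 3*t^(10:ℕ) + (-1)*t^(11:ℕ)) + (64/15625)*(10*t^(5:ℕ) + (-31)*t^(6:ℕ) + 40*t^(7:ℕ) + (-19)*t^(8:ℕ) + (-7)*t^(9:ℕ) + 12*t^(10:ℕ) + (-4)*t^(11:ℕ))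 + (128/78125)*((-4)*t^(7:ℕ) + 12*t^(8:ℕ) + (-17)*t^(9:ℕ) + 12*t^(10:ℕ) + (-4)*t^(11:ℕ)) - (11377/1000) := by
  have e : 1*(2 + 2*t + 10*t^(2:ℕ) + 10*t^(3:ℕ) + 20*t^(4:ℕ) + 20*t^(5:ℕ) + 20*t^(6:ℕ) + 20*t^(7:ℕ) + 10*t^(8:ℕ) + 10*t^(9:ℕ) + 2*t^(10:ℕ) + 2*t^(11:ℕ)) + (2/5)*(4 + 3*t + (59/2)*t^(2:ℕ) + 23*t^(3:ℕ) + 70*t^(4:ℕ) + 54*t^(5:ℕ) + 73*t^(6:ℕ) + 54*t^(7:ℕ) + 34*t^(8:ℕ) + 23*t^(9:ℕ) + (11/2)*t^(10:ℕ) + 3*t^(11:ℕ)) + (4/25)*((-16) + (-16)*t + (-32)*t^(2:ℕ) + (-28)*t^(3:ℕ) + 36*t^(4:ℕ) + 25*t^(5:ℕ) + 113*t^(6:ℕ) + 48*t^(7:ℕ) + 70*t^(8:ℕ) + 5*t^(9:ℕ) + 9*t^(10:ℕ) + (-6)*t^(11:ℕ)) + (8/125)*((-41)*t^(2:ℕ) + (-48)*t^(3:ℕ) + (-55)*t^(4:ℕ) + (-31)*t^(5:ℕ)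 + 51*t^(6:ℕ) + (-14)*t^(7:ℕ) + 81*t^(8:ℕ) + (-43)*t^(9:ℕ) + 16*t^(10:ℕ) + (-12)*t^(11:ℕ)) + (16/625)*(32*t^(2:ℕ) + (-16)*t^(3:ℕ) + 4*t^(4:ℕ) + 22*t^(5:ℕ) + (-24)*t^(6:ℕ) + 28*t^(7:ℕ) + 12*t^(8:ℕ) + (-18)*t^(9:ℕ) + 8*t^(10:ℕ) + (-8)*t^(11:ℕ)) + (32/3125)*((-32)*t^(2:ℕ) + (167/4)*t^(3:ℕ) + (-12)*t^(4:ℕ) + (-79/2)*t^(5:ℕ) + (121/2)*t^(6:ℕ) + (-261/4)*t^(7:ℕ) + (87/2)*t^(8:ℕ) + (-61/4)*t^(9:ℕ) + 3*t^(10:ℕ) + (-1)*t^(11:ℕ)) + (64/15625)*(10*t^(5:ℕ) + (-31)*t^(6:ℕ) + 40*t^(7:ℕ) + (-19)*t^(8:ℕ) + (-7)*t^(9:ℕ) + 12*t^(10:ℕ) + (-4)*t^(11:ℕ)) + (128/78125)*((-4)*t^(7:ℕ) + 12*t^(8:ℕ) + (-17)*t^(9:ℕ) + 12*t^(10:ℕ) + (-4)*t^(11:ℕ)) - (11377/1000) = (202354362/78125)*(1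 - t)^(11:ℕ) + (8988478314/78125)*(t - (1/2))*(1 - t)^(10:ℕ) + (90110055568/78125)*(t - (1/2))^(2:ℕ)*(1 - t)^(9:ℕ) + (451982636664/78125)*(t - (1/2))^(3:ℕ)*(1 - t)^(8:ℕ) + (278559309184/15625)*(t - (1/2))^(4:ℕ)*(1 - t)^(7:ℕ) + (2874160114816/78125)*(t - (1/2))^(5:ℕ)*(1 - t)^(6:ℕ) + (4127024056576/78125)*(t - (1/2))^(6:ℕ)*(1 - t)^(5:ℕ) + (4165489660416/78125)*(t - (1/2))^(7:ℕ)*(1 - t)^(4:ℕ) + (2914190121728/78125)*(t - (1/2))^(8:ℕ)*(1 - t)^(3:ℕ) + (270263244032/15625)*(t - (1/2))^(9:ℕ)*(1 - t)^(2:ℕ) + (374816929024/78125)*(t - (1/2))^(10:ℕ)*(1 - t) + (47203049216/78125)*(t - (1/2))^(11:ℕ) := by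
    ring
  rw [e]
  have a3 : 0 ≤ t - (1/2) := by linarith
  have a4 : 0 ≤ 1 - t := by linarith
  generalize t - (1/2) = t1 at a3 ⊢
  generalize 1 - t = t2 at a4 ⊢
  positivity

lemma pos_L20_B3_id (d : ℝ) (C0 C1 C2 C3 C4 C5 C6 C7 : ℝ) :
    C0 + d*C1 + d^(2:ℕ)*C2 + d^(3:ℕ)*C3 + d^(4:ℕ)*C4 + d^(5:ℕ)*C5 + d^(6:ℕ)*C6 + d^(7:ℕ)*C7 = (11377/1000) + (170859375*((2/5) - d)^(7:ℕ)*(1*C0 + (1/3)*C1 + (1/9)*C2 + (1/27)*C3 + (1/81)*C4 + (1/243)*C5 + (1/729)*C6 + (1/2187)*C7 - (11377/1000)) + 1196015625*(d - (1/3))*((2/5) - d)^(6:ℕ)*(1*C0 + (12/35)*C1 + (37/315)*C2 + (38/945)*C3 + (13/945)*C4 + (8/1701)*C5 + (41/25515)*C6 + (2/3645)*C7 - (11377/1000)) + 3588046875*(d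 - (1/3))^(2:ℕ)*((2/5) - d)^(5:ℕ)*(1*C0 + (37/105)*C1 + (586/4725)*C2 + (206/4725)*C3 + (31/2025)*C4 + (137/25515)*C5 + (16/8505)*C6 + (4/6075)*C7 - (11377/1000)) + 5980078125*(d - (1/3))^(3:ℕ)*((2/5) - d)^(4:ℕ)*(1*C0 + (38/105)*C1 + (206/1575)*C2 + (5576/118125)*C3 + (6029/354375)*C4 + (62/10125)*C5 + (52/23625)*C6 + (8/10125)*C7 - (11377/1000)) + 5980078125*(d - (1/3))^(4:ℕ)*((2/5) - d)^(3:ℕ)*(1*C0 + (13/35)*C1 + (31/225)*C2 + (6029/118125)*C3 + (11152/590625)*C4 + (824/118125)*C5 + (304/118125)*C6 + (16/16875)*C7 - (11377/1000)) + 3588046875*(d - (1/3))^(5:ℕ)*((2/5) - d)^(2:ℕ)*(1*C0 + (8/21)*C1 + (137/945)*C2 + (62/1125)*C3 + (824/39375)*C4 + (4688/590625)*C5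 + (592/196875)*C6 + (32/28125)*C7 - (11377/1000)) + 1196015625*(d - (1/3))^(6:ℕ)*((2/5) - d)*(1*C0 + (41/105)*C1 + (16/105)*C2 + (52/875)*C3 + (304/13125)*C4 + (592/65625)*C5 + (384/109375)*C6 + (64/46875)*C7 - (11377/1000)) + 170859375*(d - (1/3))^(7:ℕ)*(1*C0 + (2/5)*C1 + (4/25)*C2 + (8/125)*C3 + (16/625)*C4 + (32/3125)*C5 + (64/15625)*C6 + (128/78125)*C7 - (11377/1000))) := by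
  ring

lemma pos_L20_B3_gen (d1 d2 B0 B1 B2 B3 B4 B5 B6 B7 : ℝ) (a1 : 0 ≤ d1) (a2 : 0 ≤ d2) (b0 : 0 ≤ B0) (b1 : 0 ≤ B1) (b2 : 0 ≤ B2) (b3 : 0 ≤ B3) (b4 : 0 ≤ B4) (b5 : 0 ≤ B5) (b6 : 0 ≤ B6) (b7 : 0 ≤ B7) :
    0 < (11377/1000) + (170859375*d2^(7:ℕ)*(B0) + 1196015625*d1*d2^(6:ℕ)*(B1) + 3588046875*d1^(2:ℕ)*d2^(5:ℕ)*(B2) + 5980078125*d1^(3:ℕ)*d2^(4:ℕ)*(B3) + 5980078125*d1^(4:ℕ)*d2^(3:ℕ)*(B4) + 3588046875*d1^(5:ℕ)*d2^(2:ℕ)*(B5) + 1196015625*d1^(6:ℕ)*d2*(B6) + 170859375*d1^(7:ℕ)*(B7)) := by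
  positivity

lemma pos_L20_B3_core (d C0 C1 C2 C3 C4 C5 C6 C7 : ℝ) (h1 : (1/3) ≤ d) (h2 : d ≤ (2/5))
    (b0 : 0 ≤ 1*C0 + (1/3)*C1 + (1/9)*C2 + (1/27)*C3 + (1/81)*C4 + (1/243)*C5 + (1/729)*C6 + (1/2187)*C7 - (11377/1000))
    (b1 : 0 ≤ 1*C0 + (12/35)*C1 + (37/315)*C2 + (38/945)*C3 + (13/945)*C4 + (8/1701)*C5 + (41/25515)*C6 + (2/3645)*C7 - (11377/1000))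
    (b2 : 0 ≤ 1*C0 + (37/105)*C1 + (586/4725)*C2 + (206/4725)*C3 + (31/2025)*C4 + (137/25515)*C5 + (16/8505)*C6 + (4/6075)*C7 - (11377/1000))
    (b3 : 0 ≤ 1*C0 + (38/105)*C1 + (206/1575)*C2 + (5576/118125)*C3 + (6029/354375)*C4 + (62/10125)*C5 + (52/23625)*C6 + (8/10125)*C7 - (11377/1000))
    (b4 : 0 ≤ 1*C0 + (13/35)*C1 + (31/225)*C2 + (6029/118125)*C3 + (11152/590625)*C4 + (824/118125)*C5 + (304/118125)*C6 + (16/16875)*C7 - (11377/1000))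
    (b5 : 0 ≤ 1*C0 + (8/21)*C1 + (137/945)*C2 + (62/1125)*C3 + (824/39375)*C4 + (4688/590625)*C5 + (592/196875)*C6 + (32/28125)*C7 - (11377/1000))
    (b6 : 0 ≤ 1*C0 + (41/105)*C1 + (16/105)*C2 + (52/875)*C3 + (304/13125)*C4 + (592/65625)*C5 + (384/109375)*C6 + (64/46875)*C7 - (11377/1000))
    (b7 : 0 ≤ 1*C0 + (2/5)*C1 + (4/25)*C2 + (8/125)*C3 + (16/625)*C4 + (32/3125)*C5 + (64/15625)*C6 + (128/78125)*C7 - (11377/1000)) :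
    0 < C0 + d*C1 + d^(2:ℕ)*C2 + d^(3:ℕ)*C3 + d^(4:ℕ)*C4 + d^(5:ℕ)*C5 + d^(6:ℕ)*C6 + d^(7:ℕ)*C7 := by
  rw [pos_L20_B3_id]
  exact pos_L20_B3_gen _ _ _ _ _ _ _ _ _ _ (sub_nonneg.2 h1) (sub_nonneg.2 h2) b0 b1 b2 b3 b4 b5 b6 b7

lemma pos_L20_B3 (d t : ℝ) (h1 : (1/3) ≤ d) (h2 : d ≤ (2/5)) (h3 : (1/2) ≤ t) (h4 : t ≤ 1) :
    0 < 2 + 2*t + 10*t^(2:ℕ) + 10*t^(3:ℕ) + 20*t^(4:ℕ) + 20*t^(5:ℕ) + 20*t^(6:ℕ) + 20*t^(7:ℕ) + 10*t^(8:ℕ) + 10*t^(9:ℕ) + 2*t^(10:ℕ) + 2*t^(11:ℕ) + 4*d + 3*d*t + (59/2)*d*t^(2:ℕ) + 23*d*t^(3:ℕ) + 70*d*t^(4:ℕ) + 54*d*t^(5:ℕ) + 73*d*t^(6:ℕ) + 54*d*t^(7:ℕ) + 34*d*t^(8:ℕ) + 23*d*t^(9:ℕ) + (11/2)*d*t^(10:ℕ) + 3*d*t^(11:ℕ) + (-16)*d^(2:ℕ) +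 (-16)*d^(2:ℕ)*t + (-32)*d^(2:ℕ)*t^(2:ℕ) + (-28)*d^(2:ℕ)*t^(3:ℕ) + 36*d^(2:ℕ)*t^(4:ℕ) + 25*d^(2:ℕ)*t^(5:ℕ) + 113*d^(2:ℕ)*t^(6:ℕ) + 48*d^(2:ℕ)*t^(7:ℕ) + 70*d^(2:ℕ)*t^(8:ℕ) + 5*d^(2:ℕ)*t^(9:ℕ) + 9*d^(2:ℕ)*t^(10:ℕ) + (-6)*d^(2:ℕ)*t^(11:ℕ) + (-41)*d^(3:ℕ)*t^(2:ℕ) + (-48)*d^(3:ℕ)*t^(3:ℕ) + (-55)*d^(3:ℕ)*t^(4:ℕ) + (-31)*d^(3:ℕ)*t^(5:ℕ) + 51*d^(3:ℕ)*t^(6:ℕ) + (-14)*d^(3:ℕ)*t^(7:ℕ) + 81*d^(3:ℕ)*t^(8:ℕ) + (-43)*d^(3:ℕ)*t^(9:ℕ) + 16*d^(3:ℕ)*t^(10:ℕ) + (-12)*d^(3:ℕ)*t^(11:ℕ) + 32*d^(4:ℕ)*t^(2:ℕ) + (-16)*d^(4:ℕ)*t^(3:ℕ) + 4*d^(4:ℕ)*t^(4:ℕ) + 22*d^(4:ℕ)*t^(5:ℕ) + (-24)*d^(4:ℕ)*t^(6:ℕ) + 28*d^(4:ℕ)*t^(7:ℕ) + 12*d^(4:ℕ)*t^(8:ℕ) + (-18)*d^(4:ℕ)*t^(9:ℕ) + 8*d^(4:ℕ)*t^(10:ℕ)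 + (-8)*d^(4:ℕ)*t^(11:ℕ) + (-32)*d^(5:ℕ)*t^(2:ℕ) + (167/4)*d^(5:ℕ)*t^(3:ℕ) + (-12)*d^(5:ℕ)*t^(4:ℕ) + (-79/2)*d^(5:ℕ)*t^(5:ℕ) + (121/2)*d^(5:ℕ)*t^(6:ℕ) + (-261/4)*d^(5:ℕ)*t^(7:ℕ) + (87/2)*d^(5:ℕ)*t^(8:ℕ) + (-61/4)*d^(5:ℕ)*t^(9:ℕ) + 3*d^(5:ℕ)*t^(10:ℕ) + (-1)*d^(5:ℕ)*t^(11:ℕ) + 10*d^(6:ℕ)*t^(5:ℕ) + (-31)*d^(6:ℕ)*t^(6:ℕ) + 40*d^(6:ℕ)*t^(7:ℕ) + (-19)*d^(6:ℕ)*t^(8:ℕ) + (-7)*d^(6:ℕ)*t^(9:ℕ) + 12*d^(6:ℕ)*t^(10:ℕ) + (-4)*d^(6:ℕ)*t^(11:ℕ) + (-4)*d^(7:ℕ)*t^(7:ℕ) + 12*d^(7:ℕ)*t^(8:ℕ) + (-17)*d^(7:ℕ)*t^(9:ℕ) + 12*d^(7:ℕ)*t^(10:ℕ) + (-4)*d^(7:ℕ)*t^(11:ℕ) := by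
  have e0 : 2 + 2*t + 10*t^(2:ℕ) + 10*t^(3:ℕ) + 20*t^(4:ℕ) + 20*t^(5:ℕ) + 20*t^(6:ℕ) + 20*t^(7:ℕ) + 10*t^(8:ℕ) + 10*t^(9:ℕ) + 2*t^(10:ℕ) + 2*t^(11:ℕ) + 4*d + 3*d*t + (59/2)*d*t^(2:ℕ) + 23*d*t^(3:ℕ) + 70*d*t^(4:ℕ) + 54*d*t^(5:ℕ) + 73*d*t^(6:ℕ) + 54*d*t^(7:ℕ) + 34*d*t^(8:ℕ) + 23*d*t^(9:ℕ) + (11/2)*d*t^(10:ℕ) + 3*d*t^(11:ℕ) + (-16)*d^(2:ℕ) + (-16)*d^(2:ℕ)*t + (-32)*d^(2:ℕ)*t^(2:ℕ) + (-28)*d^(2:ℕ)*t^(3:ℕ) + 36*d^(2:ℕ)*t^(4:ℕ) + 25*d^(2:ℕ)*t^(5:ℕ) + 113*d^(2:ℕ)*t^(6:ℕ) + 48*d^(2:ℕ)*t^(7:ℕ) + 70*d^(2:ℕ)*t^(8:ℕ) + 5*d^(2:ℕ)*t^(9:ℕ) + 9*d^(2:ℕ)*t^(10:ℕ) + (-6)*d^(2:ℕ)*t^(11:ℕ) + (-41)*d^(3:ℕ)*t^(2:ℕ) + (-48)*d^(3:ℕ)*t^(3:ℕ) + (-55)*d^(3:ℕ)*t^(4:ℕ) + (-31)*d^(3:ℕ)*t^(5:ℕ)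 + 51*d^(3:ℕ)*t^(6:ℕ) + (-14)*d^(3:ℕ)*t^(7:ℕ) + 81*d^(3:ℕ)*t^(8:ℕ) + (-43)*d^(3:ℕ)*t^(9:ℕ) + 16*d^(3:ℕ)*t^(10:ℕ) + (-12)*d^(3:ℕ)*t^(11:ℕ) + 32*d^(4:ℕ)*t^(2:ℕ) + (-16)*d^(4:ℕ)*t^(3:ℕ) + 4*d^(4:ℕ)*t^(4:ℕ) + 22*d^(4:ℕ)*t^(5:ℕ) + (-24)*d^(4:ℕ)*t^(6:ℕ) + 28*d^(4:ℕ)*t^(7:ℕ) + 12*d^(4:ℕ)*t^(8:ℕ) + (-18)*d^(4:ℕ)*t^(9:ℕ) + 8*d^(4:ℕ)*t^(10:ℕ) + (-8)*d^(4:ℕ)*t^(11:ℕ) + (-32)*d^(5:ℕ)*t^(2:ℕ) + (167/4)*d^(5:ℕ)*t^(3:ℕ) + (-12)*d^(5:ℕ)*t^(4:ℕ) + (-79/2)*d^(5:ℕ)*t^(5:ℕ) + (121/2)*d^(5:ℕ)*t^(6:ℕ) + (-261/4)*d^(5:ℕ)*t^(7:ℕ) + (87/2)*d^(5:ℕ)*t^(8:ℕ) + (-61/4)*d^(5:ℕ)*t^(9:ℕ) + 3*d^(5:ℕ)*t^(10:ℕ) + (-1)*d^(5:ℕ)*t^(11:ℕ) + 10*d^(6:ℕ)*t^(5:ℕ) + (-31)*d^(6:ℕ)*t^(6:ℕ) + 40*d^(6:ℕ)*t^(7:ℕ)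 + (-19)*d^(6:ℕ)*t^(8:ℕ) + (-7)*d^(6:ℕ)*t^(9:ℕ) + 12*d^(6:ℕ)*t^(10:ℕ) + (-4)*d^(6:ℕ)*t^(11:ℕ) + (-4)*d^(7:ℕ)*t^(7:ℕ) + 12*d^(7:ℕ)*t^(8:ℕ) + (-17)*d^(7:ℕ)*t^(9:ℕ) + 12*d^(7:ℕ)*t^(10:ℕ) + (-4)*d^(7:ℕ)*t^(11:ℕ) = (2 + 2*t + 10*t^(2:ℕ) + 10*t^(3:ℕ) + 20*t^(4:ℕ) + 20*t^(5:ℕ) + 20*t^(6:ℕ) + 20*t^(7:ℕ) + 10*t^(8:ℕ) + 10*t^(9:ℕ) + 2*t^(10:ℕ) + 2*t^(11:ℕ)) + d*(4 + 3*t + (59/2)*t^(2:ℕ) + 23*t^(3:ℕ) + 70*t^(4:ℕ) + 54*t^(5:ℕ) + 73*t^(6:ℕ) + 54*t^(7:ℕ) + 34*t^(8:ℕ) + 23*t^(9:ℕ) + (11/2)*t^(10:ℕ) + 3*t^(11:ℕ)) + d^(2:ℕ)*((-16) + (-16)*t + (-32)*t^(2:ℕ) + (-28)*t^(3:ℕ) + 36*t^(4:ℕ) + 25*t^(5:ℕ) + 113*t^(6:ℕ) + 48*t^(7:ℕ) + 70*t^(8:ℕ) + 5*t^(9:ℕ) + 9*t^(10:ℕ) + (-6)*t^(11:ℕ))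 + d^(3:ℕ)*((-41)*t^(2:ℕ) + (-48)*t^(3:ℕ) + (-55)*t^(4:ℕ) + (-31)*t^(5:ℕ) + 51*t^(6:ℕ) + (-14)*t^(7:ℕ) + 81*t^(8:ℕ) + (-43)*t^(9:ℕ) + 16*t^(10:ℕ) + (-12)*t^(11:ℕ)) + d^(4:ℕ)*(32*t^(2:ℕ) + (-16)*t^(3:ℕ) + 4*t^(4:ℕ) + 22*t^(5:ℕ) + (-24)*t^(6:ℕ) + 28*t^(7:ℕ) + 12*t^(8:ℕ) + (-18)*t^(9:ℕ) + 8*t^(10:ℕ) + (-8)*t^(11:ℕ)) + d^(5:ℕ)*((-32)*t^(2:ℕ) + (167/4)*t^(3:ℕ) + (-12)*t^(4:ℕ) + (-79/2)*t^(5:ℕ) + (121/2)*t^(6:ℕ) + (-261/4)*t^(7:ℕ) + (87/2)*t^(8:ℕ) + (-61/4)*t^(9:ℕ) + 3*t^(10:ℕ) + (-1)*t^(11:ℕ)) + d^(6:ℕ)*(10*t^(5:ℕ) + (-31)*t^(6:ℕ) + 40*t^(7:ℕ) + (-19)*t^(8:ℕ) + (-7)*t^(9:ℕ) + 12*t^(10:ℕ) + (-4)*t^(11:ℕ)) + d^(7:ℕ)*((-4)*t^(7:ℕ) + 12*t^(8:ℕ) + (-17)*t^(9:ℕ)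 + 12*t^(10:ℕ) + (-4)*t^(11:ℕ)) := by
    ring
  rw [e0]
  exact pos_L20_B3_core d _ _ _ _ _ _ _ _ h1 h2 (pos_L20_B3_b0 t h3 h4) (pos_L20_B3_b1 t h3 h4) (pos_L20_B3_b2 t h3 h4) (pos_L20_B3_b3 t h3 h4) (pos_L20_B3_b4 t h3 h4) (pos_L20_B3_b5 t h3 h4) (pos_L20_B3_b6 t h3 h4) (pos_L20_B3_b7 t h3 h4)

lemma pos_L1e_B3_b0 (t : ℝ) (h3 : (1/2) ≤ t) (h4 : t ≤ 1) :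
    0 ≤ 1*(1 + 1*t + 5*t^(2:ℕ) + 5*t^(3:ℕ) + 10*t^(4:ℕ) + 10*t^(5:ℕ) + 10*t^(6:ℕ) + 10*t^(7:ℕ) + 5*t^(8:ℕ) + 5*t^(9:ℕ) + 1*t^(10:ℕ) + 1*t^(11:ℕ)) + (1/3)*((9/2) + (5/2)*t + (67/2)*t^(2:ℕ) + (53/2)*t^(3:ℕ) + 93*t^(4:ℕ) + 40*t^(5:ℕ) + 94*t^(6:ℕ) + 13*t^(7:ℕ) + (73/2)*t^(8:ℕ) + (-1/2)*t^(9:ℕ) + (13/2)*t^(10:ℕ) + (5/2)*t^(11:ℕ)) + (1/9)*(1 + (-1)*t + 47*t^(2:ℕ) + (113/2)*t^(3:ℕ) + (429/2)*t^(4:ℕ) + (81/2)*t^(5:ℕ) + (387/2)*t^(6:ℕ) + (-157/2)*t^(7:ℕ) + (53/2)*t^(8:ℕ) + (-139/2)*t^(9:ℕ) + (3/2)*t^(10:ℕ) + (-8)*t^(11:ℕ)) + (1/27)*((181/4)*t^(2:ℕ) + (-81/4)*t^(3:ℕ) + (987/4)*t^(4:ℕ) + (-121)*t^(5:ℕ) + (387/2)*t^(6:ℕ) + (-447/4)*t^(7:ℕ) + (-113/4)*t^(8:ℕ) +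 (-39/2)*t^(9:ℕ) + (-81/4)*t^(10:ℕ) + (-17/2)*t^(11:ℕ)) + (1/81)*((83/2)*t^(2:ℕ) + (-237/4)*t^(3:ℕ) + 137*t^(4:ℕ) + (-531/4)*t^(5:ℕ) + (329/4)*t^(6:ℕ) + (-155/4)*t^(7:ℕ) + (-39)*t^(8:ℕ) + (147/4)*t^(9:ℕ) + (-56)*t^(10:ℕ) + 2*t^(11:ℕ)) + (1/243)*(14*t^(2:ℕ) + (-18)*t^(3:ℕ) + (69/4)*t^(4:ℕ) + (5/2)*t^(5:ℕ) + (-143/4)*t^(6:ℕ) + (67/2)*t^(7:ℕ) + (-91/4)*t^(8:ℕ) + 31*t^(9:ℕ) + (-47)*t^(10:ℕ) + 18*t^(11:ℕ)) + (1/729)*((-273/16)*t^(4:ℕ) + (405/8)*t^(5:ℕ) + (-1147/16)*t^(6:ℕ) + (405/8)*t^(7:ℕ) + (-273/16)*t^(8:ℕ) + 8*t^(9:ℕ) + (-12)*t^(10:ℕ) + 8*t^(11:ℕ)) + (1/2187)*((-15/2)*t^(4:ℕ) + (91/4)*t^(5:ℕ) + (-129/4)*t^(6:ℕ) + (91/4)*t^(7:ℕ) + (-15/2)*t^(8:ℕ)) + (1/6561)*((-1)*t^(4:ℕ)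 + 3*t^(5:ℕ) + (-17/4)*t^(6:ℕ) + 3*t^(7:ℕ) + (-1)*t^(8:ℕ)) - (16467/1000) := by
  have e : 1*(1 + 1*t + 5*t^(2:ℕ) + 5*t^(3:ℕ) + 10*t^(4:ℕ) + 10*t^(5:ℕ) + 10*t^(6:ℕ) + 10*t^(7:ℕ) + 5*t^(8:ℕ) + 5*t^(9:ℕ) + 1*t^(10:ℕ) + 1*t^(11:ℕ)) + (1/3)*((9/2) + (5/2)*t + (67/2)*t^(2:ℕ) + (53/2)*t^(3:ℕ) + 93*t^(4:ℕ) + 40*t^(5:ℕ) + 94*t^(6:ℕ) + 13*t^(7:ℕ) + (73/2)*t^(8:ℕ) + (-1/2)*t^(9:ℕ) + (13/2)*t^(10:ℕ) + (5/2)*t^(11:ℕ)) + (1/9)*(1 + (-1)*t + 47*t^(2:ℕ) + (113/2)*t^(3:ℕ) + (429/2)*t^(4:ℕ) + (81/2)*t^(5:ℕ) + (387/2)*t^(6:ℕ) + (-157/2)*t^(7:ℕ) + (53/2)*t^(8:ℕ) + (-139/2)*t^(9:ℕ) + (3/2)*t^(10:ℕ) + (-8)*t^(11:ℕ)) + (1/27)*((181/4)*t^(2:ℕ) + (-81/4)*t^(3:ℕ) + (987/4)*t^(4:ℕ)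 + (-121)*t^(5:ℕ) + (387/2)*t^(6:ℕ) + (-447/4)*t^(7:ℕ) + (-113/4)*t^(8:ℕ) + (-39/2)*t^(9:ℕ) + (-81/4)*t^(10:ℕ) + (-17/2)*t^(11:ℕ)) + (1/81)*((83/2)*t^(2:ℕ) + (-237/4)*t^(3:ℕ) + 137*t^(4:ℕ) + (-531/4)*t^(5:ℕ) + (329/4)*t^(6:ℕ) + (-155/4)*t^(7:ℕ) + (-39)*t^(8:ℕ) + (147/4)*t^(9:ℕ) + (-56)*t^(10:ℕ) + 2*t^(11:ℕ)) + (1/243)*(14*t^(2:ℕ) + (-18)*t^(3:ℕ) + (69/4)*t^(4:ℕ) + (5/2)*t^(5:ℕ) + (-143/4)*t^(6:ℕ) + (67/2)*t^(7:ℕ) + (-91/4)*t^(8:ℕ) + 31*t^(9:ℕ) + (-47)*t^(10:ℕ) + 18*t^(11:ℕ)) + (1/729)*((-273/16)*t^(4:ℕ) + (405/8)*t^(5:ℕ) + (-1147/16)*t^(6:ℕ) + (405/8)*t^(7:ℕ) + (-273/16)*t^(8:ℕ) + 8*t^(9:ℕ) + (-12)*t^(10:ℕ) + 8*t^(11:ℕ)) + (1/2187)*((-15/2)*t^(4:ℕ)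 + (91/4)*t^(5:ℕ) + (-129/4)*t^(6:ℕ) + (91/4)*t^(7:ℕ) + (-15/2)*t^(8:ℕ)) + (1/6561)*((-1)*t^(4:ℕ) + 3*t^(5:ℕ) + (-17/4)*t^(6:ℕ) + 3*t^(7:ℕ) + (-1)*t^(8:ℕ)) - (16467/1000) = (3073162328/820125)*(1 - t)^(11:ℕ) + (116465990233/820125)*(t - (1/2))*(1 - t)^(10:ℕ) + (443102690791/328050)*(t - (1/2))^(2:ℕ)*(1 - t)^(9:ℕ) + (2130847904423/328050)*(t - (1/2))^(3:ℕ)*(1 - t)^(8:ℕ) + (3149916343648/164025)*(t - (1/2))^(4:ℕ)*(1 - t)^(7:ℕ) + (31120357638286/820125)*(t - (1/2))^(5:ℕ)*(1 - t)^(6:ℕ) + (42657304934536/820125)*(t - (1/2))^(6:ℕ)*(1 - t)^(5:ℕ) + (8190585965248/164025)*(t - (1/2))^(7:ℕ)*(1 - t)^(4:ℕ) + (5429341479424/164025)*(t - (1/2))^(8:ℕ)*(1 - t)^(3:ℕ)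 + (2375887671008/164025)*(t - (1/2))^(9:ℕ)*(1 - t)^(2:ℕ) + (3097035044608/820125)*(t - (1/2))^(10:ℕ)*(1 - t) + (365148019328/820125)*(t - (1/2))^(11:ℕ) := by
    ring
  rw [e]
  have a3 : 0 ≤ t - (1/2) := by linarith
  have a4 : 0 ≤ 1 - t := by linarith
  generalize t - (1/2) = t1 at a3 ⊢
  generalize 1 - t = t2 at a4 ⊢
  positivity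

lemma pos_L1e_B3_b1 (t : ℝ) (h3 : (1/2) ≤ t) (h4 : t ≤ 1) :
    0 ≤ 1*(1 + 1*t + 5*t^(2:ℕ) + 5*t^(3:ℕ) + 10*t^(4:ℕ) + 10*t^(5:ℕ) + 10*t^(6:ℕ) + 10*t^(7:ℕ) + 5*t^(8:ℕ) + 5*t^(9:ℕ) + 1*t^(10:ℕ) + 1*t^(11:ℕ)) + (41/120)*((9/2) + (5/2)*t + (67/2)*t^(2:ℕ) + (53/2)*t^(3:ℕ) + 93*t^(4:ℕ) + 40*t^(5:ℕ) + 94*t^(6:ℕ) + 13*t^(7:ℕ) + (73/2)*t^(8:ℕ) + (-1/2)*t^(9:ℕ) + (13/2)*t^(10:ℕ) + (5/2)*t^(11:ℕ)) + (7/60)*(1 + (-1)*t + 47*t^(2:ℕ) + (113/2)*t^(3:ℕ) + (429/2)*t^(4:ℕ) + (81/2)*t^(5:ℕ) + (387/2)*t^(6:ℕ) + (-157/2)*t^(7:ℕ) + (53/2)*t^(8:ℕ) + (-139/2)*t^(9:ℕ) + (3/2)*t^(10:ℕ) + (-8)*t^(11:ℕ)) + (43/1080)*((181/4)*t^(2:ℕ) + (-81/4)*t^(3:ℕ) + (987/4)*t^(4:ℕ) + (-121)*t^(5:ℕ)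 + (387/2)*t^(6:ℕ) + (-447/4)*t^(7:ℕ) + (-113/4)*t^(8:ℕ) + (-39/2)*t^(9:ℕ) + (-81/4)*t^(10:ℕ) + (-17/2)*t^(11:ℕ)) + (11/810)*((83/2)*t^(2:ℕ) + (-237/4)*t^(3:ℕ) + 137*t^(4:ℕ) + (-531/4)*t^(5:ℕ) + (329/4)*t^(6:ℕ) + (-155/4)*t^(7:ℕ) + (-39)*t^(8:ℕ) + (147/4)*t^(9:ℕ) + (-56)*t^(10:ℕ) + 2*t^(11:ℕ)) + (1/216)*(14*t^(2:ℕ) + (-18)*t^(3:ℕ) + (69/4)*t^(4:ℕ) + (5/2)*t^(5:ℕ) + (-143/4)*t^(6:ℕ) + (67/2)*t^(7:ℕ) + (-91/4)*t^(8:ℕ) + 31*t^(9:ℕ) + (-47)*t^(10:ℕ) + 18*t^(11:ℕ)) + (23/14580)*((-273/16)*t^(4:ℕ) + (405/8)*t^(5:ℕ) + (-1147/16)*t^(6:ℕ) + (405/8)*t^(7:ℕ) + (-273/16)*t^(8:ℕ) + 8*t^(9:ℕ) + (-12)*t^(10:ℕ) + 8*t^(11:ℕ)) + (47/87480)*((-15/2)*t^(4:ℕ) + (91/4)*t^(5:ℕ)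 + (-129/4)*t^(6:ℕ) + (91/4)*t^(7:ℕ) + (-15/2)*t^(8:ℕ)) + (2/10935)*((-1)*t^(4:ℕ) + 3*t^(5:ℕ) + (-17/4)*t^(6:ℕ) + 3*t^(7:ℕ) + (-1)*t^(8:ℕ)) - (16467/1000) := by
  have e : 1*(1 + 1*t + 5*t^(2:ℕ) + 5*t^(3:ℕ) + 10*t^(4:ℕ) + 10*t^(5:ℕ) + 10*t^(6:ℕ) + 10*t^(7:ℕ) + 5*t^(8:ℕ) + 5*t^(9:ℕ) + 1*t^(10:ℕ) + 1*t^(11:ℕ)) + (41/120)*((9/2) + (5/2)*t + (67/2)*t^(2:ℕ) + (53/2)*t^(3:ℕ) + 93*t^(4:ℕ) + 40*t^(5:ℕ) + 94*t^(6:ℕ) + 13*t^(7:ℕ) + (73/2)*t^(8:ℕ) + (-1/2)*t^(9:ℕ) + (13/2)*t^(10:ℕ) + (5/2)*t^(11:ℕ)) + (7/60)*(1 + (-1)*t + 47*t^(2:ℕ) + (113/2)*t^(3:ℕ) + (429/2)*t^(4:ℕ) + (81/2)*t^(5:ℕ) + (387/2)*t^(6:ℕ) + (-157/2)*t^(7:ℕ) + (53/2)*t^(8:ℕ) + (-139/2)*t^(9:ℕ) + (3/2)*t^(10:ℕ)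 + (-8)*t^(11:ℕ)) + (43/1080)*((181/4)*t^(2:ℕ) + (-81/4)*t^(3:ℕ) + (987/4)*t^(4:ℕ) + (-121)*t^(5:ℕ) + (387/2)*t^(6:ℕ) + (-447/4)*t^(7:ℕ) + (-113/4)*t^(8:ℕ) + (-39/2)*t^(9:ℕ) + (-81/4)*t^(10:ℕ) + (-17/2)*t^(11:ℕ)) + (11/810)*((83/2)*t^(2:ℕ) + (-237/4)*t^(3:ℕ) + 137*t^(4:ℕ) + (-531/4)*t^(5:ℕ) + (329/4)*t^(6:ℕ) + (-155/4)*t^(7:ℕ) + (-39)*t^(8:ℕ) + (147/4)*t^(9:ℕ) + (-56)*t^(10:ℕ) + 2*t^(11:ℕ)) + (1/216)*(14*t^(2:ℕ) + (-18)*t^(3:ℕ) + (69/4)*t^(4:ℕ) + (5/2)*t^(5:ℕ) + (-143/4)*t^(6:ℕ) + (67/2)*t^(7:ℕ) + (-91/4)*t^(8:ℕ) + 31*t^(9:ℕ) + (-47)*t^(10:ℕ) + 18*t^(11:ℕ)) + (23/14580)*((-273/16)*t^(4:ℕ) + (405/8)*t^(5:ℕ) + (-1147/16)*t^(6:ℕ) + (405/8)*t^(7:ℕ) + (-273/16)*t^(8:ℕ)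 + 8*t^(9:ℕ) + (-12)*t^(10:ℕ) + 8*t^(11:ℕ)) + (47/87480)*((-15/2)*t^(4:ℕ) + (91/4)*t^(5:ℕ) + (-129/4)*t^(6:ℕ) + (91/4)*t^(7:ℕ) + (-15/2)*t^(8:ℕ)) + (2/10935)*((-1)*t^(4:ℕ) + 3*t^(5:ℕ) + (-17/4)*t^(6:ℕ) + 3*t^(7:ℕ) + (-1)*t^(8:ℕ)) - (16467/1000) = (20814220891/4374000)*(1 - t)^(11:ℕ) + (682651645601/4374000)*(t - (1/2))*(1 - t)^(10:ℕ) + (629658110473/437400)*(t - (1/2))^(2:ℕ)*(1 - t)^(9:ℕ) + (2988287222009/437400)*(t - (1/2))^(3:ℕ)*(1 - t)^(8:ℕ) + (365448572552/18225)*(t - (1/2))^(4:ℕ)*(1 - t)^(7:ℕ) + (7187832047233/182250)*(t - (1/2))^(5:ℕ)*(1 - t)^(6:ℕ) + (14731184062112/273375)*(t - (1/2))^(6:ℕ)*(1 - t)^(5:ℕ) + (2821613133716/54675)*(t - (1/2))^(7:ℕ)*(1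 - t)^(4:ℕ) + (1866640827208/54675)*(t - (1/2))^(8:ℕ)*(1 - t)^(3:ℕ) + (815405227496/54675)*(t - (1/2))^(9:ℕ)*(1 - t)^(2:ℕ) + (353710090112/91125)*(t - (1/2))^(10:ℕ)*(1 - t) + (41633112992/91125)*(t - (1/2))^(11:ℕ) := by
    ring
  rw [e]
  have a3 : 0 ≤ t - (1/2) := by linarith
  have a4 : 0 ≤ 1 - t := by linarith
  generalize t - (1/2) = t1 at a3 ⊢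
  generalize 1 - t = t2 at a4 ⊢
  positivity

lemma pos_L1e_B3_b2 (t : ℝ) (h3 : (1/2) ≤ t) (h4 : t ≤ 1) :
    0 ≤ 1*(1 + 1*t + 5*t^(2:ℕ) + 5*t^(3:ℕ) + 10*t^(4:ℕ) + 10*t^(5:ℕ) + 10*t^(6:ℕ) + 10*t^(7:ℕ) + 5*t^(8:ℕ) + 5*t^(9:ℕ) + 1*t^(10:ℕ) + 1*t^(11:ℕ)) + (7/20)*((9/2) + (5/2)*t + (67/2)*t^(2:ℕ) + (53/2)*t^(3:ℕ) + 93*t^(4:ℕ) + 40*t^(5:ℕ) + 94*t^(6:ℕ) + 13*t^(7:ℕ) + (73/2)*t^(8:ℕ) + (-1/2)*t^(9:ℕ) + (13/2)*t^(10:ℕ) + (5/2)*t^(11:ℕ)) + (257/2100)*(1 + (-1)*t + 47*t^(2:ℕ) + (113/2)*t^(3:ℕ) + (429/2)*t^(4:ℕ) + (81/2)*t^(5:ℕ) + (387/2)*t^(6:ℕ) + (-157/2)*t^(7:ℕ) + (53/2)*t^(8:ℕ) + (-139/2)*t^(9:ℕ) + (3/2)*t^(10:ℕ) + (-8)*t^(11:ℕ)) + (202/4725)*((181/4)*t^(2:ℕ)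 + (-81/4)*t^(3:ℕ) + (987/4)*t^(4:ℕ) + (-121)*t^(5:ℕ) + (387/2)*t^(6:ℕ) + (-447/4)*t^(7:ℕ) + (-113/4)*t^(8:ℕ) + (-39/2)*t^(9:ℕ) + (-81/4)*t^(10:ℕ) + (-17/2)*t^(11:ℕ)) + (47/3150)*((83/2)*t^(2:ℕ) + (-237/4)*t^(3:ℕ) + 137*t^(4:ℕ) + (-531/4)*t^(5:ℕ) + (329/4)*t^(6:ℕ) + (-155/4)*t^(7:ℕ) + (-39)*t^(8:ℕ) + (147/4)*t^(9:ℕ) + (-56)*t^(10:ℕ) + 2*t^(11:ℕ)) + (59/11340)*(14*t^(2:ℕ) + (-18)*t^(3:ℕ) + (69/4)*t^(4:ℕ) + (5/2)*t^(5:ℕ) + (-143/4)*t^(6:ℕ) + (67/2)*t^(7:ℕ) + (-91/4)*t^(8:ℕ) + 31*t^(9:ℕ) + (-47)*t^(10:ℕ) + 18*t^(11:ℕ)) + (37/20412)*((-273/16)*t^(4:ℕ) + (405/8)*t^(5:ℕ) + (-1147/16)*t^(6:ℕ) + (405/8)*t^(7:ℕ) + (-273/16)*t^(8:ℕ) + 8*t^(9:ℕ) + (-12)*t^(10:ℕ)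 + 8*t^(11:ℕ)) + (23/36450)*((-15/2)*t^(4:ℕ) + (91/4)*t^(5:ℕ) + (-129/4)*t^(6:ℕ) + (91/4)*t^(7:ℕ) + (-15/2)*t^(8:ℕ)) + (4/18225)*((-1)*t^(4:ℕ) + 3*t^(5:ℕ) + (-17/4)*t^(6:ℕ) + 3*t^(7:ℕ) + (-1)*t^(8:ℕ)) - (16467/1000) := by
  have e : 1*(1 + 1*t + 5*t^(2:ℕ) + 5*t^(3:ℕ) + 10*t^(4:ℕ) + 10*t^(5:ℕ) + 10*t^(6:ℕ) + 10*t^(7:ℕ) + 5*t^(8:ℕ) + 5*t^(9:ℕ) + 1*t^(10:ℕ) + 1*t^(11:ℕ)) + (7/20)*((9/2) + (5/2)*t + (67/2)*t^(2:ℕ) + (53/2)*t^(3:ℕ) + 93*t^(4:ℕ) + 40*t^(5:ℕ) + 94*t^(6:ℕ) + 13*t^(7:ℕ) + (73/2)*t^(8:ℕ) + (-1/2)*t^(9:ℕ) + (13/2)*t^(10:ℕ) + (5/2)*t^(11:ℕ)) + (257/2100)*(1 + (-1)*t + 47*t^(2:ℕ) + (113/2)*t^(3:ℕ) + (429/2)*t^(4:ℕ) + (81/2)*t^(5:ℕ) + (387/2)*t^(6:ℕ)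 + (-157/2)*t^(7:ℕ) + (53/2)*t^(8:ℕ) + (-139/2)*t^(9:ℕ) + (3/2)*t^(10:ℕ) + (-8)*t^(11:ℕ)) + (202/4725)*((181/4)*t^(2:ℕ) + (-81/4)*t^(3:ℕ) + (987/4)*t^(4:ℕ) + (-121)*t^(5:ℕ) + (387/2)*t^(6:ℕ) + (-447/4)*t^(7:ℕ) + (-113/4)*t^(8:ℕ) + (-39/2)*t^(9:ℕ) + (-81/4)*t^(10:ℕ) + (-17/2)*t^(11:ℕ)) + (47/3150)*((83/2)*t^(2:ℕ) + (-237/4)*t^(3:ℕ) + 137*t^(4:ℕ) + (-531/4)*t^(5:ℕ) + (329/4)*t^(6:ℕ) + (-155/4)*t^(7:ℕ) + (-39)*t^(8:ℕ) + (147/4)*t^(9:ℕ) + (-56)*t^(10:ℕ) + 2*t^(11:ℕ)) + (59/11340)*(14*t^(2:ℕ) + (-18)*t^(3:ℕ) + (69/4)*t^(4:ℕ) + (5/2)*t^(5:ℕ) + (-143/4)*t^(6:ℕ) + (67/2)*t^(7:ℕ) + (-91/4)*t^(8:ℕ) + 31*t^(9:ℕ) + (-47)*t^(10:ℕ) + 18*t^(11:ℕ)) + (37/20412)*((-273/16)*t^(4:ℕ)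 + (405/8)*t^(5:ℕ) + (-1147/16)*t^(6:ℕ) + (405/8)*t^(7:ℕ) + (-273/16)*t^(8:ℕ) + 8*t^(9:ℕ) + (-12)*t^(10:ℕ) + 8*t^(11:ℕ)) + (23/36450)*((-15/2)*t^(4:ℕ) + (91/4)*t^(5:ℕ) + (-129/4)*t^(6:ℕ) + (91/4)*t^(7:ℕ) + (-15/2)*t^(8:ℕ)) + (4/18225)*((-1)*t^(4:ℕ) + 3*t^(5:ℕ) + (-17/4)*t^(6:ℕ) + 3*t^(7:ℕ) + (-1)*t^(8:ℕ)) - (16467/1000) = (3694043869/637875)*(1 - t)^(11:ℕ) + (124241409341/729000)*(t - (1/2))*(1 - t)^(10:ℕ) + (62471363237/40824)*(t - (1/2))^(2:ℕ)*(1 - t)^(9:ℕ) + (271233653029/37800)*(t - (1/2))^(3:ℕ)*(1 - t)^(8:ℕ) + (177908259163/8505)*(t - (1/2))^(4:ℕ)*(1 - t)^(7:ℕ) + (829521938677/20250)*(t - (1/2))^(5:ℕ)*(1 - t)^(6:ℕ) + (5084581901074/91125)*(t -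 (1/2))^(6:ℕ)*(1 - t)^(5:ℕ) + (6801329737432/127575)*(t - (1/2))^(7:ℕ)*(1 - t)^(4:ℕ) + (1496909188048/42525)*(t - (1/2))^(8:ℕ)*(1 - t)^(3:ℕ) + (55951926472/3645)*(t - (1/2))^(9:ℕ)*(1 - t)^(2:ℕ) + (10470335488/2625)*(t - (1/2))^(10:ℕ)*(1 - t) + (298975595104/637875)*(t - (1/2))^(11:ℕ) := by
    ring
  rw [e]
  have a3 : 0 ≤ t - (1/2) := by linarith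
  have a4 : 0 ≤ 1 - t := by linarith
  generalize t - (1/2) = t1 at a3 ⊢
  generalize 1 - t = t2 at a4 ⊢
  positivity

lemma pos_L1e_B3_b3 (t : ℝ) (h3 : (1/2) ≤ t) (h4 : t ≤ 1) :
    0 ≤ 1*(1 + 1*t + 5*t^(2:ℕ) + 5*t^(3:ℕ) + 10*t^(4:ℕ) + 10*t^(5:ℕ) + 10*t^(6:ℕ) + 10*t^(7:ℕ) + 5*t^(8:ℕ) + 5*t^(9:ℕ) + 1*t^(10:ℕ) + 1*t^(11:ℕ)) + (43/120)*((9/2) + (5/2)*t + (67/2)*t^(2:ℕ) + (53/2)*t^(3:ℕ) + 93*t^(4:ℕ) + 40*t^(5:ℕ) + 94*t^(6:ℕ) + 13*t^(7:ℕ) + (73/2)*t^(8:ℕ) + (-1/2)*t^(9:ℕ) + (13/2)*t^(10:ℕ) + (5/2)*t^(11:ℕ)) + (202/1575)*(1 + (-1)*t + 47*t^(2:ℕ) + (113/2)*t^(3:ℕ) + (429/2)*t^(4:ℕ) + (81/2)*t^(5:ℕ) + (387/2)*t^(6:ℕ) + (-157/2)*t^(7:ℕ) + (53/2)*t^(8:ℕ) +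 (-139/2)*t^(9:ℕ) + (3/2)*t^(10:ℕ) + (-8)*t^(11:ℕ)) + (619/13500)*((181/4)*t^(2:ℕ) + (-81/4)*t^(3:ℕ) + (987/4)*t^(4:ℕ) + (-121)*t^(5:ℕ) + (387/2)*t^(6:ℕ) + (-447/4)*t^(7:ℕ) + (-113/4)*t^(8:ℕ) + (-39/2)*t^(9:ℕ) + (-81/4)*t^(10:ℕ) + (-17/2)*t^(11:ℕ)) + (2321/141750)*((83/2)*t^(2:ℕ) + (-237/4)*t^(3:ℕ) + 137*t^(4:ℕ) + (-531/4)*t^(5:ℕ) + (329/4)*t^(6:ℕ) + (-155/4)*t^(7:ℕ) + (-39)*t^(8:ℕ) + (147/4)*t^(9:ℕ) + (-56)*t^(10:ℕ) + 2*t^(11:ℕ)) + (1987/340200)*(14*t^(2:ℕ) + (-18)*t^(3:ℕ) + (69/4)*t^(4:ℕ) + (5/2)*t^(5:ℕ) + (-143/4)*t^(6:ℕ) + (67/2)*t^(7:ℕ) + (-91/4)*t^(8:ℕ) + 31*t^(9:ℕ) + (-47)*t^(10:ℕ) + 18*t^(11:ℕ)) + (59/28350)*((-273/16)*t^(4:ℕ) + (405/8)*t^(5:ℕ)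 + (-1147/16)*t^(6:ℕ) + (405/8)*t^(7:ℕ) + (-273/16)*t^(8:ℕ) + 8*t^(9:ℕ) + (-12)*t^(10:ℕ) + 8*t^(11:ℕ)) + (1/1350)*((-15/2)*t^(4:ℕ) + (91/4)*t^(5:ℕ) + (-129/4)*t^(6:ℕ) + (91/4)*t^(7:ℕ) + (-15/2)*t^(8:ℕ)) + (8/30375)*((-1)*t^(4:ℕ) + 3*t^(5:ℕ) + (-17/4)*t^(6:ℕ) + 3*t^(7:ℕ) + (-1)*t^(8:ℕ)) - (16467/1000) := by
  have e : 1*(1 + 1*t + 5*t^(2:ℕ) + 5*t^(3:ℕ) + 10*t^(4:ℕ) + 10*t^(5:ℕ) + 10*t^(6:ℕ) + 10*t^(7:ℕ) + 5*t^(8:ℕ) + 5*t^(9:ℕ) + 1*t^(10:ℕ) + 1*t^(11:ℕ)) + (43/120)*((9/2) + (5/2)*t + (67/2)*t^(2:ℕ) + (53/2)*t^(3:ℕ) + 93*t^(4:ℕ) + 40*t^(5:ℕ) + 94*t^(6:ℕ) + 13*t^(7:ℕ) + (73/2)*t^(8:ℕ) + (-1/2)*t^(9:ℕ) + (13/2)*t^(10:ℕ) + (5/2)*t^(11:ℕ)) + (202/1575)*(1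 + (-1)*t + 47*t^(2:ℕ) + (113/2)*t^(3:ℕ) + (429/2)*t^(4:ℕ) + (81/2)*t^(5:ℕ) + (387/2)*t^(6:ℕ) + (-157/2)*t^(7:ℕ) + (53/2)*t^(8:ℕ) + (-139/2)*t^(9:ℕ) + (3/2)*t^(10:ℕ) + (-8)*t^(11:ℕ)) + (619/13500)*((181/4)*t^(2:ℕ) + (-81/4)*t^(3:ℕ) + (987/4)*t^(4:ℕ) + (-121)*t^(5:ℕ) + (387/2)*t^(6:ℕ) + (-447/4)*t^(7:ℕ) + (-113/4)*t^(8:ℕ) + (-39/2)*t^(9:ℕ) + (-81/4)*t^(10:ℕ) + (-17/2)*t^(11:ℕ)) + (2321/141750)*((83/2)*t^(2:ℕ) + (-237/4)*t^(3:ℕ) + 137*t^(4:ℕ) + (-531/4)*t^(5:ℕ) + (329/4)*t^(6:ℕ) + (-155/4)*t^(7:ℕ) + (-39)*t^(8:ℕ) + (147/4)*t^(9:ℕ) + (-56)*t^(10:ℕ) + 2*t^(11:ℕ)) + (1987/340200)*(14*t^(2:ℕ) + (-18)*t^(3:ℕ) + (69/4)*t^(4:ℕ) + (5/2)*t^(5:ℕ) + (-143/4)*t^(6:ℕ)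 + (67/2)*t^(7:ℕ) + (-91/4)*t^(8:ℕ) + 31*t^(9:ℕ) + (-47)*t^(10:ℕ) + 18*t^(11:ℕ)) + (59/28350)*((-273/16)*t^(4:ℕ) + (405/8)*t^(5:ℕ) + (-1147/16)*t^(6:ℕ) + (405/8)*t^(7:ℕ) + (-273/16)*t^(8:ℕ) + 8*t^(9:ℕ) + (-12)*t^(10:ℕ) + 8*t^(11:ℕ)) + (1/1350)*((-15/2)*t^(4:ℕ) + (91/4)*t^(5:ℕ) + (-129/4)*t^(6:ℕ) + (91/4)*t^(7:ℕ) + (-15/2)*t^(8:ℕ)) + (8/30375)*((-1)*t^(4:ℕ) + 3*t^(5:ℕ) + (-17/4)*t^(6:ℕ) + 3*t^(7:ℕ) + (-1)*t^(8:ℕ)) - (16467/1000) = (7762474633/1134000)*(1 - t)^(11:ℕ) + (314830925063/1701000)*(t - (1/2))*(1 - t)^(10:ℕ) + (115022218411/70875)*(t - (1/2))^(2:ℕ)*(1 - t)^(9:ℕ) + (3200558219849/425250)*(t - (1/2))^(3:ℕ)*(1 - t)^(8:ℕ) + (927140901791/42525)*(t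 - (1/2))^(4:ℕ)*(1 - t)^(7:ℕ) + (9040870251838/212625)*(t - (1/2))^(5:ℕ)*(1 - t)^(6:ℕ) + (12278729625076/212625)*(t - (1/2))^(6:ℕ)*(1 - t)^(5:ℕ) + (11705351619224/212625)*(t - (1/2))^(7:ℕ)*(1 - t)^(4:ℕ) + (2571416794816/70875)*(t - (1/2))^(8:ℕ)*(1 - t)^(3:ℕ) + (373155487744/23625)*(t - (1/2))^(9:ℕ)*(1 - t)^(2:ℕ) + (174251906048/42525)*(t - (1/2))^(10:ℕ)*(1 - t) + (20442413312/42525)*(t - (1/2))^(11:ℕ) := by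
    ring
  rw [e]
  have a3 : 0 ≤ t - (1/2) := by linarith
  have a4 : 0 ≤ 1 - t := by linarith
  generalize t - (1/2) = t1 at a3 ⊢
  generalize 1 - t = t2 at a4 ⊢
  positivity

lemma pos_L1e_B3_b4 (t : ℝ) (h3 : (1/2) ≤ t) (h4 : t ≤ 1) :
    0 ≤ 1*(1 + 1*t + 5*t^(2:ℕ) + 5*t^(3:ℕ) + 10*t^(4:ℕ) + 10*t^(5:ℕ) + 10*t^(6:ℕ) + 10*t^(7:ℕ) + 5*t^(8:ℕ) + 5*t^(9:ℕ) + 1*t^(10:ℕ) + 1*t^(11:ℕ)) + (11/30)*((9/2) + (5/2)*t + (67/2)*t^(2:ℕ) + (53/2)*t^(3:ℕ) + 93*t^(4:ℕ) + 40*t^(5:ℕ) + 94*t^(6:ℕ) + 13*t^(7:ℕ) + (73/2)*t^(8:ℕ) + (-1/2)*t^(9:ℕ) + (13/2)*t^(10:ℕ) + (5/2)*t^(11:ℕ)) + (47/350)*(1 + (-1)*t + 47*t^(2:ℕ) + (113/2)*t^(3:ℕ) + (429/2)*t^(4:ℕ) + (81/2)*t^(5:ℕ)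 + (387/2)*t^(6:ℕ) + (-157/2)*t^(7:ℕ) + (53/2)*t^(8:ℕ) + (-139/2)*t^(9:ℕ) + (3/2)*t^(10:ℕ) + (-8)*t^(11:ℕ)) + (2321/47250)*((181/4)*t^(2:ℕ) + (-81/4)*t^(3:ℕ) + (987/4)*t^(4:ℕ) + (-121)*t^(5:ℕ) + (387/2)*t^(6:ℕ) + (-447/4)*t^(7:ℕ) + (-113/4)*t^(8:ℕ) + (-39/2)*t^(9:ℕ) + (-81/4)*t^(10:ℕ) + (-17/2)*t^(11:ℕ)) + (63601/3543750)*((83/2)*t^(2:ℕ) + (-237/4)*t^(3:ℕ) + 137*t^(4:ℕ) + (-531/4)*t^(5:ℕ) + (329/4)*t^(6:ℕ) + (-155/4)*t^(7:ℕ) + (-39)*t^(8:ℕ) + (147/4)*t^(9:ℕ) + (-56)*t^(10:ℕ) + 2*t^(11:ℕ)) + (2321/354375)*(14*t^(2:ℕ) + (-18)*t^(3:ℕ) + (69/4)*t^(4:ℕ) + (5/2)*t^(5:ℕ) + (-143/4)*t^(6:ℕ) + (67/2)*t^(7:ℕ) + (-91/4)*t^(8:ℕ) + 31*t^(9:ℕ) + (-47)*t^(10:ℕ) +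 18*t^(11:ℕ)) + (94/39375)*((-273/16)*t^(4:ℕ) + (405/8)*t^(5:ℕ) + (-1147/16)*t^(6:ℕ) + (405/8)*t^(7:ℕ) + (-273/16)*t^(8:ℕ) + 8*t^(9:ℕ) + (-12)*t^(10:ℕ) + 8*t^(11:ℕ)) + (44/50625)*((-15/2)*t^(4:ℕ) + (91/4)*t^(5:ℕ) + (-129/4)*t^(6:ℕ) + (91/4)*t^(7:ℕ) + (-15/2)*t^(8:ℕ)) + (16/50625)*((-1)*t^(4:ℕ) + 3*t^(5:ℕ) + (-17/4)*t^(6:ℕ) + 3*t^(7:ℕ) + (-1)*t^(8:ℕ)) - (16467/1000) := by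
  have e : 1*(1 + 1*t + 5*t^(2:ℕ) + 5*t^(3:ℕ) + 10*t^(4:ℕ) + 10*t^(5:ℕ) + 10*t^(6:ℕ) + 10*t^(7:ℕ) + 5*t^(8:ℕ) + 5*t^(9:ℕ) + 1*t^(10:ℕ) + 1*t^(11:ℕ)) + (11/30)*((9/2) + (5/2)*t + (67/2)*t^(2:ℕ) + (53/2)*t^(3:ℕ) + 93*t^(4:ℕ) + 40*t^(5:ℕ) + 94*t^(6:ℕ) + 13*t^(7:ℕ) + (73/2)*t^(8:ℕ) + (-1/2)*t^(9:ℕ) + (13/2)*t^(10:ℕ) + (5/2)*t^(11:ℕ)) + (47/350)*(1 + (-1)*t + 47*t^(2:ℕ) + (113/2)*t^(3:ℕ) + (429/2)*t^(4:ℕ) + (81/2)*t^(5:ℕ) + (387/2)*t^(6:ℕ) + (-157/2)*t^(7:ℕ) + (53/2)*t^(8:ℕ) + (-139/2)*t^(9:ℕ) + (3/2)*t^(10:ℕ) + (-8)*t^(11:ℕ)) + (2321/47250)*((181/4)*t^(2:ℕ) + (-81/4)*t^(3:ℕ) + (987/4)*t^(4:ℕ) + (-121)*t^(5:ℕ) + (387/2)*t^(6:ℕ) + (-447/4)*t^(7:ℕ) + (-113/4)*t^(8:ℕ)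 + (-39/2)*t^(9:ℕ) + (-81/4)*t^(10:ℕ) + (-17/2)*t^(11:ℕ)) + (63601/3543750)*((83/2)*t^(2:ℕ) + (-237/4)*t^(3:ℕ) + 137*t^(4:ℕ) + (-531/4)*t^(5:ℕ) + (329/4)*t^(6:ℕ) + (-155/4)*t^(7:ℕ) + (-39)*t^(8:ℕ) + (147/4)*t^(9:ℕ) + (-56)*t^(10:ℕ) + 2*t^(11:ℕ)) + (2321/354375)*(14*t^(2:ℕ) + (-18)*t^(3:ℕ) + (69/4)*t^(4:ℕ) + (5/2)*t^(5:ℕ) + (-143/4)*t^(6:ℕ) + (67/2)*t^(7:ℕ) + (-91/4)*t^(8:ℕ) + 31*t^(9:ℕ) + (-47)*t^(10:ℕ) + 18*t^(11:ℕ)) + (94/39375)*((-273/16)*t^(4:ℕ) + (405/8)*t^(5:ℕ) + (-1147/16)*t^(6:ℕ) + (405/8)*t^(7:ℕ) + (-273/16)*t^(8:ℕ) + 8*t^(9:ℕ) + (-12)*t^(10:ℕ) + 8*t^(11:ℕ)) + (44/50625)*((-15/2)*t^(4:ℕ) + (91/4)*t^(5:ℕ) + (-129/4)*t^(6:ℕ) + (91/4)*t^(7:ℕ)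 + (-15/2)*t^(8:ℕ)) + (16/50625)*((-1)*t^(4:ℕ) + 3*t^(5:ℕ) + (-17/4)*t^(6:ℕ) + 3*t^(7:ℕ) + (-1)*t^(8:ℕ)) - (16467/1000) = (56141114039/7087500)*(1 - t)^(11:ℕ) + (1417864904153/7087500)*(t - (1/2))*(1 - t)^(10:ℕ) + (6086260753801/3543750)*(t - (1/2))^(2:ℕ)*(1 - t)^(9:ℕ) + (13970286238358/1771875)*(t - (1/2))^(3:ℕ)*(1 - t)^(8:ℕ) + (8046036212576/354375)*(t - (1/2))^(4:ℕ)*(1 - t)^(7:ℕ) + (11164970623984/253125)*(t - (1/2))^(5:ℕ)*(1 - t)^(6:ℕ) + (15121216838792/253125)*(t - (1/2))^(6:ℕ)*(1 - t)^(5:ℕ) + (4794620421136/84375)*(t - (1/2))^(7:ℕ)*(1 - t)^(4:ℕ) + (66236050240448/1771875)*(t - (1/2))^(8:ℕ)*(1 - t)^(3:ℕ) + (28788752163328/1771875)*(t - (1/2))^(9:ℕ)*(1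 - t)^(2:ℕ) + (1491357035264/354375)*(t - (1/2))^(10:ℕ)*(1 - t) + (174674645248/354375)*(t - (1/2))^(11:ℕ) := by
    ring
  rw [e]
  have a3 : 0 ≤ t - (1/2) := by linarith
  have a4 : 0 ≤ 1 - t := by linarith
  generalize t - (1/2) = t1 at a3 ⊢
  generalize 1 - t = t2 at a4 ⊢
  positivity

lemma pos_L1e_B3_b5 (t : ℝ) (h3 : (1/2) ≤ t) (h4 : t ≤ 1) :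
    0 ≤ 1*(1 + 1*t + 5*t^(2:ℕ) + 5*t^(3:ℕ) + 10*t^(4:ℕ) + 10*t^(5:ℕ) + 10*t^(6:ℕ) + 10*t^(7:ℕ) + 5*t^(8:ℕ) + 5*t^(9:ℕ) + 1*t^(10:ℕ) + 1*t^(11:ℕ)) + (3/8)*((9/2) + (5/2)*t + (67/2)*t^(2:ℕ) + (53/2)*t^(3:ℕ) + 93*t^(4:ℕ) + 40*t^(5:ℕ) + 94*t^(6:ℕ) + 13*t^(7:ℕ) + (73/2)*t^(8:ℕ) + (-1/2)*t^(9:ℕ) + (13/2)*t^(10:ℕ) + (5/2)*t^(11:ℕ)) + (59/420)*(1 + (-1)*t + 47*t^(2:ℕ) + (113/2)*t^(3:ℕ) + (429/2)*t^(4:ℕ) + (81/2)*t^(5:ℕ) + (387/2)*t^(6:ℕ) + (-157/2)*t^(7:ℕ) + (53/2)*t^(8:ℕ) + (-139/2)*t^(9:ℕ) + (3/2)*t^(10:ℕ) + (-8)*t^(11:ℕ)) + (1987/37800)*((181/4)*t^(2:ℕ) + (-81/4)*t^(3:ℕ) + (987/4)*t^(4:ℕ) + (-121)*t^(5:ℕ) + (387/2)*t^(6:ℕ) + (-447/4)*t^(7:ℕ) + (-113/4)*t^(8:ℕ)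 + (-39/2)*t^(9:ℕ) + (-81/4)*t^(10:ℕ) + (-17/2)*t^(11:ℕ)) + (2321/118125)*((83/2)*t^(2:ℕ) + (-237/4)*t^(3:ℕ) + 137*t^(4:ℕ) + (-531/4)*t^(5:ℕ) + (329/4)*t^(6:ℕ) + (-155/4)*t^(7:ℕ) + (-39)*t^(8:ℕ) + (147/4)*t^(9:ℕ) + (-56)*t^(10:ℕ) + 2*t^(11:ℕ)) + (619/84375)*(14*t^(2:ℕ) + (-18)*t^(3:ℕ) + (69/4)*t^(4:ℕ) + (5/2)*t^(5:ℕ) + (-143/4)*t^(6:ℕ) + (67/2)*t^(7:ℕ) + (-91/4)*t^(8:ℕ) + 31*t^(9:ℕ) + (-47)*t^(10:ℕ) + 18*t^(11:ℕ)) + (1616/590625)*((-273/16)*t^(4:ℕ) + (405/8)*t^(5:ℕ) + (-1147/16)*t^(6:ℕ) + (405/8)*t^(7:ℕ) + (-273/16)*t^(8:ℕ) + 8*t^(9:ℕ) + (-12)*t^(10:ℕ) + 8*t^(11:ℕ)) + (86/84375)*((-15/2)*t^(4:ℕ) + (91/4)*t^(5:ℕ) + (-129/4)*t^(6:ℕ) + (91/4)*t^(7:ℕ) +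 (-15/2)*t^(8:ℕ)) + (32/84375)*((-1)*t^(4:ℕ) + 3*t^(5:ℕ) + (-17/4)*t^(6:ℕ) + 3*t^(7:ℕ) + (-1)*t^(8:ℕ)) - (16467/1000) := by
  have e : 1*(1 + 1*t + 5*t^(2:ℕ) + 5*t^(3:ℕ) + 10*t^(4:ℕ) + 10*t^(5:ℕ) + 10*t^(6:ℕ) + 10*t^(7:ℕ) + 5*t^(8:ℕ) + 5*t^(9:ℕ) + 1*t^(10:ℕ) + 1*t^(11:ℕ)) + (3/8)*((9/2) + (5/2)*t + (67/2)*t^(2:ℕ) + (53/2)*t^(3:ℕ) + 93*t^(4:ℕ) + 40*t^(5:ℕ) + 94*t^(6:ℕ) + 13*t^(7:ℕ) + (73/2)*t^(8:ℕ) + (-1/2)*t^(9:ℕ) + (13/2)*t^(10:ℕ) + (5/2)*t^(11:ℕ)) + (59/420)*(1 + (-1)*t + 47*t^(2:ℕ) + (113/2)*t^(3:ℕ) + (429/2)*t^(4:ℕ) + (81/2)*t^(5:ℕ) + (387/2)*t^(6:ℕ) + (-157/2)*t^(7:ℕ) + (53/2)*t^(8:ℕ) + (-139/2)*t^(9:ℕ) + (3/2)*t^(10:ℕ) + (-8)*t^(11:ℕ)) + (1987/37800)*((181/4)*t^(2:ℕ)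 + (-81/4)*t^(3:ℕ) + (987/4)*t^(4:ℕ) + (-121)*t^(5:ℕ) + (387/2)*t^(6:ℕ) + (-447/4)*t^(7:ℕ) + (-113/4)*t^(8:ℕ) + (-39/2)*t^(9:ℕ) + (-81/4)*t^(10:ℕ) + (-17/2)*t^(11:ℕ)) + (2321/118125)*((83/2)*t^(2:ℕ) + (-237/4)*t^(3:ℕ) + 137*t^(4:ℕ) + (-531/4)*t^(5:ℕ) + (329/4)*t^(6:ℕ) + (-155/4)*t^(7:ℕ) + (-39)*t^(8:ℕ) + (147/4)*t^(9:ℕ) + (-56)*t^(10:ℕ) + 2*t^(11:ℕ)) + (619/84375)*(14*t^(2:ℕ) + (-18)*t^(3:ℕ) + (69/4)*t^(4:ℕ) + (5/2)*t^(5:ℕ) + (-143/4)*t^(6:ℕ) + (67/2)*t^(7:ℕ) + (-91/4)*t^(8:ℕ) + 31*t^(9:ℕ) + (-47)*t^(10:ℕ) + 18*t^(11:ℕ)) + (1616/590625)*((-273/16)*t^(4:ℕ) + (405/8)*t^(5:ℕ) + (-1147/16)*t^(6:ℕ) + (405/8)*t^(7:ℕ) + (-273/16)*t^(8:ℕ) + 8*t^(9:ℕ) + (-12)*t^(10:ℕ)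 + 8*t^(11:ℕ)) + (86/84375)*((-15/2)*t^(4:ℕ) + (91/4)*t^(5:ℕ) + (-129/4)*t^(6:ℕ) + (91/4)*t^(7:ℕ) + (-15/2)*t^(8:ℕ)) + (32/84375)*((-1)*t^(4:ℕ) + 3*t^(5:ℕ) + (-17/4)*t^(6:ℕ) + 3*t^(7:ℕ) + (-1)*t^(8:ℕ)) - (16467/1000) = (17046582323/1890000)*(1 - t)^(11:ℕ) + (678288415769/3150000)*(t - (1/2))*(1 - t)^(10:ℕ) + (4285618663729/2362500)*(t - (1/2))^(2:ℕ)*(1 - t)^(9:ℕ) + (9745448015447/1181250)*(t - (1/2))^(3:ℕ)*(1 - t)^(8:ℕ) + (3100938168607/131250)*(t - (1/2))^(4:ℕ)*(1 - t)^(7:ℕ) + (27008884054757/590625)*(t - (1/2))^(5:ℕ)*(1 - t)^(6:ℕ) + (12160576009406/196875)*(t - (1/2))^(6:ℕ)*(1 - t)^(5:ℕ) + (34630342120112/590625)*(t - (1/2))^(7:ℕ)*(1 - t)^(4:ℕ) +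 (22741186351264/590625)*(t - (1/2))^(8:ℕ)*(1 - t)^(3:ℕ) + (9868427544896/590625)*(t - (1/2))^(9:ℕ)*(1 - t)^(2:ℕ) + (2552124559232/590625)*(t - (1/2))^(10:ℕ)*(1 - t) + (99478648576/196875)*(t - (1/2))^(11:ℕ) := by
    ring
  rw [e]
  have a3 : 0 ≤ t - (1/2) := by linarith
  have a4 : 0 ≤ 1 - t := by linarith
  generalize t - (1/2) = t1 at a3 ⊢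
  generalize 1 - t = t2 at a4 ⊢
  positivity

lemma pos_L1e_B3_b6 (t : ℝ) (h3 : (1/2) ≤ t) (h4 : t ≤ 1) :
    0 ≤ 1*(1 + 1*t + 5*t^(2:ℕ) + 5*t^(3:ℕ) + 10*t^(4:ℕ) + 10*t^(5:ℕ) + 10*t^(6:ℕ) + 10*t^(7:ℕ) + 5*t^(8:ℕ) + 5*t^(9:ℕ) + 1*t^(10:ℕ) + 1*t^(11:ℕ)) + (23/60)*((9/2) + (5/2)*t + (67/2)*t^(2:ℕ) + (53/2)*t^(3:ℕ) + 93*t^(4:ℕ) + 40*t^(5:ℕ) + 94*t^(6:ℕ) + 13*t^(7:ℕ) + (73/2)*t^(8:ℕ) + (-1/2)*t^(9:ℕ) + (13/2)*t^(10:ℕ) + (5/2)*t^(11:ℕ)) + (37/252)*(1 + (-1)*t + 47*t^(2:ℕ) + (113/2)*t^(3:ℕ) + (429/2)*t^(4:ℕ) + (81/2)*t^(5:ℕ) + (387/2)*t^(6:ℕ) + (-157/2)*t^(7:ℕ) + (53/2)*t^(8:ℕ) + (-139/2)*t^(9:ℕ) + (3/2)*t^(10:ℕ) + (-8)*t^(11:ℕ)) + (59/1050)*((181/4)*t^(2:ℕ)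 + (-81/4)*t^(3:ℕ) + (987/4)*t^(4:ℕ) + (-121)*t^(5:ℕ) + (387/2)*t^(6:ℕ) + (-447/4)*t^(7:ℕ) + (-113/4)*t^(8:ℕ) + (-39/2)*t^(9:ℕ) + (-81/4)*t^(10:ℕ) + (-17/2)*t^(11:ℕ)) + (94/4375)*((83/2)*t^(2:ℕ) + (-237/4)*t^(3:ℕ) + 137*t^(4:ℕ) + (-531/4)*t^(5:ℕ) + (329/4)*t^(6:ℕ) + (-155/4)*t^(7:ℕ) + (-39)*t^(8:ℕ) + (147/4)*t^(9:ℕ) + (-56)*t^(10:ℕ) + 2*t^(11:ℕ)) + (1616/196875)*(14*t^(2:ℕ) + (-18)*t^(3:ℕ) + (69/4)*t^(4:ℕ) + (5/2)*t^(5:ℕ) + (-143/4)*t^(6:ℕ) + (67/2)*t^(7:ℕ) + (-91/4)*t^(8:ℕ) + 31*t^(9:ℕ) + (-47)*t^(10:ℕ) + 18*t^(11:ℕ)) + (1028/328125)*((-273/16)*t^(4:ℕ) + (405/8)*t^(5:ℕ) + (-1147/16)*t^(6:ℕ) + (405/8)*t^(7:ℕ) + (-273/16)*t^(8:ℕ) + 8*t^(9:ℕ) + (-12)*t^(10:ℕ)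 + 8*t^(11:ℕ)) + (56/46875)*((-15/2)*t^(4:ℕ) + (91/4)*t^(5:ℕ) + (-129/4)*t^(6:ℕ) + (91/4)*t^(7:ℕ) + (-15/2)*t^(8:ℕ)) + (64/140625)*((-1)*t^(4:ℕ) + 3*t^(5:ℕ) + (-17/4)*t^(6:ℕ) + 3*t^(7:ℕ) + (-1)*t^(8:ℕ)) - (16467/1000) := by
  have e : 1*(1 + 1*t + 5*t^(2:ℕ) + 5*t^(3:ℕ) + 10*t^(4:ℕ) + 10*t^(5:ℕ) + 10*t^(6:ℕ) + 10*t^(7:ℕ) + 5*t^(8:ℕ) + 5*t^(9:ℕ) + 1*t^(10:ℕ) + 1*t^(11:ℕ)) + (23/60)*((9/2) + (5/2)*t + (67/2)*t^(2:ℕ) + (53/2)*t^(3:ℕ) + 93*t^(4:ℕ) + 40*t^(5:ℕ) + 94*t^(6:ℕ) + 13*t^(7:ℕ) + (73/2)*t^(8:ℕ) + (-1/2)*t^(9:ℕ) + (13/2)*t^(10:ℕ) + (5/2)*t^(11:ℕ)) + (37/252)*(1 + (-1)*t + 47*t^(2:ℕ) + (113/2)*t^(3:ℕ) + (429/2)*t^(4:ℕ) + (81/2)*t^(5:ℕ) + (387/2)*t^(6:ℕ)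 + (-157/2)*t^(7:ℕ) + (53/2)*t^(8:ℕ) + (-139/2)*t^(9:ℕ) + (3/2)*t^(10:ℕ) + (-8)*t^(11:ℕ)) + (59/1050)*((181/4)*t^(2:ℕ) + (-81/4)*t^(3:ℕ) + (987/4)*t^(4:ℕ) + (-121)*t^(5:ℕ) + (387/2)*t^(6:ℕ) + (-447/4)*t^(7:ℕ) + (-113/4)*t^(8:ℕ) + (-39/2)*t^(9:ℕ) + (-81/4)*t^(10:ℕ) + (-17/2)*t^(11:ℕ)) + (94/4375)*((83/2)*t^(2:ℕ) + (-237/4)*t^(3:ℕ) + 137*t^(4:ℕ) + (-531/4)*t^(5:ℕ) + (329/4)*t^(6:ℕ) + (-155/4)*t^(7:ℕ) + (-39)*t^(8:ℕ) + (147/4)*t^(9:ℕ) + (-56)*t^(10:ℕ) + 2*t^(11:ℕ)) + (1616/196875)*(14*t^(2:ℕ) + (-18)*t^(3:ℕ) + (69/4)*t^(4:ℕ) + (5/2)*t^(5:ℕ) + (-143/4)*t^(6:ℕ) + (67/2)*t^(7:ℕ) + (-91/4)*t^(8:ℕ) + 31*t^(9:ℕ) + (-47)*t^(10:ℕ) + 18*t^(11:ℕ)) + (1028/328125)*((-273/16)*t^(4:ℕ)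 + (405/8)*t^(5:ℕ) + (-1147/16)*t^(6:ℕ) + (405/8)*t^(7:ℕ) + (-273/16)*t^(8:ℕ) + 8*t^(9:ℕ) + (-12)*t^(10:ℕ) + 8*t^(11:ℕ)) + (56/46875)*((-15/2)*t^(4:ℕ) + (91/4)*t^(5:ℕ) + (-129/4)*t^(6:ℕ) + (91/4)*t^(7:ℕ) + (-15/2)*t^(8:ℕ)) + (64/140625)*((-1)*t^(4:ℕ) + 3*t^(5:ℕ) + (-17/4)*t^(6:ℕ) + 3*t^(7:ℕ) + (-1)*t^(8:ℕ)) - (16467/1000) = (79854478379/7875000)*(1 - t)^(11:ℕ) + (227317555127/984375)*(t - (1/2))*(1 - t)^(10:ℕ) + (418378482953/218750)*(t - (1/2))^(2:ℕ)*(1 - t)^(9:ℕ) + (8488629440611/984375)*(t - (1/2))^(3:ℕ)*(1 - t)^(8:ℕ) + (1612179403316/65625)*(t - (1/2))^(4:ℕ)*(1 - t)^(7:ℕ) + (46642790979476/984375)*(t - (1/2))^(5:ℕ)*(1 - t)^(6:ℕ) + (12568195072808/196875)*(t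 - (1/2))^(6:ℕ)*(1 - t)^(5:ℕ) + (19843965344864/328125)*(t - (1/2))^(7:ℕ)*(1 - t)^(4:ℕ) + (13008963046784/328125)*(t - (1/2))^(8:ℕ)*(1 - t)^(3:ℕ) + (53679737216/3125)*(t - (1/2))^(9:ℕ)*(1 - t)^(2:ℕ) + (873254599424/196875)*(t - (1/2))^(10:ℕ)*(1 - t) + (509762815232/984375)*(t - (1/2))^(11:ℕ) := by
    ring
  rw [e]
  have a3 : 0 ≤ t - (1/2) := by linarith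
  have a4 : 0 ≤ 1 - t := by linarith
  generalize t - (1/2) = t1 at a3 ⊢
  generalize 1 - t = t2 at a4 ⊢
  positivity

lemma pos_L1e_B3_b7 (t : ℝ) (h3 : (1/2) ≤ t) (h4 : t ≤ 1) :
    0 ≤ 1*(1 + 1*t + 5*t^(2:ℕ) + 5*t^(3:ℕ) + 10*t^(4:ℕ) + 10*t^(5:ℕ) + 10*t^(6:ℕ) + 10*t^(7:ℕ) + 5*t^(8:ℕ) + 5*t^(9:ℕ) + 1*t^(10:ℕ) + 1*t^(11:ℕ)) + (47/120)*((9/2) + (5/2)*t + (67/2)*t^(2:ℕ) + (53/2)*t^(3:ℕ) + 93*t^(4:ℕ) + 40*t^(5:ℕ) + 94*t^(6:ℕ) + 13*t^(7:ℕ) + (73/2)*t^(8:ℕ) + (-1/2)*t^(9:ℕ) + (13/2)*t^(10:ℕ) + (5/2)*t^(11:ℕ)) + (23/150)*(1 + (-1)*t + 47*t^(2:ℕ) + (113/2)*t^(3:ℕ) + (429/2)*t^(4:ℕ) + (81/2)*t^(5:ℕ) + (387/2)*t^(6:ℕ) + (-157/2)*t^(7:ℕ) + (53/2)*t^(8:ℕ) + (-139/2)*t^(9:ℕ)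 + (3/2)*t^(10:ℕ) + (-8)*t^(11:ℕ)) + (3/50)*((181/4)*t^(2:ℕ) + (-81/4)*t^(3:ℕ) + (987/4)*t^(4:ℕ) + (-121)*t^(5:ℕ) + (387/2)*t^(6:ℕ) + (-447/4)*t^(7:ℕ) + (-113/4)*t^(8:ℕ) + (-39/2)*t^(9:ℕ) + (-81/4)*t^(10:ℕ) + (-17/2)*t^(11:ℕ)) + (44/1875)*((83/2)*t^(2:ℕ) + (-237/4)*t^(3:ℕ) + 137*t^(4:ℕ) + (-531/4)*t^(5:ℕ) + (329/4)*t^(6:ℕ) + (-155/4)*t^(7:ℕ) + (-39)*t^(8:ℕ) + (147/4)*t^(9:ℕ) + (-56)*t^(10:ℕ) + 2*t^(11:ℕ)) + (86/9375)*(14*t^(2:ℕ) + (-18)*t^(3:ℕ) + (69/4)*t^(4:ℕ) + (5/2)*t^(5:ℕ) + (-143/4)*t^(6:ℕ) + (67/2)*t^(7:ℕ) + (-91/4)*t^(8:ℕ) + 31*t^(9:ℕ) + (-47)*t^(10:ℕ) + 18*t^(11:ℕ)) + (56/15625)*((-273/16)*t^(4:ℕ) + (405/8)*t^(5:ℕ) + (-1147/16)*t^(6:ℕ) + (405/8)*t^(7:ℕ)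 + (-273/16)*t^(8:ℕ) + 8*t^(9:ℕ) + (-12)*t^(10:ℕ) + 8*t^(11:ℕ)) + (328/234375)*((-15/2)*t^(4:ℕ) + (91/4)*t^(5:ℕ) + (-129/4)*t^(6:ℕ) + (91/4)*t^(7:ℕ) + (-15/2)*t^(8:ℕ)) + (128/234375)*((-1)*t^(4:ℕ) + 3*t^(5:ℕ) + (-17/4)*t^(6:ℕ) + 3*t^(7:ℕ) + (-1)*t^(8:ℕ)) - (16467/1000) := by
  have e : 1*(1 + 1*t + 5*t^(2:ℕ) + 5*t^(3:ℕ) + 10*t^(4:ℕ) + 10*t^(5:ℕ) + 10*t^(6:ℕ) + 10*t^(7:ℕ) + 5*t^(8:ℕ) + 5*t^(9:ℕ) + 1*t^(10:ℕ) + 1*t^(11:ℕ)) + (47/120)*((9/2) + (5/2)*t + (67/2)*t^(2:ℕ) + (53/2)*t^(3:ℕ) + 93*t^(4:ℕ) + 40*t^(5:ℕ) + 94*t^(6:ℕ) + 13*t^(7:ℕ) + (73/2)*t^(8:ℕ) + (-1/2)*t^(9:ℕ) + (13/2)*t^(10:ℕ) + (5/2)*t^(11:ℕ)) + (23/150)*(1 + (-1)*t + 47*t^(2:ℕ) + (113/2)*t^(3:ℕ)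 + (429/2)*t^(4:ℕ) + (81/2)*t^(5:ℕ) + (387/2)*t^(6:ℕ) + (-157/2)*t^(7:ℕ) + (53/2)*t^(8:ℕ) + (-139/2)*t^(9:ℕ) + (3/2)*t^(10:ℕ) + (-8)*t^(11:ℕ)) + (3/50)*((181/4)*t^(2:ℕ) + (-81/4)*t^(3:ℕ) + (987/4)*t^(4:ℕ) + (-121)*t^(5:ℕ) + (387/2)*t^(6:ℕ) + (-447/4)*t^(7:ℕ) + (-113/4)*t^(8:ℕ) + (-39/2)*t^(9:ℕ) + (-81/4)*t^(10:ℕ) + (-17/2)*t^(11:ℕ)) + (44/1875)*((83/2)*t^(2:ℕ) + (-237/4)*t^(3:ℕ) + 137*t^(4:ℕ) + (-531/4)*t^(5:ℕ) + (329/4)*t^(6:ℕ) + (-155/4)*t^(7:ℕ) + (-39)*t^(8:ℕ) + (147/4)*t^(9:ℕ) + (-56)*t^(10:ℕ) + 2*t^(11:ℕ)) + (86/9375)*(14*t^(2:ℕ) + (-18)*t^(3:ℕ) + (69/4)*t^(4:ℕ) + (5/2)*t^(5:ℕ) + (-143/4)*t^(6:ℕ) + (67/2)*t^(7:ℕ) + (-91/4)*t^(8:ℕ) + 31*t^(9:ℕ)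 + (-47)*t^(10:ℕ) + 18*t^(11:ℕ)) + (56/15625)*((-273/16)*t^(4:ℕ) + (405/8)*t^(5:ℕ) + (-1147/16)*t^(6:ℕ) + (405/8)*t^(7:ℕ) + (-273/16)*t^(8:ℕ) + 8*t^(9:ℕ) + (-12)*t^(10:ℕ) + 8*t^(11:ℕ)) + (328/234375)*((-15/2)*t^(4:ℕ) + (91/4)*t^(5:ℕ) + (-129/4)*t^(6:ℕ) + (91/4)*t^(7:ℕ) + (-15/2)*t^(8:ℕ)) + (128/234375)*((-1)*t^(4:ℕ) + 3*t^(5:ℕ) + (-17/4)*t^(6:ℕ) + 3*t^(7:ℕ) + (-1)*t^(8:ℕ)) - (16467/1000) = (14105300871/1250000)*(1 - t)^(11:ℕ) + (231417547697/937500)*(t - (1/2))*(1 - t)^(10:ℕ) + (31456311728/15625)*(t - (1/2))^(2:ℕ)*(1 - t)^(9:ℕ) + (84415811471/9375)*(t - (1/2))^(3:ℕ)*(1 - t)^(8:ℕ) + (1994234719982/78125)*(t - (1/2))^(4:ℕ)*(1 - t)^(7:ℕ) + (2300179453144/46875)*(t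 - (1/2))^(5:ℕ)*(1 - t)^(6:ℕ) + (1030469594704/15625)*(t - (1/2))^(6:ℕ)*(1 - t)^(5:ℕ) + (14614684918144/234375)*(t - (1/2))^(7:ℕ)*(1 - t)^(4:ℕ) + (3188317058944/78125)*(t - (1/2))^(8:ℕ)*(1 - t)^(3:ℕ) + (1379289925376/78125)*(t - (1/2))^(9:ℕ)*(1 - t)^(2:ℕ) + (355624690432/78125)*(t - (1/2))^(10:ℕ)*(1 - t) + (124361228032/234375)*(t - (1/2))^(11:ℕ) := by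
    ring
  rw [e]
  have a3 : 0 ≤ t - (1/2) := by linarith
  have a4 : 0 ≤ 1 - t := by linarith
  generalize t - (1/2) = t1 at a3 ⊢
  generalize 1 - t = t2 at a4 ⊢
  positivity

lemma pos_L1e_B3_b8 (t : ℝ) (h3 : (1/2) ≤ t) (h4 : t ≤ 1) :
    0 ≤ 1*(1 + 1*t + 5*t^(2:ℕ) + 5*t^(3:ℕ) + 10*t^(4:ℕ) + 10*t^(5:ℕ) + 10*t^(6:ℕ) + 10*t^(7:ℕ) + 5*t^(8:ℕ) + 5*t^(9:ℕ) + 1*t^(10:ℕ) + 1*t^(11:ℕ)) + (2/5)*((9/2) + (5/2)*t + (67/2)*t^(2:ℕ) + (53/2)*t^(3:ℕ) + 93*t^(4:ℕ) + 40*t^(5:ℕ) + 94*t^(6:ℕ) + 13*t^(7:ℕ) + (73/2)*t^(8:ℕ) + (-1/2)*t^(9:ℕ) + (13/2)*t^(10:ℕ) + (5/2)*t^(11:ℕ)) + (4/25)*(1 + (-1)*t + 47*t^(2:ℕ) + (113/2)*t^(3:ℕ) + (429/2)*t^(4:ℕ) + (81/2)*t^(5:ℕ) + (387/2)*t^(6:ℕ)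 + (-157/2)*t^(7:ℕ) + (53/2)*t^(8:ℕ) + (-139/2)*t^(9:ℕ) + (3/2)*t^(10:ℕ) + (-8)*t^(11:ℕ)) + (8/125)*((181/4)*t^(2:ℕ) + (-81/4)*t^(3:ℕ) + (987/4)*t^(4:ℕ) + (-121)*t^(5:ℕ) + (387/2)*t^(6:ℕ) + (-447/4)*t^(7:ℕ) + (-113/4)*t^(8:ℕ) + (-39/2)*t^(9:ℕ) + (-81/4)*t^(10:ℕ) + (-17/2)*t^(11:ℕ)) + (16/625)*((83/2)*t^(2:ℕ) + (-237/4)*t^(3:ℕ) + 137*t^(4:ℕ) + (-531/4)*t^(5:ℕ) + (329/4)*t^(6:ℕ) + (-155/4)*t^(7:ℕ) + (-39)*t^(8:ℕ) + (147/4)*t^(9:ℕ) + (-56)*t^(10:ℕ) + 2*t^(11:ℕ)) + (32/3125)*(14*t^(2:ℕ) + (-18)*t^(3:ℕ) + (69/4)*t^(4:ℕ) + (5/2)*t^(5:ℕ) + (-143/4)*t^(6:ℕ) + (67/2)*t^(7:ℕ) + (-91/4)*t^(8:ℕ) + 31*t^(9:ℕ) + (-47)*t^(10:ℕ) + 18*t^(11:ℕ)) + (64/15625)*((-273/16)*t^(4:ℕ)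 + (405/8)*t^(5:ℕ) + (-1147/16)*t^(6:ℕ) + (405/8)*t^(7:ℕ) + (-273/16)*t^(8:ℕ) + 8*t^(9:ℕ) + (-12)*t^(10:ℕ) + 8*t^(11:ℕ)) + (128/78125)*((-15/2)*t^(4:ℕ) + (91/4)*t^(5:ℕ) + (-129/4)*t^(6:ℕ) + (91/4)*t^(7:ℕ) + (-15/2)*t^(8:ℕ)) + (256/390625)*((-1)*t^(4:ℕ) + 3*t^(5:ℕ) + (-17/4)*t^(6:ℕ) + 3*t^(7:ℕ) + (-1)*t^(8:ℕ)) - (16467/1000) := by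
  have e : 1*(1 + 1*t + 5*t^(2:ℕ) + 5*t^(3:ℕ) + 10*t^(4:ℕ) + 10*t^(5:ℕ) + 10*t^(6:ℕ) + 10*t^(7:ℕ) + 5*t^(8:ℕ) + 5*t^(9:ℕ) + 1*t^(10:ℕ) + 1*t^(11:ℕ)) + (2/5)*((9/2) + (5/2)*t + (67/2)*t^(2:ℕ) + (53/2)*t^(3:ℕ) + 93*t^(4:ℕ) + 40*t^(5:ℕ) + 94*t^(6:ℕ) + 13*t^(7:ℕ) + (73/2)*t^(8:ℕ) + (-1/2)*t^(9:ℕ) + (13/2)*t^(10:ℕ) + (5/2)*t^(11:ℕ)) + (4/25)*(1 + (-1)*t + 47*t^(2:ℕ) + (113/2)*t^(3:ℕ) + (429/2)*t^(4:ℕ) + (81/2)*t^(5:ℕ) + (387/2)*t^(6:ℕ) + (-157/2)*t^(7:ℕ) + (53/2)*t^(8:ℕ) + (-139/2)*t^(9:ℕ) + (3/2)*t^(10:ℕ) + (-8)*t^(11:ℕ)) + (8/125)*((181/4)*t^(2:ℕ) + (-81/4)*t^(3:ℕ) + (987/4)*t^(4:ℕ) + (-121)*t^(5:ℕ) + (387/2)*t^(6:ℕ) + (-447/4)*t^(7:ℕ) + (-113/4)*t^(8:ℕ)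 + (-39/2)*t^(9:ℕ) + (-81/4)*t^(10:ℕ) + (-17/2)*t^(11:ℕ)) + (16/625)*((83/2)*t^(2:ℕ) + (-237/4)*t^(3:ℕ) + 137*t^(4:ℕ) + (-531/4)*t^(5:ℕ) + (329/4)*t^(6:ℕ) + (-155/4)*t^(7:ℕ) + (-39)*t^(8:ℕ) + (147/4)*t^(9:ℕ) + (-56)*t^(10:ℕ) + 2*t^(11:ℕ)) + (32/3125)*(14*t^(2:ℕ) + (-18)*t^(3:ℕ) + (69/4)*t^(4:ℕ) + (5/2)*t^(5:ℕ) + (-143/4)*t^(6:ℕ) + (67/2)*t^(7:ℕ) + (-91/4)*t^(8:ℕ) + 31*t^(9:ℕ) + (-47)*t^(10:ℕ) + 18*t^(11:ℕ)) + (64/15625)*((-273/16)*t^(4:ℕ) + (405/8)*t^(5:ℕ) + (-1147/16)*t^(6:ℕ) + (405/8)*t^(7:ℕ) + (-273/16)*t^(8:ℕ) + 8*t^(9:ℕ) + (-12)*t^(10:ℕ) + 8*t^(11:ℕ)) + (128/78125)*((-15/2)*t^(4:ℕ) + (91/4)*t^(5:ℕ) + (-129/4)*t^(6:ℕ) + (91/4)*t^(7:ℕ) + (-15/2)*t^(8:ℕ))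 + (256/390625)*((-1)*t^(4:ℕ) + 3*t^(5:ℕ) + (-17/4)*t^(6:ℕ) + 3*t^(7:ℕ) + (-1)*t^(8:ℕ)) - (16467/1000) = (4863960978/390625)*(1 - t)^(11:ℕ) + (102771147072/390625)*(t - (1/2))*(1 - t)^(10:ℕ) + (826524512416/390625)*(t - (1/2))^(2:ℕ)*(1 - t)^(9:ℕ) + (3669215213344/390625)*(t - (1/2))^(3:ℕ)*(1 - t)^(8:ℕ) + (10353702979648/390625)*(t - (1/2))^(4:ℕ)*(1 - t)^(7:ℕ) + (793622700544/15625)*(t - (1/2))^(5:ℕ)*(1 - t)^(6:ℕ) + (26602888441344/390625)*(t - (1/2))^(6:ℕ)*(1 - t)^(5:ℕ) + (5021193890304/78125)*(t - (1/2))^(7:ℕ)*(1 - t)^(4:ℕ) + (16404741866752/390625)*(t - (1/2))^(8:ℕ)*(1 - t)^(3:ℕ) + (7086220150528/390625)*(t - (1/2))^(9:ℕ)*(1 - t)^(2:ℕ) + (1824345881344/390625)*(t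 - (1/2))^(10:ℕ)*(1 - t) + (212324339968/390625)*(t - (1/2))^(11:ℕ) := by
    ring
  rw [e]
  have a3 : 0 ≤ t - (1/2) := by linarith
  have a4 : 0 ≤ 1 - t := by linarith
  generalize t - (1/2) = t1 at a3 ⊢
  generalize 1 - t = t2 at a4 ⊢
  positivity

lemma pos_L1e_B3_id (d : ℝ) (C0 C1 C2 C3 C4 C5 C6 C7 C8 : ℝ) :
    C0 + d*C1 + d^(2:ℕ)*C2 + d^(3:ℕ)*C3 + d^(4:ℕ)*C4 + d^(5:ℕ)*C5 + d^(6:ℕ)*C6 + d^(7:ℕ)*C7 + d^(8:ℕ)*C8 = (16467/1000) + (2562890625*((2/5) - d)^(8:ℕ)*(1*C0 + (1/3)*C1 + (1/9)*C2 + (1/27)*C3 + (1/81)*C4 + (1/243)*C5 + (1/729)*C6 + (1/2187)*C7 + (1/6561)*C8 - (16467/1000)) + 20503125000*(d - (1/3))*((2/5) - d)^(7:ℕ)*(1*C0 + (41/120)*C1 + (7/60)*C2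 + (43/1080)*C3 + (11/810)*C4 + (1/216)*C5 + (23/14580)*C6 + (47/87480)*C7 + (2/10935)*C8 - (16467/1000)) + 71760937500*(d - (1/3))^(2:ℕ)*((2/5) - d)^(6:ℕ)*(1*C0 + (7/20)*C1 + (257/2100)*C2 + (202/4725)*C3 + (47/3150)*C4 + (59/11340)*C5 + (37/20412)*C6 + (23/36450)*C7 + (4/18225)*C8 - (16467/1000)) + 143521875000*(d - (1/3))^(3:ℕ)*((2/5) - d)^(5:ℕ)*(1*C0 + (43/120)*C1 + (202/1575)*C2 + (619/13500)*C3 + (2321/141750)*C4 + (1987/340200)*C5 + (59/28350)*C6 + (1/1350)*C7 + (8/30375)*C8 - (16467/1000)) + 179402343750*(d - (1/3))^(4:ℕ)*((2/5) - d)^(4:ℕ)*(1*C0 + (11/30)*C1 + (47/350)*C2 + (2321/47250)*C3 + (63601/3543750)*C4 + (2321/354375)*C5 + (94/39375)*C6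 + (44/50625)*C7 + (16/50625)*C8 - (16467/1000)) + 143521875000*(d - (1/3))^(5:ℕ)*((2/5) - d)^(3:ℕ)*(1*C0 + (3/8)*C1 + (59/420)*C2 + (1987/37800)*C3 + (2321/118125)*C4 + (619/84375)*C5 + (1616/590625)*C6 + (86/84375)*C7 + (32/84375)*C8 - (16467/1000)) + 71760937500*(d - (1/3))^(6:ℕ)*((2/5) - d)^(2:ℕ)*(1*C0 + (23/60)*C1 + (37/252)*C2 + (59/1050)*C3 + (94/4375)*C4 + (1616/196875)*C5 + (1028/328125)*C6 + (56/46875)*C7 + (64/140625)*C8 - (16467/1000)) + 20503125000*(d - (1/3))^(7:ℕ)*((2/5) - d)*(1*C0 + (47/120)*C1 + (23/150)*C2 + (3/50)*C3 + (44/1875)*C4 + (86/9375)*C5 + (56/15625)*C6 + (328/234375)*C7 + (128/234375)*C8 - (16467/1000)) + 2562890625*(d -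 (1/3))^(8:ℕ)*(1*C0 + (2/5)*C1 + (4/25)*C2 + (8/125)*C3 + (16/625)*C4 + (32/3125)*C5 + (64/15625)*C6 + (128/78125)*C7 + (256/390625)*C8 - (16467/1000))) := by
  ring

lemma pos_L1e_B3_gen (d1 d2 B0 B1 B2 B3 B4 B5 B6 B7 B8 : ℝ) (a1 : 0 ≤ d1) (a2 : 0 ≤ d2) (b0 : 0 ≤ B0) (b1 : 0 ≤ B1) (b2 : 0 ≤ B2) (b3 : 0 ≤ B3) (b4 : 0 ≤ B4) (b5 : 0 ≤ B5) (b6 : 0 ≤ B6) (b7 : 0 ≤ B7) (b8 : 0 ≤ B8) :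
    0 < (16467/1000) + (2562890625*d2^(8:ℕ)*(B0) + 20503125000*d1*d2^(7:ℕ)*(B1) + 71760937500*d1^(2:ℕ)*d2^(6:ℕ)*(B2) + 143521875000*d1^(3:ℕ)*d2^(5:ℕ)*(B3) + 179402343750*d1^(4:ℕ)*d2^(4:ℕ)*(B4) + 143521875000*d1^(5:ℕ)*d2^(3:ℕ)*(B5) + 71760937500*d1^(6:ℕ)*d2^(2:ℕ)*(B6) + 20503125000*d1^(7:ℕ)*d2*(B7) + 2562890625*d1^(8:ℕ)*(B8)) := by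
  positivity

lemma pos_L1e_B3_core (d C0 C1 C2 C3 C4 C5 C6 C7 C8 : ℝ) (h1 : (1/3) ≤ d) (h2 : d ≤ (2/5))
    (b0 : 0 ≤ 1*C0 + (1/3)*C1 + (1/9)*C2 + (1/27)*C3 + (1/81)*C4 + (1/243)*C5 + (1/729)*C6 + (1/2187)*C7 + (1/6561)*C8 - (16467/1000))
    (b1 : 0 ≤ 1*C0 + (41/120)*C1 + (7/60)*C2 + (43/1080)*C3 + (11/810)*C4 + (1/216)*C5 + (23/14580)*C6 + (47/87480)*C7 + (2/10935)*C8 - (16467/1000))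
    (b2 : 0 ≤ 1*C0 + (7/20)*C1 + (257/2100)*C2 + (202/4725)*C3 + (47/3150)*C4 + (59/11340)*C5 + (37/20412)*C6 + (23/36450)*C7 + (4/18225)*C8 - (16467/1000))
    (b3 : 0 ≤ 1*C0 + (43/120)*C1 + (202/1575)*C2 + (619/13500)*C3 + (2321/141750)*C4 + (1987/340200)*C5 + (59/28350)*C6 + (1/1350)*C7 + (8/30375)*C8 - (16467/1000))
    (b4 : 0 ≤ 1*C0 + (11/30)*C1 + (47/350)*C2 + (2321/47250)*C3 + (63601/3543750)*C4 + (2321/354375)*C5 + (94/39375)*C6 + (44/50625)*C7 + (16/50625)*C8 - (16467/1000))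
    (b5 : 0 ≤ 1*C0 + (3/8)*C1 + (59/420)*C2 + (1987/37800)*C3 + (2321/118125)*C4 + (619/84375)*C5 + (1616/590625)*C6 + (86/84375)*C7 + (32/84375)*C8 - (16467/1000))
    (b6 : 0 ≤ 1*C0 + (23/60)*C1 + (37/252)*C2 + (59/1050)*C3 + (94/4375)*C4 + (1616/196875)*C5 + (1028/328125)*C6 + (56/46875)*C7 + (64/140625)*C8 - (16467/1000))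
    (b7 : 0 ≤ 1*C0 + (47/120)*C1 + (23/150)*C2 + (3/50)*C3 + (44/1875)*C4 + (86/9375)*C5 + (56/15625)*C6 + (328/234375)*C7 + (128/234375)*C8 - (16467/1000))
    (b8 : 0 ≤ 1*C0 + (2/5)*C1 + (4/25)*C2 + (8/125)*C3 + (16/625)*C4 + (32/3125)*C5 + (64/15625)*C6 + (128/78125)*C7 + (256/390625)*C8 - (16467/1000)) :
    0 < C0 + d*C1 + d^(2:ℕ)*C2 + d^(3:ℕ)*C3 + d^(4:ℕ)*C4 + d^(5:ℕ)*C5 + d^(6:ℕ)*C6 + d^(7:ℕ)*C7 + d^(8:ℕ)*C8 := by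
  rw [pos_L1e_B3_id]
  exact pos_L1e_B3_gen _ _ _ _ _ _ _ _ _ _ _ (sub_nonneg.2 h1) (sub_nonneg.2 h2) b0 b1 b2 b3 b4 b5 b6 b7 b8

lemma pos_L1e_B3 (d t : ℝ) (h1 : (1/3) ≤ d) (h2 : d ≤ (2/5)) (h3 : (1/2) ≤ t) (h4 : t ≤ 1) :
    0 < 1 + 1*t + 5*t^(2:ℕ) + 5*t^(3:ℕ) + 10*t^(4:ℕ) + 10*t^(5:ℕ) + 10*t^(6:ℕ) + 10*t^(7:ℕ) + 5*t^(8:ℕ) + 5*t^(9:ℕ) + 1*t^(10:ℕ) + 1*t^(11:ℕ) + (9/2)*d + (5/2)*d*t + (67/2)*d*t^(2:ℕ) + (53/2)*d*t^(3:ℕ) + 93*d*t^(4:ℕ) + 40*d*t^(5:ℕ) + 94*d*t^(6:ℕ) + 13*d*t^(7:ℕ) + (73/2)*d*t^(8:ℕ) + (-1/2)*d*t^(9:ℕ) + (13/2)*d*t^(10:ℕ) + (5/2)*d*t^(11:ℕ) + 1*d^(2:ℕ) + (-1)*d^(2:ℕ)*t + 47*d^(2:ℕ)*t^(2:ℕ) + (113/2)*d^(2:ℕ)*t^(3:ℕ) + (429/2)*d^(2:ℕ)*t^(4:ℕ)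 + (81/2)*d^(2:ℕ)*t^(5:ℕ) + (387/2)*d^(2:ℕ)*t^(6:ℕ) + (-157/2)*d^(2:ℕ)*t^(7:ℕ) + (53/2)*d^(2:ℕ)*t^(8:ℕ) + (-139/2)*d^(2:ℕ)*t^(9:ℕ) + (3/2)*d^(2:ℕ)*t^(10:ℕ) + (-8)*d^(2:ℕ)*t^(11:ℕ) + (181/4)*d^(3:ℕ)*t^(2:ℕ) + (-81/4)*d^(3:ℕ)*t^(3:ℕ) + (987/4)*d^(3:ℕ)*t^(4:ℕ) + (-121)*d^(3:ℕ)*t^(5:ℕ) + (387/2)*d^(3:ℕ)*t^(6:ℕ) + (-447/4)*d^(3:ℕ)*t^(7:ℕ) + (-113/4)*d^(3:ℕ)*t^(8:ℕ) + (-39/2)*d^(3:ℕ)*t^(9:ℕ) + (-81/4)*d^(3:ℕ)*t^(10:ℕ) + (-17/2)*d^(3:ℕ)*t^(11:ℕ) + (83/2)*d^(4:ℕ)*t^(2:ℕ) + (-237/4)*d^(4:ℕ)*t^(3:ℕ) + 137*d^(4:ℕ)*t^(4:ℕ) + (-531/4)*d^(4:ℕ)*t^(5:ℕ) + (329/4)*d^(4:ℕ)*t^(6:ℕ) + (-155/4)*d^(4:ℕ)*t^(7:ℕ) + (-39)*d^(4:ℕ)*t^(8:ℕ) + (147/4)*d^(4:ℕ)*t^(9:ℕ) + (-56)*d^(4:ℕ)*t^(10:ℕ)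 + 2*d^(4:ℕ)*t^(11:ℕ) + 14*d^(5:ℕ)*t^(2:ℕ) + (-18)*d^(5:ℕ)*t^(3:ℕ) + (69/4)*d^(5:ℕ)*t^(4:ℕ) + (5/2)*d^(5:ℕ)*t^(5:ℕ) + (-143/4)*d^(5:ℕ)*t^(6:ℕ) + (67/2)*d^(5:ℕ)*t^(7:ℕ) + (-91/4)*d^(5:ℕ)*t^(8:ℕ) + 31*d^(5:ℕ)*t^(9:ℕ) + (-47)*d^(5:ℕ)*t^(10:ℕ) + 18*d^(5:ℕ)*t^(11:ℕ) + (-273/16)*d^(6:ℕ)*t^(4:ℕ) + (405/8)*d^(6:ℕ)*t^(5:ℕ) + (-1147/16)*d^(6:ℕ)*t^(6:ℕ) + (405/8)*d^(6:ℕ)*t^(7:ℕ) + (-273/16)*d^(6:ℕ)*t^(8:ℕ) + 8*d^(6:ℕ)*t^(9:ℕ) + (-12)*d^(6:ℕ)*t^(10:ℕ) + 8*d^(6:ℕ)*t^(11:ℕ) + (-15/2)*d^(7:ℕ)*t^(4:ℕ) + (91/4)*d^(7:ℕ)*t^(5:ℕ) + (-129/4)*d^(7:ℕ)*t^(6:ℕ) + (91/4)*d^(7:ℕ)*t^(7:ℕ) + (-15/2)*d^(7:ℕ)*t^(8:ℕ) + (-1)*d^(8:ℕ)*t^(4:ℕ) + 3*d^(8:ℕ)*t^(5:ℕ) + (-17/4)*d^(8:ℕ)*t^(6:ℕ)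 + 3*d^(8:ℕ)*t^(7:ℕ) + (-1)*d^(8:ℕ)*t^(8:ℕ) := by
  have e0 : 1 + 1*t + 5*t^(2:ℕ) + 5*t^(3:ℕ) + 10*t^(4:ℕ) + 10*t^(5:ℕ) + 10*t^(6:ℕ) + 10*t^(7:ℕ) + 5*t^(8:ℕ) + 5*t^(9:ℕ) + 1*t^(10:ℕ) + 1*t^(11:ℕ) + (9/2)*d + (5/2)*d*t + (67/2)*d*t^(2:ℕ) + (53/2)*d*t^(3:ℕ) + 93*d*t^(4:ℕ) + 40*d*t^(5:ℕ) + 94*d*t^(6:ℕ) + 13*d*t^(7:ℕ) + (73/2)*d*t^(8:ℕ) + (-1/2)*d*t^(9:ℕ) + (13/2)*d*t^(10:ℕ) + (5/2)*d*t^(11:ℕ) + 1*d^(2:ℕ) + (-1)*d^(2:ℕ)*t + 47*d^(2:ℕ)*t^(2:ℕ) + (113/2)*d^(2:ℕ)*t^(3:ℕ) + (429/2)*d^(2:ℕ)*t^(4:ℕ) + (81/2)*d^(2:ℕ)*t^(5:ℕ) + (387/2)*d^(2:ℕ)*t^(6:ℕ) + (-157/2)*d^(2:ℕ)*t^(7:ℕ) + (53/2)*d^(2:ℕ)*t^(8:ℕ) + (-139/2)*d^(2:ℕ)*t^(9:ℕ) + (3/2)*d^(2:ℕ)*t^(10:ℕ) + (-8)*d^(2:ℕ)*t^(11:ℕ)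 + (181/4)*d^(3:ℕ)*t^(2:ℕ) + (-81/4)*d^(3:ℕ)*t^(3:ℕ) + (987/4)*d^(3:ℕ)*t^(4:ℕ) + (-121)*d^(3:ℕ)*t^(5:ℕ) + (387/2)*d^(3:ℕ)*t^(6:ℕ) + (-447/4)*d^(3:ℕ)*t^(7:ℕ) + (-113/4)*d^(3:ℕ)*t^(8:ℕ) + (-39/2)*d^(3:ℕ)*t^(9:ℕ) + (-81/4)*d^(3:ℕ)*t^(10:ℕ) + (-17/2)*d^(3:ℕ)*t^(11:ℕ) + (83/2)*d^(4:ℕ)*t^(2:ℕ) + (-237/4)*d^(4:ℕ)*t^(3:ℕ) + 137*d^(4:ℕ)*t^(4:ℕ) + (-531/4)*d^(4:ℕ)*t^(5:ℕ) + (329/4)*d^(4:ℕ)*t^(6:ℕ) + (-155/4)*d^(4:ℕ)*t^(7:ℕ) + (-39)*d^(4:ℕ)*t^(8:ℕ) + (147/4)*d^(4:ℕ)*t^(9:ℕ) + (-56)*d^(4:ℕ)*t^(10:ℕ) + 2*d^(4:ℕ)*t^(11:ℕ) + 14*d^(5:ℕ)*t^(2:ℕ) + (-18)*d^(5:ℕ)*t^(3:ℕ) + (69/4)*d^(5:ℕ)*t^(4:ℕ) + (5/2)*d^(5:ℕ)*t^(5:ℕ) + (-143/4)*d^(5:ℕ)*t^(6:ℕ) + (67/2)*d^(5:ℕ)*t^(7:ℕ)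 + (-91/4)*d^(5:ℕ)*t^(8:ℕ) + 31*d^(5:ℕ)*t^(9:ℕ) + (-47)*d^(5:ℕ)*t^(10:ℕ) + 18*d^(5:ℕ)*t^(11:ℕ) + (-273/16)*d^(6:ℕ)*t^(4:ℕ) + (405/8)*d^(6:ℕ)*t^(5:ℕ) + (-1147/16)*d^(6:ℕ)*t^(6:ℕ) + (405/8)*d^(6:ℕ)*t^(7:ℕ) + (-273/16)*d^(6:ℕ)*t^(8:ℕ) + 8*d^(6:ℕ)*t^(9:ℕ) + (-12)*d^(6:ℕ)*t^(10:ℕ) + 8*d^(6:ℕ)*t^(11:ℕ) + (-15/2)*d^(7:ℕ)*t^(4:ℕ) + (91/4)*d^(7:ℕ)*t^(5:ℕ) + (-129/4)*d^(7:ℕ)*t^(6:ℕ) + (91/4)*d^(7:ℕ)*t^(7:ℕ) + (-15/2)*d^(7:ℕ)*t^(8:ℕ) + (-1)*d^(8:ℕ)*t^(4:ℕ) + 3*d^(8:ℕ)*t^(5:ℕ) + (-17/4)*d^(8:ℕ)*t^(6:ℕ) + 3*d^(8:ℕ)*t^(7:ℕ) + (-1)*d^(8:ℕ)*t^(8:ℕ) = (1 + 1*t + 5*t^(2:ℕ) + 5*t^(3:ℕ) + 10*t^(4:ℕ) + 10*t^(5:ℕ) + 10*t^(6:ℕ) + 10*t^(7:ℕ) + 5*t^(8:ℕ) + 5*t^(9:ℕ) + 1*t^(10:ℕ)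 + 1*t^(11:ℕ)) + d*((9/2) + (5/2)*t + (67/2)*t^(2:ℕ) + (53/2)*t^(3:ℕ) + 93*t^(4:ℕ) + 40*t^(5:ℕ) + 94*t^(6:ℕ) + 13*t^(7:ℕ) + (73/2)*t^(8:ℕ) + (-1/2)*t^(9:ℕ) + (13/2)*t^(10:ℕ) + (5/2)*t^(11:ℕ)) + d^(2:ℕ)*(1 + (-1)*t + 47*t^(2:ℕ) + (113/2)*t^(3:ℕ) + (429/2)*t^(4:ℕ) + (81/2)*t^(5:ℕ) + (387/2)*t^(6:ℕ) + (-157/2)*t^(7:ℕ) + (53/2)*t^(8:ℕ) + (-139/2)*t^(9:ℕ) + (3/2)*t^(10:ℕ) + (-8)*t^(11:ℕ)) + d^(3:ℕ)*((181/4)*t^(2:ℕ) + (-81/4)*t^(3:ℕ) + (987/4)*t^(4:ℕ) + (-121)*t^(5:ℕ) + (387/2)*t^(6:ℕ) + (-447/4)*t^(7:ℕ) + (-113/4)*t^(8:ℕ) + (-39/2)*t^(9:ℕ) + (-81/4)*t^(10:ℕ) + (-17/2)*t^(11:ℕ)) + d^(4:ℕ)*((83/2)*t^(2:ℕ) + (-237/4)*t^(3:ℕ) + 137*t^(4:ℕ) + (-531/4)*t^(5:ℕ)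 + (329/4)*t^(6:ℕ) + (-155/4)*t^(7:ℕ) + (-39)*t^(8:ℕ) + (147/4)*t^(9:ℕ) + (-56)*t^(10:ℕ) + 2*t^(11:ℕ)) + d^(5:ℕ)*(14*t^(2:ℕ) + (-18)*t^(3:ℕ) + (69/4)*t^(4:ℕ) + (5/2)*t^(5:ℕ) + (-143/4)*t^(6:ℕ) + (67/2)*t^(7:ℕ) + (-91/4)*t^(8:ℕ) + 31*t^(9:ℕ) + (-47)*t^(10:ℕ) + 18*t^(11:ℕ)) + d^(6:ℕ)*((-273/16)*t^(4:ℕ) + (405/8)*t^(5:ℕ) + (-1147/16)*t^(6:ℕ) + (405/8)*t^(7:ℕ) + (-273/16)*t^(8:ℕ) + 8*t^(9:ℕ) + (-12)*t^(10:ℕ) + 8*t^(11:ℕ)) + d^(7:ℕ)*((-15/2)*t^(4:ℕ) + (91/4)*t^(5:ℕ) + (-129/4)*t^(6:ℕ) + (91/4)*t^(7:ℕ) + (-15/2)*t^(8:ℕ)) + d^(8:ℕ)*((-1)*t^(4:ℕ) + 3*t^(5:ℕ) + (-17/4)*t^(6:ℕ) + 3*t^(7:ℕ) + (-1)*t^(8:ℕ)) := by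
    ring
  rw [e0]
  exact pos_L1e_B3_core d _ _ _ _ _ _ _ _ _ h1 h2 (pos_L1e_B3_b0 t h3 h4) (pos_L1e_B3_b1 t h3 h4) (pos_L1e_B3_b2 t h3 h4) (pos_L1e_B3_b3 t h3 h4) (pos_L1e_B3_b4 t h3 h4) (pos_L1e_B3_b5 t h3 h4) (pos_L1e_B3_b6 t h3 h4) (pos_L1e_B3_b7 t h3 h4) (pos_L1e_B3_b8 t h3 h4)

lemma pos_L2e_B3_b0 (t : ℝ) (h3 : (1/2) ≤ t) (h4 : t ≤ 1) :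
    0 ≤ 1*(1 + (13/2)*t^(2:ℕ) + 16*t^(4:ℕ) + 19*t^(6:ℕ) + 11*t^(8:ℕ) + (5/2)*t^(10:ℕ)) + (1/3)*((5/2) + (-1/2)*t + 8*t^(2:ℕ) + (5/2)*t^(3:ℕ) + 50*t^(4:ℕ) + 25*t^(5:ℕ) + 100*t^(6:ℕ) + 20*t^(7:ℕ) + (139/2)*t^(8:ℕ) + (-13/2)*t^(9:ℕ) + 14*t^(10:ℕ) + (-9/2)*t^(11:ℕ)) + (1/9)*((-7) + (-37/4)*t + (-469/8)*t^(2:ℕ) + (-159/4)*t^(3:ℕ) + (-14)*t^(4:ℕ) + 40*t^(5:ℕ) + (691/4)*t^(6:ℕ) + 32*t^(7:ℕ) + 166*t^(8:ℕ) + (-275/4)*t^(9:ℕ) + (247/8)*t^(10:ℕ) + (-121/4)*t^(11:ℕ)) + (1/27)*((-4) + (-4)*t + (-20)*t^(2:ℕ) + (-56)*t^(3:ℕ) + (-67)*t^(4:ℕ) + (165/4)*t^(5:ℕ) + (125/4)*t^(6:ℕ) + 35*t^(7:ℕ) + (251/2)*t^(8:ℕ) + (-455/4)*t^(9:ℕ) + (173/4)*t^(10:ℕ) + (-111/2)*t^(11:ℕ))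 + (1/81)*((83/4)*t^(2:ℕ) + (-5/4)*t^(3:ℕ) + (-51/4)*t^(4:ℕ) + (-21/4)*t^(5:ℕ) + (-27/4)*t^(6:ℕ) + (25/4)*t^(7:ℕ) + (243/4)*t^(8:ℕ) + (-70)*t^(9:ℕ) + 34*t^(10:ℕ) + (-50)*t^(11:ℕ)) + (1/243)*((-8)*t^(2:ℕ) + (119/4)*t^(3:ℕ) + 1*t^(4:ℕ) + (-18)*t^(5:ℕ) + (11/2)*t^(6:ℕ) + (23/4)*t^(7:ℕ) + (39/2)*t^(8:ℕ) + (-115/4)*t^(9:ℕ) + 23*t^(10:ℕ) + (-19)*t^(11:ℕ)) + (1/729)*((-8)*t^(2:ℕ) + (167/16)*t^(3:ℕ) + (-3)*t^(4:ℕ) + (1/8)*t^(5:ℕ) + (-127/8)*t^(6:ℕ) + (315/16)*t^(7:ℕ) + (31/8)*t^(8:ℕ) + (-445/16)*t^(9:ℕ) + (99/4)*t^(10:ℕ) + (-33/4)*t^(11:ℕ)) + (1/2187)*((5/2)*t^(5:ℕ) + (-31/4)*t^(6:ℕ) + 6*t^(7:ℕ) + (29/4)*t^(8:ℕ) + (-75/4)*t^(9:ℕ) + 15*t^(10:ℕ) + (-5)*t^(11:ℕ))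 + (1/6561)*((-1)*t^(7:ℕ) + 3*t^(8:ℕ) + (-17/4)*t^(9:ℕ) + 3*t^(10:ℕ) + (-1)*t^(11:ℕ)) - (47/20) := by
  have e : 1*(1 + (13/2)*t^(2:ℕ) + 16*t^(4:ℕ) + 19*t^(6:ℕ) + 11*t^(8:ℕ) + (5/2)*t^(10:ℕ)) + (1/3)*((5/2) + (-1/2)*t + 8*t^(2:ℕ) + (5/2)*t^(3:ℕ) + 50*t^(4:ℕ) + 25*t^(5:ℕ) + 100*t^(6:ℕ) + 20*t^(7:ℕ) + (139/2)*t^(8:ℕ) + (-13/2)*t^(9:ℕ) + 14*t^(10:ℕ) + (-9/2)*t^(11:ℕ)) + (1/9)*((-7) + (-37/4)*t + (-469/8)*t^(2:ℕ) + (-159/4)*t^(3:ℕ) + (-14)*t^(4:ℕ) + 40*t^(5:ℕ) + (691/4)*t^(6:ℕ) + 32*t^(7:ℕ) + 166*t^(8:ℕ) + (-275/4)*t^(9:ℕ) + (247/8)*t^(10:ℕ) + (-121/4)*t^(11:ℕ)) + (1/27)*((-4) + (-4)*t + (-20)*t^(2:ℕ) + (-56)*t^(3:ℕ) + (-67)*t^(4:ℕ) + (165/4)*t^(5:ℕ) +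 (125/4)*t^(6:ℕ) + 35*t^(7:ℕ) + (251/2)*t^(8:ℕ) + (-455/4)*t^(9:ℕ) + (173/4)*t^(10:ℕ) + (-111/2)*t^(11:ℕ)) + (1/81)*((83/4)*t^(2:ℕ) + (-5/4)*t^(3:ℕ) + (-51/4)*t^(4:ℕ) + (-21/4)*t^(5:ℕ) + (-27/4)*t^(6:ℕ) + (25/4)*t^(7:ℕ) + (243/4)*t^(8:ℕ) + (-70)*t^(9:ℕ) + 34*t^(10:ℕ) + (-50)*t^(11:ℕ)) + (1/243)*((-8)*t^(2:ℕ) + (119/4)*t^(3:ℕ) + 1*t^(4:ℕ) + (-18)*t^(5:ℕ) + (11/2)*t^(6:ℕ) + (23/4)*t^(7:ℕ) + (39/2)*t^(8:ℕ) + (-115/4)*t^(9:ℕ) + 23*t^(10:ℕ) + (-19)*t^(11:ℕ)) + (1/729)*((-8)*t^(2:ℕ) + (167/16)*t^(3:ℕ) + (-3)*t^(4:ℕ) + (1/8)*t^(5:ℕ) + (-127/8)*t^(6:ℕ) + (315/16)*t^(7:ℕ) + (31/8)*t^(8:ℕ) + (-445/16)*t^(9:ℕ) + (99/4)*t^(10:ℕ) + (-33/4)*t^(11:ℕ)) + (1/2187)*((5/2)*t^(5:ℕ)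 + (-31/4)*t^(6:ℕ) + 6*t^(7:ℕ) + (29/4)*t^(8:ℕ) + (-75/4)*t^(9:ℕ) + 15*t^(10:ℕ) + (-5)*t^(11:ℕ)) + (1/6561)*((-1)*t^(7:ℕ) + 3*t^(8:ℕ) + (-17/4)*t^(9:ℕ) + 3*t^(10:ℕ) + (-1)*t^(11:ℕ)) - (47/20) = (92654266/32805)*(1 - t)^(11:ℕ) + (8571307979/131220)*(t - (1/2))*(1 - t)^(10:ℕ) + (15115677919/26244)*(t - (1/2))^(2:ℕ)*(1 - t)^(9:ℕ) + (36850667003/13122)*(t - (1/2))^(3:ℕ)*(1 - t)^(8:ℕ) + (19060554625/2187)*(t - (1/2))^(4:ℕ)*(1 - t)^(7:ℕ) + (603086099302/32805)*(t - (1/2))^(5:ℕ)*(1 - t)^(6:ℕ) + (890442355772/32805)*(t - (1/2))^(6:ℕ)*(1 - t)^(5:ℕ) + (20560469432/729)*(t - (1/2))^(7:ℕ)*(1 - t)^(4:ℕ) + (133036817600/6561)*(t - (1/2))^(8:ℕ)*(1 - t)^(3:ℕ) + (63150502592/6561)*(t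 - (1/2))^(9:ℕ)*(1 - t)^(2:ℕ) + (89152962496/32805)*(t - (1/2))^(10:ℕ)*(1 - t) + (11345495936/32805)*(t - (1/2))^(11:ℕ) := by
    ring
  rw [e]
  have a3 : 0 ≤ t - (1/2) := by linarith
  have a4 : 0 ≤ 1 - t := by linarith
  generalize t - (1/2) = t1 at a3 ⊢
  generalize 1 - t = t2 at a4 ⊢
  positivity

lemma pos_L2e_B3_b1 (t : ℝ) (h3 : (1/2) ≤ t) (h4 : t ≤ 1) :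
    0 ≤ 1*(1 + (13/2)*t^(2:ℕ) + 16*t^(4:ℕ) + 19*t^(6:ℕ) + 11*t^(8:ℕ) + (5/2)*t^(10:ℕ)) + (41/120)*((5/2) + (-1/2)*t + 8*t^(2:ℕ) + (5/2)*t^(3:ℕ) + 50*t^(4:ℕ) + 25*t^(5:ℕ) + 100*t^(6:ℕ) + 20*t^(7:ℕ) + (139/2)*t^(8:ℕ) + (-13/2)*t^(9:ℕ) + 14*t^(10:ℕ) + (-9/2)*t^(11:ℕ)) + (7/60)*((-7) + (-37/4)*t + (-469/8)*t^(2:ℕ) + (-159/4)*t^(3:ℕ) + (-14)*t^(4:ℕ) + 40*t^(5:ℕ) + (691/4)*t^(6:ℕ) + 32*t^(7:ℕ) + 166*t^(8:ℕ) + (-275/4)*t^(9:ℕ) + (247/8)*t^(10:ℕ) + (-121/4)*t^(11:ℕ)) + (43/1080)*((-4) + (-4)*t + (-20)*t^(2:ℕ) + (-56)*t^(3:ℕ) + (-67)*t^(4:ℕ) + (165/4)*t^(5:ℕ) + (125/4)*t^(6:ℕ) + 35*t^(7:ℕ) + (251/2)*t^(8:ℕ) + (-455/4)*t^(9:ℕ) + (173/4)*t^(10:ℕ) + (-111/2)*t^(11:ℕ))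 + (11/810)*((83/4)*t^(2:ℕ) + (-5/4)*t^(3:ℕ) + (-51/4)*t^(4:ℕ) + (-21/4)*t^(5:ℕ) + (-27/4)*t^(6:ℕ) + (25/4)*t^(7:ℕ) + (243/4)*t^(8:ℕ) + (-70)*t^(9:ℕ) + 34*t^(10:ℕ) + (-50)*t^(11:ℕ)) + (1/216)*((-8)*t^(2:ℕ) + (119/4)*t^(3:ℕ) + 1*t^(4:ℕ) + (-18)*t^(5:ℕ) + (11/2)*t^(6:ℕ) + (23/4)*t^(7:ℕ) + (39/2)*t^(8:ℕ) + (-115/4)*t^(9:ℕ) + 23*t^(10:ℕ) + (-19)*t^(11:ℕ)) + (23/14580)*((-8)*t^(2:ℕ) + (167/16)*t^(3:ℕ) + (-3)*t^(4:ℕ) + (1/8)*t^(5:ℕ) + (-127/8)*t^(6:ℕ) + (315/16)*t^(7:ℕ) + (31/8)*t^(8:ℕ) + (-445/16)*t^(9:ℕ) + (99/4)*t^(10:ℕ) + (-33/4)*t^(11:ℕ)) + (47/87480)*((5/2)*t^(5:ℕ) + (-31/4)*t^(6:ℕ) + 6*t^(7:ℕ) + (29/4)*t^(8:ℕ) + (-75/4)*t^(9:ℕ) + 15*t^(10:ℕ) + (-5)*t^(11:ℕ))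 + (2/10935)*((-1)*t^(7:ℕ) + 3*t^(8:ℕ) + (-17/4)*t^(9:ℕ) + 3*t^(10:ℕ) + (-1)*t^(11:ℕ)) - (47/20) := by
  have e : 1*(1 + (13/2)*t^(2:ℕ) + 16*t^(4:ℕ) + 19*t^(6:ℕ) + 11*t^(8:ℕ) + (5/2)*t^(10:ℕ)) + (41/120)*((5/2) + (-1/2)*t + 8*t^(2:ℕ) + (5/2)*t^(3:ℕ) + 50*t^(4:ℕ) + 25*t^(5:ℕ) + 100*t^(6:ℕ) + 20*t^(7:ℕ) + (139/2)*t^(8:ℕ) + (-13/2)*t^(9:ℕ) + 14*t^(10:ℕ) + (-9/2)*t^(11:ℕ)) + (7/60)*((-7) + (-37/4)*t + (-469/8)*t^(2:ℕ) + (-159/4)*t^(3:ℕ) + (-14)*t^(4:ℕ) + 40*t^(5:ℕ) + (691/4)*t^(6:ℕ) + 32*t^(7:ℕ) + 166*t^(8:ℕ) + (-275/4)*t^(9:ℕ) + (247/8)*t^(10:ℕ) + (-121/4)*t^(11:ℕ)) + (43/1080)*((-4) + (-4)*t + (-20)*t^(2:ℕ) + (-56)*t^(3:ℕ) + (-67)*t^(4:ℕ) + (165/4)*t^(5:ℕ)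 + (125/4)*t^(6:ℕ) + 35*t^(7:ℕ) + (251/2)*t^(8:ℕ) + (-455/4)*t^(9:ℕ) + (173/4)*t^(10:ℕ) + (-111/2)*t^(11:ℕ)) + (11/810)*((83/4)*t^(2:ℕ) + (-5/4)*t^(3:ℕ) + (-51/4)*t^(4:ℕ) + (-21/4)*t^(5:ℕ) + (-27/4)*t^(6:ℕ) + (25/4)*t^(7:ℕ) + (243/4)*t^(8:ℕ) + (-70)*t^(9:ℕ) + 34*t^(10:ℕ) + (-50)*t^(11:ℕ)) + (1/216)*((-8)*t^(2:ℕ) + (119/4)*t^(3:ℕ) + 1*t^(4:ℕ) + (-18)*t^(5:ℕ) + (11/2)*t^(6:ℕ) + (23/4)*t^(7:ℕ) + (39/2)*t^(8:ℕ) + (-115/4)*t^(9:ℕ) + 23*t^(10:ℕ) + (-19)*t^(11:ℕ)) + (23/14580)*((-8)*t^(2:ℕ) + (167/16)*t^(3:ℕ) + (-3)*t^(4:ℕ) + (1/8)*t^(5:ℕ) + (-127/8)*t^(6:ℕ) + (315/16)*t^(7:ℕ) + (31/8)*t^(8:ℕ) + (-445/16)*t^(9:ℕ) + (99/4)*t^(10:ℕ) + (-33/4)*t^(11:ℕ)) + (47/87480)*((5/2)*t^(5:ℕ)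 + (-31/4)*t^(6:ℕ) + 6*t^(7:ℕ) + (29/4)*t^(8:ℕ) + (-75/4)*t^(9:ℕ) + 15*t^(10:ℕ) + (-5)*t^(11:ℕ)) + (2/10935)*((-1)*t^(7:ℕ) + 3*t^(8:ℕ) + (-17/4)*t^(9:ℕ) + 3*t^(10:ℕ) + (-1)*t^(11:ℕ)) - (47/20) = (90618277/34992)*(1 - t)^(11:ℕ) + (5498543159/87480)*(t - (1/2))*(1 - t)^(10:ℕ) + (32987841043/58320)*(t - (1/2))^(2:ℕ)*(1 - t)^(9:ℕ) + (244063048769/87480)*(t - (1/2))^(3:ℕ)*(1 - t)^(8:ℕ) + (381585362533/43740)*(t - (1/2))^(4:ℕ)*(1 - t)^(7:ℕ) + (44957370821/2430)*(t - (1/2))^(5:ℕ)*(1 - t)^(6:ℕ) + (299900051387/10935)*(t - (1/2))^(6:ℕ)*(1 - t)^(5:ℕ) + (312568671398/10935)*(t - (1/2))^(7:ℕ)*(1 - t)^(4:ℕ) + (225251572576/10935)*(t - (1/2))^(8:ℕ)*(1 - t)^(3:ℕ)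 + (21423325568/2187)*(t - (1/2))^(9:ℕ)*(1 - t)^(2:ℕ) + (6056931952/2187)*(t - (1/2))^(10:ℕ)*(1 - t) + (3857407712/10935)*(t - (1/2))^(11:ℕ) := by
    ring
  rw [e]
  have a3 : 0 ≤ t - (1/2) := by linarith
  have a4 : 0 ≤ 1 - t := by linarith
  generalize t - (1/2) = t1 at a3 ⊢
  generalize 1 - t = t2 at a4 ⊢
  positivity

lemma pos_L2e_B3_b2 (t : ℝ) (h3 : (1/2) ≤ t) (h4 : t ≤ 1) :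
    0 ≤ 1*(1 + (13/2)*t^(2:ℕ) + 16*t^(4:ℕ) + 19*t^(6:ℕ) + 11*t^(8:ℕ) + (5/2)*t^(10:ℕ)) + (7/20)*((5/2) + (-1/2)*t + 8*t^(2:ℕ) + (5/2)*t^(3:ℕ) + 50*t^(4:ℕ) + 25*t^(5:ℕ) + 100*t^(6:ℕ) + 20*t^(7:ℕ) + (139/2)*t^(8:ℕ) + (-13/2)*t^(9:ℕ) + 14*t^(10:ℕ) + (-9/2)*t^(11:ℕ)) + (257/2100)*((-7) + (-37/4)*t + (-469/8)*t^(2:ℕ) + (-159/4)*t^(3:ℕ) + (-14)*t^(4:ℕ) + 40*t^(5:ℕ) + (691/4)*t^(6:ℕ) + 32*t^(7:ℕ) + 166*t^(8:ℕ) + (-275/4)*t^(9:ℕ) + (247/8)*t^(10:ℕ) + (-121/4)*t^(11:ℕ)) + (202/4725)*((-4) + (-4)*t + (-20)*t^(2:ℕ) + (-56)*t^(3:ℕ) + (-67)*t^(4:ℕ) + (165/4)*t^(5:ℕ) + (125/4)*t^(6:ℕ) + 35*t^(7:ℕ) + (251/2)*t^(8:ℕ) + (-455/4)*t^(9:ℕ) + (173/4)*t^(10:ℕ) + (-111/2)*t^(11:ℕ))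 + (47/3150)*((83/4)*t^(2:ℕ) + (-5/4)*t^(3:ℕ) + (-51/4)*t^(4:ℕ) + (-21/4)*t^(5:ℕ) + (-27/4)*t^(6:ℕ) + (25/4)*t^(7:ℕ) + (243/4)*t^(8:ℕ) + (-70)*t^(9:ℕ) + 34*t^(10:ℕ) + (-50)*t^(11:ℕ)) + (59/11340)*((-8)*t^(2:ℕ) + (119/4)*t^(3:ℕ) + 1*t^(4:ℕ) + (-18)*t^(5:ℕ) + (11/2)*t^(6:ℕ) + (23/4)*t^(7:ℕ) + (39/2)*t^(8:ℕ) + (-115/4)*t^(9:ℕ) + 23*t^(10:ℕ) + (-19)*t^(11:ℕ)) + (37/20412)*((-8)*t^(2:ℕ) + (167/16)*t^(3:ℕ) + (-3)*t^(4:ℕ) + (1/8)*t^(5:ℕ) + (-127/8)*t^(6:ℕ) + (315/16)*t^(7:ℕ) + (31/8)*t^(8:ℕ) + (-445/16)*t^(9:ℕ) + (99/4)*t^(10:ℕ) + (-33/4)*t^(11:ℕ)) + (23/36450)*((5/2)*t^(5:ℕ) + (-31/4)*t^(6:ℕ) + 6*t^(7:ℕ) + (29/4)*t^(8:ℕ) + (-75/4)*t^(9:ℕ) + 15*t^(10:ℕ) +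 (-5)*t^(11:ℕ)) + (4/18225)*((-1)*t^(7:ℕ) + 3*t^(8:ℕ) + (-17/4)*t^(9:ℕ) + 3*t^(10:ℕ) + (-1)*t^(11:ℕ)) - (47/20) := by
  have e : 1*(1 + (13/2)*t^(2:ℕ) + 16*t^(4:ℕ) + 19*t^(6:ℕ) + 11*t^(8:ℕ) + (5/2)*t^(10:ℕ)) + (7/20)*((5/2) + (-1/2)*t + 8*t^(2:ℕ) + (5/2)*t^(3:ℕ) + 50*t^(4:ℕ) + 25*t^(5:ℕ) + 100*t^(6:ℕ) + 20*t^(7:ℕ) + (139/2)*t^(8:ℕ) + (-13/2)*t^(9:ℕ) + 14*t^(10:ℕ) + (-9/2)*t^(11:ℕ)) + (257/2100)*((-7) + (-37/4)*t + (-469/8)*t^(2:ℕ) + (-159/4)*t^(3:ℕ) + (-14)*t^(4:ℕ) + 40*t^(5:ℕ) + (691/4)*t^(6:ℕ) + 32*t^(7:ℕ) + 166*t^(8:ℕ) + (-275/4)*t^(9:ℕ) + (247/8)*t^(10:ℕ) + (-121/4)*t^(11:ℕ)) + (202/4725)*((-4) + (-4)*t + (-20)*t^(2:ℕ) + (-56)*t^(3:ℕ) + (-67)*t^(4:ℕ)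 + (165/4)*t^(5:ℕ) + (125/4)*t^(6:ℕ) + 35*t^(7:ℕ) + (251/2)*t^(8:ℕ) + (-455/4)*t^(9:ℕ) + (173/4)*t^(10:ℕ) + (-111/2)*t^(11:ℕ)) + (47/3150)*((83/4)*t^(2:ℕ) + (-5/4)*t^(3:ℕ) + (-51/4)*t^(4:ℕ) + (-21/4)*t^(5:ℕ) + (-27/4)*t^(6:ℕ) + (25/4)*t^(7:ℕ) + (243/4)*t^(8:ℕ) + (-70)*t^(9:ℕ) + 34*t^(10:ℕ) + (-50)*t^(11:ℕ)) + (59/11340)*((-8)*t^(2:ℕ) + (119/4)*t^(3:ℕ) + 1*t^(4:ℕ) + (-18)*t^(5:ℕ) + (11/2)*t^(6:ℕ) + (23/4)*t^(7:ℕ) + (39/2)*t^(8:ℕ) + (-115/4)*t^(9:ℕ) + 23*t^(10:ℕ) + (-19)*t^(11:ℕ)) + (37/20412)*((-8)*t^(2:ℕ) + (167/16)*t^(3:ℕ) + (-3)*t^(4:ℕ) + (1/8)*t^(5:ℕ) + (-127/8)*t^(6:ℕ) + (315/16)*t^(7:ℕ) + (31/8)*t^(8:ℕ) + (-445/16)*t^(9:ℕ) + (99/4)*t^(10:ℕ) + (-33/4)*t^(11:ℕ))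 + (23/36450)*((5/2)*t^(5:ℕ) + (-31/4)*t^(6:ℕ) + 6*t^(7:ℕ) + (29/4)*t^(8:ℕ) + (-75/4)*t^(9:ℕ) + 15*t^(10:ℕ) + (-5)*t^(11:ℕ)) + (4/18225)*((-1)*t^(7:ℕ) + 3*t^(8:ℕ) + (-17/4)*t^(9:ℕ) + 3*t^(10:ℕ) + (-1)*t^(11:ℕ)) - (47/20) = (238883377/102060)*(1 - t)^(11:ℕ) + (122908721291/2041200)*(t - (1/2))*(1 - t)^(10:ℕ) + (1131525652279/2041200)*(t - (1/2))^(2:ℕ)*(1 - t)^(9:ℕ) + (403644096197/145800)*(t - (1/2))^(3:ℕ)*(1 - t)^(8:ℕ) + (890595968239/102060)*(t - (1/2))^(4:ℕ)*(1 - t)^(7:ℕ) + (4748200599547/255150)*(t - (1/2))^(5:ℕ)*(1 - t)^(6:ℕ) + (56093449253/2025)*(t - (1/2))^(6:ℕ)*(1 - t)^(5:ℕ) + (1231572113642/42525)*(t - (1/2))^(7:ℕ)*(1 - t)^(4:ℕ) + (2668985789392/127575)*(t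 - (1/2))^(8:ℕ)*(1 - t)^(3:ℕ) + (1271533506064/127575)*(t - (1/2))^(9:ℕ)*(1 - t)^(2:ℕ) + (17141710448/6075)*(t - (1/2))^(10:ℕ)*(1 - t) + (2185300832/6075)*(t - (1/2))^(11:ℕ) := by
    ring
  rw [e]
  have a3 : 0 ≤ t - (1/2) := by linarith
  have a4 : 0 ≤ 1 - t := by linarith
  generalize t - (1/2) = t1 at a3 ⊢
  generalize 1 - t = t2 at a4 ⊢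
  positivity

lemma pos_L2e_B3_b3 (t : ℝ) (h3 : (1/2) ≤ t) (h4 : t ≤ 1) :
    0 ≤ 1*(1 + (13/2)*t^(2:ℕ) + 16*t^(4:ℕ) + 19*t^(6:ℕ) + 11*t^(8:ℕ) + (5/2)*t^(10:ℕ)) + (43/120)*((5/2) + (-1/2)*t + 8*t^(2:ℕ) + (5/2)*t^(3:ℕ) + 50*t^(4:ℕ) + 25*t^(5:ℕ) + 100*t^(6:ℕ) + 20*t^(7:ℕ) + (139/2)*t^(8:ℕ) + (-13/2)*t^(9:ℕ) + 14*t^(10:ℕ) + (-9/2)*t^(11:ℕ)) + (202/1575)*((-7) + (-37/4)*t + (-469/8)*t^(2:ℕ) + (-159/4)*t^(3:ℕ) + (-14)*t^(4:ℕ) + 40*t^(5:ℕ) + (691/4)*t^(6:ℕ) + 32*t^(7:ℕ) + 166*t^(8:ℕ) + (-275/4)*t^(9:ℕ) + (247/8)*t^(10:ℕ) + (-121/4)*t^(11:ℕ)) + (619/13500)*((-4) + (-4)*t + (-20)*t^(2:ℕ) + (-56)*t^(3:ℕ) + (-67)*t^(4:ℕ) + (165/4)*t^(5:ℕ) + (125/4)*t^(6:ℕ) +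 35*t^(7:ℕ) + (251/2)*t^(8:ℕ) + (-455/4)*t^(9:ℕ) + (173/4)*t^(10:ℕ) + (-111/2)*t^(11:ℕ)) + (2321/141750)*((83/4)*t^(2:ℕ) + (-5/4)*t^(3:ℕ) + (-51/4)*t^(4:ℕ) + (-21/4)*t^(5:ℕ) + (-27/4)*t^(6:ℕ) + (25/4)*t^(7:ℕ) + (243/4)*t^(8:ℕ) + (-70)*t^(9:ℕ) + 34*t^(10:ℕ) + (-50)*t^(11:ℕ)) + (1987/340200)*((-8)*t^(2:ℕ) + (119/4)*t^(3:ℕ) + 1*t^(4:ℕ) + (-18)*t^(5:ℕ) + (11/2)*t^(6:ℕ) + (23/4)*t^(7:ℕ) + (39/2)*t^(8:ℕ) + (-115/4)*t^(9:ℕ) + 23*t^(10:ℕ) + (-19)*t^(11:ℕ)) + (59/28350)*((-8)*t^(2:ℕ) + (167/16)*t^(3:ℕ) + (-3)*t^(4:ℕ) + (1/8)*t^(5:ℕ) + (-127/8)*t^(6:ℕ) + (315/16)*t^(7:ℕ) + (31/8)*t^(8:ℕ) + (-445/16)*t^(9:ℕ) + (99/4)*t^(10:ℕ) + (-33/4)*t^(11:ℕ)) + (1/1350)*((5/2)*t^(5:ℕ)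 + (-31/4)*t^(6:ℕ) + 6*t^(7:ℕ) + (29/4)*t^(8:ℕ) + (-75/4)*t^(9:ℕ) + 15*t^(10:ℕ) + (-5)*t^(11:ℕ)) + (8/30375)*((-1)*t^(7:ℕ) + 3*t^(8:ℕ) + (-17/4)*t^(9:ℕ) + 3*t^(10:ℕ) + (-1)*t^(11:ℕ)) - (47/20) := by
  have e : 1*(1 + (13/2)*t^(2:ℕ) + 16*t^(4:ℕ) + 19*t^(6:ℕ) + 11*t^(8:ℕ) + (5/2)*t^(10:ℕ)) + (43/120)*((5/2) + (-1/2)*t + 8*t^(2:ℕ) + (5/2)*t^(3:ℕ) + 50*t^(4:ℕ) + 25*t^(5:ℕ) + 100*t^(6:ℕ) + 20*t^(7:ℕ) + (139/2)*t^(8:ℕ) + (-13/2)*t^(9:ℕ) + 14*t^(10:ℕ) + (-9/2)*t^(11:ℕ)) + (202/1575)*((-7) + (-37/4)*t + (-469/8)*t^(2:ℕ) + (-159/4)*t^(3:ℕ) + (-14)*t^(4:ℕ) + 40*t^(5:ℕ) + (691/4)*t^(6:ℕ) + 32*t^(7:ℕ) + 166*t^(8:ℕ) + (-275/4)*t^(9:ℕ) + (247/8)*t^(10:ℕ) + (-121/4)*t^(11:ℕ))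 + (619/13500)*((-4) + (-4)*t + (-20)*t^(2:ℕ) + (-56)*t^(3:ℕ) + (-67)*t^(4:ℕ) + (165/4)*t^(5:ℕ) + (125/4)*t^(6:ℕ) + 35*t^(7:ℕ) + (251/2)*t^(8:ℕ) + (-455/4)*t^(9:ℕ) + (173/4)*t^(10:ℕ) + (-111/2)*t^(11:ℕ)) + (2321/141750)*((83/4)*t^(2:ℕ) + (-5/4)*t^(3:ℕ) + (-51/4)*t^(4:ℕ) + (-21/4)*t^(5:ℕ) + (-27/4)*t^(6:ℕ) + (25/4)*t^(7:ℕ) + (243/4)*t^(8:ℕ) + (-70)*t^(9:ℕ) + 34*t^(10:ℕ) + (-50)*t^(11:ℕ)) + (1987/340200)*((-8)*t^(2:ℕ) + (119/4)*t^(3:ℕ) + 1*t^(4:ℕ) + (-18)*t^(5:ℕ) + (11/2)*t^(6:ℕ) + (23/4)*t^(7:ℕ) + (39/2)*t^(8:ℕ) + (-115/4)*t^(9:ℕ) + 23*t^(10:ℕ) + (-19)*t^(11:ℕ)) + (59/28350)*((-8)*t^(2:ℕ) + (167/16)*t^(3:ℕ) + (-3)*t^(4:ℕ) + (1/8)*t^(5:ℕ) + (-127/8)*t^(6:ℕ)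 + (315/16)*t^(7:ℕ) + (31/8)*t^(8:ℕ) + (-445/16)*t^(9:ℕ) + (99/4)*t^(10:ℕ) + (-33/4)*t^(11:ℕ)) + (1/1350)*((5/2)*t^(5:ℕ) + (-31/4)*t^(6:ℕ) + 6*t^(7:ℕ) + (29/4)*t^(8:ℕ) + (-75/4)*t^(9:ℕ) + 15*t^(10:ℕ) + (-5)*t^(11:ℕ)) + (8/30375)*((-1)*t^(7:ℕ) + 3*t^(8:ℕ) + (-17/4)*t^(9:ℕ) + 3*t^(10:ℕ) + (-1)*t^(11:ℕ)) - (47/20) = (7066097887/3402000)*(1 - t)^(11:ℕ) + (2711939827/47250)*(t - (1/2))*(1 - t)^(10:ℕ) + (16465709854/30375)*(t - (1/2))^(2:ℕ)*(1 - t)^(9:ℕ) + (583426085387/212625)*(t - (1/2))^(3:ℕ)*(1 - t)^(8:ℕ) + (123635364262/14175)*(t - (1/2))^(4:ℕ)*(1 - t)^(7:ℕ) + (3978056553634/212625)*(t - (1/2))^(5:ℕ)*(1 - t)^(6:ℕ) + (1982208063856/70875)*(t - (1/2))^(6:ℕ)*(1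 - t)^(5:ℕ) + (49897533608/1701)*(t - (1/2))^(7:ℕ)*(1 - t)^(4:ℕ) + (4516621292032/212625)*(t - (1/2))^(8:ℕ)*(1 - t)^(3:ℕ) + (2155737655936/212625)*(t - (1/2))^(9:ℕ)*(1 - t)^(2:ℕ) + (203705563904/70875)*(t - (1/2))^(10:ℕ)*(1 - t) + (77976603136/212625)*(t - (1/2))^(11:ℕ) := by
    ring
  rw [e]
  have a3 : 0 ≤ t - (1/2) := by linarith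
  have a4 : 0 ≤ 1 - t := by linarith
  generalize t - (1/2) = t1 at a3 ⊢
  generalize 1 - t = t2 at a4 ⊢
  positivity

lemma pos_L2e_B3_b4 (t : ℝ) (h3 : (1/2) ≤ t) (h4 : t ≤ 1) :
    0 ≤ 1*(1 + (13/2)*t^(2:ℕ) + 16*t^(4:ℕ) + 19*t^(6:ℕ) + 11*t^(8:ℕ) + (5/2)*t^(10:ℕ)) + (11/30)*((5/2) + (-1/2)*t + 8*t^(2:ℕ) + (5/2)*t^(3:ℕ) + 50*t^(4:ℕ) + 25*t^(5:ℕ) + 100*t^(6:ℕ) + 20*t^(7:ℕ) + (139/2)*t^(8:ℕ) + (-13/2)*t^(9:ℕ) + 14*t^(10:ℕ) + (-9/2)*t^(11:ℕ)) + (47/350)*((-7) + (-37/4)*t + (-469/8)*t^(2:ℕ) + (-159/4)*t^(3:ℕ) + (-14)*t^(4:ℕ) + 40*t^(5:ℕ) + (691/4)*t^(6:ℕ) + 32*t^(7:ℕ) + 166*t^(8:ℕ) + (-275/4)*t^(9:ℕ) + (247/8)*t^(10:ℕ) + (-121/4)*t^(11:ℕ)) + (2321/47250)*((-4)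 + (-4)*t + (-20)*t^(2:ℕ) + (-56)*t^(3:ℕ) + (-67)*t^(4:ℕ) + (165/4)*t^(5:ℕ) + (125/4)*t^(6:ℕ) + 35*t^(7:ℕ) + (251/2)*t^(8:ℕ) + (-455/4)*t^(9:ℕ) + (173/4)*t^(10:ℕ) + (-111/2)*t^(11:ℕ)) + (63601/3543750)*((83/4)*t^(2:ℕ) + (-5/4)*t^(3:ℕ) + (-51/4)*t^(4:ℕ) + (-21/4)*t^(5:ℕ) + (-27/4)*t^(6:ℕ) + (25/4)*t^(7:ℕ) + (243/4)*t^(8:ℕ) + (-70)*t^(9:ℕ) + 34*t^(10:ℕ) + (-50)*t^(11:ℕ)) + (2321/354375)*((-8)*t^(2:ℕ) + (119/4)*t^(3:ℕ) + 1*t^(4:ℕ) + (-18)*t^(5:ℕ) + (11/2)*t^(6:ℕ) + (23/4)*t^(7:ℕ) + (39/2)*t^(8:ℕ) + (-115/4)*t^(9:ℕ) + 23*t^(10:ℕ) + (-19)*t^(11:ℕ)) + (94/39375)*((-8)*t^(2:ℕ) + (167/16)*t^(3:ℕ) + (-3)*t^(4:ℕ) + (1/8)*t^(5:ℕ) + (-127/8)*t^(6:ℕ) + (315/16)*t^(7:ℕ)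 + (31/8)*t^(8:ℕ) + (-445/16)*t^(9:ℕ) + (99/4)*t^(10:ℕ) + (-33/4)*t^(11:ℕ)) + (44/50625)*((5/2)*t^(5:ℕ) + (-31/4)*t^(6:ℕ) + 6*t^(7:ℕ) + (29/4)*t^(8:ℕ) + (-75/4)*t^(9:ℕ) + 15*t^(10:ℕ) + (-5)*t^(11:ℕ)) + (16/50625)*((-1)*t^(7:ℕ) + 3*t^(8:ℕ) + (-17/4)*t^(9:ℕ) + 3*t^(10:ℕ) + (-1)*t^(11:ℕ)) - (47/20) := by
  have e : 1*(1 + (13/2)*t^(2:ℕ) + 16*t^(4:ℕ) + 19*t^(6:ℕ) + 11*t^(8:ℕ) + (5/2)*t^(10:ℕ)) + (11/30)*((5/2) + (-1/2)*t + 8*t^(2:ℕ) + (5/2)*t^(3:ℕ) + 50*t^(4:ℕ) + 25*t^(5:ℕ) + 100*t^(6:ℕ) + 20*t^(7:ℕ) + (139/2)*t^(8:ℕ) + (-13/2)*t^(9:ℕ) + 14*t^(10:ℕ) + (-9/2)*t^(11:ℕ)) + (47/350)*((-7) + (-37/4)*t + (-469/8)*t^(2:ℕ) + (-159/4)*t^(3:ℕ) + (-14)*t^(4:ℕ) + 40*t^(5:ℕ)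 + (691/4)*t^(6:ℕ) + 32*t^(7:ℕ) + 166*t^(8:ℕ) + (-275/4)*t^(9:ℕ) + (247/8)*t^(10:ℕ) + (-121/4)*t^(11:ℕ)) + (2321/47250)*((-4) + (-4)*t + (-20)*t^(2:ℕ) + (-56)*t^(3:ℕ) + (-67)*t^(4:ℕ) + (165/4)*t^(5:ℕ) + (125/4)*t^(6:ℕ) + 35*t^(7:ℕ) + (251/2)*t^(8:ℕ) + (-455/4)*t^(9:ℕ) + (173/4)*t^(10:ℕ) + (-111/2)*t^(11:ℕ)) + (63601/3543750)*((83/4)*t^(2:ℕ) + (-5/4)*t^(3:ℕ) + (-51/4)*t^(4:ℕ) + (-21/4)*t^(5:ℕ) + (-27/4)*t^(6:ℕ) + (25/4)*t^(7:ℕ) + (243/4)*t^(8:ℕ) + (-70)*t^(9:ℕ) + 34*t^(10:ℕ) + (-50)*t^(11:ℕ)) + (2321/354375)*((-8)*t^(2:ℕ) + (119/4)*t^(3:ℕ) + 1*t^(4:ℕ) + (-18)*t^(5:ℕ) + (11/2)*t^(6:ℕ) + (23/4)*t^(7:ℕ) + (39/2)*t^(8:ℕ) + (-115/4)*t^(9:ℕ) + 23*t^(10:ℕ)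 + (-19)*t^(11:ℕ)) + (94/39375)*((-8)*t^(2:ℕ) + (167/16)*t^(3:ℕ) + (-3)*t^(4:ℕ) + (1/8)*t^(5:ℕ) + (-127/8)*t^(6:ℕ) + (315/16)*t^(7:ℕ) + (31/8)*t^(8:ℕ) + (-445/16)*t^(9:ℕ) + (99/4)*t^(10:ℕ) + (-33/4)*t^(11:ℕ)) + (44/50625)*((5/2)*t^(5:ℕ) + (-31/4)*t^(6:ℕ) + 6*t^(7:ℕ) + (29/4)*t^(8:ℕ) + (-75/4)*t^(9:ℕ) + 15*t^(10:ℕ) + (-5)*t^(11:ℕ)) + (16/50625)*((-1)*t^(7:ℕ) + 3*t^(8:ℕ) + (-17/4)*t^(9:ℕ) + 3*t^(10:ℕ) + (-1)*t^(11:ℕ)) - (47/20) = (354142133/196875)*(1 - t)^(11:ℕ) + (85676586661/1575000)*(t - (1/2))*(1 - t)^(10:ℕ) + (62468940029/118125)*(t - (1/2))^(2:ℕ)*(1 - t)^(9:ℕ) + (1375087117199/506250)*(t - (1/2))^(3:ℕ)*(1 - t)^(8:ℕ) + (15435654948596/1771875)*(t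 - (1/2))^(4:ℕ)*(1 - t)^(7:ℕ) + (33311769469024/1771875)*(t - (1/2))^(5:ℕ)*(1 - t)^(6:ℕ) + (1428999636304/50625)*(t - (1/2))^(6:ℕ)*(1 - t)^(5:ℕ) + (52630809383024/1771875)*(t - (1/2))^(7:ℕ)*(1 - t)^(4:ℕ) + (38206800162688/1771875)*(t - (1/2))^(8:ℕ)*(1 - t)^(3:ℕ) + (18269707278464/1771875)*(t - (1/2))^(9:ℕ)*(1 - t)^(2:ℕ) + (5186148695296/1771875)*(t - (1/2))^(10:ℕ)*(1 - t) + (220772816896/590625)*(t - (1/2))^(11:ℕ) := by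
    ring
  rw [e]
  have a3 : 0 ≤ t - (1/2) := by linarith
  have a4 : 0 ≤ 1 - t := by linarith
  generalize t - (1/2) = t1 at a3 ⊢
  generalize 1 - t = t2 at a4 ⊢
  positivity

lemma pos_L2e_B3_b5 (t : ℝ) (h3 : (1/2) ≤ t) (h4 : t ≤ 1) :
    0 ≤ 1*(1 + (13/2)*t^(2:ℕ) + 16*t^(4:ℕ) + 19*t^(6:ℕ) + 11*t^(8:ℕ) + (5/2)*t^(10:ℕ)) + (3/8)*((5/2) + (-1/2)*t + 8*t^(2:ℕ) + (5/2)*t^(3:ℕ) + 50*t^(4:ℕ) + 25*t^(5:ℕ) + 100*t^(6:ℕ) + 20*t^(7:ℕ) + (139/2)*t^(8:ℕ) + (-13/2)*t^(9:ℕ) + 14*t^(10:ℕ) + (-9/2)*t^(11:ℕ)) + (59/420)*((-7) + (-37/4)*t + (-469/8)*t^(2:ℕ) + (-159/4)*t^(3:ℕ) + (-14)*t^(4:ℕ) + 40*t^(5:ℕ) + (691/4)*t^(6:ℕ) + 32*t^(7:ℕ) + 166*t^(8:ℕ) + (-275/4)*t^(9:ℕ)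 + (247/8)*t^(10:ℕ) + (-121/4)*t^(11:ℕ)) + (1987/37800)*((-4) + (-4)*t + (-20)*t^(2:ℕ) + (-56)*t^(3:ℕ) + (-67)*t^(4:ℕ) + (165/4)*t^(5:ℕ) + (125/4)*t^(6:ℕ) + 35*t^(7:ℕ) + (251/2)*t^(8:ℕ) + (-455/4)*t^(9:ℕ) + (173/4)*t^(10:ℕ) + (-111/2)*t^(11:ℕ)) + (2321/118125)*((83/4)*t^(2:ℕ) + (-5/4)*t^(3:ℕ) + (-51/4)*t^(4:ℕ) + (-21/4)*t^(5:ℕ) + (-27/4)*t^(6:ℕ) + (25/4)*t^(7:ℕ) + (243/4)*t^(8:ℕ) + (-70)*t^(9:ℕ) + 34*t^(10:ℕ) + (-50)*t^(11:ℕ)) + (619/84375)*((-8)*t^(2:ℕ) + (119/4)*t^(3:ℕ) + 1*t^(4:ℕ) + (-18)*t^(5:ℕ) + (11/2)*t^(6:ℕ) + (23/4)*t^(7:ℕ) + (39/2)*t^(8:ℕ) + (-115/4)*t^(9:ℕ) + 23*t^(10:ℕ) + (-19)*t^(11:ℕ)) + (1616/590625)*((-8)*t^(2:ℕ) + (167/16)*t^(3:ℕ) +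 (-3)*t^(4:ℕ) + (1/8)*t^(5:ℕ) + (-127/8)*t^(6:ℕ) + (315/16)*t^(7:ℕ) + (31/8)*t^(8:ℕ) + (-445/16)*t^(9:ℕ) + (99/4)*t^(10:ℕ) + (-33/4)*t^(11:ℕ)) + (86/84375)*((5/2)*t^(5:ℕ) + (-31/4)*t^(6:ℕ) + 6*t^(7:ℕ) + (29/4)*t^(8:ℕ) + (-75/4)*t^(9:ℕ) + 15*t^(10:ℕ) + (-5)*t^(11:ℕ)) + (32/84375)*((-1)*t^(7:ℕ) + 3*t^(8:ℕ) + (-17/4)*t^(9:ℕ) + 3*t^(10:ℕ) + (-1)*t^(11:ℕ)) - (47/20) := by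
  have e : 1*(1 + (13/2)*t^(2:ℕ) + 16*t^(4:ℕ) + 19*t^(6:ℕ) + 11*t^(8:ℕ) + (5/2)*t^(10:ℕ)) + (3/8)*((5/2) + (-1/2)*t + 8*t^(2:ℕ) + (5/2)*t^(3:ℕ) + 50*t^(4:ℕ) + 25*t^(5:ℕ) + 100*t^(6:ℕ) + 20*t^(7:ℕ) + (139/2)*t^(8:ℕ) + (-13/2)*t^(9:ℕ) + 14*t^(10:ℕ) + (-9/2)*t^(11:ℕ)) + (59/420)*((-7) + (-37/4)*t + (-469/8)*t^(2:ℕ) + (-159/4)*t^(3:ℕ) + (-14)*t^(4:ℕ) + 40*t^(5:ℕ) + (691/4)*t^(6:ℕ) + 32*t^(7:ℕ) + 166*t^(8:ℕ) + (-275/4)*t^(9:ℕ) + (247/8)*t^(10:ℕ) + (-121/4)*t^(11:ℕ)) + (1987/37800)*((-4) + (-4)*t + (-20)*t^(2:ℕ) + (-56)*t^(3:ℕ) + (-67)*t^(4:ℕ) + (165/4)*t^(5:ℕ) + (125/4)*t^(6:ℕ) + 35*t^(7:ℕ) + (251/2)*t^(8:ℕ) + (-455/4)*t^(9:ℕ) + (173/4)*t^(10:ℕ) + (-111/2)*t^(11:ℕ))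 + (2321/118125)*((83/4)*t^(2:ℕ) + (-5/4)*t^(3:ℕ) + (-51/4)*t^(4:ℕ) + (-21/4)*t^(5:ℕ) + (-27/4)*t^(6:ℕ) + (25/4)*t^(7:ℕ) + (243/4)*t^(8:ℕ) + (-70)*t^(9:ℕ) + 34*t^(10:ℕ) + (-50)*t^(11:ℕ)) + (619/84375)*((-8)*t^(2:ℕ) + (119/4)*t^(3:ℕ) + 1*t^(4:ℕ) + (-18)*t^(5:ℕ) + (11/2)*t^(6:ℕ) + (23/4)*t^(7:ℕ) + (39/2)*t^(8:ℕ) + (-115/4)*t^(9:ℕ) + 23*t^(10:ℕ) + (-19)*t^(11:ℕ)) + (1616/590625)*((-8)*t^(2:ℕ) + (167/16)*t^(3:ℕ) + (-3)*t^(4:ℕ) + (1/8)*t^(5:ℕ) + (-127/8)*t^(6:ℕ) + (315/16)*t^(7:ℕ) + (31/8)*t^(8:ℕ) + (-445/16)*t^(9:ℕ) + (99/4)*t^(10:ℕ) + (-33/4)*t^(11:ℕ)) + (86/84375)*((5/2)*t^(5:ℕ) + (-31/4)*t^(6:ℕ) + 6*t^(7:ℕ) + (29/4)*t^(8:ℕ) + (-75/4)*t^(9:ℕ) + 15*t^(10:ℕ)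 + (-5)*t^(11:ℕ)) + (32/84375)*((-1)*t^(7:ℕ) + 3*t^(8:ℕ) + (-17/4)*t^(9:ℕ) + 3*t^(10:ℕ) + (-1)*t^(11:ℕ)) - (47/20) = (569192543/378000)*(1 - t)^(11:ℕ) + (242009825051/4725000)*(t - (1/2))*(1 - t)^(10:ℕ) + (486299803349/945000)*(t - (1/2))^(2:ℕ)*(1 - t)^(9:ℕ) + (6344130999341/2362500)*(t - (1/2))^(3:ℕ)*(1 - t)^(8:ℕ) + (5135100706849/590625)*(t - (1/2))^(4:ℕ)*(1 - t)^(7:ℕ) + (11152433703941/590625)*(t - (1/2))^(5:ℕ)*(1 - t)^(6:ℕ) + (16820301037762/590625)*(t - (1/2))^(6:ℕ)*(1 - t)^(5:ℕ) + (17759325187664/590625)*(t - (1/2))^(7:ℕ)*(1 - t)^(4:ℕ) + (1846382372032/84375)*(t - (1/2))^(8:ℕ)*(1 - t)^(3:ℕ) + (6191945503552/590625)*(t - (1/2))^(9:ℕ)*(1 - t)^(2:ℕ)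 + (195562441856/65625)*(t - (1/2))^(10:ℕ)*(1 - t) + (224972784128/590625)*(t - (1/2))^(11:ℕ) := by
    ring
  rw [e]
  have a3 : 0 ≤ t - (1/2) := by linarith
  have a4 : 0 ≤ 1 - t := by linarith
  generalize t - (1/2) = t1 at a3 ⊢
  generalize 1 - t = t2 at a4 ⊢
  positivity

lemma pos_L2e_B3_b6 (t : ℝ) (h3 : (1/2) ≤ t) (h4 : t ≤ 1) :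
    0 ≤ 1*(1 + (13/2)*t^(2:ℕ) + 16*t^(4:ℕ) + 19*t^(6:ℕ) + 11*t^(8:ℕ) + (5/2)*t^(10:ℕ)) + (23/60)*((5/2) + (-1/2)*t + 8*t^(2:ℕ) + (5/2)*t^(3:ℕ) + 50*t^(4:ℕ) + 25*t^(5:ℕ) + 100*t^(6:ℕ) + 20*t^(7:ℕ) + (139/2)*t^(8:ℕ) + (-13/2)*t^(9:ℕ) + 14*t^(10:ℕ) + (-9/2)*t^(11:ℕ)) + (37/252)*((-7) + (-37/4)*t + (-469/8)*t^(2:ℕ) + (-159/4)*t^(3:ℕ) + (-14)*t^(4:ℕ) + 40*t^(5:ℕ) + (691/4)*t^(6:ℕ) + 32*t^(7:ℕ) + 166*t^(8:ℕ) + (-275/4)*t^(9:ℕ) + (247/8)*t^(10:ℕ) + (-121/4)*t^(11:ℕ)) + (59/1050)*((-4) + (-4)*t + (-20)*t^(2:ℕ) + (-56)*t^(3:ℕ) + (-67)*t^(4:ℕ) + (165/4)*t^(5:ℕ) + (125/4)*t^(6:ℕ) + 35*t^(7:ℕ) + (251/2)*t^(8:ℕ) + (-455/4)*t^(9:ℕ) + (173/4)*t^(10:ℕ) + (-111/2)*t^(11:ℕ))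 + (94/4375)*((83/4)*t^(2:ℕ) + (-5/4)*t^(3:ℕ) + (-51/4)*t^(4:ℕ) + (-21/4)*t^(5:ℕ) + (-27/4)*t^(6:ℕ) + (25/4)*t^(7:ℕ) + (243/4)*t^(8:ℕ) + (-70)*t^(9:ℕ) + 34*t^(10:ℕ) + (-50)*t^(11:ℕ)) + (1616/196875)*((-8)*t^(2:ℕ) + (119/4)*t^(3:ℕ) + 1*t^(4:ℕ) + (-18)*t^(5:ℕ) + (11/2)*t^(6:ℕ) + (23/4)*t^(7:ℕ) + (39/2)*t^(8:ℕ) + (-115/4)*t^(9:ℕ) + 23*t^(10:ℕ) + (-19)*t^(11:ℕ)) + (1028/328125)*((-8)*t^(2:ℕ) + (167/16)*t^(3:ℕ) + (-3)*t^(4:ℕ) + (1/8)*t^(5:ℕ) + (-127/8)*t^(6:ℕ) + (315/16)*t^(7:ℕ) + (31/8)*t^(8:ℕ) + (-445/16)*t^(9:ℕ) + (99/4)*t^(10:ℕ) + (-33/4)*t^(11:ℕ)) + (56/46875)*((5/2)*t^(5:ℕ) + (-31/4)*t^(6:ℕ) + 6*t^(7:ℕ) + (29/4)*t^(8:ℕ) + (-75/4)*t^(9:ℕ) + 15*t^(10:ℕ)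 + (-5)*t^(11:ℕ)) + (64/140625)*((-1)*t^(7:ℕ) + 3*t^(8:ℕ) + (-17/4)*t^(9:ℕ) + 3*t^(10:ℕ) + (-1)*t^(11:ℕ)) - (47/20) := by
  have e : 1*(1 + (13/2)*t^(2:ℕ) + 16*t^(4:ℕ) + 19*t^(6:ℕ) + 11*t^(8:ℕ) + (5/2)*t^(10:ℕ)) + (23/60)*((5/2) + (-1/2)*t + 8*t^(2:ℕ) + (5/2)*t^(3:ℕ) + 50*t^(4:ℕ) + 25*t^(5:ℕ) + 100*t^(6:ℕ) + 20*t^(7:ℕ) + (139/2)*t^(8:ℕ) + (-13/2)*t^(9:ℕ) + 14*t^(10:ℕ) + (-9/2)*t^(11:ℕ)) + (37/252)*((-7) + (-37/4)*t + (-469/8)*t^(2:ℕ) + (-159/4)*t^(3:ℕ) + (-14)*t^(4:ℕ) + 40*t^(5:ℕ) + (691/4)*t^(6:ℕ) + 32*t^(7:ℕ) + 166*t^(8:ℕ) + (-275/4)*t^(9:ℕ) + (247/8)*t^(10:ℕ) + (-121/4)*t^(11:ℕ)) + (59/1050)*((-4) + (-4)*t + (-20)*t^(2:ℕ) + (-56)*t^(3:ℕ) + (-67)*t^(4:ℕ)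 + (165/4)*t^(5:ℕ) + (125/4)*t^(6:ℕ) + 35*t^(7:ℕ) + (251/2)*t^(8:ℕ) + (-455/4)*t^(9:ℕ) + (173/4)*t^(10:ℕ) + (-111/2)*t^(11:ℕ)) + (94/4375)*((83/4)*t^(2:ℕ) + (-5/4)*t^(3:ℕ) + (-51/4)*t^(4:ℕ) + (-21/4)*t^(5:ℕ) + (-27/4)*t^(6:ℕ) + (25/4)*t^(7:ℕ) + (243/4)*t^(8:ℕ) + (-70)*t^(9:ℕ) + 34*t^(10:ℕ) + (-50)*t^(11:ℕ)) + (1616/196875)*((-8)*t^(2:ℕ) + (119/4)*t^(3:ℕ) + 1*t^(4:ℕ) + (-18)*t^(5:ℕ) + (11/2)*t^(6:ℕ) + (23/4)*t^(7:ℕ) + (39/2)*t^(8:ℕ) + (-115/4)*t^(9:ℕ) + 23*t^(10:ℕ) + (-19)*t^(11:ℕ)) + (1028/328125)*((-8)*t^(2:ℕ) + (167/16)*t^(3:ℕ) + (-3)*t^(4:ℕ) + (1/8)*t^(5:ℕ) + (-127/8)*t^(6:ℕ) + (315/16)*t^(7:ℕ) + (31/8)*t^(8:ℕ) + (-445/16)*t^(9:ℕ) + (99/4)*t^(10:ℕ)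 + (-33/4)*t^(11:ℕ)) + (56/46875)*((5/2)*t^(5:ℕ) + (-31/4)*t^(6:ℕ) + 6*t^(7:ℕ) + (29/4)*t^(8:ℕ) + (-75/4)*t^(9:ℕ) + 15*t^(10:ℕ) + (-5)*t^(11:ℕ)) + (64/140625)*((-1)*t^(7:ℕ) + 3*t^(8:ℕ) + (-17/4)*t^(9:ℕ) + 3*t^(10:ℕ) + (-1)*t^(11:ℕ)) - (47/20) = (4716547109/3937500)*(1 - t)^(11:ℕ) + (753753068321/15750000)*(t - (1/2))*(1 - t)^(10:ℕ) + (983129085131/1968750)*(t - (1/2))^(2:ℕ)*(1 - t)^(9:ℕ) + (1491334681357/562500)*(t - (1/2))^(3:ℕ)*(1 - t)^(8:ℕ) + (8535127250878/984375)*(t - (1/2))^(4:ℕ)*(1 - t)^(7:ℕ) + (3731873731612/196875)*(t - (1/2))^(5:ℕ)*(1 - t)^(6:ℕ) + (28273741204712/984375)*(t - (1/2))^(6:ℕ)*(1 - t)^(5:ℕ) + (9984803123104/328125)*(t - (1/2))^(7:ℕ)*(1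 - t)^(4:ℕ) + (21855620662912/984375)*(t - (1/2))^(8:ℕ)*(1 - t)^(3:ℕ) + (3496821763072/328125)*(t - (1/2))^(9:ℕ)*(1 - t)^(2:ℕ) + (142188954368/46875)*(t - (1/2))^(10:ℕ)*(1 - t) + (382001881088/984375)*(t - (1/2))^(11:ℕ) := by
    ring
  rw [e]
  have a3 : 0 ≤ t - (1/2) := by linarith
  have a4 : 0 ≤ 1 - t := by linarith
  generalize t - (1/2) = t1 at a3 ⊢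
  generalize 1 - t = t2 at a4 ⊢
  positivity

lemma pos_L2e_B3_b7 (t : ℝ) (h3 : (1/2) ≤ t) (h4 : t ≤ 1) :
    0 ≤ 1*(1 + (13/2)*t^(2:ℕ) + 16*t^(4:ℕ) + 19*t^(6:ℕ) + 11*t^(8:ℕ) + (5/2)*t^(10:ℕ)) + (47/120)*((5/2) + (-1/2)*t + 8*t^(2:ℕ) + (5/2)*t^(3:ℕ) + 50*t^(4:ℕ) + 25*t^(5:ℕ) + 100*t^(6:ℕ) + 20*t^(7:ℕ) + (139/2)*t^(8:ℕ) + (-13/2)*t^(9:ℕ) + 14*t^(10:ℕ) + (-9/2)*t^(11:ℕ)) + (23/150)*((-7) + (-37/4)*t + (-469/8)*t^(2:ℕ) + (-159/4)*t^(3:ℕ) + (-14)*t^(4:ℕ) + 40*t^(5:ℕ) + (691/4)*t^(6:ℕ) + 32*t^(7:ℕ) + 166*t^(8:ℕ) + (-275/4)*t^(9:ℕ) + (247/8)*t^(10:ℕ) + (-121/4)*t^(11:ℕ)) + (3/50)*((-4) + (-4)*t + (-20)*t^(2:ℕ) + (-56)*t^(3:ℕ) + (-67)*t^(4:ℕ) + (165/4)*t^(5:ℕ)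 + (125/4)*t^(6:ℕ) + 35*t^(7:ℕ) + (251/2)*t^(8:ℕ) + (-455/4)*t^(9:ℕ) + (173/4)*t^(10:ℕ) + (-111/2)*t^(11:ℕ)) + (44/1875)*((83/4)*t^(2:ℕ) + (-5/4)*t^(3:ℕ) + (-51/4)*t^(4:ℕ) + (-21/4)*t^(5:ℕ) + (-27/4)*t^(6:ℕ) + (25/4)*t^(7:ℕ) + (243/4)*t^(8:ℕ) + (-70)*t^(9:ℕ) + 34*t^(10:ℕ) + (-50)*t^(11:ℕ)) + (86/9375)*((-8)*t^(2:ℕ) + (119/4)*t^(3:ℕ) + 1*t^(4:ℕ) + (-18)*t^(5:ℕ) + (11/2)*t^(6:ℕ) + (23/4)*t^(7:ℕ) + (39/2)*t^(8:ℕ) + (-115/4)*t^(9:ℕ) + 23*t^(10:ℕ) + (-19)*t^(11:ℕ)) + (56/15625)*((-8)*t^(2:ℕ) + (167/16)*t^(3:ℕ) + (-3)*t^(4:ℕ) + (1/8)*t^(5:ℕ) + (-127/8)*t^(6:ℕ) + (315/16)*t^(7:ℕ) + (31/8)*t^(8:ℕ) + (-445/16)*t^(9:ℕ) + (99/4)*t^(10:ℕ) + (-33/4)*t^(11:ℕ)) +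 (328/234375)*((5/2)*t^(5:ℕ) + (-31/4)*t^(6:ℕ) + 6*t^(7:ℕ) + (29/4)*t^(8:ℕ) + (-75/4)*t^(9:ℕ) + 15*t^(10:ℕ) + (-5)*t^(11:ℕ)) + (128/234375)*((-1)*t^(7:ℕ) + 3*t^(8:ℕ) + (-17/4)*t^(9:ℕ) + 3*t^(10:ℕ) + (-1)*t^(11:ℕ)) - (47/20) := by
  have e : 1*(1 + (13/2)*t^(2:ℕ) + 16*t^(4:ℕ) + 19*t^(6:ℕ) + 11*t^(8:ℕ) + (5/2)*t^(10:ℕ)) + (47/120)*((5/2) + (-1/2)*t + 8*t^(2:ℕ) + (5/2)*t^(3:ℕ) + 50*t^(4:ℕ) + 25*t^(5:ℕ) + 100*t^(6:ℕ) + 20*t^(7:ℕ) + (139/2)*t^(8:ℕ) + (-13/2)*t^(9:ℕ) + 14*t^(10:ℕ) + (-9/2)*t^(11:ℕ)) + (23/150)*((-7) + (-37/4)*t + (-469/8)*t^(2:ℕ) + (-159/4)*t^(3:ℕ) + (-14)*t^(4:ℕ) + 40*t^(5:ℕ) + (691/4)*t^(6:ℕ) + 32*t^(7:ℕ) + 166*t^(8:ℕ) + (-275/4)*t^(9:ℕ)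 + (247/8)*t^(10:ℕ) + (-121/4)*t^(11:ℕ)) + (3/50)*((-4) + (-4)*t + (-20)*t^(2:ℕ) + (-56)*t^(3:ℕ) + (-67)*t^(4:ℕ) + (165/4)*t^(5:ℕ) + (125/4)*t^(6:ℕ) + 35*t^(7:ℕ) + (251/2)*t^(8:ℕ) + (-455/4)*t^(9:ℕ) + (173/4)*t^(10:ℕ) + (-111/2)*t^(11:ℕ)) + (44/1875)*((83/4)*t^(2:ℕ) + (-5/4)*t^(3:ℕ) + (-51/4)*t^(4:ℕ) + (-21/4)*t^(5:ℕ) + (-27/4)*t^(6:ℕ) + (25/4)*t^(7:ℕ) + (243/4)*t^(8:ℕ) + (-70)*t^(9:ℕ) + 34*t^(10:ℕ) + (-50)*t^(11:ℕ)) + (86/9375)*((-8)*t^(2:ℕ) + (119/4)*t^(3:ℕ) + 1*t^(4:ℕ) + (-18)*t^(5:ℕ) + (11/2)*t^(6:ℕ) + (23/4)*t^(7:ℕ) + (39/2)*t^(8:ℕ) + (-115/4)*t^(9:ℕ) + 23*t^(10:ℕ) + (-19)*t^(11:ℕ)) + (56/15625)*((-8)*t^(2:ℕ) + (167/16)*t^(3:ℕ) + (-3)*t^(4:ℕ) +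 (1/8)*t^(5:ℕ) + (-127/8)*t^(6:ℕ) + (315/16)*t^(7:ℕ) + (31/8)*t^(8:ℕ) + (-445/16)*t^(9:ℕ) + (99/4)*t^(10:ℕ) + (-33/4)*t^(11:ℕ)) + (328/234375)*((5/2)*t^(5:ℕ) + (-31/4)*t^(6:ℕ) + 6*t^(7:ℕ) + (29/4)*t^(8:ℕ) + (-75/4)*t^(9:ℕ) + 15*t^(10:ℕ) + (-5)*t^(11:ℕ)) + (128/234375)*((-1)*t^(7:ℕ) + 3*t^(8:ℕ) + (-17/4)*t^(9:ℕ) + 3*t^(10:ℕ) + (-1)*t^(11:ℕ)) - (47/20) = (1093549707/1250000)*(1 - t)^(11:ℕ) + (10385414963/234375)*(t - (1/2))*(1 - t)^(10:ℕ) + (37743782829/78125)*(t - (1/2))^(2:ℕ)*(1 - t)^(9:ℕ) + (122528164504/46875)*(t - (1/2))^(3:ℕ)*(1 - t)^(8:ℕ) + (675013512074/78125)*(t - (1/2))^(4:ℕ)*(1 - t)^(7:ℕ) + (891541280968/46875)*(t - (1/2))^(5:ℕ)*(1 - t)^(6:ℕ)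 + (2262357698928/78125)*(t - (1/2))^(6:ℕ)*(1 - t)^(5:ℕ) + (7215679867264/234375)*(t - (1/2))^(7:ℕ)*(1 - t)^(4:ℕ) + (351895791488/15625)*(t - (1/2))^(8:ℕ)*(1 - t)^(3:ℕ) + (846149936128/78125)*(t - (1/2))^(9:ℕ)*(1 - t)^(2:ℕ) + (241173284352/78125)*(t - (1/2))^(10:ℕ)*(1 - t) + (92641824256/234375)*(t - (1/2))^(11:ℕ) := by
    ring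
  rw [e]
  have a3 : 0 ≤ t - (1/2) := by linarith
  have a4 : 0 ≤ 1 - t := by linarith
  generalize t - (1/2) = t1 at a3 ⊢
  generalize 1 - t = t2 at a4 ⊢
  positivity

lemma pos_L2e_B3_b8 (t : ℝ) (h3 : (1/2) ≤ t) (h4 : t ≤ 1) :
    0 ≤ 1*(1 + (13/2)*t^(2:ℕ) + 16*t^(4:ℕ) + 19*t^(6:ℕ) + 11*t^(8:ℕ) + (5/2)*t^(10:ℕ)) + (2/5)*((5/2) + (-1/2)*t + 8*t^(2:ℕ) + (5/2)*t^(3:ℕ) + 50*t^(4:ℕ) + 25*t^(5:ℕ) + 100*t^(6:ℕ) + 20*t^(7:ℕ) + (139/2)*t^(8:ℕ) + (-13/2)*t^(9:ℕ) + 14*t^(10:ℕ) + (-9/2)*t^(11:ℕ)) + (4/25)*((-7) + (-37/4)*t + (-469/8)*t^(2:ℕ) + (-159/4)*t^(3:ℕ) + (-14)*t^(4:ℕ) + 40*t^(5:ℕ) + (691/4)*t^(6:ℕ) + 32*t^(7:ℕ) + 166*t^(8:ℕ) + (-275/4)*t^(9:ℕ) + (247/8)*t^(10:ℕ)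 + (-121/4)*t^(11:ℕ)) + (8/125)*((-4) + (-4)*t + (-20)*t^(2:ℕ) + (-56)*t^(3:ℕ) + (-67)*t^(4:ℕ) + (165/4)*t^(5:ℕ) + (125/4)*t^(6:ℕ) + 35*t^(7:ℕ) + (251/2)*t^(8:ℕ) + (-455/4)*t^(9:ℕ) + (173/4)*t^(10:ℕ) + (-111/2)*t^(11:ℕ)) + (16/625)*((83/4)*t^(2:ℕ) + (-5/4)*t^(3:ℕ) + (-51/4)*t^(4:ℕ) + (-21/4)*t^(5:ℕ) + (-27/4)*t^(6:ℕ) + (25/4)*t^(7:ℕ) + (243/4)*t^(8:ℕ) + (-70)*t^(9:ℕ) + 34*t^(10:ℕ) + (-50)*t^(11:ℕ)) + (32/3125)*((-8)*t^(2:ℕ) + (119/4)*t^(3:ℕ) + 1*t^(4:ℕ) + (-18)*t^(5:ℕ) + (11/2)*t^(6:ℕ) + (23/4)*t^(7:ℕ) + (39/2)*t^(8:ℕ) + (-115/4)*t^(9:ℕ) + 23*t^(10:ℕ) + (-19)*t^(11:ℕ)) + (64/15625)*((-8)*t^(2:ℕ) + (167/16)*t^(3:ℕ) + (-3)*t^(4:ℕ) + (1/8)*t^(5:ℕ) + (-127/8)*t^(6:ℕ)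 + (315/16)*t^(7:ℕ) + (31/8)*t^(8:ℕ) + (-445/16)*t^(9:ℕ) + (99/4)*t^(10:ℕ) + (-33/4)*t^(11:ℕ)) + (128/78125)*((5/2)*t^(5:ℕ) + (-31/4)*t^(6:ℕ) + 6*t^(7:ℕ) + (29/4)*t^(8:ℕ) + (-75/4)*t^(9:ℕ) + 15*t^(10:ℕ) + (-5)*t^(11:ℕ)) + (256/390625)*((-1)*t^(7:ℕ) + 3*t^(8:ℕ) + (-17/4)*t^(9:ℕ) + 3*t^(10:ℕ) + (-1)*t^(11:ℕ)) - (47/20) := by
  have e : 1*(1 + (13/2)*t^(2:ℕ) + 16*t^(4:ℕ) + 19*t^(6:ℕ) + 11*t^(8:ℕ) + (5/2)*t^(10:ℕ)) + (2/5)*((5/2) + (-1/2)*t + 8*t^(2:ℕ) + (5/2)*t^(3:ℕ) + 50*t^(4:ℕ) + 25*t^(5:ℕ) + 100*t^(6:ℕ) + 20*t^(7:ℕ) + (139/2)*t^(8:ℕ) + (-13/2)*t^(9:ℕ) + 14*t^(10:ℕ) + (-9/2)*t^(11:ℕ)) + (4/25)*((-7) + (-37/4)*t + (-469/8)*t^(2:ℕ) + (-159/4)*t^(3:ℕ) +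 (-14)*t^(4:ℕ) + 40*t^(5:ℕ) + (691/4)*t^(6:ℕ) + 32*t^(7:ℕ) + 166*t^(8:ℕ) + (-275/4)*t^(9:ℕ) + (247/8)*t^(10:ℕ) + (-121/4)*t^(11:ℕ)) + (8/125)*((-4) + (-4)*t + (-20)*t^(2:ℕ) + (-56)*t^(3:ℕ) + (-67)*t^(4:ℕ) + (165/4)*t^(5:ℕ) + (125/4)*t^(6:ℕ) + 35*t^(7:ℕ) + (251/2)*t^(8:ℕ) + (-455/4)*t^(9:ℕ) + (173/4)*t^(10:ℕ) + (-111/2)*t^(11:ℕ)) + (16/625)*((83/4)*t^(2:ℕ) + (-5/4)*t^(3:ℕ) + (-51/4)*t^(4:ℕ) + (-21/4)*t^(5:ℕ) + (-27/4)*t^(6:ℕ) + (25/4)*t^(7:ℕ) + (243/4)*t^(8:ℕ) + (-70)*t^(9:ℕ) + 34*t^(10:ℕ) + (-50)*t^(11:ℕ)) + (32/3125)*((-8)*t^(2:ℕ) + (119/4)*t^(3:ℕ) + 1*t^(4:ℕ) + (-18)*t^(5:ℕ) + (11/2)*t^(6:ℕ) + (23/4)*t^(7:ℕ) + (39/2)*t^(8:ℕ) + (-115/4)*t^(9:ℕ) + 23*t^(10:ℕ)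 + (-19)*t^(11:ℕ)) + (64/15625)*((-8)*t^(2:ℕ) + (167/16)*t^(3:ℕ) + (-3)*t^(4:ℕ) + (1/8)*t^(5:ℕ) + (-127/8)*t^(6:ℕ) + (315/16)*t^(7:ℕ) + (31/8)*t^(8:ℕ) + (-445/16)*t^(9:ℕ) + (99/4)*t^(10:ℕ) + (-33/4)*t^(11:ℕ)) + (128/78125)*((5/2)*t^(5:ℕ) + (-31/4)*t^(6:ℕ) + 6*t^(7:ℕ) + (29/4)*t^(8:ℕ) + (-75/4)*t^(9:ℕ) + 15*t^(10:ℕ) + (-5)*t^(11:ℕ)) + (256/390625)*((-1)*t^(7:ℕ) + 3*t^(8:ℕ) + (-17/4)*t^(9:ℕ) + 3*t^(10:ℕ) + (-1)*t^(11:ℕ)) - (47/20) = (209619766/390625)*(1 - t)^(11:ℕ) + (15851029652/390625)*(t - (1/2))*(1 - t)^(10:ℕ) + (181973932224/390625)*(t - (1/2))^(2:ℕ)*(1 - t)^(9:ℕ) + (1005207807952/390625)*(t - (1/2))^(3:ℕ)*(1 - t)^(8:ℕ) + (672107970112/78125)*(t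 - (1/2))^(4:ℕ)*(1 - t)^(7:ℕ) + (7450904178688/390625)*(t - (1/2))^(5:ℕ)*(1 - t)^(6:ℕ) + (11400643258368/390625)*(t - (1/2))^(6:ℕ)*(1 - t)^(5:ℕ) + (12163941055488/390625)*(t - (1/2))^(7:ℕ)*(1 - t)^(4:ℕ) + (8921637999104/390625)*(t - (1/2))^(8:ℕ)*(1 - t)^(3:ℕ) + (859759115776/78125)*(t - (1/2))^(9:ℕ)*(1 - t)^(2:ℕ) + (1226935762432/390625)*(t - (1/2))^(10:ℕ)*(1 - t) + (157236197888/390625)*(t - (1/2))^(11:ℕ) := by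
    ring
  rw [e]
  have a3 : 0 ≤ t - (1/2) := by linarith
  have a4 : 0 ≤ 1 - t := by linarith
  generalize t - (1/2) = t1 at a3 ⊢
  generalize 1 - t = t2 at a4 ⊢
  positivity

lemma pos_L2e_B3_id (d : ℝ) (C0 C1 C2 C3 C4 C5 C6 C7 C8 : ℝ) :
    C0 + d*C1 + d^(2:ℕ)*C2 + d^(3:ℕ)*C3 + d^(4:ℕ)*C4 + d^(5:ℕ)*C5 + d^(6:ℕ)*C6 + d^(7:ℕ)*C7 + d^(8:ℕ)*C8 = (47/20) + (2562890625*((2/5) - d)^(8:ℕ)*(1*C0 + (1/3)*C1 + (1/9)*C2 + (1/27)*C3 + (1/81)*C4 + (1/243)*C5 + (1/729)*C6 + (1/2187)*C7 + (1/6561)*C8 - (47/20)) + 20503125000*(d - (1/3))*((2/5) - d)^(7:ℕ)*(1*C0 + (41/120)*C1 + (7/60)*C2 + (43/1080)*C3 + (11/810)*C4 + (1/216)*C5 + (23/14580)*C6 + (47/87480)*C7 +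 (2/10935)*C8 - (47/20)) + 71760937500*(d - (1/3))^(2:ℕ)*((2/5) - d)^(6:ℕ)*(1*C0 + (7/20)*C1 + (257/2100)*C2 + (202/4725)*C3 + (47/3150)*C4 + (59/11340)*C5 + (37/20412)*C6 + (23/36450)*C7 + (4/18225)*C8 - (47/20)) + 143521875000*(d - (1/3))^(3:ℕ)*((2/5) - d)^(5:ℕ)*(1*C0 + (43/120)*C1 + (202/1575)*C2 + (619/13500)*C3 + (2321/141750)*C4 + (1987/340200)*C5 + (59/28350)*C6 + (1/1350)*C7 + (8/30375)*C8 - (47/20)) + 179402343750*(d - (1/3))^(4:ℕ)*((2/5) - d)^(4:ℕ)*(1*C0 + (11/30)*C1 + (47/350)*C2 + (2321/47250)*C3 + (63601/3543750)*C4 + (2321/354375)*C5 + (94/39375)*C6 + (44/50625)*C7 + (16/50625)*C8 - (47/20)) + 143521875000*(d - (1/3))^(5:ℕ)*((2/5) - d)^(3:ℕ)*(1*C0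 + (3/8)*C1 + (59/420)*C2 + (1987/37800)*C3 + (2321/118125)*C4 + (619/84375)*C5 + (1616/590625)*C6 + (86/84375)*C7 + (32/84375)*C8 - (47/20)) + 71760937500*(d - (1/3))^(6:ℕ)*((2/5) - d)^(2:ℕ)*(1*C0 + (23/60)*C1 + (37/252)*C2 + (59/1050)*C3 + (94/4375)*C4 + (1616/196875)*C5 + (1028/328125)*C6 + (56/46875)*C7 + (64/140625)*C8 - (47/20)) + 20503125000*(d - (1/3))^(7:ℕ)*((2/5) - d)*(1*C0 + (47/120)*C1 + (23/150)*C2 + (3/50)*C3 + (44/1875)*C4 + (86/9375)*C5 + (56/15625)*C6 + (328/234375)*C7 + (128/234375)*C8 - (47/20)) + 2562890625*(d - (1/3))^(8:ℕ)*(1*C0 + (2/5)*C1 + (4/25)*C2 + (8/125)*C3 + (16/625)*C4 + (32/3125)*C5 + (64/15625)*C6 + (128/78125)*C7 +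 (256/390625)*C8 - (47/20))) := by
  ring

lemma pos_L2e_B3_gen (d1 d2 B0 B1 B2 B3 B4 B5 B6 B7 B8 : ℝ) (a1 : 0 ≤ d1) (a2 : 0 ≤ d2) (b0 : 0 ≤ B0) (b1 : 0 ≤ B1) (b2 : 0 ≤ B2) (b3 : 0 ≤ B3) (b4 : 0 ≤ B4) (b5 : 0 ≤ B5) (b6 : 0 ≤ B6) (b7 : 0 ≤ B7) (b8 : 0 ≤ B8) :
    0 < (47/20) + (2562890625*d2^(8:ℕ)*(B0) + 20503125000*d1*d2^(7:ℕ)*(B1) + 71760937500*d1^(2:ℕ)*d2^(6:ℕ)*(B2) + 143521875000*d1^(3:ℕ)*d2^(5:ℕ)*(B3) + 179402343750*d1^(4:ℕ)*d2^(4:ℕ)*(B4) + 143521875000*d1^(5:ℕ)*d2^(3:ℕ)*(B5) + 71760937500*d1^(6:ℕ)*d2^(2:ℕ)*(B6) + 20503125000*d1^(7:ℕ)*d2*(B7) + 2562890625*d1^(8:ℕ)*(B8)) := by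
  positivity

lemma pos_L2e_B3_core (d C0 C1 C2 C3 C4 C5 C6 C7 C8 : ℝ) (h1 : (1/3) ≤ d) (h2 : d ≤ (2/5))
    (b0 : 0 ≤ 1*C0 + (1/3)*C1 + (1/9)*C2 + (1/27)*C3 + (1/81)*C4 + (1/243)*C5 + (1/729)*C6 + (1/2187)*C7 + (1/6561)*C8 - (47/20))
    (b1 : 0 ≤ 1*C0 + (41/120)*C1 + (7/60)*C2 + (43/1080)*C3 + (11/810)*C4 + (1/216)*C5 + (23/14580)*C6 + (47/87480)*C7 + (2/10935)*C8 - (47/20))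
    (b2 : 0 ≤ 1*C0 + (7/20)*C1 + (257/2100)*C2 + (202/4725)*C3 + (47/3150)*C4 + (59/11340)*C5 + (37/20412)*C6 + (23/36450)*C7 + (4/18225)*C8 - (47/20))
    (b3 : 0 ≤ 1*C0 + (43/120)*C1 + (202/1575)*C2 + (619/13500)*C3 + (2321/141750)*C4 + (1987/340200)*C5 + (59/28350)*C6 + (1/1350)*C7 + (8/30375)*C8 - (47/20))
    (b4 : 0 ≤ 1*C0 + (11/30)*C1 + (47/350)*C2 + (2321/47250)*C3 + (63601/3543750)*C4 + (2321/354375)*C5 + (94/39375)*C6 + (44/50625)*C7 + (16/50625)*C8 - (47/20))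
    (b5 : 0 ≤ 1*C0 + (3/8)*C1 + (59/420)*C2 + (1987/37800)*C3 + (2321/118125)*C4 + (619/84375)*C5 + (1616/590625)*C6 + (86/84375)*C7 + (32/84375)*C8 - (47/20))
    (b6 : 0 ≤ 1*C0 + (23/60)*C1 + (37/252)*C2 + (59/1050)*C3 + (94/4375)*C4 + (1616/196875)*C5 + (1028/328125)*C6 + (56/46875)*C7 + (64/140625)*C8 - (47/20))
    (b7 : 0 ≤ 1*C0 + (47/120)*C1 + (23/150)*C2 + (3/50)*C3 + (44/1875)*C4 + (86/9375)*C5 + (56/15625)*C6 + (328/234375)*C7 + (128/234375)*C8 - (47/20))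
    (b8 : 0 ≤ 1*C0 + (2/5)*C1 + (4/25)*C2 + (8/125)*C3 + (16/625)*C4 + (32/3125)*C5 + (64/15625)*C6 + (128/78125)*C7 + (256/390625)*C8 - (47/20)) :
    0 < C0 + d*C1 + d^(2:ℕ)*C2 + d^(3:ℕ)*C3 + d^(4:ℕ)*C4 + d^(5:ℕ)*C5 + d^(6:ℕ)*C6 + d^(7:ℕ)*C7 + d^(8:ℕ)*C8 := by
  rw [pos_L2e_B3_id]
  exact pos_L2e_B3_gen _ _ _ _ _ _ _ _ _ _ _ (sub_nonneg.2 h1) (sub_nonneg.2 h2) b0 b1 b2 b3 b4 b5 b6 b7 b8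

lemma pos_L2e_B3 (d t : ℝ) (h1 : (1/3) ≤ d) (h2 : d ≤ (2/5)) (h3 : (1/2) ≤ t) (h4 : t ≤ 1) :
    0 < 1 + (13/2)*t^(2:ℕ) + 16*t^(4:ℕ) + 19*t^(6:ℕ) + 11*t^(8:ℕ) + (5/2)*t^(10:ℕ) + (5/2)*d + (-1/2)*d*t + 8*d*t^(2:ℕ) + (5/2)*d*t^(3:ℕ) + 50*d*t^(4:ℕ) + 25*d*t^(5:ℕ) + 100*d*t^(6:ℕ) + 20*d*t^(7:ℕ) + (139/2)*d*t^(8:ℕ) + (-13/2)*d*t^(9:ℕ) + 14*d*t^(10:ℕ) + (-9/2)*d*t^(11:ℕ) + (-7)*d^(2:ℕ) + (-37/4)*d^(2:ℕ)*t + (-469/8)*d^(2:ℕ)*t^(2:ℕ) + (-159/4)*d^(2:ℕ)*t^(3:ℕ) + (-14)*d^(2:ℕ)*t^(4:ℕ) + 40*d^(2:ℕ)*t^(5:ℕ) + (691/4)*d^(2:ℕ)*t^(6:ℕ) + 32*d^(2:ℕ)*t^(7:ℕ) + 166*d^(2:ℕ)*t^(8:ℕ) + (-275/4)*d^(2:ℕ)*t^(9:ℕ) + (247/8)*d^(2:ℕ)*t^(10:ℕ) + (-121/4)*d^(2:ℕ)*t^(11:ℕ) +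 (-4)*d^(3:ℕ) + (-4)*d^(3:ℕ)*t + (-20)*d^(3:ℕ)*t^(2:ℕ) + (-56)*d^(3:ℕ)*t^(3:ℕ) + (-67)*d^(3:ℕ)*t^(4:ℕ) + (165/4)*d^(3:ℕ)*t^(5:ℕ) + (125/4)*d^(3:ℕ)*t^(6:ℕ) + 35*d^(3:ℕ)*t^(7:ℕ) + (251/2)*d^(3:ℕ)*t^(8:ℕ) + (-455/4)*d^(3:ℕ)*t^(9:ℕ) + (173/4)*d^(3:ℕ)*t^(10:ℕ) + (-111/2)*d^(3:ℕ)*t^(11:ℕ) + (83/4)*d^(4:ℕ)*t^(2:ℕ) + (-5/4)*d^(4:ℕ)*t^(3:ℕ) + (-51/4)*d^(4:ℕ)*t^(4:ℕ) + (-21/4)*d^(4:ℕ)*t^(5:ℕ) + (-27/4)*d^(4:ℕ)*t^(6:ℕ) + (25/4)*d^(4:ℕ)*t^(7:ℕ) + (243/4)*d^(4:ℕ)*t^(8:ℕ) + (-70)*d^(4:ℕ)*t^(9:ℕ) + 34*d^(4:ℕ)*t^(10:ℕ) + (-50)*d^(4:ℕ)*t^(11:ℕ) + (-8)*d^(5:ℕ)*t^(2:ℕ) + (119/4)*d^(5:ℕ)*t^(3:ℕ) + 1*d^(5:ℕ)*t^(4:ℕ) + (-18)*d^(5:ℕ)*t^(5:ℕ) + (11/2)*d^(5:ℕ)*t^(6:ℕ) + (23/4)*d^(5:ℕ)*t^(7:ℕ)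 + (39/2)*d^(5:ℕ)*t^(8:ℕ) + (-115/4)*d^(5:ℕ)*t^(9:ℕ) + 23*d^(5:ℕ)*t^(10:ℕ) + (-19)*d^(5:ℕ)*t^(11:ℕ) + (-8)*d^(6:ℕ)*t^(2:ℕ) + (167/16)*d^(6:ℕ)*t^(3:ℕ) + (-3)*d^(6:ℕ)*t^(4:ℕ) + (1/8)*d^(6:ℕ)*t^(5:ℕ) + (-127/8)*d^(6:ℕ)*t^(6:ℕ) + (315/16)*d^(6:ℕ)*t^(7:ℕ) + (31/8)*d^(6:ℕ)*t^(8:ℕ) + (-445/16)*d^(6:ℕ)*t^(9:ℕ) + (99/4)*d^(6:ℕ)*t^(10:ℕ) + (-33/4)*d^(6:ℕ)*t^(11:ℕ) + (5/2)*d^(7:ℕ)*t^(5:ℕ) + (-31/4)*d^(7:ℕ)*t^(6:ℕ) + 6*d^(7:ℕ)*t^(7:ℕ) + (29/4)*d^(7:ℕ)*t^(8:ℕ) + (-75/4)*d^(7:ℕ)*t^(9:ℕ) + 15*d^(7:ℕ)*t^(10:ℕ) + (-5)*d^(7:ℕ)*t^(11:ℕ) + (-1)*d^(8:ℕ)*t^(7:ℕ) + 3*d^(8:ℕ)*t^(8:ℕ) + (-17/4)*d^(8:ℕ)*t^(9:ℕ) + 3*d^(8:ℕ)*t^(10:ℕ) + (-1)*d^(8:ℕ)*t^(11:ℕ) := by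
  have e0 : 1 + (13/2)*t^(2:ℕ) + 16*t^(4:ℕ) + 19*t^(6:ℕ) + 11*t^(8:ℕ) + (5/2)*t^(10:ℕ) + (5/2)*d + (-1/2)*d*t + 8*d*t^(2:ℕ) + (5/2)*d*t^(3:ℕ) + 50*d*t^(4:ℕ) + 25*d*t^(5:ℕ) + 100*d*t^(6:ℕ) + 20*d*t^(7:ℕ) + (139/2)*d*t^(8:ℕ) + (-13/2)*d*t^(9:ℕ) + 14*d*t^(10:ℕ) + (-9/2)*d*t^(11:ℕ) + (-7)*d^(2:ℕ) + (-37/4)*d^(2:ℕ)*t + (-469/8)*d^(2:ℕ)*t^(2:ℕ) + (-159/4)*d^(2:ℕ)*t^(3:ℕ) + (-14)*d^(2:ℕ)*t^(4:ℕ) + 40*d^(2:ℕ)*t^(5:ℕ) + (691/4)*d^(2:ℕ)*t^(6:ℕ) + 32*d^(2:ℕ)*t^(7:ℕ) + 166*d^(2:ℕ)*t^(8:ℕ) + (-275/4)*d^(2:ℕ)*t^(9:ℕ) + (247/8)*d^(2:ℕ)*t^(10:ℕ) + (-121/4)*d^(2:ℕ)*t^(11:ℕ) + (-4)*d^(3:ℕ) + (-4)*d^(3:ℕ)*t + (-20)*d^(3:ℕ)*t^(2:ℕ) + (-56)*d^(3:ℕ)*t^(3:ℕ) + (-67)*d^(3:ℕ)*t^(4:ℕ)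 + (165/4)*d^(3:ℕ)*t^(5:ℕ) + (125/4)*d^(3:ℕ)*t^(6:ℕ) + 35*d^(3:ℕ)*t^(7:ℕ) + (251/2)*d^(3:ℕ)*t^(8:ℕ) + (-455/4)*d^(3:ℕ)*t^(9:ℕ) + (173/4)*d^(3:ℕ)*t^(10:ℕ) + (-111/2)*d^(3:ℕ)*t^(11:ℕ) + (83/4)*d^(4:ℕ)*t^(2:ℕ) + (-5/4)*d^(4:ℕ)*t^(3:ℕ) + (-51/4)*d^(4:ℕ)*t^(4:ℕ) + (-21/4)*d^(4:ℕ)*t^(5:ℕ) + (-27/4)*d^(4:ℕ)*t^(6:ℕ) + (25/4)*d^(4:ℕ)*t^(7:ℕ) + (243/4)*d^(4:ℕ)*t^(8:ℕ) + (-70)*d^(4:ℕ)*t^(9:ℕ) + 34*d^(4:ℕ)*t^(10:ℕ) + (-50)*d^(4:ℕ)*t^(11:ℕ) + (-8)*d^(5:ℕ)*t^(2:ℕ) + (119/4)*d^(5:ℕ)*t^(3:ℕ) + 1*d^(5:ℕ)*t^(4:ℕ) + (-18)*d^(5:ℕ)*t^(5:ℕ) + (11/2)*d^(5:ℕ)*t^(6:ℕ) + (23/4)*d^(5:ℕ)*t^(7:ℕ) + (39/2)*d^(5:ℕ)*t^(8:ℕ) + (-115/4)*d^(5:ℕ)*t^(9:ℕ) + 23*d^(5:ℕ)*t^(10:ℕ) + (-19)*d^(5:ℕ)*t^(11:ℕ)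 + (-8)*d^(6:ℕ)*t^(2:ℕ) + (167/16)*d^(6:ℕ)*t^(3:ℕ) + (-3)*d^(6:ℕ)*t^(4:ℕ) + (1/8)*d^(6:ℕ)*t^(5:ℕ) + (-127/8)*d^(6:ℕ)*t^(6:ℕ) + (315/16)*d^(6:ℕ)*t^(7:ℕ) + (31/8)*d^(6:ℕ)*t^(8:ℕ) + (-445/16)*d^(6:ℕ)*t^(9:ℕ) + (99/4)*d^(6:ℕ)*t^(10:ℕ) + (-33/4)*d^(6:ℕ)*t^(11:ℕ) + (5/2)*d^(7:ℕ)*t^(5:ℕ) + (-31/4)*d^(7:ℕ)*t^(6:ℕ) + 6*d^(7:ℕ)*t^(7:ℕ) + (29/4)*d^(7:ℕ)*t^(8:ℕ) + (-75/4)*d^(7:ℕ)*t^(9:ℕ) + 15*d^(7:ℕ)*t^(10:ℕ) + (-5)*d^(7:ℕ)*t^(11:ℕ) + (-1)*d^(8:ℕ)*t^(7:ℕ) + 3*d^(8:ℕ)*t^(8:ℕ) + (-17/4)*d^(8:ℕ)*t^(9:ℕ) + 3*d^(8:ℕ)*t^(10:ℕ) + (-1)*d^(8:ℕ)*t^(11:ℕ) = (1 + (13/2)*t^(2:ℕ) + 16*t^(4:ℕ) + 19*t^(6:ℕ) + 11*t^(8:ℕ) + (5/2)*t^(10:ℕ)) + d*((5/2) + (-1/2)*t + 8*t^(2:ℕ) + (5/2)*t^(3:ℕ)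 + 50*t^(4:ℕ) + 25*t^(5:ℕ) + 100*t^(6:ℕ) + 20*t^(7:ℕ) + (139/2)*t^(8:ℕ) + (-13/2)*t^(9:ℕ) + 14*t^(10:ℕ) + (-9/2)*t^(11:ℕ)) + d^(2:ℕ)*((-7) + (-37/4)*t + (-469/8)*t^(2:ℕ) + (-159/4)*t^(3:ℕ) + (-14)*t^(4:ℕ) + 40*t^(5:ℕ) + (691/4)*t^(6:ℕ) + 32*t^(7:ℕ) + 166*t^(8:ℕ) + (-275/4)*t^(9:ℕ) + (247/8)*t^(10:ℕ) + (-121/4)*t^(11:ℕ)) + d^(3:ℕ)*((-4) + (-4)*t + (-20)*t^(2:ℕ) + (-56)*t^(3:ℕ) + (-67)*t^(4:ℕ) + (165/4)*t^(5:ℕ) + (125/4)*t^(6:ℕ) + 35*t^(7:ℕ) + (251/2)*t^(8:ℕ) + (-455/4)*t^(9:ℕ) + (173/4)*t^(10:ℕ) + (-111/2)*t^(11:ℕ)) + d^(4:ℕ)*((83/4)*t^(2:ℕ) + (-5/4)*t^(3:ℕ) + (-51/4)*t^(4:ℕ) + (-21/4)*t^(5:ℕ) + (-27/4)*t^(6:ℕ) + (25/4)*t^(7:ℕ) + (243/4)*t^(8:ℕ) + (-70)*t^(9:ℕ)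 + 34*t^(10:ℕ) + (-50)*t^(11:ℕ)) + d^(5:ℕ)*((-8)*t^(2:ℕ) + (119/4)*t^(3:ℕ) + 1*t^(4:ℕ) + (-18)*t^(5:ℕ) + (11/2)*t^(6:ℕ) + (23/4)*t^(7:ℕ) + (39/2)*t^(8:ℕ) + (-115/4)*t^(9:ℕ) + 23*t^(10:ℕ) + (-19)*t^(11:ℕ)) + d^(6:ℕ)*((-8)*t^(2:ℕ) + (167/16)*t^(3:ℕ) + (-3)*t^(4:ℕ) + (1/8)*t^(5:ℕ) + (-127/8)*t^(6:ℕ) + (315/16)*t^(7:ℕ) + (31/8)*t^(8:ℕ) + (-445/16)*t^(9:ℕ) + (99/4)*t^(10:ℕ) + (-33/4)*t^(11:ℕ)) + d^(7:ℕ)*((5/2)*t^(5:ℕ) + (-31/4)*t^(6:ℕ) + 6*t^(7:ℕ) + (29/4)*t^(8:ℕ) + (-75/4)*t^(9:ℕ) + 15*t^(10:ℕ) + (-5)*t^(11:ℕ)) + d^(8:ℕ)*((-1)*t^(7:ℕ) + 3*t^(8:ℕ) + (-17/4)*t^(9:ℕ) + 3*t^(10:ℕ) + (-1)*t^(11:ℕ)) := by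
    ring
  rw [e0]
  exact pos_L2e_B3_core d _ _ _ _ _ _ _ _ _ h1 h2 (pos_L2e_B3_b0 t h3 h4) (pos_L2e_B3_b1 t h3 h4) (pos_L2e_B3_b2 t h3 h4) (pos_L2e_B3_b3 t h3 h4) (pos_L2e_B3_b4 t h3 h4) (pos_L2e_B3_b5 t h3 h4) (pos_L2e_B3_b6 t h3 h4) (pos_L2e_B3_b7 t h3 h4) (pos_L2e_B3_b8 t h3 h4)

end Vale.Agent.Lib.P100.AB.V1X
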