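import Vale.Agent.Lib.P100.AB.V1
import Vale.Agent.Lib.P100.AB.V1XPolyA
import Vale.Agent.Lib.P100.AB.V1XPolyB1
import Vale.Agent.Lib.P100.AB.V1XPolyB2
import Vale.Agent.Lib.P100.AB.V1XPolyB3

/-!
# P100: the unequal-exponent family below `d = 1/7`, with the polynomial positivity as input.
`d = 1 / (m - 2)` with `m` real, `t` the ratio `(q + 1) / (p + 1)`.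
-/

noncomputable section

namespace Vale.Agent.Lib.P100.AB.V1X

open Vale.Agent.Lib.P100 Vale.Agent.Lib.P100.AB Vale.Agent.Lib.P100.AB.V1

/-- the upper value of the exponent for the distance `e` from the critical hyperbola -/
def eta (e d : ℝ) : ℝ := d / (1 + e * d)

lemma hD_okX (d t : ℝ) (hd : 0 < d) (ht : 0 < t)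
    (hp : 0 < 1 + 6*t^(2:ℕ) + 15*t^(4:ℕ) + 20*t^(6:ℕ) + 15*t^(8:ℕ) + 6*t^(10:ℕ) + 1*t^(12:ℕ) + (-9/16)*d + (149/8)*d*t^(2:ℕ) + (-32)*d*t^(3:ℕ) + (1273/16)*d*t^(4:ℕ) + (-96)*d*t^(5:ℕ) + (483/4)*d*t^(6:ℕ) + (-96)*d*t^(7:ℕ) + (1273/16)*d*t^(8:ℕ) + (-32)*d*t^(9:ℕ) + (149/8)*d*t^(10:ℕ) + (-9/16)*d*t^(12:ℕ) + (-233/16)*d^(2:ℕ) + 8*d^(2:ℕ)*t + (-73/2)*d^(2:ℕ)*t^(2:ℕ) + 12*d^(2:ℕ)*t^(3:ℕ) + (-623/16)*d^(2:ℕ)*t^(4:ℕ) + (-4)*d^(2:ℕ)*t^(5:ℕ) + (-34)*d^(2:ℕ)*t^(6:ℕ) + (-4)*d^(2:ℕ)*t^(7:ℕ) + (-623/16)*d^(2:ℕ)*t^(8:ℕ) + 12*d^(2:ℕ)*t^(9:ℕ) + (-73/2)*d^(2:ℕ)*t^(10:ℕ) + 8*d^(2:ℕ)*t^(11:ℕ) + (-233/16)*d^(2:ℕ)*t^(12:ℕ)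 + (-287/16)*d^(3:ℕ) + 27*d^(3:ℕ)*t + (-625/4)*d^(3:ℕ)*t^(2:ℕ) + 213*d^(3:ℕ)*t^(3:ℕ) + (-3321/16)*d^(3:ℕ)*t^(4:ℕ) + 184*d^(3:ℕ)*t^(5:ℕ) + (-277/2)*d^(3:ℕ)*t^(6:ℕ) + 184*d^(3:ℕ)*t^(7:ℕ) + (-3321/16)*d^(3:ℕ)*t^(8:ℕ) + 213*d^(3:ℕ)*t^(9:ℕ) + (-625/4)*d^(3:ℕ)*t^(10:ℕ) + 27*d^(3:ℕ)*t^(11:ℕ) + (-287/16)*d^(3:ℕ)*t^(12:ℕ) + 5*d^(4:ℕ) + 12*d^(4:ℕ)*t + (-347/4)*d^(4:ℕ)*t^(2:ℕ) + 62*d^(4:ℕ)*t^(3:ℕ) + (419/2)*d^(4:ℕ)*t^(4:ℕ) + (-378)*d^(4:ℕ)*t^(5:ℕ) + (885/2)*d^(4:ℕ)*t^(6:ℕ) + (-378)*d^(4:ℕ)*t^(7:ℕ) + (419/2)*d^(4:ℕ)*t^(8:ℕ) + 62*d^(4:ℕ)*t^(9:ℕ) + (-347/4)*d^(4:ℕ)*t^(10:ℕ) + 12*d^(4:ℕ)*t^(11:ℕ) + 5*d^(4:ℕ)*t^(12:ℕ)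 + (25/4)*d^(5:ℕ) + (-20)*d^(5:ℕ)*t + (107/2)*d^(5:ℕ)*t^(2:ℕ) + (-120)*d^(5:ℕ)*t^(3:ℕ) + (529/4)*d^(5:ℕ)*t^(4:ℕ) + 52*d^(5:ℕ)*t^(5:ℕ) + (-182)*d^(5:ℕ)*t^(6:ℕ) + 52*d^(5:ℕ)*t^(7:ℕ) + (529/4)*d^(5:ℕ)*t^(8:ℕ) + (-120)*d^(5:ℕ)*t^(9:ℕ) + (107/2)*d^(5:ℕ)*t^(10:ℕ) + (-20)*d^(5:ℕ)*t^(11:ℕ) + (25/4)*d^(5:ℕ)*t^(12:ℕ) + (-25)*d^(6:ℕ)*t^(4:ℕ) + 80*d^(6:ℕ)*t^(5:ℕ) + (-114)*d^(6:ℕ)*t^(6:ℕ) + 80*d^(6:ℕ)*t^(7:ℕ) + (-25)*d^(6:ℕ)*t^(8:ℕ)) :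
    R2 (d / (1 + 2 * d)) (ab d t) (bb d t) (X d t) (Y d t) ^ 2 * R1 (d / (1 + 2 * d)) (bb d t) (-X d t)
      + R2 (d / (1 + 2 * d)) (bb d t) (ab d t) (-X d t) (Y d t) ^ 2 * R1 (d / (1 + 2 * d)) (ab d t) (X d t)
      < 4 * (R3 (ab d t) (bb d t) (Y d t) (Y d t) + R4 (d / (1 + 2 * d)) (ab d t) (bb d t) (Y d t) (Y d t))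
        * R1 (d / (1 + 2 * d)) (ab d t) (X d t) * R1 (d / (1 + 2 * d)) (bb d t) (-X d t) := by
  rw [e_r1 d t hd, e_r6 d t hd, e_r2 d t hd, e_r5 d t hd, e_r34 d t hd]
  apply frac_hD (by positivity) (by positivity)
  have id0 : 4 * (1*d + 4*d*t^(2:ℕ) + 6*d*t^(4:ℕ) + 4*d*t^(6:ℕ) + 1*d*t^(8:ℕ) + 1*d^(2:ℕ) + (-2)*d^(2:ℕ)*t^(2:ℕ) + (-6)*d^(2:ℕ)*t^(4:ℕ) + (-2)*d^(2:ℕ)*t^(6:ℕ) + 1*d^(2:ℕ)*t^(8:ℕ) + (-1)*d^(3:ℕ) + 4*d^(3:ℕ)*t + (-4)*d^(3:ℕ)*t^(3:ℕ) + 2*d^(3:ℕ)*t^(4:ℕ) + (-4)*d^(3:ℕ)*t^(5:ℕ) + 4*d^(3:ℕ)*t^(7:ℕ) + (-1)*d^(3:ℕ)*t^(8:ℕ) + (-5/2)*d^(4:ℕ)*t + (87/8)*d^(4:ℕ)*t^(2:ℕ) + (-27/2)*d^(4:ℕ)*t^(3:ℕ)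 + (55/4)*d^(4:ℕ)*t^(4:ℕ) + (-27/2)*d^(4:ℕ)*t^(5:ℕ) + (87/8)*d^(4:ℕ)*t^(6:ℕ) + (-5/2)*d^(4:ℕ)*t^(7:ℕ) + (-25/8)*d^(5:ℕ)*t^(2:ℕ) + 10*d^(5:ℕ)*t^(3:ℕ) + (-57/4)*d^(5:ℕ)*t^(4:ℕ) + 10*d^(5:ℕ)*t^(5:ℕ) + (-25/8)*d^(5:ℕ)*t^(6:ℕ)) * (1*d*t^(2:ℕ) + 1*d*t^(4:ℕ) + 2*d^(2:ℕ)*t^(2:ℕ) + (-3)*d^(2:ℕ)*t^(4:ℕ) + (-1)*d^(3:ℕ)*t^(4:ℕ)) * (1*d + 1*d*t^(2:ℕ) + (-3)*d^(2:ℕ) + 2*d^(2:ℕ)*t^(2:ℕ) + (-1)*d^(3:ℕ))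
      - (((-2)*d*t + (-4)*d*t^(3:ℕ) + (-2)*d*t^(5:ℕ) + (-11/4)*d^(2:ℕ)*t + (-2)*d^(2:ℕ)*t^(2:ℕ) + (5/2)*d^(2:ℕ)*t^(3:ℕ) + (21/4)*d^(2:ℕ)*t^(5:ℕ) + 2*d^(2:ℕ)*t^(6:ℕ) + (5/2)*d^(3:ℕ)*t + (-4)*d^(3:ℕ)*t^(2:ℕ) + 4*d^(3:ℕ)*t^(3:ℕ) + 2*d^(3:ℕ)*t^(4:ℕ) + (3/2)*d^(3:ℕ)*t^(5:ℕ) + (-2)*d^(3:ℕ)*t^(6:ℕ) + (-5/2)*d^(4:ℕ)*t^(3:ℕ) + 4*d^(4:ℕ)*t^(4:ℕ) + (-5/2)*d^(4:ℕ)*t^(5:ℕ)) ^ 2 * (1*d + 1*d*t^(2:ℕ) + (-3)*d^(2:ℕ) + 2*d^(2:ℕ)*t^(2:ℕ) + (-1)*d^(3:ℕ)) + ((-2)*d*t + (-4)*d*t^(3:ℕ) + (-2)*d*t^(5:ℕ) + 2*d^(2:ℕ) + (21/4)*d^(2:ℕ)*t + (5/2)*d^(2:ℕ)*t^(3:ℕ) + (-2)*d^(2:ℕ)*t^(4:ℕ) + (-11/4)*d^(2:ℕ)*t^(5:ℕ) + (-2)*d^(3:ℕ)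 + (3/2)*d^(3:ℕ)*t + 2*d^(3:ℕ)*t^(2:ℕ) + 4*d^(3:ℕ)*t^(3:ℕ) + (-4)*d^(3:ℕ)*t^(4:ℕ) + (5/2)*d^(3:ℕ)*t^(5:ℕ) + (-5/2)*d^(4:ℕ)*t + 4*d^(4:ℕ)*t^(2:ℕ) + (-5/2)*d^(4:ℕ)*t^(3:ℕ)) ^ 2 * (1*d*t^(2:ℕ) + 1*d*t^(4:ℕ) + 2*d^(2:ℕ)*t^(2:ℕ) + (-3)*d^(2:ℕ)*t^(4:ℕ) + (-1)*d^(3:ℕ)*t^(4:ℕ)))
      = d^(4:ℕ)*t^(2:ℕ) * (1 + 6*t^(2:ℕ) + 15*t^(4:ℕ) + 20*t^(6:ℕ) + 15*t^(8:ℕ) + 6*t^(10:ℕ) + 1*t^(12:ℕ) + (-9/16)*d + (149/8)*d*t^(2:ℕ) + (-32)*d*t^(3:ℕ) + (1273/16)*d*t^(4:ℕ) + (-96)*d*t^(5:ℕ) + (483/4)*d*t^(6:ℕ) + (-96)*d*t^(7:ℕ) + (1273/16)*d*t^(8:ℕ) + (-32)*d*t^(9:ℕ) + (149/8)*d*t^(10:ℕ) + (-9/16)*d*t^(12:ℕ) + (-233/16)*d^(2:ℕ)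 + 8*d^(2:ℕ)*t + (-73/2)*d^(2:ℕ)*t^(2:ℕ) + 12*d^(2:ℕ)*t^(3:ℕ) + (-623/16)*d^(2:ℕ)*t^(4:ℕ) + (-4)*d^(2:ℕ)*t^(5:ℕ) + (-34)*d^(2:ℕ)*t^(6:ℕ) + (-4)*d^(2:ℕ)*t^(7:ℕ) + (-623/16)*d^(2:ℕ)*t^(8:ℕ) + 12*d^(2:ℕ)*t^(9:ℕ) + (-73/2)*d^(2:ℕ)*t^(10:ℕ) + 8*d^(2:ℕ)*t^(11:ℕ) + (-233/16)*d^(2:ℕ)*t^(12:ℕ) + (-287/16)*d^(3:ℕ) + 27*d^(3:ℕ)*t + (-625/4)*d^(3:ℕ)*t^(2:ℕ) + 213*d^(3:ℕ)*t^(3:ℕ) + (-3321/16)*d^(3:ℕ)*t^(4:ℕ) + 184*d^(3:ℕ)*t^(5:ℕ) + (-277/2)*d^(3:ℕ)*t^(6:ℕ) + 184*d^(3:ℕ)*t^(7:ℕ) + (-3321/16)*d^(3:ℕ)*t^(8:ℕ) + 213*d^(3:ℕ)*t^(9:ℕ) + (-625/4)*d^(3:ℕ)*t^(10:ℕ) + 27*d^(3:ℕ)*t^(11:ℕ) + (-287/16)*d^(3:ℕ)*t^(12:ℕ) +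 5*d^(4:ℕ) + 12*d^(4:ℕ)*t + (-347/4)*d^(4:ℕ)*t^(2:ℕ) + 62*d^(4:ℕ)*t^(3:ℕ) + (419/2)*d^(4:ℕ)*t^(4:ℕ) + (-378)*d^(4:ℕ)*t^(5:ℕ) + (885/2)*d^(4:ℕ)*t^(6:ℕ) + (-378)*d^(4:ℕ)*t^(7:ℕ) + (419/2)*d^(4:ℕ)*t^(8:ℕ) + 62*d^(4:ℕ)*t^(9:ℕ) + (-347/4)*d^(4:ℕ)*t^(10:ℕ) + 12*d^(4:ℕ)*t^(11:ℕ) + 5*d^(4:ℕ)*t^(12:ℕ) + (25/4)*d^(5:ℕ) + (-20)*d^(5:ℕ)*t + (107/2)*d^(5:ℕ)*t^(2:ℕ) + (-120)*d^(5:ℕ)*t^(3:ℕ) + (529/4)*d^(5:ℕ)*t^(4:ℕ) + 52*d^(5:ℕ)*t^(5:ℕ) + (-182)*d^(5:ℕ)*t^(6:ℕ) + 52*d^(5:ℕ)*t^(7:ℕ) + (529/4)*d^(5:ℕ)*t^(8:ℕ) + (-120)*d^(5:ℕ)*t^(9:ℕ) + (107/2)*d^(5:ℕ)*t^(10:ℕ) + (-20)*d^(5:ℕ)*t^(11:ℕ) + (25/4)*d^(5:ℕ)*t^(12:ℕ)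 + (-25)*d^(6:ℕ)*t^(4:ℕ) + 80*d^(6:ℕ)*t^(5:ℕ) + (-114)*d^(6:ℕ)*t^(6:ℕ) + 80*d^(6:ℕ)*t^(7:ℕ) + (-25)*d^(6:ℕ)*t^(8:ℕ)) := by
    ring
  have hq : 0 < d^(4:ℕ)*t^(2:ℕ) * (1 + 6*t^(2:ℕ) + 15*t^(4:ℕ) + 20*t^(6:ℕ) + 15*t^(8:ℕ) + 6*t^(10:ℕ) + 1*t^(12:ℕ) + (-9/16)*d + (149/8)*d*t^(2:ℕ) + (-32)*d*t^(3:ℕ) + (1273/16)*d*t^(4:ℕ) + (-96)*d*t^(5:ℕ) + (483/4)*d*t^(6:ℕ) + (-96)*d*t^(7:ℕ) + (1273/16)*d*t^(8:ℕ) + (-32)*d*t^(9:ℕ) + (149/8)*d*t^(10:ℕ) + (-9/16)*d*t^(12:ℕ) + (-233/16)*d^(2:ℕ) + 8*d^(2:ℕ)*t + (-73/2)*d^(2:ℕ)*t^(2:ℕ) + 12*d^(2:ℕ)*t^(3:ℕ) + (-623/16)*d^(2:ℕ)*t^(4:ℕ) + (-4)*d^(2:ℕ)*t^(5:ℕ) + (-34)*d^(2:ℕ)*t^(6:ℕ)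 + (-4)*d^(2:ℕ)*t^(7:ℕ) + (-623/16)*d^(2:ℕ)*t^(8:ℕ) + 12*d^(2:ℕ)*t^(9:ℕ) + (-73/2)*d^(2:ℕ)*t^(10:ℕ) + 8*d^(2:ℕ)*t^(11:ℕ) + (-233/16)*d^(2:ℕ)*t^(12:ℕ) + (-287/16)*d^(3:ℕ) + 27*d^(3:ℕ)*t + (-625/4)*d^(3:ℕ)*t^(2:ℕ) + 213*d^(3:ℕ)*t^(3:ℕ) + (-3321/16)*d^(3:ℕ)*t^(4:ℕ) + 184*d^(3:ℕ)*t^(5:ℕ) + (-277/2)*d^(3:ℕ)*t^(6:ℕ) + 184*d^(3:ℕ)*t^(7:ℕ) + (-3321/16)*d^(3:ℕ)*t^(8:ℕ) + 213*d^(3:ℕ)*t^(9:ℕ) + (-625/4)*d^(3:ℕ)*t^(10:ℕ) + 27*d^(3:ℕ)*t^(11:ℕ) + (-287/16)*d^(3:ℕ)*t^(12:ℕ) + 5*d^(4:ℕ) + 12*d^(4:ℕ)*t + (-347/4)*d^(4:ℕ)*t^(2:ℕ) + 62*d^(4:ℕ)*t^(3:ℕ) + (419/2)*d^(4:ℕ)*t^(4:ℕ) + (-378)*d^(4:ℕ)*t^(5:ℕ) + (885/2)*d^(4:ℕ)*t^(6:ℕ)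 + (-378)*d^(4:ℕ)*t^(7:ℕ) + (419/2)*d^(4:ℕ)*t^(8:ℕ) + 62*d^(4:ℕ)*t^(9:ℕ) + (-347/4)*d^(4:ℕ)*t^(10:ℕ) + 12*d^(4:ℕ)*t^(11:ℕ) + 5*d^(4:ℕ)*t^(12:ℕ) + (25/4)*d^(5:ℕ) + (-20)*d^(5:ℕ)*t + (107/2)*d^(5:ℕ)*t^(2:ℕ) + (-120)*d^(5:ℕ)*t^(3:ℕ) + (529/4)*d^(5:ℕ)*t^(4:ℕ) + 52*d^(5:ℕ)*t^(5:ℕ) + (-182)*d^(5:ℕ)*t^(6:ℕ) + 52*d^(5:ℕ)*t^(7:ℕ) + (529/4)*d^(5:ℕ)*t^(8:ℕ) + (-120)*d^(5:ℕ)*t^(9:ℕ) + (107/2)*d^(5:ℕ)*t^(10:ℕ) + (-20)*d^(5:ℕ)*t^(11:ℕ) + (25/4)*d^(5:ℕ)*t^(12:ℕ) + (-25)*d^(6:ℕ)*t^(4:ℕ) + 80*d^(6:ℕ)*t^(5:ℕ) + (-114)*d^(6:ℕ)*t^(6:ℕ) + 80*d^(6:ℕ)*t^(7:ℕ) + (-25)*d^(6:ℕ)*t^(8:ℕ)) := by positivity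
  linarith

lemma r1_posX (d t : ℝ) (hd : 0 < d) (ht : 0 < t)
    (hp : 0 < 1 + 1*t^(2:ℕ) + 2*d + (-3)*d*t^(2:ℕ) + (-1)*d^(2:ℕ)*t^(2:ℕ)) :
    0 < R1 (d / (1 + 2 * d)) (ab d t) (X d t) := by
  rw [e_r1 d t hd]
  have id0 : 1*d*t^(2:ℕ) + 1*d*t^(4:ℕ) + 2*d^(2:ℕ)*t^(2:ℕ) + (-3)*d^(2:ℕ)*t^(4:ℕ) + (-1)*d^(3:ℕ)*t^(4:ℕ) = d*t^(2:ℕ) * (1 + 1*t^(2:ℕ) + 2*d + (-3)*d*t^(2:ℕ) + (-1)*d^(2:ℕ)*t^(2:ℕ)) := by ring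
  rw [id0]
  positivity

lemma r6_posX (d t : ℝ) (hd : 0 < d) (ht : 0 < t)
    (hp : 0 < 1 + 1*t^(2:ℕ) + (-3)*d + 2*d*t^(2:ℕ) + (-1)*d^(2:ℕ)) :
    0 < R1 (d / (1 + 2 * d)) (bb d t) (-X d t) := by
  rw [e_r6 d t hd]
  have id0 : 1*d + 1*d*t^(2:ℕ) + (-3)*d^(2:ℕ) + 2*d^(2:ℕ)*t^(2:ℕ) + (-1)*d^(3:ℕ) = d * (1 + 1*t^(2:ℕ) + (-3)*d + 2*d*t^(2:ℕ) + (-1)*d^(2:ℕ)) := by ring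
  rw [id0]
  positivity

lemma L10_okX (d t : ℝ) (hd : 0 < d) (ht : 0 < t)
    (hp : 0 < 2 + 2*t + 10*t^(2:ℕ) + 10*t^(3:ℕ) + 20*t^(4:ℕ) + 20*t^(5:ℕ) + 20*t^(6:ℕ) + 20*t^(7:ℕ) + 10*t^(8:ℕ) + 10*t^(9:ℕ) + 2*t^(10:ℕ) + 2*t^(11:ℕ) + 4*d + 4*d*t + 28*d*t^(2:ℕ) + 28*d*t^(3:ℕ) + 64*d*t^(4:ℕ) + 64*d*t^(5:ℕ) + 64*d*t^(6:ℕ) + 64*d*t^(7:ℕ) + 28*d*t^(8:ℕ) + 28*d*t^(9:ℕ) + 4*d*t^(10:ℕ) + 4*d*t^(11:ℕ) + 33*d^(2:ℕ)*t^(2:ℕ) + 35*d^(2:ℕ)*t^(3:ℕ) + 103*d^(2:ℕ)*t^(4:ℕ) + 60*d^(2:ℕ)*t^(5:ℕ) + 82*d^(2:ℕ)*t^(6:ℕ) + (-3)*d^(2:ℕ)*t^(7:ℕ) + 3*d^(2:ℕ)*t^(8:ℕ) + (-46)*d^(2:ℕ)*t^(9:ℕ) + (-9)*d^(2:ℕ)*t^(10:ℕ) + (-18)*d^(2:ℕ)*t^(11:ℕ)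 + 2*d^(3:ℕ)*t^(2:ℕ) + 19*d^(3:ℕ)*t^(3:ℕ) + 69*d^(3:ℕ)*t^(4:ℕ) + (-41)*d^(3:ℕ)*t^(5:ℕ) + 56*d^(3:ℕ)*t^(6:ℕ) + (-125)*d^(3:ℕ)*t^(7:ℕ) + (-3)*d^(3:ℕ)*t^(8:ℕ) + (-73)*d^(3:ℕ)*t^(9:ℕ) + 8*d^(3:ℕ)*t^(10:ℕ) + (-8)*d^(3:ℕ)*t^(11:ℕ) + 8*d^(4:ℕ)*t^(2:ℕ) + (-48)*d^(4:ℕ)*t^(3:ℕ) + 102*d^(4:ℕ)*t^(4:ℕ) + (-124)*d^(4:ℕ)*t^(5:ℕ) + 96*d^(4:ℕ)*t^(6:ℕ) + (-40)*d^(4:ℕ)*t^(7:ℕ) + (-26)*d^(4:ℕ)*t^(8:ℕ) + 44*d^(4:ℕ)*t^(9:ℕ) + (-28)*d^(4:ℕ)*t^(10:ℕ) + 8*d^(4:ℕ)*t^(11:ℕ) + (15/4)*d^(5:ℕ)*t^(4:ℕ) + (-35/2)*d^(5:ℕ)*t^(5:ℕ) + (101/4)*d^(5:ℕ)*t^(6:ℕ) + (-35/2)*d^(5:ℕ)*t^(7:ℕ) + (15/4)*d^(5:ℕ)*t^(8:ℕ) + 32*d^(5:ℕ)*t^(9:ℕ)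 + (-48)*d^(5:ℕ)*t^(10:ℕ) + 32*d^(5:ℕ)*t^(11:ℕ) + (-14)*d^(6:ℕ)*t^(4:ℕ) + 43*d^(6:ℕ)*t^(5:ℕ) + (-61)*d^(6:ℕ)*t^(6:ℕ) + 43*d^(6:ℕ)*t^(7:ℕ) + (-14)*d^(6:ℕ)*t^(8:ℕ) + (-4)*d^(7:ℕ)*t^(4:ℕ) + 12*d^(7:ℕ)*t^(5:ℕ) + (-17)*d^(7:ℕ)*t^(6:ℕ) + 12*d^(7:ℕ)*t^(7:ℕ) + (-4)*d^(7:ℕ)*t^(8:ℕ)) :
    (-2 * d * (1 / 2 - Y d t) + ab d t * fh d t + (1 + d) * (1 / t)) ^ 2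
      < 4 * (1 + 4 * d) * (1 / 2 + X d t) * ((1 + 2 * d) * (1 / 2 - Y d t) - bb d t * fh d t)
        + 4 * (1 + 4 * d) * (1 / 2 + X d t) * fh d t * (1 / t) := by
  have h2 : (1 + t ^ 2) ≠ 0 := by positivity
  have ht0 : t ≠ 0 := ht.ne'
  have key : 4 * (1 + 4 * d) * (1 / 2 + X d t) * ((1 + 2 * d) * (1 / 2 - Y d t) - bb d t * fh d t)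
        + 4 * (1 + 4 * d) * (1 / 2 + X d t) * fh d t * (1 / t)
        - (-2 * d * (1 / 2 - Y d t) + ab d t * fh d t + (1 + d) * (1 / t)) ^ 2
      = d * (2 + 2*t + 10*t^(2:ℕ) + 10*t^(3:ℕ) + 20*t^(4:ℕ) + 20*t^(5:ℕ) + 20*t^(6:ℕ) + 20*t^(7:ℕ) + 10*t^(8:ℕ) + 10*t^(9:ℕ) + 2*t^(10:ℕ) + 2*t^(11:ℕ) + 4*d + 4*d*t + 28*d*t^(2:ℕ) + 28*d*t^(3:ℕ) + 64*d*t^(4:ℕ) + 64*d*t^(5:ℕ) + 64*d*t^(6:ℕ) + 64*d*t^(7:ℕ) + 28*d*t^(8:ℕ) + 28*d*t^(9:ℕ) + 4*d*t^(10:ℕ) + 4*d*t^(11:ℕ) + 33*d^(2:ℕ)*t^(2:ℕ) + 35*d^(2:ℕ)*t^(3:ℕ) + 103*d^(2:ℕ)*t^(4:ℕ) + 60*d^(2:ℕ)*t^(5:ℕ) + 82*d^(2:ℕ)*t^(6:ℕ) + (-3)*d^(2:ℕ)*t^(7:ℕ) + 3*d^(2:ℕ)*t^(8:ℕ)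 + (-46)*d^(2:ℕ)*t^(9:ℕ) + (-9)*d^(2:ℕ)*t^(10:ℕ) + (-18)*d^(2:ℕ)*t^(11:ℕ) + 2*d^(3:ℕ)*t^(2:ℕ) + 19*d^(3:ℕ)*t^(3:ℕ) + 69*d^(3:ℕ)*t^(4:ℕ) + (-41)*d^(3:ℕ)*t^(5:ℕ) + 56*d^(3:ℕ)*t^(6:ℕ) + (-125)*d^(3:ℕ)*t^(7:ℕ) + (-3)*d^(3:ℕ)*t^(8:ℕ) + (-73)*d^(3:ℕ)*t^(9:ℕ) + 8*d^(3:ℕ)*t^(10:ℕ) + (-8)*d^(3:ℕ)*t^(11:ℕ) + 8*d^(4:ℕ)*t^(2:ℕ) + (-48)*d^(4:ℕ)*t^(3:ℕ) + 102*d^(4:ℕ)*t^(4:ℕ) + (-124)*d^(4:ℕ)*t^(5:ℕ) + 96*d^(4:ℕ)*t^(6:ℕ) + (-40)*d^(4:ℕ)*t^(7:ℕ) + (-26)*d^(4:ℕ)*t^(8:ℕ) + 44*d^(4:ℕ)*t^(9:ℕ) + (-28)*d^(4:ℕ)*t^(10:ℕ) + 8*d^(4:ℕ)*t^(11:ℕ) + (15/4)*d^(5:ℕ)*t^(4:ℕ) + (-35/2)*d^(5:ℕ)*t^(5:ℕ) + (101/4)*d^(5:ℕ)*t^(6:ℕ)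 + (-35/2)*d^(5:ℕ)*t^(7:ℕ) + (15/4)*d^(5:ℕ)*t^(8:ℕ) + 32*d^(5:ℕ)*t^(9:ℕ) + (-48)*d^(5:ℕ)*t^(10:ℕ) + 32*d^(5:ℕ)*t^(11:ℕ) + (-14)*d^(6:ℕ)*t^(4:ℕ) + 43*d^(6:ℕ)*t^(5:ℕ) + (-61)*d^(6:ℕ)*t^(6:ℕ) + 43*d^(6:ℕ)*t^(7:ℕ) + (-14)*d^(6:ℕ)*t^(8:ℕ) + (-4)*d^(7:ℕ)*t^(4:ℕ) + 12*d^(7:ℕ)*t^(5:ℕ) + (-17)*d^(7:ℕ)*t^(6:ℕ) + 12*d^(7:ℕ)*t^(7:ℕ) + (-4)*d^(7:ℕ)*t^(8:ℕ)) / (t ^ 2 * (1 + t ^ 2) ^ 4) := by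
    simp only [ab, bb, X, Y, fh, sg]
    field_simp
    ring
  have hq : 0 < d * (2 + 2*t + 10*t^(2:ℕ) + 10*t^(3:ℕ) + 20*t^(4:ℕ) + 20*t^(5:ℕ) + 20*t^(6:ℕ) + 20*t^(7:ℕ) + 10*t^(8:ℕ) + 10*t^(9:ℕ) + 2*t^(10:ℕ) + 2*t^(11:ℕ) + 4*d + 4*d*t + 28*d*t^(2:ℕ) + 28*d*t^(3:ℕ) + 64*d*t^(4:ℕ) + 64*d*t^(5:ℕ) + 64*d*t^(6:ℕ) + 64*d*t^(7:ℕ) + 28*d*t^(8:ℕ) + 28*d*t^(9:ℕ) + 4*d*t^(10:ℕ) + 4*d*t^(11:ℕ) + 33*d^(2:ℕ)*t^(2:ℕ) + 35*d^(2:ℕ)*t^(3:ℕ) + 103*d^(2:ℕ)*t^(4:ℕ) + 60*d^(2:ℕ)*t^(5:ℕ) + 82*d^(2:ℕ)*t^(6:ℕ) + (-3)*d^(2:ℕ)*t^(7:ℕ) + 3*d^(2:ℕ)*t^(8:ℕ) + (-46)*d^(2:ℕ)*t^(9:ℕ) + (-9)*d^(2:ℕ)*t^(10:ℕ) + (-18)*d^(2:ℕ)*t^(11:ℕ)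 + 2*d^(3:ℕ)*t^(2:ℕ) + 19*d^(3:ℕ)*t^(3:ℕ) + 69*d^(3:ℕ)*t^(4:ℕ) + (-41)*d^(3:ℕ)*t^(5:ℕ) + 56*d^(3:ℕ)*t^(6:ℕ) + (-125)*d^(3:ℕ)*t^(7:ℕ) + (-3)*d^(3:ℕ)*t^(8:ℕ) + (-73)*d^(3:ℕ)*t^(9:ℕ) + 8*d^(3:ℕ)*t^(10:ℕ) + (-8)*d^(3:ℕ)*t^(11:ℕ) + 8*d^(4:ℕ)*t^(2:ℕ) + (-48)*d^(4:ℕ)*t^(3:ℕ) + 102*d^(4:ℕ)*t^(4:ℕ) + (-124)*d^(4:ℕ)*t^(5:ℕ) + 96*d^(4:ℕ)*t^(6:ℕ) + (-40)*d^(4:ℕ)*t^(7:ℕ) + (-26)*d^(4:ℕ)*t^(8:ℕ) + 44*d^(4:ℕ)*t^(9:ℕ) + (-28)*d^(4:ℕ)*t^(10:ℕ) + 8*d^(4:ℕ)*t^(11:ℕ) + (15/4)*d^(5:ℕ)*t^(4:ℕ) + (-35/2)*d^(5:ℕ)*t^(5:ℕ) + (101/4)*d^(5:ℕ)*t^(6:ℕ) + (-35/2)*d^(5:ℕ)*t^(7:ℕ) + (15/4)*d^(5:ℕ)*t^(8:ℕ) + 32*d^(5:ℕ)*t^(9:ℕ)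 + (-48)*d^(5:ℕ)*t^(10:ℕ) + 32*d^(5:ℕ)*t^(11:ℕ) + (-14)*d^(6:ℕ)*t^(4:ℕ) + 43*d^(6:ℕ)*t^(5:ℕ) + (-61)*d^(6:ℕ)*t^(6:ℕ) + 43*d^(6:ℕ)*t^(7:ℕ) + (-14)*d^(6:ℕ)*t^(8:ℕ) + (-4)*d^(7:ℕ)*t^(4:ℕ) + 12*d^(7:ℕ)*t^(5:ℕ) + (-17)*d^(7:ℕ)*t^(6:ℕ) + 12*d^(7:ℕ)*t^(7:ℕ) + (-4)*d^(7:ℕ)*t^(8:ℕ)) / (t ^ 2 * (1 + t ^ 2) ^ 4) := by positivity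
  linarith

lemma L20_okX (d t : ℝ) (hd : 0 < d) (ht : 0 < t)
    (hp : 0 < 2 + 2*t + 10*t^(2:ℕ) + 10*t^(3:ℕ) + 20*t^(4:ℕ) + 20*t^(5:ℕ) + 20*t^(6:ℕ) + 20*t^(7:ℕ) + 10*t^(8:ℕ) + 10*t^(9:ℕ) + 2*t^(10:ℕ) + 2*t^(11:ℕ) + 4*d + 3*d*t + (59/2)*d*t^(2:ℕ) + 23*d*t^(3:ℕ) + 70*d*t^(4:ℕ) + 54*d*t^(5:ℕ) + 73*d*t^(6:ℕ) + 54*d*t^(7:ℕ) + 34*d*t^(8:ℕ) + 23*d*t^(9:ℕ) + (11/2)*d*t^(10:ℕ) + 3*d*t^(11:ℕ) + (-16)*d^(2:ℕ) + (-16)*d^(2:ℕ)*t + (-32)*d^(2:ℕ)*t^(2:ℕ) + (-28)*d^(2:ℕ)*t^(3:ℕ) + 36*d^(2:ℕ)*t^(4:ℕ) + 25*d^(2:ℕ)*t^(5:ℕ) + 113*d^(2:ℕ)*t^(6:ℕ) + 48*d^(2:ℕ)*t^(7:ℕ) + 70*d^(2:ℕ)*t^(8:ℕ) + 5*d^(2:ℕ)*t^(9:ℕ) + 9*d^(2:ℕ)*t^(10:ℕ)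 + (-6)*d^(2:ℕ)*t^(11:ℕ) + (-41)*d^(3:ℕ)*t^(2:ℕ) + (-48)*d^(3:ℕ)*t^(3:ℕ) + (-55)*d^(3:ℕ)*t^(4:ℕ) + (-31)*d^(3:ℕ)*t^(5:ℕ) + 51*d^(3:ℕ)*t^(6:ℕ) + (-14)*d^(3:ℕ)*t^(7:ℕ) + 81*d^(3:ℕ)*t^(8:ℕ) + (-43)*d^(3:ℕ)*t^(9:ℕ) + 16*d^(3:ℕ)*t^(10:ℕ) + (-12)*d^(3:ℕ)*t^(11:ℕ) + 32*d^(4:ℕ)*t^(2:ℕ) + (-16)*d^(4:ℕ)*t^(3:ℕ) + 4*d^(4:ℕ)*t^(4:ℕ) + 22*d^(4:ℕ)*t^(5:ℕ) + (-24)*d^(4:ℕ)*t^(6:ℕ) + 28*d^(4:ℕ)*t^(7:ℕ) + 12*d^(4:ℕ)*t^(8:ℕ) + (-18)*d^(4:ℕ)*t^(9:ℕ) + 8*d^(4:ℕ)*t^(10:ℕ) + (-8)*d^(4:ℕ)*t^(11:ℕ) + (-32)*d^(5:ℕ)*t^(2:ℕ) + (167/4)*d^(5:ℕ)*t^(3:ℕ) + (-12)*d^(5:ℕ)*t^(4:ℕ) + (-79/2)*d^(5:ℕ)*t^(5:ℕ) + (121/2)*d^(5:ℕ)*t^(6:ℕ)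 + (-261/4)*d^(5:ℕ)*t^(7:ℕ) + (87/2)*d^(5:ℕ)*t^(8:ℕ) + (-61/4)*d^(5:ℕ)*t^(9:ℕ) + 3*d^(5:ℕ)*t^(10:ℕ) + (-1)*d^(5:ℕ)*t^(11:ℕ) + 10*d^(6:ℕ)*t^(5:ℕ) + (-31)*d^(6:ℕ)*t^(6:ℕ) + 40*d^(6:ℕ)*t^(7:ℕ) + (-19)*d^(6:ℕ)*t^(8:ℕ) + (-7)*d^(6:ℕ)*t^(9:ℕ) + 12*d^(6:ℕ)*t^(10:ℕ) + (-4)*d^(6:ℕ)*t^(11:ℕ) + (-4)*d^(7:ℕ)*t^(7:ℕ) + 12*d^(7:ℕ)*t^(8:ℕ) + (-17)*d^(7:ℕ)*t^(9:ℕ) + 12*d^(7:ℕ)*t^(10:ℕ) + (-4)*d^(7:ℕ)*t^(11:ℕ)) :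
    (-2 * d * (1 / 2 - Y d t) + bb d t * (-fh d t) + (1 + d) * t) ^ 2
      < 4 * (1 + 4 * d) * (1 / 2 + -X d t) * ((1 + 2 * d) * (1 / 2 - Y d t) - ab d t * (-fh d t))
        + 4 * (1 + 4 * d) * (1 / 2 + -X d t) * (-fh d t) * t := by
  have h2 : (1 + t ^ 2) ≠ 0 := by positivity
  have ht0 : t ≠ 0 := ht.ne'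
  have key : 4 * (1 + 4 * d) * (1 / 2 + -X d t) * ((1 + 2 * d) * (1 / 2 - Y d t) - ab d t * (-fh d t))
        + 4 * (1 + 4 * d) * (1 / 2 + -X d t) * (-fh d t) * t
        - (-2 * d * (1 / 2 - Y d t) + bb d t * (-fh d t) + (1 + d) * t) ^ 2
      = d * (2 + 2*t + 10*t^(2:ℕ) + 10*t^(3:ℕ) + 20*t^(4:ℕ) + 20*t^(5:ℕ) + 20*t^(6:ℕ) + 20*t^(7:ℕ) + 10*t^(8:ℕ) + 10*t^(9:ℕ) + 2*t^(10:ℕ) + 2*t^(11:ℕ) + 4*d + 3*d*t + (59/2)*d*t^(2:ℕ) + 23*d*t^(3:ℕ) + 70*d*t^(4:ℕ) + 54*d*t^(5:ℕ) + 73*d*t^(6:ℕ) + 54*d*t^(7:ℕ) + 34*d*t^(8:ℕ) + 23*d*t^(9:ℕ) + (11/2)*d*t^(10:ℕ) + 3*d*t^(11:ℕ) + (-16)*d^(2:ℕ) + (-16)*d^(2:ℕ)*t +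 (-32)*d^(2:ℕ)*t^(2:ℕ) + (-28)*d^(2:ℕ)*t^(3:ℕ) + 36*d^(2:ℕ)*t^(4:ℕ) + 25*d^(2:ℕ)*t^(5:ℕ) + 113*d^(2:ℕ)*t^(6:ℕ) + 48*d^(2:ℕ)*t^(7:ℕ) + 70*d^(2:ℕ)*t^(8:ℕ) + 5*d^(2:ℕ)*t^(9:ℕ) + 9*d^(2:ℕ)*t^(10:ℕ) + (-6)*d^(2:ℕ)*t^(11:ℕ) + (-41)*d^(3:ℕ)*t^(2:ℕ) + (-48)*d^(3:ℕ)*t^(3:ℕ) + (-55)*d^(3:ℕ)*t^(4:ℕ) + (-31)*d^(3:ℕ)*t^(5:ℕ) + 51*d^(3:ℕ)*t^(6:ℕ) + (-14)*d^(3:ℕ)*t^(7:ℕ) + 81*d^(3:ℕ)*t^(8:ℕ) + (-43)*d^(3:ℕ)*t^(9:ℕ) + 16*d^(3:ℕ)*t^(10:ℕ) + (-12)*d^(3:ℕ)*t^(11:ℕ) + 32*d^(4:ℕ)*t^(2:ℕ) + (-16)*d^(4:ℕ)*t^(3:ℕ) + 4*d^(4:ℕ)*t^(4:ℕ) + 22*d^(4:ℕ)*t^(5:ℕ) + (-24)*d^(4:ℕ)*t^(6:ℕ) + 28*d^(4:ℕ)*t^(7:ℕ) + 12*d^(4:ℕ)*t^(8:ℕ)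 + (-18)*d^(4:ℕ)*t^(9:ℕ) + 8*d^(4:ℕ)*t^(10:ℕ) + (-8)*d^(4:ℕ)*t^(11:ℕ) + (-32)*d^(5:ℕ)*t^(2:ℕ) + (167/4)*d^(5:ℕ)*t^(3:ℕ) + (-12)*d^(5:ℕ)*t^(4:ℕ) + (-79/2)*d^(5:ℕ)*t^(5:ℕ) + (121/2)*d^(5:ℕ)*t^(6:ℕ) + (-261/4)*d^(5:ℕ)*t^(7:ℕ) + (87/2)*d^(5:ℕ)*t^(8:ℕ) + (-61/4)*d^(5:ℕ)*t^(9:ℕ) + 3*d^(5:ℕ)*t^(10:ℕ) + (-1)*d^(5:ℕ)*t^(11:ℕ) + 10*d^(6:ℕ)*t^(5:ℕ) + (-31)*d^(6:ℕ)*t^(6:ℕ) + 40*d^(6:ℕ)*t^(7:ℕ) + (-19)*d^(6:ℕ)*t^(8:ℕ) + (-7)*d^(6:ℕ)*t^(9:ℕ) + 12*d^(6:ℕ)*t^(10:ℕ) + (-4)*d^(6:ℕ)*t^(11:ℕ) + (-4)*d^(7:ℕ)*t^(7:ℕ) + 12*d^(7:ℕ)*t^(8:ℕ) + (-17)*d^(7:ℕ)*t^(9:ℕ) + 12*d^(7:ℕ)*t^(10:ℕ) + (-4)*d^(7:ℕ)*t^(11:ℕ)) / (t * (1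 + t ^ 2) ^ 4) := by
    simp only [ab, bb, X, Y, fh, sg]
    field_simp
    ring
  have hq : 0 < d * (2 + 2*t + 10*t^(2:ℕ) + 10*t^(3:ℕ) + 20*t^(4:ℕ) + 20*t^(5:ℕ) + 20*t^(6:ℕ) + 20*t^(7:ℕ) + 10*t^(8:ℕ) + 10*t^(9:ℕ) + 2*t^(10:ℕ) + 2*t^(11:ℕ) + 4*d + 3*d*t + (59/2)*d*t^(2:ℕ) + 23*d*t^(3:ℕ) + 70*d*t^(4:ℕ) + 54*d*t^(5:ℕ) + 73*d*t^(6:ℕ) + 54*d*t^(7:ℕ) + 34*d*t^(8:ℕ) + 23*d*t^(9:ℕ) + (11/2)*d*t^(10:ℕ) + 3*d*t^(11:ℕ) + (-16)*d^(2:ℕ) + (-16)*d^(2:ℕ)*t + (-32)*d^(2:ℕ)*t^(2:ℕ) + (-28)*d^(2:ℕ)*t^(3:ℕ) + 36*d^(2:ℕ)*t^(4:ℕ) + 25*d^(2:ℕ)*t^(5:ℕ) + 113*d^(2:ℕ)*t^(6:ℕ) + 48*d^(2:ℕ)*t^(7:ℕ) + 70*d^(2:ℕ)*t^(8:ℕ)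 + 5*d^(2:ℕ)*t^(9:ℕ) + 9*d^(2:ℕ)*t^(10:ℕ) + (-6)*d^(2:ℕ)*t^(11:ℕ) + (-41)*d^(3:ℕ)*t^(2:ℕ) + (-48)*d^(3:ℕ)*t^(3:ℕ) + (-55)*d^(3:ℕ)*t^(4:ℕ) + (-31)*d^(3:ℕ)*t^(5:ℕ) + 51*d^(3:ℕ)*t^(6:ℕ) + (-14)*d^(3:ℕ)*t^(7:ℕ) + 81*d^(3:ℕ)*t^(8:ℕ) + (-43)*d^(3:ℕ)*t^(9:ℕ) + 16*d^(3:ℕ)*t^(10:ℕ) + (-12)*d^(3:ℕ)*t^(11:ℕ) + 32*d^(4:ℕ)*t^(2:ℕ) + (-16)*d^(4:ℕ)*t^(3:ℕ) + 4*d^(4:ℕ)*t^(4:ℕ) + 22*d^(4:ℕ)*t^(5:ℕ) + (-24)*d^(4:ℕ)*t^(6:ℕ) + 28*d^(4:ℕ)*t^(7:ℕ) + 12*d^(4:ℕ)*t^(8:ℕ) + (-18)*d^(4:ℕ)*t^(9:ℕ) + 8*d^(4:ℕ)*t^(10:ℕ) + (-8)*d^(4:ℕ)*t^(11:ℕ) + (-32)*d^(5:ℕ)*t^(2:ℕ) + (167/4)*d^(5:ℕ)*t^(3:ℕ) + (-12)*d^(5:ℕ)*t^(4:ℕ) + (-79/2)*d^(5:ℕ)*t^(5:ℕ)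 + (121/2)*d^(5:ℕ)*t^(6:ℕ) + (-261/4)*d^(5:ℕ)*t^(7:ℕ) + (87/2)*d^(5:ℕ)*t^(8:ℕ) + (-61/4)*d^(5:ℕ)*t^(9:ℕ) + 3*d^(5:ℕ)*t^(10:ℕ) + (-1)*d^(5:ℕ)*t^(11:ℕ) + 10*d^(6:ℕ)*t^(5:ℕ) + (-31)*d^(6:ℕ)*t^(6:ℕ) + 40*d^(6:ℕ)*t^(7:ℕ) + (-19)*d^(6:ℕ)*t^(8:ℕ) + (-7)*d^(6:ℕ)*t^(9:ℕ) + 12*d^(6:ℕ)*t^(10:ℕ) + (-4)*d^(6:ℕ)*t^(11:ℕ) + (-4)*d^(7:ℕ)*t^(7:ℕ) + 12*d^(7:ℕ)*t^(8:ℕ) + (-17)*d^(7:ℕ)*t^(9:ℕ) + 12*d^(7:ℕ)*t^(10:ℕ) + (-4)*d^(7:ℕ)*t^(11:ℕ)) / (t * (1 + t ^ 2) ^ 4) := by positivity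
  linarith

lemma L1e_Q (d t : ℝ) (hd : 0 < d) (ht : 0 < t)
    (hp : 0 < (1/2) + (1/2)*t + (5/2)*t^(2:ℕ) + (5/2)*t^(3:ℕ) + 5*t^(4:ℕ) + 5*t^(5:ℕ) + 5*t^(6:ℕ) + 5*t^(7:ℕ) + (5/2)*t^(8:ℕ) + (5/2)*t^(9:ℕ) + (1/2)*t^(10:ℕ) + (1/2)*t^(11:ℕ) + (17/8)*d + (-7/8)*d*t + (157/8)*d*t^(2:ℕ) + (77/8)*d*t^(3:ℕ) + (253/4)*d*t^(4:ℕ) + (33/4)*d*t^(5:ℕ) + (257/4)*d*t^(6:ℕ) + (-59/4)*d*t^(7:ℕ) + (181/8)*d*t^(8:ℕ) + (-91/8)*d*t^(9:ℕ) + (33/8)*d*t^(10:ℕ) + (9/8)*d*t^(11:ℕ) + (-7/4)*d^(2:ℕ) + (-19/4)*d^(2:ℕ)*t + (87/4)*d^(2:ℕ)*t^(2:ℕ) + 28*d^(2:ℕ)*t^(3:ℕ) + (591/4)*d^(2:ℕ)*t^(4:ℕ) + (-21/4)*d^(2:ℕ)*t^(5:ℕ) + (527/4)*d^(2:ℕ)*t^(6:ℕ)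 + (-383/4)*d^(2:ℕ)*t^(7:ℕ) + 8*d^(2:ℕ)*t^(8:ℕ) + (-62)*d^(2:ℕ)*t^(9:ℕ) + (1/2)*d^(2:ℕ)*t^(10:ℕ) + (-17/4)*d^(2:ℕ)*t^(11:ℕ) + (537/16)*d^(3:ℕ)*t^(2:ℕ) + (-645/16)*d^(3:ℕ)*t^(3:ℕ) + (2847/16)*d^(3:ℕ)*t^(4:ℕ) + (-493/4)*d^(3:ℕ)*t^(5:ℕ) + (1077/8)*d^(3:ℕ)*t^(6:ℕ) + (-987/16)*d^(3:ℕ)*t^(7:ℕ) + (-501/16)*d^(3:ℕ)*t^(8:ℕ) + (145/8)*d^(3:ℕ)*t^(9:ℕ) + (-345/16)*d^(3:ℕ)*t^(10:ℕ) + (-25/8)*d^(3:ℕ)*t^(11:ℕ) + (261/8)*d^(4:ℕ)*t^(2:ℕ) + (-589/16)*d^(4:ℕ)*t^(3:ℕ) + (1089/16)*d^(4:ℕ)*t^(4:ℕ) + (-1033/16)*d^(4:ℕ)*t^(5:ℕ) + (105/4)*d^(4:ℕ)*t^(6:ℕ) + (-37/16)*d^(4:ℕ)*t^(7:ℕ) + (-375/16)*d^(4:ℕ)*t^(8:ℕ) + (431/16)*d^(4:ℕ)*t^(9:ℕ)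 + (-89/2)*d^(4:ℕ)*t^(10:ℕ) + (3/2)*d^(4:ℕ)*t^(11:ℕ) + (13/2)*d^(5:ℕ)*t^(2:ℕ) + (-6)*d^(5:ℕ)*t^(3:ℕ) + (-19/4)*d^(5:ℕ)*t^(4:ℕ) + (61/2)*d^(5:ℕ)*t^(5:ℕ) + (-435/8)*d^(5:ℕ)*t^(6:ℕ) + (163/4)*d^(5:ℕ)*t^(7:ℕ) + (-67/4)*d^(5:ℕ)*t^(8:ℕ) + (51/4)*d^(5:ℕ)*t^(9:ℕ) + (-87/4)*d^(5:ℕ)*t^(10:ℕ) + (17/2)*d^(5:ℕ)*t^(11:ℕ) + (-689/64)*d^(6:ℕ)*t^(4:ℕ) + (1037/32)*d^(6:ℕ)*t^(5:ℕ) + (-2939/64)*d^(6:ℕ)*t^(6:ℕ) + (1037/32)*d^(6:ℕ)*t^(7:ℕ) + (-689/64)*d^(6:ℕ)*t^(8:ℕ) + 2*d^(6:ℕ)*t^(9:ℕ) + (-3)*d^(6:ℕ)*t^(10:ℕ) + 2*d^(6:ℕ)*t^(11:ℕ) + (-23/8)*d^(7:ℕ)*t^(4:ℕ) + (139/16)*d^(7:ℕ)*t^(5:ℕ) + (-197/16)*d^(7:ℕ)*t^(6:ℕ) + (139/16)*d^(7:ℕ)*t^(7:ℕ)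 + (-23/8)*d^(7:ℕ)*t^(8:ℕ) + (-1/4)*d^(8:ℕ)*t^(4:ℕ) + (3/4)*d^(8:ℕ)*t^(5:ℕ) + (-17/16)*d^(8:ℕ)*t^(6:ℕ) + (3/4)*d^(8:ℕ)*t^(7:ℕ) + (-1/4)*d^(8:ℕ)*t^(8:ℕ)) :
    (-2 * d * (1 / 2 - Y d t) + ab d t * fh d t + (1 + d) * ((1 + 2 * (1 + t) * eta (1/4) d) / t)) ^ 2
      < 4 * (1 + 4 * d) * (1 / 2 + X d t) * ((1 + 2 * d) * (1 / 2 - Y d t) - bb d t * fh d t)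
        + 4 * (1 + 4 * d) * (1 / 2 + X d t) * fh d t * ((1 + 2 * (1 + t) * eta (1/4) d) / t) := by
  have h2 : (1 + t ^ 2) ≠ 0 := by positivity
  have ht0 : t ≠ 0 := ht.ne'
  have hW : (1 + (1/4) * d) ≠ 0 := by positivity
  have key : 4 * (1 + 4 * d) * (1 / 2 + X d t) * ((1 + 2 * d) * (1 / 2 - Y d t) - bb d t * fh d t)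
        + 4 * (1 + 4 * d) * (1 / 2 + X d t) * fh d t * ((1 + 2 * (1 + t) * eta (1/4) d) / t)
        - (-2 * d * (1 / 2 - Y d t) + ab d t * fh d t + (1 + d) * ((1 + 2 * (1 + t) * eta (1/4) d) / t)) ^ 2
      = d ^ 2 * ((1/2) + (1/2)*t + (5/2)*t^(2:ℕ) + (5/2)*t^(3:ℕ) + 5*t^(4:ℕ) + 5*t^(5:ℕ) + 5*t^(6:ℕ) + 5*t^(7:ℕ) + (5/2)*t^(8:ℕ) + (5/2)*t^(9:ℕ) + (1/2)*t^(10:ℕ) + (1/2)*t^(11:ℕ) + (17/8)*d + (-7/8)*d*t + (157/8)*d*t^(2:ℕ) + (77/8)*d*t^(3:ℕ) + (253/4)*d*t^(4:ℕ) + (33/4)*d*t^(5:ℕ) + (257/4)*d*t^(6:ℕ) + (-59/4)*d*t^(7:ℕ) + (181/8)*d*t^(8:ℕ) + (-91/8)*d*t^(9:ℕ) + (33/8)*d*t^(10:ℕ) + (9/8)*d*t^(11:ℕ)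 + (-7/4)*d^(2:ℕ) + (-19/4)*d^(2:ℕ)*t + (87/4)*d^(2:ℕ)*t^(2:ℕ) + 28*d^(2:ℕ)*t^(3:ℕ) + (591/4)*d^(2:ℕ)*t^(4:ℕ) + (-21/4)*d^(2:ℕ)*t^(5:ℕ) + (527/4)*d^(2:ℕ)*t^(6:ℕ) + (-383/4)*d^(2:ℕ)*t^(7:ℕ) + 8*d^(2:ℕ)*t^(8:ℕ) + (-62)*d^(2:ℕ)*t^(9:ℕ) + (1/2)*d^(2:ℕ)*t^(10:ℕ) + (-17/4)*d^(2:ℕ)*t^(11:ℕ) + (537/16)*d^(3:ℕ)*t^(2:ℕ) + (-645/16)*d^(3:ℕ)*t^(3:ℕ) + (2847/16)*d^(3:ℕ)*t^(4:ℕ) + (-493/4)*d^(3:ℕ)*t^(5:ℕ) + (1077/8)*d^(3:ℕ)*t^(6:ℕ) + (-987/16)*d^(3:ℕ)*t^(7:ℕ) + (-501/16)*d^(3:ℕ)*t^(8:ℕ) + (145/8)*d^(3:ℕ)*t^(9:ℕ) + (-345/16)*d^(3:ℕ)*t^(10:ℕ) + (-25/8)*d^(3:ℕ)*t^(11:ℕ) + (261/8)*d^(4:ℕ)*t^(2:ℕ) + (-589/16)*d^(4:ℕ)*t^(3:ℕ)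 + (1089/16)*d^(4:ℕ)*t^(4:ℕ) + (-1033/16)*d^(4:ℕ)*t^(5:ℕ) + (105/4)*d^(4:ℕ)*t^(6:ℕ) + (-37/16)*d^(4:ℕ)*t^(7:ℕ) + (-375/16)*d^(4:ℕ)*t^(8:ℕ) + (431/16)*d^(4:ℕ)*t^(9:ℕ) + (-89/2)*d^(4:ℕ)*t^(10:ℕ) + (3/2)*d^(4:ℕ)*t^(11:ℕ) + (13/2)*d^(5:ℕ)*t^(2:ℕ) + (-6)*d^(5:ℕ)*t^(3:ℕ) + (-19/4)*d^(5:ℕ)*t^(4:ℕ) + (61/2)*d^(5:ℕ)*t^(5:ℕ) + (-435/8)*d^(5:ℕ)*t^(6:ℕ) + (163/4)*d^(5:ℕ)*t^(7:ℕ) + (-67/4)*d^(5:ℕ)*t^(8:ℕ) + (51/4)*d^(5:ℕ)*t^(9:ℕ) + (-87/4)*d^(5:ℕ)*t^(10:ℕ) + (17/2)*d^(5:ℕ)*t^(11:ℕ) + (-689/64)*d^(6:ℕ)*t^(4:ℕ) + (1037/32)*d^(6:ℕ)*t^(5:ℕ) + (-2939/64)*d^(6:ℕ)*t^(6:ℕ) + (1037/32)*d^(6:ℕ)*t^(7:ℕ) + (-689/64)*d^(6:ℕ)*t^(8:ℕ)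 + 2*d^(6:ℕ)*t^(9:ℕ) + (-3)*d^(6:ℕ)*t^(10:ℕ) + 2*d^(6:ℕ)*t^(11:ℕ) + (-23/8)*d^(7:ℕ)*t^(4:ℕ) + (139/16)*d^(7:ℕ)*t^(5:ℕ) + (-197/16)*d^(7:ℕ)*t^(6:ℕ) + (139/16)*d^(7:ℕ)*t^(7:ℕ) + (-23/8)*d^(7:ℕ)*t^(8:ℕ) + (-1/4)*d^(8:ℕ)*t^(4:ℕ) + (3/4)*d^(8:ℕ)*t^(5:ℕ) + (-17/16)*d^(8:ℕ)*t^(6:ℕ) + (3/4)*d^(8:ℕ)*t^(7:ℕ) + (-1/4)*d^(8:ℕ)*t^(8:ℕ)) / (t ^ 2 * (1 + t ^ 2) ^ 4 * (1 + (1/4) * d) ^ 2) := by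
    simp only [ab, bb, X, Y, fh, sg, eta]
    field_simp
    ring
  have hq : 0 < d ^ 2 * ((1/2) + (1/2)*t + (5/2)*t^(2:ℕ) + (5/2)*t^(3:ℕ) + 5*t^(4:ℕ) + 5*t^(5:ℕ) + 5*t^(6:ℕ) + 5*t^(7:ℕ) + (5/2)*t^(8:ℕ) + (5/2)*t^(9:ℕ) + (1/2)*t^(10:ℕ) + (1/2)*t^(11:ℕ) + (17/8)*d + (-7/8)*d*t + (157/8)*d*t^(2:ℕ) + (77/8)*d*t^(3:ℕ) + (253/4)*d*t^(4:ℕ) + (33/4)*d*t^(5:ℕ) + (257/4)*d*t^(6:ℕ) + (-59/4)*d*t^(7:ℕ) + (181/8)*d*t^(8:ℕ) + (-91/8)*d*t^(9:ℕ) + (33/8)*d*t^(10:ℕ) + (9/8)*d*t^(11:ℕ) + (-7/4)*d^(2:ℕ) + (-19/4)*d^(2:ℕ)*t + (87/4)*d^(2:ℕ)*t^(2:ℕ) + 28*d^(2:ℕ)*t^(3:ℕ) + (591/4)*d^(2:ℕ)*t^(4:ℕ) + (-21/4)*d^(2:ℕ)*t^(5:ℕ)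 + (527/4)*d^(2:ℕ)*t^(6:ℕ) + (-383/4)*d^(2:ℕ)*t^(7:ℕ) + 8*d^(2:ℕ)*t^(8:ℕ) + (-62)*d^(2:ℕ)*t^(9:ℕ) + (1/2)*d^(2:ℕ)*t^(10:ℕ) + (-17/4)*d^(2:ℕ)*t^(11:ℕ) + (537/16)*d^(3:ℕ)*t^(2:ℕ) + (-645/16)*d^(3:ℕ)*t^(3:ℕ) + (2847/16)*d^(3:ℕ)*t^(4:ℕ) + (-493/4)*d^(3:ℕ)*t^(5:ℕ) + (1077/8)*d^(3:ℕ)*t^(6:ℕ) + (-987/16)*d^(3:ℕ)*t^(7:ℕ) + (-501/16)*d^(3:ℕ)*t^(8:ℕ) + (145/8)*d^(3:ℕ)*t^(9:ℕ) + (-345/16)*d^(3:ℕ)*t^(10:ℕ) + (-25/8)*d^(3:ℕ)*t^(11:ℕ) + (261/8)*d^(4:ℕ)*t^(2:ℕ) + (-589/16)*d^(4:ℕ)*t^(3:ℕ) + (1089/16)*d^(4:ℕ)*t^(4:ℕ) + (-1033/16)*d^(4:ℕ)*t^(5:ℕ) + (105/4)*d^(4:ℕ)*t^(6:ℕ) + (-37/16)*d^(4:ℕ)*t^(7:ℕ) + (-375/16)*d^(4:ℕ)*t^(8:ℕ)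 + (431/16)*d^(4:ℕ)*t^(9:ℕ) + (-89/2)*d^(4:ℕ)*t^(10:ℕ) + (3/2)*d^(4:ℕ)*t^(11:ℕ) + (13/2)*d^(5:ℕ)*t^(2:ℕ) + (-6)*d^(5:ℕ)*t^(3:ℕ) + (-19/4)*d^(5:ℕ)*t^(4:ℕ) + (61/2)*d^(5:ℕ)*t^(5:ℕ) + (-435/8)*d^(5:ℕ)*t^(6:ℕ) + (163/4)*d^(5:ℕ)*t^(7:ℕ) + (-67/4)*d^(5:ℕ)*t^(8:ℕ) + (51/4)*d^(5:ℕ)*t^(9:ℕ) + (-87/4)*d^(5:ℕ)*t^(10:ℕ) + (17/2)*d^(5:ℕ)*t^(11:ℕ) + (-689/64)*d^(6:ℕ)*t^(4:ℕ) + (1037/32)*d^(6:ℕ)*t^(5:ℕ) + (-2939/64)*d^(6:ℕ)*t^(6:ℕ) + (1037/32)*d^(6:ℕ)*t^(7:ℕ) + (-689/64)*d^(6:ℕ)*t^(8:ℕ) + 2*d^(6:ℕ)*t^(9:ℕ) + (-3)*d^(6:ℕ)*t^(10:ℕ) + 2*d^(6:ℕ)*t^(11:ℕ) + (-23/8)*d^(7:ℕ)*t^(4:ℕ) + (139/16)*d^(7:ℕ)*t^(5:ℕ) + (-197/16)*d^(7:ℕ)*t^(6:ℕ)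 + (139/16)*d^(7:ℕ)*t^(7:ℕ) + (-23/8)*d^(7:ℕ)*t^(8:ℕ) + (-1/4)*d^(8:ℕ)*t^(4:ℕ) + (3/4)*d^(8:ℕ)*t^(5:ℕ) + (-17/16)*d^(8:ℕ)*t^(6:ℕ) + (3/4)*d^(8:ℕ)*t^(7:ℕ) + (-1/4)*d^(8:ℕ)*t^(8:ℕ)) / (t ^ 2 * (1 + t ^ 2) ^ 4 * (1 + (1/4) * d) ^ 2) := by positivity
  linarith

lemma L2e_Q (d t : ℝ) (hd : 0 < d) (ht : 0 < t)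
    (hp : 0 < (1/2) + (-1/2)*t + 4*t^(2:ℕ) + (-5/2)*t^(3:ℕ) + 11*t^(4:ℕ) + (-5)*t^(5:ℕ) + 14*t^(6:ℕ) + (-5)*t^(7:ℕ) + (17/2)*t^(8:ℕ) + (-5/2)*t^(9:ℕ) + 2*t^(10:ℕ) + (-1/2)*t^(11:ℕ) + (9/8)*d + (-19/8)*d*t + (-29/8)*d*t^(2:ℕ) + (-71/8)*d*t^(3:ℕ) + (77/4)*d*t^(4:ℕ) + (1/4)*d*t^(5:ℕ) + (255/4)*d*t^(6:ℕ) + (-19/4)*d*t^(7:ℕ) + (397/8)*d*t^(8:ℕ) + (-143/8)*d*t^(9:ℕ) + (79/8)*d*t^(10:ℕ) + (-51/8)*d*t^(11:ℕ) + (-15/4)*d^(2:ℕ) + (-109/16)*d^(2:ℕ)*t + (-1813/32)*d^(2:ℕ)*t^(2:ℕ) + (-677/16)*d^(2:ℕ)*t^(3:ℕ) + (-399/8)*d^(2:ℕ)*t^(4:ℕ) + (73/8)*d^(2:ℕ)*t^(5:ℕ) + (1589/16)*d^(2:ℕ)*t^(6:ℕ) + (-27/8)*d^(2:ℕ)*t^(7:ℕ)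 + (947/8)*d^(2:ℕ)*t^(8:ℕ) + (-1237/16)*d^(2:ℕ)*t^(9:ℕ) + (707/32)*d^(2:ℕ)*t^(10:ℕ) + (-469/16)*d^(2:ℕ)*t^(11:ℕ) + (-1)*d^(3:ℕ) + (-1)*d^(3:ℕ)*t + 7*d^(3:ℕ)*t^(2:ℕ) + (-133/4)*d^(3:ℕ)*t^(3:ℕ) + (-195/4)*d^(3:ℕ)*t^(4:ℕ) + (609/16)*d^(3:ℕ)*t^(5:ℕ) + (-375/16)*d^(3:ℕ)*t^(6:ℕ) + (55/2)*d^(3:ℕ)*t^(7:ℕ) + (523/8)*d^(3:ℕ)*t^(8:ℕ) + (-1411/16)*d^(3:ℕ)*t^(9:ℕ) + (513/16)*d^(3:ℕ)*t^(10:ℕ) + (-363/8)*d^(3:ℕ)*t^(11:ℕ) + (207/16)*d^(4:ℕ)*t^(2:ℕ) + (61/4)*d^(4:ℕ)*t^(3:ℕ) + (49/16)*d^(4:ℕ)*t^(4:ℕ) + (-231/16)*d^(4:ℕ)*t^(5:ℕ) + (91/16)*d^(4:ℕ)*t^(6:ℕ) + (-37/8)*d^(4:ℕ)*t^(7:ℕ) + (625/16)*d^(4:ℕ)*t^(8:ℕ) + (-671/16)*d^(4:ℕ)*t^(9:ℕ)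 + (47/2)*d^(4:ℕ)*t^(10:ℕ) + (-147/4)*d^(4:ℕ)*t^(11:ℕ) + (-6)*d^(5:ℕ)*t^(2:ℕ) + (127/8)*d^(5:ℕ)*t^(3:ℕ) + (1/4)*d^(5:ℕ)*t^(4:ℕ) + (-43/8)*d^(5:ℕ)*t^(5:ℕ) + (-45/4)*d^(5:ℕ)*t^(6:ℕ) + (169/8)*d^(5:ℕ)*t^(7:ℕ) + (-1/2)*d^(5:ℕ)*t^(8:ℕ) + (-67/4)*d^(5:ℕ)*t^(9:ℕ) + 17*d^(5:ℕ)*t^(10:ℕ) + (-11)*d^(5:ℕ)*t^(11:ℕ) + (-2)*d^(6:ℕ)*t^(2:ℕ) + (167/64)*d^(6:ℕ)*t^(3:ℕ) + (-3/4)*d^(6:ℕ)*t^(4:ℕ) + (81/32)*d^(6:ℕ)*t^(5:ℕ) + (-375/32)*d^(6:ℕ)*t^(6:ℕ) + (763/64)*d^(6:ℕ)*t^(7:ℕ) + (167/32)*d^(6:ℕ)*t^(8:ℕ) + (-1373/64)*d^(6:ℕ)*t^(9:ℕ) + (291/16)*d^(6:ℕ)*t^(10:ℕ) + (-97/16)*d^(6:ℕ)*t^(11:ℕ) + (5/8)*d^(7:ℕ)*t^(5:ℕ) + (-31/16)*d^(7:ℕ)*t^(6:ℕ)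 + (1/2)*d^(7:ℕ)*t^(7:ℕ) + (77/16)*d^(7:ℕ)*t^(8:ℕ) + (-143/16)*d^(7:ℕ)*t^(9:ℕ) + (27/4)*d^(7:ℕ)*t^(10:ℕ) + (-9/4)*d^(7:ℕ)*t^(11:ℕ) + (-1/4)*d^(8:ℕ)*t^(7:ℕ) + (3/4)*d^(8:ℕ)*t^(8:ℕ) + (-17/16)*d^(8:ℕ)*t^(9:ℕ) + (3/4)*d^(8:ℕ)*t^(10:ℕ) + (-1/4)*d^(8:ℕ)*t^(11:ℕ)) :
    (-2 * d * (1 / 2 - Y d t) + bb d t * (-fh d t) + (1 + d) * (t + 2 * (1 + t) * eta (1/4) d)) ^ 2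
      < 4 * (1 + 4 * d) * (1 / 2 + -X d t) * ((1 + 2 * d) * (1 / 2 - Y d t) - ab d t * (-fh d t))
        + 4 * (1 + 4 * d) * (1 / 2 + -X d t) * (-fh d t) * (t + 2 * (1 + t) * eta (1/4) d) := by
  have h2 : (1 + t ^ 2) ≠ 0 := by positivity
  have ht0 : t ≠ 0 := ht.ne'
  have hW : (1 + (1/4) * d) ≠ 0 := by positivity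
  have key : 4 * (1 + 4 * d) * (1 / 2 + -X d t) * ((1 + 2 * d) * (1 / 2 - Y d t) - ab d t * (-fh d t))
        + 4 * (1 + 4 * d) * (1 / 2 + -X d t) * (-fh d t) * (t + 2 * (1 + t) * eta (1/4) d)
        - (-2 * d * (1 / 2 - Y d t) + bb d t * (-fh d t) + (1 + d) * (t + 2 * (1 + t) * eta (1/4) d)) ^ 2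
      = d ^ 2 * ((1/2) + (-1/2)*t + 4*t^(2:ℕ) + (-5/2)*t^(3:ℕ) + 11*t^(4:ℕ) + (-5)*t^(5:ℕ) + 14*t^(6:ℕ) + (-5)*t^(7:ℕ) + (17/2)*t^(8:ℕ) + (-5/2)*t^(9:ℕ) + 2*t^(10:ℕ) + (-1/2)*t^(11:ℕ) + (9/8)*d + (-19/8)*d*t + (-29/8)*d*t^(2:ℕ) + (-71/8)*d*t^(3:ℕ) + (77/4)*d*t^(4:ℕ) + (1/4)*d*t^(5:ℕ) + (255/4)*d*t^(6:ℕ) + (-19/4)*d*t^(7:ℕ) + (397/8)*d*t^(8:ℕ) + (-143/8)*d*t^(9:ℕ) + (79/8)*d*t^(10:ℕ) + (-51/8)*d*t^(11:ℕ) + (-15/4)*d^(2:ℕ) + (-109/16)*d^(2:ℕ)*t + (-1813/32)*d^(2:ℕ)*t^(2:ℕ) + (-677/16)*d^(2:ℕ)*t^(3:ℕ) + (-399/8)*d^(2:ℕ)*t^(4:ℕ) + (73/8)*d^(2:ℕ)*t^(5:ℕ) + (1589/16)*d^(2:ℕ)*t^(6:ℕ) + (-27/8)*d^(2:ℕ)*t^(7:ℕ)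 + (947/8)*d^(2:ℕ)*t^(8:ℕ) + (-1237/16)*d^(2:ℕ)*t^(9:ℕ) + (707/32)*d^(2:ℕ)*t^(10:ℕ) + (-469/16)*d^(2:ℕ)*t^(11:ℕ) + (-1)*d^(3:ℕ) + (-1)*d^(3:ℕ)*t + 7*d^(3:ℕ)*t^(2:ℕ) + (-133/4)*d^(3:ℕ)*t^(3:ℕ) + (-195/4)*d^(3:ℕ)*t^(4:ℕ) + (609/16)*d^(3:ℕ)*t^(5:ℕ) + (-375/16)*d^(3:ℕ)*t^(6:ℕ) + (55/2)*d^(3:ℕ)*t^(7:ℕ) + (523/8)*d^(3:ℕ)*t^(8:ℕ) + (-1411/16)*d^(3:ℕ)*t^(9:ℕ) + (513/16)*d^(3:ℕ)*t^(10:ℕ) + (-363/8)*d^(3:ℕ)*t^(11:ℕ) + (207/16)*d^(4:ℕ)*t^(2:ℕ) + (61/4)*d^(4:ℕ)*t^(3:ℕ) + (49/16)*d^(4:ℕ)*t^(4:ℕ) + (-231/16)*d^(4:ℕ)*t^(5:ℕ) + (91/16)*d^(4:ℕ)*t^(6:ℕ) + (-37/8)*d^(4:ℕ)*t^(7:ℕ) + (625/16)*d^(4:ℕ)*t^(8:ℕ) + (-671/16)*d^(4:ℕ)*t^(9:ℕ)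 + (47/2)*d^(4:ℕ)*t^(10:ℕ) + (-147/4)*d^(4:ℕ)*t^(11:ℕ) + (-6)*d^(5:ℕ)*t^(2:ℕ) + (127/8)*d^(5:ℕ)*t^(3:ℕ) + (1/4)*d^(5:ℕ)*t^(4:ℕ) + (-43/8)*d^(5:ℕ)*t^(5:ℕ) + (-45/4)*d^(5:ℕ)*t^(6:ℕ) + (169/8)*d^(5:ℕ)*t^(7:ℕ) + (-1/2)*d^(5:ℕ)*t^(8:ℕ) + (-67/4)*d^(5:ℕ)*t^(9:ℕ) + 17*d^(5:ℕ)*t^(10:ℕ) + (-11)*d^(5:ℕ)*t^(11:ℕ) + (-2)*d^(6:ℕ)*t^(2:ℕ) + (167/64)*d^(6:ℕ)*t^(3:ℕ) + (-3/4)*d^(6:ℕ)*t^(4:ℕ) + (81/32)*d^(6:ℕ)*t^(5:ℕ) + (-375/32)*d^(6:ℕ)*t^(6:ℕ) + (763/64)*d^(6:ℕ)*t^(7:ℕ) + (167/32)*d^(6:ℕ)*t^(8:ℕ) + (-1373/64)*d^(6:ℕ)*t^(9:ℕ) + (291/16)*d^(6:ℕ)*t^(10:ℕ) + (-97/16)*d^(6:ℕ)*t^(11:ℕ) + (5/8)*d^(7:ℕ)*t^(5:ℕ) + (-31/16)*d^(7:ℕ)*t^(6:ℕ)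 + (1/2)*d^(7:ℕ)*t^(7:ℕ) + (77/16)*d^(7:ℕ)*t^(8:ℕ) + (-143/16)*d^(7:ℕ)*t^(9:ℕ) + (27/4)*d^(7:ℕ)*t^(10:ℕ) + (-9/4)*d^(7:ℕ)*t^(11:ℕ) + (-1/4)*d^(8:ℕ)*t^(7:ℕ) + (3/4)*d^(8:ℕ)*t^(8:ℕ) + (-17/16)*d^(8:ℕ)*t^(9:ℕ) + (3/4)*d^(8:ℕ)*t^(10:ℕ) + (-1/4)*d^(8:ℕ)*t^(11:ℕ)) / (t * (1 + t ^ 2) ^ 4 * (1 + (1/4) * d) ^ 2) := by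
    simp only [ab, bb, X, Y, fh, sg, eta]
    field_simp
    ring
  have hq : 0 < d ^ 2 * ((1/2) + (-1/2)*t + 4*t^(2:ℕ) + (-5/2)*t^(3:ℕ) + 11*t^(4:ℕ) + (-5)*t^(5:ℕ) + 14*t^(6:ℕ) + (-5)*t^(7:ℕ) + (17/2)*t^(8:ℕ) + (-5/2)*t^(9:ℕ) + 2*t^(10:ℕ) + (-1/2)*t^(11:ℕ) + (9/8)*d + (-19/8)*d*t + (-29/8)*d*t^(2:ℕ) + (-71/8)*d*t^(3:ℕ) + (77/4)*d*t^(4:ℕ) + (1/4)*d*t^(5:ℕ) + (255/4)*d*t^(6:ℕ) + (-19/4)*d*t^(7:ℕ) + (397/8)*d*t^(8:ℕ) + (-143/8)*d*t^(9:ℕ) + (79/8)*d*t^(10:ℕ) + (-51/8)*d*t^(11:ℕ) + (-15/4)*d^(2:ℕ) + (-109/16)*d^(2:ℕ)*t + (-1813/32)*d^(2:ℕ)*t^(2:ℕ) + (-677/16)*d^(2:ℕ)*t^(3:ℕ) + (-399/8)*d^(2:ℕ)*t^(4:ℕ)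 + (73/8)*d^(2:ℕ)*t^(5:ℕ) + (1589/16)*d^(2:ℕ)*t^(6:ℕ) + (-27/8)*d^(2:ℕ)*t^(7:ℕ) + (947/8)*d^(2:ℕ)*t^(8:ℕ) + (-1237/16)*d^(2:ℕ)*t^(9:ℕ) + (707/32)*d^(2:ℕ)*t^(10:ℕ) + (-469/16)*d^(2:ℕ)*t^(11:ℕ) + (-1)*d^(3:ℕ) + (-1)*d^(3:ℕ)*t + 7*d^(3:ℕ)*t^(2:ℕ) + (-133/4)*d^(3:ℕ)*t^(3:ℕ) + (-195/4)*d^(3:ℕ)*t^(4:ℕ) + (609/16)*d^(3:ℕ)*t^(5:ℕ) + (-375/16)*d^(3:ℕ)*t^(6:ℕ) + (55/2)*d^(3:ℕ)*t^(7:ℕ) + (523/8)*d^(3:ℕ)*t^(8:ℕ) + (-1411/16)*d^(3:ℕ)*t^(9:ℕ) + (513/16)*d^(3:ℕ)*t^(10:ℕ) + (-363/8)*d^(3:ℕ)*t^(11:ℕ) + (207/16)*d^(4:ℕ)*t^(2:ℕ) + (61/4)*d^(4:ℕ)*t^(3:ℕ) + (49/16)*d^(4:ℕ)*t^(4:ℕ) + (-231/16)*d^(4:ℕ)*t^(5:ℕ) + (91/16)*d^(4:ℕ)*t^(6:ℕ)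 + (-37/8)*d^(4:ℕ)*t^(7:ℕ) + (625/16)*d^(4:ℕ)*t^(8:ℕ) + (-671/16)*d^(4:ℕ)*t^(9:ℕ) + (47/2)*d^(4:ℕ)*t^(10:ℕ) + (-147/4)*d^(4:ℕ)*t^(11:ℕ) + (-6)*d^(5:ℕ)*t^(2:ℕ) + (127/8)*d^(5:ℕ)*t^(3:ℕ) + (1/4)*d^(5:ℕ)*t^(4:ℕ) + (-43/8)*d^(5:ℕ)*t^(5:ℕ) + (-45/4)*d^(5:ℕ)*t^(6:ℕ) + (169/8)*d^(5:ℕ)*t^(7:ℕ) + (-1/2)*d^(5:ℕ)*t^(8:ℕ) + (-67/4)*d^(5:ℕ)*t^(9:ℕ) + 17*d^(5:ℕ)*t^(10:ℕ) + (-11)*d^(5:ℕ)*t^(11:ℕ) + (-2)*d^(6:ℕ)*t^(2:ℕ) + (167/64)*d^(6:ℕ)*t^(3:ℕ) + (-3/4)*d^(6:ℕ)*t^(4:ℕ) + (81/32)*d^(6:ℕ)*t^(5:ℕ) + (-375/32)*d^(6:ℕ)*t^(6:ℕ) + (763/64)*d^(6:ℕ)*t^(7:ℕ) + (167/32)*d^(6:ℕ)*t^(8:ℕ) + (-1373/64)*d^(6:ℕ)*t^(9:ℕ) + (291/16)*d^(6:ℕ)*t^(10:ℕ)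 + (-97/16)*d^(6:ℕ)*t^(11:ℕ) + (5/8)*d^(7:ℕ)*t^(5:ℕ) + (-31/16)*d^(7:ℕ)*t^(6:ℕ) + (1/2)*d^(7:ℕ)*t^(7:ℕ) + (77/16)*d^(7:ℕ)*t^(8:ℕ) + (-143/16)*d^(7:ℕ)*t^(9:ℕ) + (27/4)*d^(7:ℕ)*t^(10:ℕ) + (-9/4)*d^(7:ℕ)*t^(11:ℕ) + (-1/4)*d^(8:ℕ)*t^(7:ℕ) + (3/4)*d^(8:ℕ)*t^(8:ℕ) + (-17/16)*d^(8:ℕ)*t^(9:ℕ) + (3/4)*d^(8:ℕ)*t^(10:ℕ) + (-1/4)*d^(8:ℕ)*t^(11:ℕ)) / (t * (1 + t ^ 2) ^ 4 * (1 + (1/4) * d) ^ 2) := by positivity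
  linarith

lemma L1e_H (d t : ℝ) (hd : 0 < d) (ht : 0 < t)
    (hp : 0 < 1 + 1*t + 5*t^(2:ℕ) + 5*t^(3:ℕ) + 10*t^(4:ℕ) + 10*t^(5:ℕ) + 10*t^(6:ℕ) + 10*t^(7:ℕ) + 5*t^(8:ℕ) + 5*t^(9:ℕ) + 1*t^(10:ℕ) + 1*t^(11:ℕ) + (9/2)*d + (5/2)*d*t + (67/2)*d*t^(2:ℕ) + (53/2)*d*t^(3:ℕ) + 93*d*t^(4:ℕ) + 40*d*t^(5:ℕ) + 94*d*t^(6:ℕ) + 13*d*t^(7:ℕ) + (73/2)*d*t^(8:ℕ) + (-1/2)*d*t^(9:ℕ) + (13/2)*d*t^(10:ℕ) + (5/2)*d*t^(11:ℕ) + 1*d^(2:ℕ) + (-1)*d^(2:ℕ)*t + 47*d^(2:ℕ)*t^(2:ℕ) + (113/2)*d^(2:ℕ)*t^(3:ℕ) + (429/2)*d^(2:ℕ)*t^(4:ℕ) + (81/2)*d^(2:ℕ)*t^(5:ℕ) + (387/2)*d^(2:ℕ)*t^(6:ℕ) + (-157/2)*d^(2:ℕ)*t^(7:ℕ) + (53/2)*d^(2:ℕ)*t^(8:ℕ)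 + (-139/2)*d^(2:ℕ)*t^(9:ℕ) + (3/2)*d^(2:ℕ)*t^(10:ℕ) + (-8)*d^(2:ℕ)*t^(11:ℕ) + (181/4)*d^(3:ℕ)*t^(2:ℕ) + (-81/4)*d^(3:ℕ)*t^(3:ℕ) + (987/4)*d^(3:ℕ)*t^(4:ℕ) + (-121)*d^(3:ℕ)*t^(5:ℕ) + (387/2)*d^(3:ℕ)*t^(6:ℕ) + (-447/4)*d^(3:ℕ)*t^(7:ℕ) + (-113/4)*d^(3:ℕ)*t^(8:ℕ) + (-39/2)*d^(3:ℕ)*t^(9:ℕ) + (-81/4)*d^(3:ℕ)*t^(10:ℕ) + (-17/2)*d^(3:ℕ)*t^(11:ℕ) + (83/2)*d^(4:ℕ)*t^(2:ℕ) + (-237/4)*d^(4:ℕ)*t^(3:ℕ) + 137*d^(4:ℕ)*t^(4:ℕ) + (-531/4)*d^(4:ℕ)*t^(5:ℕ) + (329/4)*d^(4:ℕ)*t^(6:ℕ) + (-155/4)*d^(4:ℕ)*t^(7:ℕ) + (-39)*d^(4:ℕ)*t^(8:ℕ) + (147/4)*d^(4:ℕ)*t^(9:ℕ) + (-56)*d^(4:ℕ)*t^(10:ℕ) + 2*d^(4:ℕ)*t^(11:ℕ) + 14*d^(5:ℕ)*t^(2:ℕ)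 + (-18)*d^(5:ℕ)*t^(3:ℕ) + (69/4)*d^(5:ℕ)*t^(4:ℕ) + (5/2)*d^(5:ℕ)*t^(5:ℕ) + (-143/4)*d^(5:ℕ)*t^(6:ℕ) + (67/2)*d^(5:ℕ)*t^(7:ℕ) + (-91/4)*d^(5:ℕ)*t^(8:ℕ) + 31*d^(5:ℕ)*t^(9:ℕ) + (-47)*d^(5:ℕ)*t^(10:ℕ) + 18*d^(5:ℕ)*t^(11:ℕ) + (-273/16)*d^(6:ℕ)*t^(4:ℕ) + (405/8)*d^(6:ℕ)*t^(5:ℕ) + (-1147/16)*d^(6:ℕ)*t^(6:ℕ) + (405/8)*d^(6:ℕ)*t^(7:ℕ) + (-273/16)*d^(6:ℕ)*t^(8:ℕ) + 8*d^(6:ℕ)*t^(9:ℕ) + (-12)*d^(6:ℕ)*t^(10:ℕ) + 8*d^(6:ℕ)*t^(11:ℕ) + (-15/2)*d^(7:ℕ)*t^(4:ℕ) + (91/4)*d^(7:ℕ)*t^(5:ℕ) + (-129/4)*d^(7:ℕ)*t^(6:ℕ) + (91/4)*d^(7:ℕ)*t^(7:ℕ) + (-15/2)*d^(7:ℕ)*t^(8:ℕ) + (-1)*d^(8:ℕ)*t^(4:ℕ) + 3*d^(8:ℕ)*t^(5:ℕ) + (-17/4)*d^(8:ℕ)*t^(6:ℕ)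 + 3*d^(8:ℕ)*t^(7:ℕ) + (-1)*d^(8:ℕ)*t^(8:ℕ)) :
    (-2 * d * (1 / 2 - Y d t) + ab d t * fh d t + (1 + d) * ((1 + 2 * (1 + t) * eta (1/2) d) / t)) ^ 2
      < 4 * (1 + 4 * d) * (1 / 2 + X d t) * ((1 + 2 * d) * (1 / 2 - Y d t) - bb d t * fh d t)
        + 4 * (1 + 4 * d) * (1 / 2 + X d t) * fh d t * ((1 + 2 * (1 + t) * eta (1/2) d) / t) := by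
  have h2 : (1 + t ^ 2) ≠ 0 := by positivity
  have ht0 : t ≠ 0 := ht.ne'
  have hW : (1 + (1/2) * d) ≠ 0 := by positivity
  have key : 4 * (1 + 4 * d) * (1 / 2 + X d t) * ((1 + 2 * d) * (1 / 2 - Y d t) - bb d t * fh d t)
        + 4 * (1 + 4 * d) * (1 / 2 + X d t) * fh d t * ((1 + 2 * (1 + t) * eta (1/2) d) / t)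
        - (-2 * d * (1 / 2 - Y d t) + ab d t * fh d t + (1 + d) * ((1 + 2 * (1 + t) * eta (1/2) d) / t)) ^ 2
      = d ^ 2 * (1 + 1*t + 5*t^(2:ℕ) + 5*t^(3:ℕ) + 10*t^(4:ℕ) + 10*t^(5:ℕ) + 10*t^(6:ℕ) + 10*t^(7:ℕ) + 5*t^(8:ℕ) + 5*t^(9:ℕ) + 1*t^(10:ℕ) + 1*t^(11:ℕ) + (9/2)*d + (5/2)*d*t + (67/2)*d*t^(2:ℕ) + (53/2)*d*t^(3:ℕ) + 93*d*t^(4:ℕ) + 40*d*t^(5:ℕ) + 94*d*t^(6:ℕ) + 13*d*t^(7:ℕ) + (73/2)*d*t^(8:ℕ) + (-1/2)*d*t^(9:ℕ) + (13/2)*d*t^(10:ℕ) + (5/2)*d*t^(11:ℕ) + 1*d^(2:ℕ) + (-1)*d^(2:ℕ)*t + 47*d^(2:ℕ)*t^(2:ℕ) + (113/2)*d^(2:ℕ)*t^(3:ℕ) + (429/2)*d^(2:ℕ)*t^(4:ℕ) + (81/2)*d^(2:ℕ)*t^(5:ℕ) + (387/2)*d^(2:ℕ)*t^(6:ℕ)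 + (-157/2)*d^(2:ℕ)*t^(7:ℕ) + (53/2)*d^(2:ℕ)*t^(8:ℕ) + (-139/2)*d^(2:ℕ)*t^(9:ℕ) + (3/2)*d^(2:ℕ)*t^(10:ℕ) + (-8)*d^(2:ℕ)*t^(11:ℕ) + (181/4)*d^(3:ℕ)*t^(2:ℕ) + (-81/4)*d^(3:ℕ)*t^(3:ℕ) + (987/4)*d^(3:ℕ)*t^(4:ℕ) + (-121)*d^(3:ℕ)*t^(5:ℕ) + (387/2)*d^(3:ℕ)*t^(6:ℕ) + (-447/4)*d^(3:ℕ)*t^(7:ℕ) + (-113/4)*d^(3:ℕ)*t^(8:ℕ) + (-39/2)*d^(3:ℕ)*t^(9:ℕ) + (-81/4)*d^(3:ℕ)*t^(10:ℕ) + (-17/2)*d^(3:ℕ)*t^(11:ℕ) + (83/2)*d^(4:ℕ)*t^(2:ℕ) + (-237/4)*d^(4:ℕ)*t^(3:ℕ) + 137*d^(4:ℕ)*t^(4:ℕ) + (-531/4)*d^(4:ℕ)*t^(5:ℕ) + (329/4)*d^(4:ℕ)*t^(6:ℕ) + (-155/4)*d^(4:ℕ)*t^(7:ℕ) + (-39)*d^(4:ℕ)*t^(8:ℕ) + (147/4)*d^(4:ℕ)*t^(9:ℕ) + (-56)*d^(4:ℕ)*t^(10:ℕ)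 + 2*d^(4:ℕ)*t^(11:ℕ) + 14*d^(5:ℕ)*t^(2:ℕ) + (-18)*d^(5:ℕ)*t^(3:ℕ) + (69/4)*d^(5:ℕ)*t^(4:ℕ) + (5/2)*d^(5:ℕ)*t^(5:ℕ) + (-143/4)*d^(5:ℕ)*t^(6:ℕ) + (67/2)*d^(5:ℕ)*t^(7:ℕ) + (-91/4)*d^(5:ℕ)*t^(8:ℕ) + 31*d^(5:ℕ)*t^(9:ℕ) + (-47)*d^(5:ℕ)*t^(10:ℕ) + 18*d^(5:ℕ)*t^(11:ℕ) + (-273/16)*d^(6:ℕ)*t^(4:ℕ) + (405/8)*d^(6:ℕ)*t^(5:ℕ) + (-1147/16)*d^(6:ℕ)*t^(6:ℕ) + (405/8)*d^(6:ℕ)*t^(7:ℕ) + (-273/16)*d^(6:ℕ)*t^(8:ℕ) + 8*d^(6:ℕ)*t^(9:ℕ) + (-12)*d^(6:ℕ)*t^(10:ℕ) + 8*d^(6:ℕ)*t^(11:ℕ) + (-15/2)*d^(7:ℕ)*t^(4:ℕ) + (91/4)*d^(7:ℕ)*t^(5:ℕ) + (-129/4)*d^(7:ℕ)*t^(6:ℕ) + (91/4)*d^(7:ℕ)*t^(7:ℕ) + (-15/2)*d^(7:ℕ)*t^(8:ℕ) + (-1)*d^(8:ℕ)*t^(4:ℕ)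 + 3*d^(8:ℕ)*t^(5:ℕ) + (-17/4)*d^(8:ℕ)*t^(6:ℕ) + 3*d^(8:ℕ)*t^(7:ℕ) + (-1)*d^(8:ℕ)*t^(8:ℕ)) / (t ^ 2 * (1 + t ^ 2) ^ 4 * (1 + (1/2) * d) ^ 2) := by
    simp only [ab, bb, X, Y, fh, sg, eta]
    field_simp
    ring
  have hq : 0 < d ^ 2 * (1 + 1*t + 5*t^(2:ℕ) + 5*t^(3:ℕ) + 10*t^(4:ℕ) + 10*t^(5:ℕ) + 10*t^(6:ℕ) + 10*t^(7:ℕ) + 5*t^(8:ℕ) + 5*t^(9:ℕ) + 1*t^(10:ℕ) + 1*t^(11:ℕ) + (9/2)*d + (5/2)*d*t + (67/2)*d*t^(2:ℕ) + (53/2)*d*t^(3:ℕ) + 93*d*t^(4:ℕ) + 40*d*t^(5:ℕ) + 94*d*t^(6:ℕ) + 13*d*t^(7:ℕ) + (73/2)*d*t^(8:ℕ) + (-1/2)*d*t^(9:ℕ) + (13/2)*d*t^(10:ℕ) + (5/2)*d*t^(11:ℕ) + 1*d^(2:ℕ) + (-1)*d^(2:ℕ)*t + 47*d^(2:ℕ)*t^(2:ℕ)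 + (113/2)*d^(2:ℕ)*t^(3:ℕ) + (429/2)*d^(2:ℕ)*t^(4:ℕ) + (81/2)*d^(2:ℕ)*t^(5:ℕ) + (387/2)*d^(2:ℕ)*t^(6:ℕ) + (-157/2)*d^(2:ℕ)*t^(7:ℕ) + (53/2)*d^(2:ℕ)*t^(8:ℕ) + (-139/2)*d^(2:ℕ)*t^(9:ℕ) + (3/2)*d^(2:ℕ)*t^(10:ℕ) + (-8)*d^(2:ℕ)*t^(11:ℕ) + (181/4)*d^(3:ℕ)*t^(2:ℕ) + (-81/4)*d^(3:ℕ)*t^(3:ℕ) + (987/4)*d^(3:ℕ)*t^(4:ℕ) + (-121)*d^(3:ℕ)*t^(5:ℕ) + (387/2)*d^(3:ℕ)*t^(6:ℕ) + (-447/4)*d^(3:ℕ)*t^(7:ℕ) + (-113/4)*d^(3:ℕ)*t^(8:ℕ) + (-39/2)*d^(3:ℕ)*t^(9:ℕ) + (-81/4)*d^(3:ℕ)*t^(10:ℕ) + (-17/2)*d^(3:ℕ)*t^(11:ℕ) + (83/2)*d^(4:ℕ)*t^(2:ℕ) + (-237/4)*d^(4:ℕ)*t^(3:ℕ) + 137*d^(4:ℕ)*t^(4:ℕ) + (-531/4)*d^(4:ℕ)*t^(5:ℕ) + (329/4)*d^(4:ℕ)*t^(6:ℕ)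 + (-155/4)*d^(4:ℕ)*t^(7:ℕ) + (-39)*d^(4:ℕ)*t^(8:ℕ) + (147/4)*d^(4:ℕ)*t^(9:ℕ) + (-56)*d^(4:ℕ)*t^(10:ℕ) + 2*d^(4:ℕ)*t^(11:ℕ) + 14*d^(5:ℕ)*t^(2:ℕ) + (-18)*d^(5:ℕ)*t^(3:ℕ) + (69/4)*d^(5:ℕ)*t^(4:ℕ) + (5/2)*d^(5:ℕ)*t^(5:ℕ) + (-143/4)*d^(5:ℕ)*t^(6:ℕ) + (67/2)*d^(5:ℕ)*t^(7:ℕ) + (-91/4)*d^(5:ℕ)*t^(8:ℕ) + 31*d^(5:ℕ)*t^(9:ℕ) + (-47)*d^(5:ℕ)*t^(10:ℕ) + 18*d^(5:ℕ)*t^(11:ℕ) + (-273/16)*d^(6:ℕ)*t^(4:ℕ) + (405/8)*d^(6:ℕ)*t^(5:ℕ) + (-1147/16)*d^(6:ℕ)*t^(6:ℕ) + (405/8)*d^(6:ℕ)*t^(7:ℕ) + (-273/16)*d^(6:ℕ)*t^(8:ℕ) + 8*d^(6:ℕ)*t^(9:ℕ) + (-12)*d^(6:ℕ)*t^(10:ℕ) + 8*d^(6:ℕ)*t^(11:ℕ) + (-15/2)*d^(7:ℕ)*t^(4:ℕ) + (91/4)*d^(7:ℕ)*t^(5:ℕ)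 + (-129/4)*d^(7:ℕ)*t^(6:ℕ) + (91/4)*d^(7:ℕ)*t^(7:ℕ) + (-15/2)*d^(7:ℕ)*t^(8:ℕ) + (-1)*d^(8:ℕ)*t^(4:ℕ) + 3*d^(8:ℕ)*t^(5:ℕ) + (-17/4)*d^(8:ℕ)*t^(6:ℕ) + 3*d^(8:ℕ)*t^(7:ℕ) + (-1)*d^(8:ℕ)*t^(8:ℕ)) / (t ^ 2 * (1 + t ^ 2) ^ 4 * (1 + (1/2) * d) ^ 2) := by positivity
  linarith

lemma L2e_H (d t : ℝ) (hd : 0 < d) (ht : 0 < t)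
    (hp : 0 < 1 + (13/2)*t^(2:ℕ) + 16*t^(4:ℕ) + 19*t^(6:ℕ) + 11*t^(8:ℕ) + (5/2)*t^(10:ℕ) + (5/2)*d + (-1/2)*d*t + 8*d*t^(2:ℕ) + (5/2)*d*t^(3:ℕ) + 50*d*t^(4:ℕ) + 25*d*t^(5:ℕ) + 100*d*t^(6:ℕ) + 20*d*t^(7:ℕ) + (139/2)*d*t^(8:ℕ) + (-13/2)*d*t^(9:ℕ) + 14*d*t^(10:ℕ) + (-9/2)*d*t^(11:ℕ) + (-7)*d^(2:ℕ) + (-37/4)*d^(2:ℕ)*t + (-469/8)*d^(2:ℕ)*t^(2:ℕ) + (-159/4)*d^(2:ℕ)*t^(3:ℕ) + (-14)*d^(2:ℕ)*t^(4:ℕ) + 40*d^(2:ℕ)*t^(5:ℕ) + (691/4)*d^(2:ℕ)*t^(6:ℕ) + 32*d^(2:ℕ)*t^(7:ℕ) + 166*d^(2:ℕ)*t^(8:ℕ) + (-275/4)*d^(2:ℕ)*t^(9:ℕ) + (247/8)*d^(2:ℕ)*t^(10:ℕ) + (-121/4)*d^(2:ℕ)*t^(11:ℕ) + (-4)*d^(3:ℕ) + (-4)*d^(3:ℕ)*t +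 (-20)*d^(3:ℕ)*t^(2:ℕ) + (-56)*d^(3:ℕ)*t^(3:ℕ) + (-67)*d^(3:ℕ)*t^(4:ℕ) + (165/4)*d^(3:ℕ)*t^(5:ℕ) + (125/4)*d^(3:ℕ)*t^(6:ℕ) + 35*d^(3:ℕ)*t^(7:ℕ) + (251/2)*d^(3:ℕ)*t^(8:ℕ) + (-455/4)*d^(3:ℕ)*t^(9:ℕ) + (173/4)*d^(3:ℕ)*t^(10:ℕ) + (-111/2)*d^(3:ℕ)*t^(11:ℕ) + (83/4)*d^(4:ℕ)*t^(2:ℕ) + (-5/4)*d^(4:ℕ)*t^(3:ℕ) + (-51/4)*d^(4:ℕ)*t^(4:ℕ) + (-21/4)*d^(4:ℕ)*t^(5:ℕ) + (-27/4)*d^(4:ℕ)*t^(6:ℕ) + (25/4)*d^(4:ℕ)*t^(7:ℕ) + (243/4)*d^(4:ℕ)*t^(8:ℕ) + (-70)*d^(4:ℕ)*t^(9:ℕ) + 34*d^(4:ℕ)*t^(10:ℕ) + (-50)*d^(4:ℕ)*t^(11:ℕ) + (-8)*d^(5:ℕ)*t^(2:ℕ) + (119/4)*d^(5:ℕ)*t^(3:ℕ) + 1*d^(5:ℕ)*t^(4:ℕ) + (-18)*d^(5:ℕ)*t^(5:ℕ) + (11/2)*d^(5:ℕ)*t^(6:ℕ)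 + (23/4)*d^(5:ℕ)*t^(7:ℕ) + (39/2)*d^(5:ℕ)*t^(8:ℕ) + (-115/4)*d^(5:ℕ)*t^(9:ℕ) + 23*d^(5:ℕ)*t^(10:ℕ) + (-19)*d^(5:ℕ)*t^(11:ℕ) + (-8)*d^(6:ℕ)*t^(2:ℕ) + (167/16)*d^(6:ℕ)*t^(3:ℕ) + (-3)*d^(6:ℕ)*t^(4:ℕ) + (1/8)*d^(6:ℕ)*t^(5:ℕ) + (-127/8)*d^(6:ℕ)*t^(6:ℕ) + (315/16)*d^(6:ℕ)*t^(7:ℕ) + (31/8)*d^(6:ℕ)*t^(8:ℕ) + (-445/16)*d^(6:ℕ)*t^(9:ℕ) + (99/4)*d^(6:ℕ)*t^(10:ℕ) + (-33/4)*d^(6:ℕ)*t^(11:ℕ) + (5/2)*d^(7:ℕ)*t^(5:ℕ) + (-31/4)*d^(7:ℕ)*t^(6:ℕ) + 6*d^(7:ℕ)*t^(7:ℕ) + (29/4)*d^(7:ℕ)*t^(8:ℕ) + (-75/4)*d^(7:ℕ)*t^(9:ℕ) + 15*d^(7:ℕ)*t^(10:ℕ) + (-5)*d^(7:ℕ)*t^(11:ℕ) + (-1)*d^(8:ℕ)*t^(7:ℕ) + 3*d^(8:ℕ)*t^(8:ℕ) + (-17/4)*d^(8:ℕ)*t^(9:ℕ)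 + 3*d^(8:ℕ)*t^(10:ℕ) + (-1)*d^(8:ℕ)*t^(11:ℕ)) :
    (-2 * d * (1 / 2 - Y d t) + bb d t * (-fh d t) + (1 + d) * (t + 2 * (1 + t) * eta (1/2) d)) ^ 2
      < 4 * (1 + 4 * d) * (1 / 2 + -X d t) * ((1 + 2 * d) * (1 / 2 - Y d t) - ab d t * (-fh d t))
        + 4 * (1 + 4 * d) * (1 / 2 + -X d t) * (-fh d t) * (t + 2 * (1 + t) * eta (1/2) d) := by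
  have h2 : (1 + t ^ 2) ≠ 0 := by positivity
  have ht0 : t ≠ 0 := ht.ne'
  have hW : (1 + (1/2) * d) ≠ 0 := by positivity
  have key : 4 * (1 + 4 * d) * (1 / 2 + -X d t) * ((1 + 2 * d) * (1 / 2 - Y d t) - ab d t * (-fh d t))
        + 4 * (1 + 4 * d) * (1 / 2 + -X d t) * (-fh d t) * (t + 2 * (1 + t) * eta (1/2) d)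
        - (-2 * d * (1 / 2 - Y d t) + bb d t * (-fh d t) + (1 + d) * (t + 2 * (1 + t) * eta (1/2) d)) ^ 2
      = d ^ 2 * (1 + (13/2)*t^(2:ℕ) + 16*t^(4:ℕ) + 19*t^(6:ℕ) + 11*t^(8:ℕ) + (5/2)*t^(10:ℕ) + (5/2)*d + (-1/2)*d*t + 8*d*t^(2:ℕ) + (5/2)*d*t^(3:ℕ) + 50*d*t^(4:ℕ) + 25*d*t^(5:ℕ) + 100*d*t^(6:ℕ) + 20*d*t^(7:ℕ) + (139/2)*d*t^(8:ℕ) + (-13/2)*d*t^(9:ℕ) + 14*d*t^(10:ℕ) + (-9/2)*d*t^(11:ℕ) + (-7)*d^(2:ℕ) + (-37/4)*d^(2:ℕ)*t + (-469/8)*d^(2:ℕ)*t^(2:ℕ) + (-159/4)*d^(2:ℕ)*t^(3:ℕ) + (-14)*d^(2:ℕ)*t^(4:ℕ) + 40*d^(2:ℕ)*t^(5:ℕ) + (691/4)*d^(2:ℕ)*t^(6:ℕ) + 32*d^(2:ℕ)*t^(7:ℕ) + 166*d^(2:ℕ)*t^(8:ℕ) + (-275/4)*d^(2:ℕ)*t^(9:ℕ)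 + (247/8)*d^(2:ℕ)*t^(10:ℕ) + (-121/4)*d^(2:ℕ)*t^(11:ℕ) + (-4)*d^(3:ℕ) + (-4)*d^(3:ℕ)*t + (-20)*d^(3:ℕ)*t^(2:ℕ) + (-56)*d^(3:ℕ)*t^(3:ℕ) + (-67)*d^(3:ℕ)*t^(4:ℕ) + (165/4)*d^(3:ℕ)*t^(5:ℕ) + (125/4)*d^(3:ℕ)*t^(6:ℕ) + 35*d^(3:ℕ)*t^(7:ℕ) + (251/2)*d^(3:ℕ)*t^(8:ℕ) + (-455/4)*d^(3:ℕ)*t^(9:ℕ) + (173/4)*d^(3:ℕ)*t^(10:ℕ) + (-111/2)*d^(3:ℕ)*t^(11:ℕ) + (83/4)*d^(4:ℕ)*t^(2:ℕ) + (-5/4)*d^(4:ℕ)*t^(3:ℕ) + (-51/4)*d^(4:ℕ)*t^(4:ℕ) + (-21/4)*d^(4:ℕ)*t^(5:ℕ) + (-27/4)*d^(4:ℕ)*t^(6:ℕ) + (25/4)*d^(4:ℕ)*t^(7:ℕ) + (243/4)*d^(4:ℕ)*t^(8:ℕ) + (-70)*d^(4:ℕ)*t^(9:ℕ) + 34*d^(4:ℕ)*t^(10:ℕ) + (-50)*d^(4:ℕ)*t^(11:ℕ) + (-8)*d^(5:ℕ)*t^(2:ℕ)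 + (119/4)*d^(5:ℕ)*t^(3:ℕ) + 1*d^(5:ℕ)*t^(4:ℕ) + (-18)*d^(5:ℕ)*t^(5:ℕ) + (11/2)*d^(5:ℕ)*t^(6:ℕ) + (23/4)*d^(5:ℕ)*t^(7:ℕ) + (39/2)*d^(5:ℕ)*t^(8:ℕ) + (-115/4)*d^(5:ℕ)*t^(9:ℕ) + 23*d^(5:ℕ)*t^(10:ℕ) + (-19)*d^(5:ℕ)*t^(11:ℕ) + (-8)*d^(6:ℕ)*t^(2:ℕ) + (167/16)*d^(6:ℕ)*t^(3:ℕ) + (-3)*d^(6:ℕ)*t^(4:ℕ) + (1/8)*d^(6:ℕ)*t^(5:ℕ) + (-127/8)*d^(6:ℕ)*t^(6:ℕ) + (315/16)*d^(6:ℕ)*t^(7:ℕ) + (31/8)*d^(6:ℕ)*t^(8:ℕ) + (-445/16)*d^(6:ℕ)*t^(9:ℕ) + (99/4)*d^(6:ℕ)*t^(10:ℕ) + (-33/4)*d^(6:ℕ)*t^(11:ℕ) + (5/2)*d^(7:ℕ)*t^(5:ℕ) + (-31/4)*d^(7:ℕ)*t^(6:ℕ) + 6*d^(7:ℕ)*t^(7:ℕ) + (29/4)*d^(7:ℕ)*t^(8:ℕ) + (-75/4)*d^(7:ℕ)*t^(9:ℕ) + 15*d^(7:ℕ)*t^(10:ℕ)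 + (-5)*d^(7:ℕ)*t^(11:ℕ) + (-1)*d^(8:ℕ)*t^(7:ℕ) + 3*d^(8:ℕ)*t^(8:ℕ) + (-17/4)*d^(8:ℕ)*t^(9:ℕ) + 3*d^(8:ℕ)*t^(10:ℕ) + (-1)*d^(8:ℕ)*t^(11:ℕ)) / (t * (1 + t ^ 2) ^ 4 * (1 + (1/2) * d) ^ 2) := by
    simp only [ab, bb, X, Y, fh, sg, eta]
    field_simp
    ring
  have hq : 0 < d ^ 2 * (1 + (13/2)*t^(2:ℕ) + 16*t^(4:ℕ) + 19*t^(6:ℕ) + 11*t^(8:ℕ) + (5/2)*t^(10:ℕ) + (5/2)*d + (-1/2)*d*t + 8*d*t^(2:ℕ) + (5/2)*d*t^(3:ℕ) + 50*d*t^(4:ℕ) + 25*d*t^(5:ℕ) + 100*d*t^(6:ℕ) + 20*d*t^(7:ℕ) + (139/2)*d*t^(8:ℕ) + (-13/2)*d*t^(9:ℕ) + 14*d*t^(10:ℕ) + (-9/2)*d*t^(11:ℕ) + (-7)*d^(2:ℕ) + (-37/4)*d^(2:ℕ)*t + (-469/8)*d^(2:ℕ)*t^(2:ℕ)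 + (-159/4)*d^(2:ℕ)*t^(3:ℕ) + (-14)*d^(2:ℕ)*t^(4:ℕ) + 40*d^(2:ℕ)*t^(5:ℕ) + (691/4)*d^(2:ℕ)*t^(6:ℕ) + 32*d^(2:ℕ)*t^(7:ℕ) + 166*d^(2:ℕ)*t^(8:ℕ) + (-275/4)*d^(2:ℕ)*t^(9:ℕ) + (247/8)*d^(2:ℕ)*t^(10:ℕ) + (-121/4)*d^(2:ℕ)*t^(11:ℕ) + (-4)*d^(3:ℕ) + (-4)*d^(3:ℕ)*t + (-20)*d^(3:ℕ)*t^(2:ℕ) + (-56)*d^(3:ℕ)*t^(3:ℕ) + (-67)*d^(3:ℕ)*t^(4:ℕ) + (165/4)*d^(3:ℕ)*t^(5:ℕ) + (125/4)*d^(3:ℕ)*t^(6:ℕ) + 35*d^(3:ℕ)*t^(7:ℕ) + (251/2)*d^(3:ℕ)*t^(8:ℕ) + (-455/4)*d^(3:ℕ)*t^(9:ℕ) + (173/4)*d^(3:ℕ)*t^(10:ℕ) + (-111/2)*d^(3:ℕ)*t^(11:ℕ) + (83/4)*d^(4:ℕ)*t^(2:ℕ) + (-5/4)*d^(4:ℕ)*t^(3:ℕ) + (-51/4)*d^(4:ℕ)*t^(4:ℕ) + (-21/4)*d^(4:ℕ)*t^(5:ℕ)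 + (-27/4)*d^(4:ℕ)*t^(6:ℕ) + (25/4)*d^(4:ℕ)*t^(7:ℕ) + (243/4)*d^(4:ℕ)*t^(8:ℕ) + (-70)*d^(4:ℕ)*t^(9:ℕ) + 34*d^(4:ℕ)*t^(10:ℕ) + (-50)*d^(4:ℕ)*t^(11:ℕ) + (-8)*d^(5:ℕ)*t^(2:ℕ) + (119/4)*d^(5:ℕ)*t^(3:ℕ) + 1*d^(5:ℕ)*t^(4:ℕ) + (-18)*d^(5:ℕ)*t^(5:ℕ) + (11/2)*d^(5:ℕ)*t^(6:ℕ) + (23/4)*d^(5:ℕ)*t^(7:ℕ) + (39/2)*d^(5:ℕ)*t^(8:ℕ) + (-115/4)*d^(5:ℕ)*t^(9:ℕ) + 23*d^(5:ℕ)*t^(10:ℕ) + (-19)*d^(5:ℕ)*t^(11:ℕ) + (-8)*d^(6:ℕ)*t^(2:ℕ) + (167/16)*d^(6:ℕ)*t^(3:ℕ) + (-3)*d^(6:ℕ)*t^(4:ℕ) + (1/8)*d^(6:ℕ)*t^(5:ℕ) + (-127/8)*d^(6:ℕ)*t^(6:ℕ) + (315/16)*d^(6:ℕ)*t^(7:ℕ) + (31/8)*d^(6:ℕ)*t^(8:ℕ) + (-445/16)*d^(6:ℕ)*t^(9:ℕ) + (99/4)*d^(6:ℕ)*t^(10:ℕ)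 + (-33/4)*d^(6:ℕ)*t^(11:ℕ) + (5/2)*d^(7:ℕ)*t^(5:ℕ) + (-31/4)*d^(7:ℕ)*t^(6:ℕ) + 6*d^(7:ℕ)*t^(7:ℕ) + (29/4)*d^(7:ℕ)*t^(8:ℕ) + (-75/4)*d^(7:ℕ)*t^(9:ℕ) + 15*d^(7:ℕ)*t^(10:ℕ) + (-5)*d^(7:ℕ)*t^(11:ℕ) + (-1)*d^(8:ℕ)*t^(7:ℕ) + 3*d^(8:ℕ)*t^(8:ℕ) + (-17/4)*d^(8:ℕ)*t^(9:ℕ) + 3*d^(8:ℕ)*t^(10:ℕ) + (-1)*d^(8:ℕ)*t^(11:ℕ)) / (t * (1 + t ^ 2) ^ 4 * (1 + (1/2) * d) ^ 2) := by positivity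
  linarith

/-- all the inequalities of the design at `(d, t)` and distance `e` -/
def GoodX (e d t : ℝ) : Prop :=
  0 < R1 (d / (1 + 2 * d)) (ab d t) (X d t) ∧
  0 < R1 (d / (1 + 2 * d)) (bb d t) (-X d t) ∧
  (R2 (d / (1 + 2 * d)) (ab d t) (bb d t) (X d t) (Y d t) ^ 2 * R1 (d / (1 + 2 * d)) (bb d t) (-X d t)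
      + R2 (d / (1 + 2 * d)) (bb d t) (ab d t) (-X d t) (Y d t) ^ 2 * R1 (d / (1 + 2 * d)) (ab d t) (X d t)
      < 4 * (R3 (ab d t) (bb d t) (Y d t) (Y d t) + R4 (d / (1 + 2 * d)) (ab d t) (bb d t) (Y d t) (Y d t))
        * R1 (d / (1 + 2 * d)) (ab d t) (X d t) * R1 (d / (1 + 2 * d)) (bb d t) (-X d t)) ∧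
  ((-2 * d * (1 / 2 - Y d t) + ab d t * fh d t + (1 + d) * (1 / t)) ^ 2
      < 4 * (1 + 4 * d) * (1 / 2 + X d t) * ((1 + 2 * d) * (1 / 2 - Y d t) - bb d t * fh d t)
        + 4 * (1 + 4 * d) * (1 / 2 + X d t) * fh d t * (1 / t)) ∧
  ((-2 * d * (1 / 2 - Y d t) + ab d t * fh d t + (1 + d) * ((1 + 2 * (1 + t) * eta e d) / t)) ^ 2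
      < 4 * (1 + 4 * d) * (1 / 2 + X d t) * ((1 + 2 * d) * (1 / 2 - Y d t) - bb d t * fh d t)
        + 4 * (1 + 4 * d) * (1 / 2 + X d t) * fh d t * ((1 + 2 * (1 + t) * eta e d) / t)) ∧
  ((-2 * d * (1 / 2 - Y d t) + bb d t * (-fh d t) + (1 + d) * t) ^ 2
      < 4 * (1 + 4 * d) * (1 / 2 + -X d t) * ((1 + 2 * d) * (1 / 2 - Y d t) - ab d t * (-fh d t))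
        + 4 * (1 + 4 * d) * (1 / 2 + -X d t) * (-fh d t) * t) ∧
  ((-2 * d * (1 / 2 - Y d t) + bb d t * (-fh d t) + (1 + d) * (t + 2 * (1 + t) * eta e d)) ^ 2
      < 4 * (1 + 4 * d) * (1 / 2 + -X d t) * ((1 + 2 * d) * (1 / 2 - Y d t) - ab d t * (-fh d t))
        + 4 * (1 + 4 * d) * (1 / 2 + -X d t) * (-fh d t) * (t + 2 * (1 + t) * eta e d))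

theorem goodA (d t : ℝ) (h1 : (1/7) ≤ d) (h2 : d ≤ (1/5)) (ht : 0 < t) (h4 : t ≤ 1) :
    GoodX (1/4) d t := by
  have hd : 0 < d := by linarith
  have h3 : (0:ℝ) ≤ t := ht.le
  exact ⟨r1_posX d t hd ht (pos_r1_A d t h1 h2 h3 h4), r6_posX d t hd ht (pos_r6_A d t h1 h2 h3 h4),
    hD_okX d t hd ht (pos_DP_A d t h1 h2 h3 h4), L10_okX d t hd ht (pos_L10_A d t h1 h2 h3 h4),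
    L1e_Q d t hd ht (pos_L1e_A d t h1 h2 h3 h4), L20_okX d t hd ht (pos_L20_A d t h1 h2 h3 h4),
    L2e_Q d t hd ht (pos_L2e_A d t h1 h2 h3 h4)⟩

theorem goodB1 (d t : ℝ) (h1 : (1/5) ≤ d) (h2 : d ≤ (3/10)) (h3 : (3/10) ≤ t) (h4 : t ≤ 1) :
    GoodX (1/2) d t := by
  have hd : 0 < d := by linarith
  have ht : 0 < t := by linarith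
  exact ⟨r1_posX d t hd ht (pos_r1_B1 d t h1 h2 h3 h4), r6_posX d t hd ht (pos_r6_B1 d t h1 h2 h3 h4),
    hD_okX d t hd ht (pos_DP_B1 d t h1 h2 h3 h4), L10_okX d t hd ht (pos_L10_B1 d t h1 h2 h3 h4),
    L1e_H d t hd ht (pos_L1e_B1 d t h1 h2 h3 h4), L20_okX d t hd ht (pos_L20_B1 d t h1 h2 h3 h4),
    L2e_H d t hd ht (pos_L2e_B1 d t h1 h2 h3 h4)⟩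

theorem goodB2 (d t : ℝ) (h1 : (3/10) ≤ d) (h2 : d ≤ (1/3)) (h3 : (9/20) ≤ t) (h4 : t ≤ 1) :
    GoodX (1/2) d t := by
  have hd : 0 < d := by linarith
  have ht : 0 < t := by linarith
  exact ⟨r1_posX d t hd ht (pos_r1_B2 d t h1 h2 h3 h4), r6_posX d t hd ht (pos_r6_B2 d t h1 h2 h3 h4),
    hD_okX d t hd ht (pos_DP_B2 d t h1 h2 h3 h4), L10_okX d t hd ht (pos_L10_B2 d t h1 h2 h3 h4),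
    L1e_H d t hd ht (pos_L1e_B2 d t h1 h2 h3 h4), L20_okX d t hd ht (pos_L20_B2 d t h1 h2 h3 h4),
    L2e_H d t hd ht (pos_L2e_B2 d t h1 h2 h3 h4)⟩

theorem goodB3 (d t : ℝ) (h1 : (1/3) ≤ d) (h2 : d ≤ (2/5)) (h3 : (1/2) ≤ t) (h4 : t ≤ 1) :
    GoodX (1/2) d t := by
  have hd : 0 < d := by linarith
  have ht : 0 < t := by linarith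
  exact ⟨r1_posX d t hd ht (pos_r1_B3 d t h1 h2 h3 h4), r6_posX d t hd ht (pos_r6_B3 d t h1 h2 h3 h4),
    hD_okX d t hd ht (pos_DP_B3 d t h1 h2 h3 h4), L10_okX d t hd ht (pos_L10_B3 d t h1 h2 h3 h4),
    L1e_H d t hd ht (pos_L1e_B3 d t h1 h2 h3 h4), L20_okX d t hd ht (pos_L20_B3 d t h1 h2 h3 h4),
    L2e_H d t hd ht (pos_L2e_B3 d t h1 h2 h3 h4)⟩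

theorem goodB (d t : ℝ) (h1 : (1/5) ≤ d) (h2 : d ≤ (2/5)) (h3 : (3/2) * d ≤ t) (h4 : t ≤ 1) :
    GoodX (1/2) d t := by
  rcases le_total d (3/10) with h | h
  · exact goodB1 d t h1 h (by linarith) h4
  · rcases le_total d (1/3) with h' | h'
    · exact goodB2 d t h h' (by linarith) h4
    · exact goodB3 d t h' h2 (by linarith) h4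

end Vale.Agent.Lib.P100.AB.V1X
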