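import Vale.Agent.Lib.P100.AB.BP

/-!
# P100: the second design as integer polynomials in `d`, `t`.

With `D = 1 + t^2`, `Z = 800`: `ab = pA/(Z D)`, `bb = pB/(Z D)`, `X1 = pX1/(Z D)`, `X2 = pX2/(Z D)`,
`Y1 = pY1/(Z D^2)`, `Y2 = pY2/(Z D^2)`, `fh = pH/(Z t)`.
-/

namespace Vale.Agent.Lib.P100.BP

def bsub (P Q : BPol) : BPol := badd P (bscale (-1) Q)

lemma beval_bsub (P Q : BPol) (d t : ℝ) : beval (bsub P Q) d t = beval P d t - beval Q d t := by
  simp [bsub, beval_badd, beval_bscale]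
  ring

def pD : BPol := [[1, 0, 1]]
def pZD : BPol := [[800, 0, 800]]
def pe : BPol := [[1], [2]]
def pe1 : BPol := [[1], [1]]
def pe4 : BPol := [[1], [4]]
def pWi : BPol := [[100], [2], [75]]
def pA : BPol := [[], [1600, 0, 0, -800, 800, -800, 800]]
def pB : BPol := [[], [0, 800, 800, 800, -800]]
def pX1 : BPol := [[], [800, 0, -800, -400, 800, -800, 800, -400]]
def pX2 : BPol := [[], [-1200, 800, 0, 800, -400]]
def pY1 : BPol := [[], [0, -1200, -1200, 0, -2000, 1600, -400, 0, 400, -400], [0, 1008, 1200, -7592, 14400, -20400, 20400, -14800, 8800, -3000], [0, 4800, -9600, 9600, -9600, 4800]]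
def pY2 : BPol := [[], [-400, -1200, 0, -2000, 1600, -2000, 1600, -1200, 400], [-3600, 11008, -19200, 25608, -25200, 19200, -12000, 4800, -800, 200], [0, 4800, -9600, 9600, -9600, 4800]]
def pH : BPol := [[400, 0, -400], [], [0, -100, -3225, 9425, -9175, 3075], [0, -200, -6450, 18850, -18350, 6150]]

lemma beval_pD (d t : ℝ) : beval pD d t = 1 + t ^ 2 := by simp [pD]; ring
lemma beval_pZD (d t : ℝ) : beval pZD d t = 800 * (1 + t ^ 2) := by simp [pZD]; ring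
lemma beval_pe (d t : ℝ) : beval pe d t = 1 + 2 * d := by simp [pe]; ring
lemma beval_pe1 (d t : ℝ) : beval pe1 d t = 1 + d := by simp [pe1]
lemma beval_pe4 (d t : ℝ) : beval pe4 d t = 1 + 4 * d := by simp [pe4]; ring
lemma beval_pWi (d t : ℝ) : beval pWi d t = 100 + 2 * d + 75 * d ^ 2 := by simp [pWi]; ring

def r1B (A X : BPol) : BPol :=
  bsub (bmul bvd (bmul (badd (bscale 2 pZD) (badd (bscale 2 X) A)) (badd (bscale 2 pZD) (badd (bscale 2 X) A))))
    (bmul pe (badd (bscale 2 (bmul pZD A)) (badd (bscale 4 (bmul X X)) (bmul A A))))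

def r2B (A B X Y : BPol) : BPol :=
  badd (bmul pe (bsub (bmul (bsub (bmul pZD pD) (bscale 2 Y)) (badd pZD A))
      (bmul (bmul (badd pZD (bscale 2 X)) (bsub pZD B)) pD)))
    (bmul (bmul pe1 (badd (bscale 2 pZD) (badd (bscale 2 X) A))) (bsub (bscale 2 Y) (bmul B pD)))

def sqA (A B Y1 Y2 : BPol) : BPol :=
  badd (bmul (bsub (bscale 2 Y1) (bmul B pD)) (bsub (bscale 2 Y1) (bmul B pD)))
    (bmul (bsub (bscale 2 Y2) (bmul A pD)) (bsub (bscale 2 Y2) (bmul A pD)))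

def r3B (A B Y1 Y2 : BPol) : BPol :=
  bsub (bscale 4 (bmul pD (badd (bmul (bsub (bmul pZD pD) (bscale 2 Y1)) B)
      (bmul (bsub (bmul pZD pD) (bscale 2 Y2)) A)))) (sqA A B Y1 Y2)

def r34B (A B Y1 Y2 : BPol) : BPol := bsub (bmul pe (r3B A B Y1 Y2)) (sqA A B Y1 Y2)

def dpB (A B X1 X2 Y1 Y2 : BPol) : BPol :=
  bsub (bmul (r34B A B Y1 Y2) (bmul (r1B A X1) (r1B B X2)))
    (bscale 2 (badd (bmul (bmul (r2B A B X1 Y1) (r2B A B X1 Y1)) (r1B B X2))
      (bmul (bmul (r2B B A X2 Y2) (r2B B A X2 Y2)) (r1B A X1))))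

/-- `ZZ D^2` -/
def pZZDD : BPol := bmul pZD pZD

def a1B (W Pn : BPol) : BPol :=
  badd (bsub (bscale 2 (bmul (bmul (bmul bvd pY1) (bscale 800 W)) bvt))
      (bmul (bmul (bmul bvd pZZDD) W) bvt))
    (badd (bmul (bmul (bmul pA pH) pD) W) (bmul (bmul pe1 Pn) pZZDD))

def t1B (W Pn : BPol) : BPol :=
  badd (bsub (bmul (bmul (bmul pe (bsub (bmul pZD pD) (bscale 2 pY2))) (bscale 800 W)) (bmul bvt bvt))
      (bscale 2 (bmul (bmul (bmul (bmul pB pH) pD) W) bvt)))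
    (bscale 2 (bmul (bmul (bmul pH Pn) (bscale 800 pD)) pD))

def l1B (W Pn : BPol) : BPol :=
  bsub (bmul (bmul (bmul pe4 (badd pZD (bscale 2 pX1))) (t1B W Pn)) (bmul pZD W))
    (bmul (a1B W Pn) (a1B W Pn))

def a2B (W Qn : BPol) : BPol :=
  badd (bsub (bscale 2 (bmul (bmul (bmul bvd pY2) (bscale 800 W)) bvt))
      (bmul (bmul (bmul bvd pZZDD) W) bvt))
    (bsub (bmul (bmul (bmul pe1 Qn) pZZDD) bvt) (bmul (bmul (bmul pB pH) pD) W))

def t2B (W Qn : BPol) : BPol :=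
  badd (bmul (bmul (bmul pe (bsub (bmul pZD pD) (bscale 2 pY1))) (bscale 800 W)) bvt)
    (bsub (bscale 2 (bmul (bmul (bmul pA pH) pD) W))
      (bscale 2 (bmul (bmul (bmul pH Qn) (bscale 800 pD)) pD)))

def l2B (W Qn : BPol) : BPol :=
  bsub (bmul (bmul (bmul (bmul pe4 (badd pZD (bscale 2 pX2))) (t2B W Qn)) (bmul pZD W)) bvt)
    (bmul (a2B W Qn) (a2B W Qn))

/-- the polynomials to be certified -/
def pE1 : BPol := badd pZD (bscale 2 pX1)
def pE2 : BPol := badd pZD (bscale 2 pX2)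
def pa : BPol := bsub pZD pA
def pb : BPol := bsub pZD pB
def pLow : BPol := bsub (bmul (bmul (bscale 2 (badd (bcst 1) bvt)) pZD) bvd) (badd pA (bmul pB bvt))
def pR1 : BPol := r1B pA pX1
def pR6 : BPol := r1B pB pX2
def pR3 : BPol := r3B pA pB pY1 pY2
def pDP : BPol := dpB pA pB pX1 pX2 pY1 pY2
def pL10 : BPol := l1B [[1]] [[1]]
def pL20 : BPol := l2B [[1]] bvt
def pPe : BPol := badd pWi (bscale 200 (bmul (badd (bcst 1) bvt) bvd))
def pQe : BPol := badd (bmul pWi bvt) (bscale 200 (bmul (badd (bcst 1) bvt) bvd))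
def pL1e : BPol := l1B pWi pPe
def pL2e : BPol := l2B pWi pQe

/-- the two boxes -/
def bU1 : UP := [0, 10]
def bU2 : UP := [1, -10]
def bV1 : UP := [0, 1]
def bV2 : UP := [1, -1]
def cU1 : UP := [-7, 70]
def cU2 : UP := [10, -70]
def cV1 : UP := [-1, 8]
def cV2 : UP := [8, -8]

end Vale.Agent.Lib.P100.BP
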